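import Mathlib

/-! Row 241, block AF (helper777): the AREA FORMULA for the Lebesgue-normalised Hausdorff measure
`μHE[n]` (n = dimension of the source) and maps between inner product spaces.
This file: behaviour of `μHE` under Lipschitz maps, continuity of `normDet`, expansion estimates for
maps approximated by a linear map, a.e. closeness of the derivative. -/

set_option autoImplicit false
open MeasureTheory MeasureTheory.Measure Metric Filter Set Module Asymptotics TopologicalSpace
open scoped NNReal ENNReal Topology Pointwise Function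

noncomputable section

namespace Crest.Agent.R241.AF

section Lip
variable {X Y : Type*} [EMetricSpace X] [MeasurableSpace X] [BorelSpace X]
  [EMetricSpace Y] [MeasurableSpace Y] [BorelSpace Y]

/-- `μHE[d]` under Lipschitz maps. -/
theorem muHE_image_le {f : X → Y} {s : Set X} {K : ℝ≥0} (hf : LipschitzOnWith K f s) (d : ℕ) :
    μHE[d] (f '' s) ≤ (K : ℝ≥0∞) ^ d * μHE[d] s := by
  have h := hf.hausdorffMeasure_image_le (d := (d : ℝ)) (by positivity)
  simp only [euclideanHausdorffMeasure_def, Measure.smul_apply, nnreal_smul_coe_apply]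
  calc _ ≤ _ * ((K : ℝ≥0∞) ^ (d : ℝ) * μH[(d : ℝ)] s) := by gcongr
    _ = _ := by rw [ENNReal.rpow_natCast]; ring

/-- `μHE[d]` under maps with a Lipschitz inverse. -/
theorem muHE_le_image {f : X → Y} {s : Set X} {K : ℝ≥0}
    (hf : ∀ x ∈ s, ∀ y ∈ s, edist x y ≤ K * edist (f x) (f y)) (d : ℕ) :
    μHE[d] s ≤ (K : ℝ≥0∞) ^ d * μHE[d] (f '' s) := by
  rcases s.eq_empty_or_nonempty with rfl | ⟨x0, hx0⟩
  · simp
  classical
  have hinj : InjOn f s := by
    intro x hx y hy hxy
    have := hf x hx y hy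
    rw [hxy, edist_self, mul_zero, nonpos_iff_eq_zero, edist_eq_zero] at this
    exact this
  let g : Y → X := fun y => if h : ∃ x ∈ s, f x = y then h.choose else x0
  have hg : ∀ x ∈ s, g (f x) = x := by
    intro x hx
    have h : ∃ x' ∈ s, f x' = f x := ⟨x, hx, rfl⟩
    simp only [g, dif_pos h]
    exact hinj h.choose_spec.1 hx h.choose_spec.2
  have hgL : LipschitzOnWith K g (f '' s) := by
    rintro _ ⟨x, hx, rfl⟩ _ ⟨y, hy, rfl⟩
    rw [hg x hx, hg y hy]
    exact hf x hx y hy
  have himg : g '' (f '' s) = s := by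
    rw [image_image]
    ext x
    constructor
    · rintro ⟨y, hy, rfl⟩
      simp only [hg y hy]; exact hy
    · intro hx
      exact ⟨x, hx, hg x hx⟩
  calc μHE[d] s = μHE[d] (g '' (f '' s)) := by rw [himg]
    _ ≤ _ := muHE_image_le hgL d

end Lip

set_option linter.unusedSectionVars false

variable {U V : Type*} [NormedAddCommGroup U] [InnerProductSpace ℝ U] [FiniteDimensional ℝ U]
  [NormedAddCommGroup V] [InnerProductSpace ℝ V] [FiniteDimensional ℝ V]

/-- the Jacobian of a linear map `U → V`, as a nonnegative real. -/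
def jac (A : U →L[ℝ] V) : ℝ := A.toLinearMap.normDet

theorem jac_nonneg (A : U →L[ℝ] V) : 0 ≤ jac A := LinearMap.normDet_nonneg _

theorem jac_sq (A : U →L[ℝ] V) : jac A ^ 2 = (A.adjoint ∘L A).det := by
  have := A.normDet_sq
  simpa [jac] using this

theorem jac_sq_gram {ι : Type*} [Fintype ι] [DecidableEq ι] (A : U →L[ℝ] V)
    (b : OrthonormalBasis ι ℝ U) :
    jac A ^ 2 = (Matrix.of fun i j => inner ℝ (A (b i)) (A (b j))).det := by
  have := A.toLinearMap.normDet_sq_eq_det_gram b
  simpa [jac, Matrix.gram] using this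

theorem continuous_jac : Continuous (jac : (U →L[ℝ] V) → ℝ) := by
  have h : (jac : (U →L[ℝ] V) → ℝ) = fun A => Real.sqrt (A.adjoint ∘L A).det := by
    funext A
    rw [← jac_sq, Real.sqrt_sq (jac_nonneg A)]
  rw [h]
  refine Real.continuous_sqrt.comp ?_
  refine ContinuousLinearMap.continuous_det.comp ?_
  have h1 : Continuous fun A : U →L[ℝ] V => A.adjoint :=
    (ContinuousLinearMap.adjoint : (U →L[ℝ] V) ≃ₗᵢ⋆[ℝ] (V →L[ℝ] U)).continuous
  exact h1.clm_comp continuous_id

variable [MeasurableSpace U] [BorelSpace U] [MeasurableSpace V] [BorelSpace V]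

theorem muHE_linear_image (A : U →L[ℝ] V) (s : Set U) :
    μHE[finrank ℝ U] (A '' s) = ENNReal.ofReal (jac A) * volume s :=
  A.toLinearMap.euclideanHausdorffMeasure_image_eq_normDet_mul_volume s

/-- expansion estimates for a map close to an injective linear map. -/
theorem expand_inj (A : U →L[ℝ] V) (hA : Function.Injective A) {ε : ℝ≥0} (εpos : 0 < ε) :
    ∃ δ : ℝ≥0, 0 < δ ∧ ∀ (t : Set U) (g : U → V), ApproximatesLinearOn g A t δ →
      μHE[finrank ℝ U] (g '' t) ≤ (ENNReal.ofReal (jac A) + ε) * volume t ∧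
      ENNReal.ofReal (jac A) * volume t ≤ μHE[finrank ℝ U] (g '' t) + ε * volume t := by
  set n := finrank ℝ U with hn
  obtain ⟨K, Kpos, hK⟩ := A.toLinearMap.exists_antilipschitzWith (LinearMap.ker_eq_bot.2 hA)
  have T1 : Tendsto (fun δ : ℝ => (1 + δ * K) ^ n * jac A) (𝓝[>] 0) (𝓝 ((1 + 0 * K) ^ n * jac A)) :=
    Tendsto.mono_left (Continuous.tendsto (by fun_prop) 0) nhdsWithin_le_nhds
  have T2 : Tendsto (fun δ : ℝ => (1 - δ * K) ^ n * jac A) (𝓝[>] 0) (𝓝 ((1 - 0 * K) ^ n * jac A)) :=
    Tendsto.mono_left (Continuous.tendsto (by fun_prop) 0) nhdsWithin_le_nhds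
  have T3 : Tendsto (fun δ : ℝ => δ * K) (𝓝[>] 0) (𝓝 (0 * K)) :=
    Tendsto.mono_left (Continuous.tendsto (by fun_prop) 0) nhdsWithin_le_nhds
  simp only [zero_mul, add_zero, sub_zero, one_pow, one_mul] at T1 T2 T3
  have hε : (0 : ℝ) < ε := εpos
  obtain ⟨δ, ⟨⟨h1, h2⟩, h3⟩, h0⟩ := ((((tendsto_order.1 T1).2 (jac A + ε) (by linarith)).and
    ((tendsto_order.1 T2).1 (jac A - ε) (by linarith))).and
    ((tendsto_order.1 T3).2 1 one_pos)).and self_mem_nhdsWithin |>.exists
  replace h0 : 0 < δ := h0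
  refine ⟨⟨δ, h0.le⟩, h0, fun t g hg => ?_⟩
  have key : ∀ x ∈ t, ∀ y ∈ t, ‖g x - g y - A (x - y)‖ ≤ δ * K * ‖A x - A y‖ := by
    intro x hx y hy
    have e1 := hg x hx y hy
    have e2 := hK.le_mul_dist x y
    simp only [dist_eq_norm] at e2
    calc _ ≤ δ * ‖x - y‖ := e1
      _ ≤ δ * (K * ‖A x - A y‖) := by gcongr; exact e2
      _ = _ := by ring
  classical
  let h : V → V := fun v => g (Function.invFun A v)
  have hh : ∀ x, h (A x) = g x := fun x => by
    simp only [h, Function.leftInverse_invFun hA x]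
  have himg : h '' (A '' t) = g '' t := by
    rw [image_image]; exact image_congr fun x _ => hh x
  have hvol : μHE[n] (A '' t) = ENNReal.ofReal (jac A) * volume t := muHE_linear_image A t
  constructor
  · let L1 : ℝ≥0 := ⟨1 + δ * K, by positivity⟩
    have hL : LipschitzOnWith L1 h (A '' t) := by
      apply LipschitzOnWith.of_dist_le_mul
      rintro _ ⟨x, hx, rfl⟩ _ ⟨y, hy, rfl⟩
      rw [hh, hh, dist_eq_norm, dist_eq_norm]
      have e := key x hx y hy
      have e' : ‖g x - g y‖ ≤ ‖g x - g y - A (x - y)‖ + ‖A (x - y)‖ := by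
        have := norm_add_le (g x - g y - A (x - y)) (A (x - y))
        simpa using this
      rw [map_sub] at e' e
      calc ‖g x - g y‖ ≤ δ * K * ‖A x - A y‖ + ‖A x - A y‖ := e'.trans (by gcongr)
        _ = (1 + δ * K) * ‖A x - A y‖ := by ring
    have e := muHE_image_le hL n
    rw [himg, hvol] at e
    refine e.trans ?_
    rw [← mul_assoc]
    gcongr
    have e3 : (L1 : ℝ≥0∞) = ENNReal.ofReal (1 + δ * K) := by
      rw [ENNReal.ofReal, ENNReal.coe_inj]
      exact (Real.toNNReal_of_nonneg _).symm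
    rw [e3, ← ENNReal.ofReal_pow (by positivity), ← ENNReal.ofReal_mul (by positivity),
      ← ENNReal.ofReal_coe_nnreal, ← ENNReal.ofReal_add (jac_nonneg A) (by positivity)]
    exact ENNReal.ofReal_le_ofReal h1.le
  · have hpos : 0 < 1 - δ * K := by linarith
    let L2 : ℝ≥0 := ⟨(1 - δ * K)⁻¹, by positivity⟩
    have hL : ∀ v ∈ A '' t, ∀ w ∈ A '' t, edist v w ≤ (L2 : ℝ≥0∞) * edist (h v) (h w) := by
      rintro _ ⟨x, hx, rfl⟩ _ ⟨y, hy, rfl⟩
      rw [hh, hh, edist_nndist, edist_nndist, ← ENNReal.coe_mul, ENNReal.coe_le_coe,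
        ← NNReal.coe_le_coe, NNReal.coe_mul, coe_nndist, coe_nndist,
        dist_eq_norm, dist_eq_norm]
      change ‖A x - A y‖ ≤ (1 - δ * K)⁻¹ * ‖g x - g y‖
      have e := key x hx y hy
      have e' : ‖A (x - y)‖ ≤ ‖g x - g y - A (x - y)‖ + ‖g x - g y‖ := by
        have := norm_sub_le (g x - g y) (g x - g y - A (x - y))
        simp only [sub_sub_cancel] at this
        linarith
      rw [map_sub] at e' e
      rw [← div_eq_inv_mul, le_div_iff₀ hpos]
      nlinarith
    have e := muHE_le_image hL n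
    rw [himg, hvol] at e
    have e3 : (L2 : ℝ≥0∞) = ENNReal.ofReal (1 - δ * K)⁻¹ := by
      rw [ENNReal.ofReal, ENNReal.coe_inj]
      exact (Real.toNNReal_of_nonneg _).symm
    rw [e3, ← ENNReal.ofReal_pow (by positivity)] at e
    have e4 : ENNReal.ofReal (jac A - ε) * volume t ≤ μHE[n] (g '' t) := by
      calc ENNReal.ofReal (jac A - ε) * volume t
          ≤ ENNReal.ofReal ((1 - δ * K) ^ n * jac A) * volume t := by
            gcongr
        _ = ENNReal.ofReal ((1 - δ * K) ^ n) * (ENNReal.ofReal (jac A) * volume t) := by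
            rw [ENNReal.ofReal_mul (by positivity), mul_assoc]
        _ ≤ ENNReal.ofReal ((1 - δ * K) ^ n) *
            (ENNReal.ofReal ((1 - δ * K)⁻¹ ^ n) * μHE[n] (g '' t)) := by gcongr
        _ = μHE[n] (g '' t) := by
            rw [← mul_assoc, ← ENNReal.ofReal_mul (by positivity), ← mul_pow,
              mul_inv_cancel₀ hpos.ne', one_pow, ENNReal.ofReal_one, one_mul]
    calc ENNReal.ofReal (jac A) * volume t
        ≤ (ENNReal.ofReal (jac A - ε) + ε) * volume t := by
          gcongr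
          rw [← ENNReal.ofReal_coe_nnreal]
          calc ENNReal.ofReal (jac A) = ENNReal.ofReal ((jac A - ε) + ε) := by ring_nf
            _ ≤ _ := ENNReal.ofReal_add_le
      _ = ENNReal.ofReal (jac A - ε) * volume t + ε * volume t := by rw [add_mul]
      _ ≤ _ := by gcongr

/-- the perturbation `x ↦ (A x, η x)` of `A`. -/
def pert (A : U →L[ℝ] V) (η : ℝ) : U →L[ℝ] WithLp 2 (V × U) :=
  ((WithLp.prodContinuousLinearEquiv 2 ℝ V U).symm : (V × U) →L[ℝ] WithLp 2 (V × U)) ∘L
    (A.prod (η • ContinuousLinearMap.id ℝ U))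

theorem pert_fst (A : U →L[ℝ] V) (η : ℝ) (x : U) : (pert A η x).fst = A x := rfl
theorem pert_snd (A : U →L[ℝ] V) (η : ℝ) (x : U) : (pert A η x).snd = η • x := rfl

theorem pert_inj (A : U →L[ℝ] V) {η : ℝ} (hη : η ≠ 0) : Function.Injective (pert A η) := by
  intro x y h
  have : (pert A η x).snd = (pert A η y).snd := by rw [h]
  rw [pert_snd, pert_snd] at this
  exact smul_right_injective U hη this

theorem tendsto_jac_pert (A : U →L[ℝ] V) :
    Tendsto (fun η => jac (pert A η)) (𝓝[>] 0) (𝓝 (jac A)) := by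
  have h : ∀ η, jac (pert A η) = Real.sqrt ((Matrix.of fun i j =>
      inner ℝ (A (stdOrthonormalBasis ℝ U i)) (A (stdOrthonormalBasis ℝ U j)) +
        η ^ 2 * inner ℝ (stdOrthonormalBasis ℝ U i) (stdOrthonormalBasis ℝ U j)).det) := by
    intro η
    rw [← Real.sqrt_sq (jac_nonneg (pert A η)), jac_sq_gram (pert A η) (stdOrthonormalBasis ℝ U)]
    congr 2
    ext i j
    simp only [Matrix.of_apply]
    rw [WithLp.prod_inner_apply]
    change inner ℝ (A (stdOrthonormalBasis ℝ U i)) (A (stdOrthonormalBasis ℝ U j)) +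
      inner ℝ (η • stdOrthonormalBasis ℝ U i) (η • stdOrthonormalBasis ℝ U j) = _
    rw [real_inner_smul_left, real_inner_smul_right]
    ring
  have h0 : jac A = Real.sqrt ((Matrix.of fun i j =>
      inner ℝ (A (stdOrthonormalBasis ℝ U i)) (A (stdOrthonormalBasis ℝ U j)) +
        (0 : ℝ) ^ 2 * inner ℝ (stdOrthonormalBasis ℝ U i) (stdOrthonormalBasis ℝ U j)).det) := by
    rw [← Real.sqrt_sq (jac_nonneg A), jac_sq_gram A (stdOrthonormalBasis ℝ U)]
    simp
  rw [h0]
  simp_rw [h]
  refine Tendsto.mono_left (Continuous.tendsto ?_ 0) nhdsWithin_le_nhds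
  refine Real.continuous_sqrt.comp ?_
  refine Continuous.matrix_det ?_
  refine continuous_matrix fun i j => ?_
  simp only [Matrix.of_apply]
  fun_prop

/-- expansion estimates for a map close to an arbitrary linear map. -/
theorem expand (A : U →L[ℝ] V) {ε : ℝ≥0} (εpos : 0 < ε) :
    ∃ δ : ℝ≥0, 0 < δ ∧ ∀ (t : Set U) (g : U → V), ApproximatesLinearOn g A t δ →
      μHE[finrank ℝ U] (g '' t) ≤ (ENNReal.ofReal (jac A) + ε) * volume t ∧
      ENNReal.ofReal (jac A) * volume t ≤ μHE[finrank ℝ U] (g '' t) + ε * volume t := by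
  by_cases hA : Function.Injective A
  · exact expand_inj A hA εpos
  have hj : jac A = 0 := (A.toLinearMap.normDet_eq_zero_tfae.out 0 5).2 hA
  have hε : (0 : ℝ) < ε / 2 := by
    have : (0 : ℝ) < ε := εpos
    positivity
  obtain ⟨η, h1, h0⟩ := (((tendsto_order.1 (tendsto_jac_pert A)).2 (jac A + ε / 2)
    (by linarith)).and self_mem_nhdsWithin).exists
  replace h0 : 0 < η := h0
  have ε2 : (0 : ℝ≥0) < ε / 2 := by positivity
  obtain ⟨δ, δpos, hδ⟩ := expand_inj (pert A η) (pert_inj A h0.ne') ε2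
  refine ⟨δ, δpos, fun t g hg => ⟨?_, by rw [hj]; simp⟩⟩
  let G : U → WithLp 2 (V × U) := fun x => WithLp.toLp 2 (g x, η • x)
  have hG : ApproximatesLinearOn G (pert A η) t δ := by
    intro x hx y hy
    have e : ‖G x - G y - (pert A η) (x - y)‖ = ‖g x - g y - A (x - y)‖ := by
      rw [WithLp.prod_norm_eq_of_L2]
      have e1 : (G x - G y - (pert A η) (x - y)).fst = g x - g y - A (x - y) := rfl
      have e2 : (G x - G y - (pert A η) (x - y)).snd = 0 := by
        change η • x - η • y - η • (x - y) = 0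
        rw [smul_sub]; abel
      rw [e1, e2, norm_zero]
      simp
    rw [e]
    exact hg x hx y hy
  have e1 := (hδ t G hG).1
  have e2 : g '' t = WithLp.fst '' (G '' t) := by
    rw [image_image]
    rfl
  have e3 : LipschitzOnWith 1 (WithLp.fst : WithLp 2 (V × U) → V) (G '' t) := by
    refine LipschitzWith.lipschitzOnWith ?_
    intro x y
    simpa using WithLp.edist_fst_le x y
  calc μHE[finrank ℝ U] (g '' t) ≤ μHE[finrank ℝ U] (G '' t) := by
        rw [e2]
        simpa using muHE_image_le e3 (finrank ℝ U)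
    _ ≤ (ENNReal.ofReal (jac (pert A η)) + (ε / 2 : ℝ≥0)) * volume t := e1
    _ ≤ (ENNReal.ofReal (jac A) + ε) * volume t := by
        refine mul_le_mul_left ?_ _
        rw [← ENNReal.ofReal_coe_nnreal, ← ENNReal.ofReal_coe_nnreal,
          ← ENNReal.ofReal_add (jac_nonneg _) (by positivity),
          ← ENNReal.ofReal_add (jac_nonneg _) (by positivity)]
        apply ENNReal.ofReal_le_ofReal
        push_cast
        linarith

end Crest.Agent.R241.AF
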