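import Mathlib
import Crest.Agent.R241.AF1

/-! Row 241, block AF (helper777): THE AREA FORMULA
`μHE[n] (f '' s) = ∫⁻ x in s, jac (f' x)` for `f : U → V` injective on the measurable set `s` with a
derivative within `s` at every point of `s`, between (finite-dimensional) inner product spaces, where
`n = finrank U` and `jac A = sqrt (det (A† A))` (`LinearMap.normDet`).
The proofs of the first two theorems are those of Mathlib's `Jacobian.lean` with a general target. -/

set_option autoImplicit false
set_option linter.unusedSectionVars false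
open MeasureTheory MeasureTheory.Measure Metric Filter Set Module Asymptotics TopologicalSpace
open scoped NNReal ENNReal Topology Pointwise Function

noncomputable section

namespace Crest.Agent.R241.AF

section General
variable {E F : Type*} [NormedAddCommGroup E] [NormedSpace ℝ E] [FiniteDimensional ℝ E]
  [NormedAddCommGroup F] [NormedSpace ℝ F] {s : Set E} {f : E → F} {f' : E → E →L[ℝ] F}
variable [MeasurableSpace E] [BorelSpace E] (μ : Measure E) [IsAddHaarMeasure μ]

/-- Mathlib's `ApproximatesLinearOn.norm_fderiv_sub_le` for a general target. -/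
theorem norm_fderiv_sub_le {A : E →L[ℝ] F} {δ : ℝ≥0}
    (hf : ApproximatesLinearOn f A s δ) (hs : MeasurableSet s) (f' : E → E →L[ℝ] F)
    (hf' : ∀ x ∈ s, HasFDerivWithinAt f (f' x) s x) : ∀ᵐ x ∂μ.restrict s, ‖f' x - A‖₊ ≤ δ := by
  /- The conclusion will hold at the Lebesgue density points of `s` (which have full measure).
    At such a point `x`, for any `z` and any `ε > 0` one has for small `r`
    that `{x} + r • closedBall z ε` intersects `s`. At a point `y` in the intersection,
    `f y - f x` is close both to `f' x (r z)` (by differentiability) and to `A (r z)`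
    (by linear approximation), so these two quantities are close, i.e., `(f' x - A) z` is small. -/
  filter_upwards [Besicovitch.ae_tendsto_measure_inter_div μ s, ae_restrict_mem hs]
  -- start from a Lebesgue density point `x`, belonging to `s`.
  intro x hx xs
  -- consider an arbitrary vector `z`.
  apply ContinuousLinearMap.opNorm_le_bound _ δ.2 fun z => ?_
  -- to show that `‖(f' x - A) z‖ ≤ δ ‖z‖`, it suffices to do it up to some error that vanishes
  -- asymptotically in terms of `ε > 0`.
  suffices H : ∀ ε, 0 < ε → ‖(f' x - A) z‖ ≤ (δ + ε) * (‖z‖ + ε) + ‖f' x - A‖ * ε by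
    have :
      Tendsto (fun ε : ℝ => ((δ : ℝ) + ε) * (‖z‖ + ε) + ‖f' x - A‖ * ε) (𝓝[>] 0)
        (𝓝 ((δ + 0) * (‖z‖ + 0) + ‖f' x - A‖ * 0)) :=
      Tendsto.mono_left (Continuous.tendsto (by fun_prop) 0) nhdsWithin_le_nhds
    simp only [add_zero, mul_zero] at this
    apply le_of_tendsto_of_tendsto tendsto_const_nhds this
    filter_upwards [self_mem_nhdsWithin]
    exact H
  -- fix a positive `ε`.
  intro ε εpos
  -- for small enough `r`, the rescaled ball `r • closedBall z ε` intersects `s`, as `x` is a
  -- density point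
  have B₁ : ∀ᶠ r in 𝓝[>] (0 : ℝ), (s ∩ ({x} + r • closedBall z ε)).Nonempty :=
    eventually_nonempty_inter_smul_of_density_one μ s x hx _ measurableSet_closedBall
      (measure_closedBall_pos μ z εpos).ne'
  obtain ⟨ρ, ρpos, hρ⟩ :
    ∃ ρ > 0, ball x ρ ∩ s ⊆ {y : E | ‖f y - f x - (f' x) (y - x)‖ ≤ ε * ‖y - x‖} :=
    mem_nhdsWithin_iff.1 ((hf' x xs).isLittleO.def εpos)
  -- for small enough `r`, the rescaled ball `r • closedBall z ε` is included in the set where
  -- `f y - f x` is well approximated by `f' x (y - x)`.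
  have B₂ : ∀ᶠ r in 𝓝[>] (0 : ℝ), {x} + r • closedBall z ε ⊆ ball x ρ := by
    apply nhdsWithin_le_nhds
    exact eventually_singleton_add_smul_subset isBounded_closedBall (ball_mem_nhds x ρpos)
  -- fix a small positive `r` satisfying the above properties, as well as a corresponding `y`.
  obtain ⟨r, ⟨y, ⟨ys, hy⟩⟩, rρ, rpos⟩ :
    ∃ r : ℝ,
      (s ∩ ({x} + r • closedBall z ε)).Nonempty ∧ {x} + r • closedBall z ε ⊆ ball x ρ ∧ 0 < r :=
    (B₁.and (B₂.and self_mem_nhdsWithin)).exists
  -- write `y = x + r a` with `a ∈ closedBall z ε`.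
  obtain ⟨a, az, ya⟩ : ∃ a, a ∈ closedBall z ε ∧ y = x + r • a := by
    simp only [mem_smul_set, image_add_left, mem_preimage, singleton_add] at hy
    rcases hy with ⟨a, az, ha⟩
    exact ⟨a, az, by simp only [ha, add_neg_cancel_left]⟩
  have norm_a : ‖a‖ ≤ ‖z‖ + ε :=
    calc
      ‖a‖ = ‖z + (a - z)‖ := by simp only [add_sub_cancel]
      _ ≤ ‖z‖ + ‖a - z‖ := norm_add_le _ _
      _ ≤ ‖z‖ + ε := by grw [mem_closedBall_iff_norm.1 az]
  -- use the approximation properties to control `(f' x - A) a`, and then `(f' x - A) z` as `z` is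
  -- close to `a`.
  have I : r * ‖(f' x - A) a‖ ≤ r * (δ + ε) * (‖z‖ + ε) :=
    calc
      r * ‖(f' x - A) a‖ = ‖(f' x - A) (r • a)‖ := by
        simp only [map_smul, norm_smul, Real.norm_eq_abs, abs_of_nonneg rpos.le]
      _ = ‖f y - f x - A (y - x) - (f y - f x - (f' x) (y - x))‖ := by
        simp only [ya, add_sub_cancel_left, sub_sub_sub_cancel_left, FunLike.coe_sub,
          Pi.sub_apply, map_smul, smul_sub]
      _ ≤ ‖f y - f x - A (y - x)‖ + ‖f y - f x - (f' x) (y - x)‖ := norm_sub_le _ _
      _ ≤ δ * ‖y - x‖ + ε * ‖y - x‖ := (add_le_add (hf _ ys _ xs) (hρ ⟨rρ hy, ys⟩))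
      _ = r * (δ + ε) * ‖a‖ := by
        simp only [ya, add_sub_cancel_left, norm_smul, Real.norm_eq_abs, abs_of_nonneg rpos.le]
        ring
      _ ≤ r * (δ + ε) * (‖z‖ + ε) := by gcongr
  calc
    ‖(f' x - A) z‖ = ‖(f' x - A) a + (f' x - A) (z - a)‖ := by
      congr 1
      simp only [FunLike.coe_sub, map_sub, Pi.sub_apply]
      abel
    _ ≤ ‖(f' x - A) a‖ + ‖(f' x - A) (z - a)‖ := norm_add_le _ _
    _ ≤ (δ + ε) * (‖z‖ + ε) + ‖f' x - A‖ * ‖z - a‖ := by
      apply add_le_add
      · rw [mul_assoc] at I; exact (mul_le_mul_iff_right₀ rpos).1 I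
      · apply ContinuousLinearMap.le_opNorm
    _ ≤ (δ + ε) * (‖z‖ + ε) + ‖f' x - A‖ * ε := by
      rw [mem_closedBall_iff_norm'] at az
      gcongr


/-- Mathlib's `aemeasurable_fderivWithin` for a general target. -/
theorem aemeasurable_fderivWithin [SecondCountableTopology F] [FiniteDimensional ℝ F]
    (hs : MeasurableSet s)
    (hf' : ∀ x ∈ s, HasFDerivWithinAt f (f' x) s x) : AEMeasurable f' (μ.restrict s) := by
  /- It suffices to show that `f'` can be uniformly approximated by a measurable function.
    Fix `ε > 0`. Thanks to `exists_partition_approximatesLinearOn_of_hasFDerivWithinAt`, one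
    can find a countable measurable partition of `s` into sets `s ∩ t n` on which `f` is well
    approximated by linear maps `A n`. On almost all of `s ∩ t n`, it follows from
    `ApproximatesLinearOn.norm_fderiv_sub_le` that `f'` is uniformly approximated by `A n`, which
    gives the conclusion. -/
  -- fix a precision `ε`
  refine aemeasurable_of_unif_approx fun ε εpos => ?_
  let δ : ℝ≥0 := ⟨ε, le_of_lt εpos⟩
  have δpos : 0 < δ := εpos
  -- partition `s` into sets `s ∩ t n` on which `f` is approximated by linear maps `A n`.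
  obtain ⟨t, A, t_disj, t_meas, t_cover, ht, _⟩ :
    ∃ (t : ℕ → Set E) (A : ℕ → E →L[ℝ] F),
      Pairwise (Disjoint on t) ∧
        (∀ n : ℕ, MeasurableSet (t n)) ∧
          (s ⊆ ⋃ n : ℕ, t n) ∧
            (∀ n : ℕ, ApproximatesLinearOn f (A n) (s ∩ t n) δ) ∧
              (s.Nonempty → ∀ n, ∃ y ∈ s, A n = f' y) :=
    exists_partition_approximatesLinearOn_of_hasFDerivWithinAt f s f' hf' (fun _ => δ) fun _ =>
      δpos.ne'
  -- define a measurable function `g` which coincides with `A n` on `t n`.
  obtain ⟨g, g_meas, hg⟩ :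
      ∃ g : E → E →L[ℝ] F, Measurable g ∧ ∀ (n : ℕ) (x : E), x ∈ t n → g x = A n :=
    exists_measurable_piecewise t t_meas (fun n _ => A n) (fun n => measurable_const) <|
      t_disj.mono fun i j h => by simp only [h.inter_eq, eqOn_empty]
  refine ⟨g, g_meas.aemeasurable, ?_⟩
  -- reduce to checking that `f'` and `g` are close on almost all of `s ∩ t n`, for all `n`.
  suffices H : ∀ᵐ x : E ∂sum fun n ↦ μ.restrict (s ∩ t n), dist (g x) (f' x) ≤ ε by
    have : μ.restrict s ≤ sum fun n => μ.restrict (s ∩ t n) := by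
      have : s = ⋃ n, s ∩ t n := by
        rw [← inter_iUnion]
        exact Subset.antisymm (subset_inter Subset.rfl t_cover) inter_subset_left
      conv_lhs => rw [this]
      exact restrict_iUnion_le
    exact ae_mono this H
  -- fix such an `n`.
  refine ae_sum_iff.2 fun n => ?_
  -- on almost all `s ∩ t n`, `f' x` is close to `A n` thanks to
  -- `ApproximatesLinearOn.norm_fderiv_sub_le`.
  have E₁ : ∀ᵐ x : E ∂μ.restrict (s ∩ t n), ‖f' x - A n‖₊ ≤ δ :=
    norm_fderiv_sub_le μ (ht n) (hs.inter (t_meas n)) f' fun x hx =>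
      (hf' x hx.1).mono inter_subset_left
  -- moreover, `g x` is equal to `A n` there.
  have E₂ : ∀ᵐ x : E ∂μ.restrict (s ∩ t n), g x = A n := by
    suffices H : ∀ᵐ x : E ∂μ.restrict (t n), g x = A n from
      ae_mono (restrict_mono inter_subset_right le_rfl) H
    filter_upwards [ae_restrict_mem (t_meas n)]
    exact hg n
  -- putting these two properties together gives the conclusion.
  filter_upwards [E₁, E₂] with x hx1 hx2
  rw [← nndist_eq_nnnorm] at hx1
  rw [hx2, dist_comm]
  exact hx1


end General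

variable {U V : Type*} [NormedAddCommGroup U] [InnerProductSpace ℝ U] [FiniteDimensional ℝ U]
  [NormedAddCommGroup V] [InnerProductSpace ℝ V] [FiniteDimensional ℝ V]
variable [MeasurableSpace U] [BorelSpace U] [MeasurableSpace V] [BorelSpace V]
variable {s : Set U} {f : U → V} {f' : U → U →L[ℝ] V}

theorem aemeasurable_jac (hs : MeasurableSet s) (hf' : ∀ x ∈ s, HasFDerivWithinAt f (f' x) s x) :
    AEMeasurable (fun x => ENNReal.ofReal (jac (f' x))) (volume.restrict s) := by
  apply ENNReal.measurable_ofReal.comp_aemeasurable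
  exact continuous_jac.measurable.comp_aemeasurable (aemeasurable_fderivWithin volume hs hf')

theorem measurable_image (hs : MeasurableSet s)
    (hf' : ∀ x ∈ s, HasFDerivWithinAt f (f' x) s x) (hf : InjOn f s) : MeasurableSet (f '' s) :=
  haveI : DifferentiableOn ℝ f s := fun x hx => (hf' x hx).differentiableWithinAt
  hs.image_of_continuousOn_injOn (DifferentiableOn.continuousOn this) hf

/-- the local comparison used for both inequalities. -/
theorem aux_delta (ε : ℝ≥0) (εpos : 0 < ε) (A : U →L[ℝ] V) :
    ∃ δ : ℝ≥0, 0 < δ ∧ (∀ B : U →L[ℝ] V, ‖B - A‖ ≤ δ → |jac B - jac A| ≤ ε) ∧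
      ∀ (t : Set U) (g : U → V), ApproximatesLinearOn g A t δ →
        μHE[finrank ℝ U] (g '' t) ≤ (ENNReal.ofReal (jac A) + ε) * volume t ∧
        ENNReal.ofReal (jac A) * volume t ≤ μHE[finrank ℝ U] (g '' t) + ε * volume t := by
  obtain ⟨δ, δpos, h⟩ := expand A εpos
  obtain ⟨δ', δ'pos, hδ'⟩ : ∃ (δ' : ℝ), 0 < δ' ∧ ∀ B, dist B A < δ' →
      dist (jac B) (jac A) < ↑ε := by
    refine continuousAt_iff.1 ?_ ε εpos
    exact continuous_jac.continuousAt
  let δ'' : ℝ≥0 := ⟨δ' / 2, (half_pos δ'pos).le⟩
  refine ⟨min δ δ'', lt_min δpos (half_pos δ'pos), ?_, ?_⟩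
  · intro B hB
    rw [← Real.dist_eq]
    apply (hδ' B _).le
    rw [dist_eq_norm]
    calc
      ‖B - A‖ ≤ (min δ δ'' : ℝ≥0) := hB
      _ ≤ δ'' := by simp only [le_refl, NNReal.coe_min, min_le_iff, or_true]
      _ < δ' := half_lt_self δ'pos
  · intro t g htg
    exact h t g (htg.mono_num (min_le_left _ _))

theorem image_le_aux1 (hs : MeasurableSet s)
    (hf' : ∀ x ∈ s, HasFDerivWithinAt f (f' x) s x) {ε : ℝ≥0} (εpos : 0 < ε) :
    μHE[finrank ℝ U] (f '' s) ≤ (∫⁻ x in s, ENNReal.ofReal (jac (f' x))) + 2 * ε * volume s := by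
  choose δ hδ using aux_delta (U := U) (V := V) ε εpos
  obtain ⟨t, A, t_disj, t_meas, t_cover, ht, -⟩ :=
    exists_partition_approximatesLinearOn_of_hasFDerivWithinAt f s f' hf' δ fun A => (hδ A).1.ne'
  calc
    μHE[finrank ℝ U] (f '' s) ≤ μHE[finrank ℝ U] (⋃ n, f '' (s ∩ t n)) := by
      apply measure_mono
      rw [← image_iUnion, ← inter_iUnion]
      exact Set.image_mono (subset_inter Subset.rfl t_cover)
    _ ≤ ∑' n, μHE[finrank ℝ U] (f '' (s ∩ t n)) := measure_iUnion_le _
    _ ≤ ∑' n, (ENNReal.ofReal (jac (A n)) + ε) * volume (s ∩ t n) := by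
      apply ENNReal.tsum_le_tsum fun n => ?_
      exact ((hδ (A n)).2.2 _ _ (ht n)).1
    _ = ∑' n, ∫⁻ _ in s ∩ t n, ENNReal.ofReal (jac (A n)) + ε := by
      simp only [lintegral_const, MeasurableSet.univ, Measure.restrict_apply, univ_inter]
    _ ≤ ∑' n, ∫⁻ x in s ∩ t n, ENNReal.ofReal (jac (f' x)) + 2 * ε := by
      apply ENNReal.tsum_le_tsum fun n => ?_
      apply lintegral_mono_ae
      filter_upwards [norm_fderiv_sub_le volume (ht n) (hs.inter (t_meas n)) f' fun x hx =>
          (hf' x hx.1).mono inter_subset_left]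
      intro x hx
      have I : jac (A n) ≤ jac (f' x) + ε := by
        have := (abs_le.1 ((hδ (A n)).2.1 _ hx)).1
        linarith
      calc
        ENNReal.ofReal (jac (A n)) + ε ≤ ENNReal.ofReal (jac (f' x) + ε) + ε := by gcongr
        _ = ENNReal.ofReal (jac (f' x)) + 2 * ε := by
          simp only [ENNReal.ofReal_add, jac_nonneg, two_mul, add_assoc, NNReal.zero_le_coe,
            ENNReal.ofReal_coe_nnreal]
    _ = ∫⁻ x in ⋃ n, s ∩ t n, ENNReal.ofReal (jac (f' x)) + 2 * ε := by
      have M : ∀ n : ℕ, MeasurableSet (s ∩ t n) := fun n => hs.inter (t_meas n)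
      rw [lintegral_iUnion M]
      exact pairwise_disjoint_mono t_disj fun n => inter_subset_right
    _ = ∫⁻ x in s, ENNReal.ofReal (jac (f' x)) + 2 * ε := by
      rw [← inter_iUnion, inter_eq_self_of_subset_left t_cover]
    _ = (∫⁻ x in s, ENNReal.ofReal (jac (f' x))) + 2 * ε * volume s := by
      simp only [lintegral_add_right' _ aemeasurable_const, setLIntegral_const]

theorem image_le_aux2 (hs : MeasurableSet s) (h's : volume s ≠ ∞)
    (hf' : ∀ x ∈ s, HasFDerivWithinAt f (f' x) s x) :
    μHE[finrank ℝ U] (f '' s) ≤ ∫⁻ x in s, ENNReal.ofReal (jac (f' x)) := by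
  have :
    Tendsto (fun ε : ℝ≥0 => (∫⁻ x in s, ENNReal.ofReal (jac (f' x))) + 2 * ε * volume s) (𝓝[>] 0)
      (𝓝 ((∫⁻ x in s, ENNReal.ofReal (jac (f' x))) + 2 * (0 : ℝ≥0) * volume s)) := by
    apply Tendsto.mono_left _ nhdsWithin_le_nhds
    refine tendsto_const_nhds.add ?_
    refine ENNReal.Tendsto.mul_const ?_ (Or.inr h's)
    exact ENNReal.Tendsto.const_mul (ENNReal.tendsto_coe.2 tendsto_id) (Or.inr ENNReal.coe_ne_top)
  simp only [add_zero, zero_mul, mul_zero, ENNReal.coe_zero] at this
  apply ge_of_tendsto this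
  filter_upwards [self_mem_nhdsWithin]
  intro ε εpos
  rw [mem_Ioi] at εpos
  exact image_le_aux1 hs hf' εpos

/-- **Area inequality** (no injectivity). -/
theorem muHE_image_le_lintegral (hs : MeasurableSet s)
    (hf' : ∀ x ∈ s, HasFDerivWithinAt f (f' x) s x) :
    μHE[finrank ℝ U] (f '' s) ≤ ∫⁻ x in s, ENNReal.ofReal (jac (f' x)) := by
  let u n := disjointed (spanningSets (volume : Measure U)) n
  have u_meas : ∀ n, MeasurableSet (u n) := by
    intro n
    apply MeasurableSet.disjointed fun i => ?_
    exact measurableSet_spanningSets volume i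
  have A : s = ⋃ n, s ∩ u n := by
    rw [← inter_iUnion, iUnion_disjointed, iUnion_spanningSets, inter_univ]
  calc
    μHE[finrank ℝ U] (f '' s) ≤ ∑' n, μHE[finrank ℝ U] (f '' (s ∩ u n)) := by
      conv_lhs => rw [A, image_iUnion]
      exact measure_iUnion_le _
    _ ≤ ∑' n, ∫⁻ x in s ∩ u n, ENNReal.ofReal (jac (f' x)) := by
      apply ENNReal.tsum_le_tsum fun n => ?_
      apply
        image_le_aux2 (hs.inter (u_meas n)) _ fun x hx =>
          (hf' x hx.1).mono inter_subset_left
      have : volume (u n) < ∞ :=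
        lt_of_le_of_lt (measure_mono (disjointed_subset _ _))
          (measure_spanningSets_lt_top volume n)
      exact ne_of_lt (lt_of_le_of_lt (measure_mono inter_subset_right) this)
    _ = ∫⁻ x in s, ENNReal.ofReal (jac (f' x)) := by
      conv_rhs => rw [A]
      rw [lintegral_iUnion]
      · intro n; exact hs.inter (u_meas n)
      · exact pairwise_disjoint_mono (disjoint_disjointed _) fun n => inter_subset_right

theorem le_image_aux1 (hs : MeasurableSet s)
    (hf' : ∀ x ∈ s, HasFDerivWithinAt f (f' x) s x) (hf : InjOn f s) {ε : ℝ≥0} (εpos : 0 < ε) :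
    (∫⁻ x in s, ENNReal.ofReal (jac (f' x))) ≤
      μHE[finrank ℝ U] (f '' s) + 2 * ε * volume s := by
  choose δ hδ using aux_delta (U := U) (V := V) ε εpos
  obtain ⟨t, A, t_disj, t_meas, t_cover, ht, -⟩ :=
    exists_partition_approximatesLinearOn_of_hasFDerivWithinAt f s f' hf' δ fun A => (hδ A).1.ne'
  have s_eq : s = ⋃ n, s ∩ t n := by
    rw [← inter_iUnion]
    exact Subset.antisymm (subset_inter Subset.rfl t_cover) inter_subset_left
  calc
    (∫⁻ x in s, ENNReal.ofReal (jac (f' x))) =
        ∑' n, ∫⁻ x in s ∩ t n, ENNReal.ofReal (jac (f' x)) := by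
      conv_lhs => rw [s_eq]
      rw [lintegral_iUnion]
      · exact fun n => hs.inter (t_meas n)
      · exact pairwise_disjoint_mono t_disj fun n => inter_subset_right
    _ ≤ ∑' n, ∫⁻ _ in s ∩ t n, ENNReal.ofReal (jac (A n)) + ε := by
      apply ENNReal.tsum_le_tsum fun n => ?_
      apply lintegral_mono_ae
      filter_upwards [norm_fderiv_sub_le volume (ht n) (hs.inter (t_meas n)) f' fun x hx =>
          (hf' x hx.1).mono inter_subset_left]
      intro x hx
      have I : jac (f' x) ≤ jac (A n) + ε := by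
        have := (abs_le.1 ((hδ (A n)).2.1 _ hx)).2
        linarith
      calc
        ENNReal.ofReal (jac (f' x)) ≤ ENNReal.ofReal (jac (A n) + ε) :=
          ENNReal.ofReal_le_ofReal I
        _ = ENNReal.ofReal (jac (A n)) + ε := by
          simp only [ENNReal.ofReal_add, jac_nonneg, NNReal.zero_le_coe, ENNReal.ofReal_coe_nnreal]
    _ = ∑' n, (ENNReal.ofReal (jac (A n)) * volume (s ∩ t n) + ε * volume (s ∩ t n)) := by
      simp only [setLIntegral_const, lintegral_add_right _ measurable_const]
    _ ≤ ∑' n, (μHE[finrank ℝ U] (f '' (s ∩ t n)) + ε * volume (s ∩ t n) +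
        ε * volume (s ∩ t n)) := by
      gcongr
      exact ((hδ (A _)).2.2 _ _ (ht _)).2
    _ = μHE[finrank ℝ U] (f '' s) + 2 * ε * volume s := by
      conv_rhs => rw [s_eq]
      rw [image_iUnion, measure_iUnion]; rotate_left
      · intro i j hij
        apply Disjoint.image _ hf inter_subset_left inter_subset_left
        exact Disjoint.mono inter_subset_right inter_subset_right (t_disj hij)
      · intro i
        exact
          measurable_image (hs.inter (t_meas i))
            (fun x hx => (hf' x hx.1).mono inter_subset_left)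
            (hf.mono inter_subset_left)
      rw [measure_iUnion]; rotate_left
      · exact pairwise_disjoint_mono t_disj fun i => inter_subset_right
      · exact fun i => hs.inter (t_meas i)
      rw [← ENNReal.tsum_mul_left, ← ENNReal.tsum_add]
      congr 1
      ext1 i
      rw [mul_assoc, two_mul, add_assoc]

theorem le_image_aux2 (hs : MeasurableSet s) (h's : volume s ≠ ∞)
    (hf' : ∀ x ∈ s, HasFDerivWithinAt f (f' x) s x) (hf : InjOn f s) :
    (∫⁻ x in s, ENNReal.ofReal (jac (f' x))) ≤ μHE[finrank ℝ U] (f '' s) := by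
  have :
    Tendsto (fun ε : ℝ≥0 => μHE[finrank ℝ U] (f '' s) + 2 * ε * volume s) (𝓝[>] 0)
      (𝓝 (μHE[finrank ℝ U] (f '' s) + 2 * (0 : ℝ≥0) * volume s)) := by
    apply Tendsto.mono_left _ nhdsWithin_le_nhds
    refine tendsto_const_nhds.add ?_
    refine ENNReal.Tendsto.mul_const ?_ (Or.inr h's)
    exact ENNReal.Tendsto.const_mul (ENNReal.tendsto_coe.2 tendsto_id) (Or.inr ENNReal.coe_ne_top)
  simp only [add_zero, zero_mul, mul_zero, ENNReal.coe_zero] at this
  apply ge_of_tendsto this
  filter_upwards [self_mem_nhdsWithin]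
  intro ε εpos
  rw [mem_Ioi] at εpos
  exact le_image_aux1 hs hf' hf εpos

theorem lintegral_le_image (hs : MeasurableSet s)
    (hf' : ∀ x ∈ s, HasFDerivWithinAt f (f' x) s x) (hf : InjOn f s) :
    (∫⁻ x in s, ENNReal.ofReal (jac (f' x))) ≤ μHE[finrank ℝ U] (f '' s) := by
  let u n := disjointed (spanningSets (volume : Measure U)) n
  have u_meas : ∀ n, MeasurableSet (u n) := by
    intro n
    apply MeasurableSet.disjointed fun i => ?_
    exact measurableSet_spanningSets volume i
  have A : s = ⋃ n, s ∩ u n := by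
    rw [← inter_iUnion, iUnion_disjointed, iUnion_spanningSets, inter_univ]
  calc
    (∫⁻ x in s, ENNReal.ofReal (jac (f' x))) =
        ∑' n, ∫⁻ x in s ∩ u n, ENNReal.ofReal (jac (f' x)) := by
      conv_lhs => rw [A]
      rw [lintegral_iUnion]
      · intro n; exact hs.inter (u_meas n)
      · exact pairwise_disjoint_mono (disjoint_disjointed _) fun n => inter_subset_right
    _ ≤ ∑' n, μHE[finrank ℝ U] (f '' (s ∩ u n)) := by
      apply ENNReal.tsum_le_tsum fun n => ?_
      apply
        le_image_aux2 (hs.inter (u_meas n)) _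
          (fun x hx => (hf' x hx.1).mono inter_subset_left) (hf.mono inter_subset_left)
      have : volume (u n) < ∞ :=
        lt_of_le_of_lt (measure_mono (disjointed_subset _ _)) (measure_spanningSets_lt_top volume n)
      exact ne_of_lt (lt_of_le_of_lt (measure_mono inter_subset_right) this)
    _ = μHE[finrank ℝ U] (f '' s) := by
      conv_rhs => rw [A, image_iUnion]
      rw [measure_iUnion]
      · intro i j hij
        apply Disjoint.image _ hf inter_subset_left inter_subset_left
        exact
          Disjoint.mono inter_subset_right inter_subset_right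
            (disjoint_disjointed _ hij)
      · intro i
        exact
          measurable_image (hs.inter (u_meas i))
            (fun x hx => (hf' x hx.1).mono inter_subset_left)
            (hf.mono inter_subset_left)

/-- **AREA FORMULA**, injective case. -/
theorem lintegral_jac_eq_muHE_image (hs : MeasurableSet s)
    (hf' : ∀ x ∈ s, HasFDerivWithinAt f (f' x) s x) (hf : InjOn f s) :
    (∫⁻ x in s, ENNReal.ofReal (jac (f' x))) = μHE[finrank ℝ U] (f '' s) :=
  le_antisymm (lintegral_le_image hs hf' hf) (muHE_image_le_lintegral hs hf')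

/-- null sets are mapped to null sets. -/
theorem muHE_image_null (hf : DifferentiableOn ℝ f s) (hs : volume s = 0) :
    μHE[finrank ℝ U] (f '' s) = 0 := by
  have : ∀ A : U →L[ℝ] V, ∃ δ : ℝ≥0, 0 < δ ∧
        ∀ (t : Set U), ApproximatesLinearOn f A t δ →
          μHE[finrank ℝ U] (f '' t) ≤ (ENNReal.ofReal (jac A) + (1 : ℝ≥0)) * volume t := by
    intro A
    obtain ⟨δ, h0, h⟩ := expand A (ε := 1) one_pos
    exact ⟨δ, h0, fun t ht => (h t f ht).1⟩
  choose δ hδ using this
  obtain ⟨t, A, _, _, t_cover, ht, -⟩ :=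
    exists_partition_approximatesLinearOn_of_hasFDerivWithinAt f s (fderivWithin ℝ f s)
      (fun x xs => (hf x xs).hasFDerivWithinAt) δ fun A => (hδ A).1.ne'
  rw [← nonpos_iff_eq_zero]
  calc
    μHE[finrank ℝ U] (f '' s) ≤ μHE[finrank ℝ U] (⋃ n, f '' (s ∩ t n)) := by
      apply measure_mono
      rw [← image_iUnion, ← inter_iUnion]
      exact Set.image_mono (subset_inter Subset.rfl t_cover)
    _ ≤ ∑' n, μHE[finrank ℝ U] (f '' (s ∩ t n)) := measure_iUnion_le _
    _ ≤ ∑' n, (ENNReal.ofReal (jac (A n)) + (1 : ℝ≥0)) * volume (s ∩ t n) := by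
      apply ENNReal.tsum_le_tsum fun n => ?_
      exact (hδ (A n)).2 _ (ht n)
    _ ≤ ∑' n, (ENNReal.ofReal (jac (A n)) + (1 : ℝ≥0)) * 0 := by
      gcongr with n
      exact le_trans (measure_mono inter_subset_left) (le_of_eq hs)
    _ = 0 := by simp only [tsum_zero, mul_zero]

/-- the measurable embedding given by an injective differentiable map. -/
theorem measurableEmbedding_of_deriv (hs : MeasurableSet s)
    (hf' : ∀ x ∈ s, HasFDerivWithinAt f (f' x) s x) (hf : InjOn f s) :
    MeasurableEmbedding (s.domRestrict f) :=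
  haveI : DifferentiableOn ℝ f s := fun x hx => (hf' x hx).differentiableWithinAt
  this.continuousOn.measurableEmbedding hs hf

/-- area formula as an identity of measures. -/
theorem map_withDensity_jac (hs : MeasurableSet s)
    (hf' : ∀ x ∈ s, HasFDerivWithinAt f (f' x) s x) (hf : InjOn f s) :
    Measure.map f ((volume.restrict s).withDensity fun x => ENNReal.ofReal (jac (f' x))) =
      μHE[finrank ℝ U].restrict (f '' s) := by
  have h'f : AEMeasurable f (volume.restrict s) := by
    apply ContinuousOn.aemeasurable (fun x hx ↦ ?_) hs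
    exact (hf' x hx).differentiableWithinAt.continuousWithinAt
  have h''f : AEMeasurable f
      ((volume.restrict s).withDensity fun x => ENNReal.ofReal (jac (f' x))) := by
    apply h'f.mono_ac
    exact withDensity_absolutelyContinuous _ _
  apply Measure.ext fun t ht => ?_
  obtain ⟨u, u_meas, uf⟩ : ∃ u, Measurable u ∧ EqOn u f s := by
    classical
    refine ⟨piecewise s f 0, ?_, piecewise_eqOn _ _ _⟩
    refine ContinuousOn.measurable_piecewise ?_ continuous_zero.continuousOn hs
    have : DifferentiableOn ℝ f s := fun x hx => (hf' x hx).differentiableWithinAt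
    exact this.continuousOn
  have hpre : f ⁻¹' t ∩ s = u ⁻¹' t ∩ s := by
    ext x
    simp only [mem_inter_iff, mem_preimage]
    constructor
    · rintro ⟨h1, h2⟩; rw [uf h2]; exact ⟨h1, h2⟩
    · rintro ⟨h1, h2⟩; rw [uf h2] at h1; exact ⟨h1, h2⟩
  have hm : MeasurableSet (f ⁻¹' t ∩ s) := by
    rw [hpre]; exact (u_meas ht).inter hs
  have h't : NullMeasurableSet (f ⁻¹' t) (volume.restrict s) := h'f.nullMeasurableSet_preimage ht
  rw [map_apply_of_aemeasurable h''f ht, withDensity_apply₀ _ h't,
    Measure.restrict_apply ht, restrict_restrict₀ h't,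
    lintegral_jac_eq_muHE_image hm
      (fun x hx => (hf' x hx.2).mono inter_subset_right) (hf.mono inter_subset_right),
    image_preimage_inter]

theorem restrict_map_withDensity_jac (hs : MeasurableSet s)
    (hf' : ∀ x ∈ s, HasFDerivWithinAt f (f' x) s x) (hf : InjOn f s) :
    Measure.map (s.domRestrict f)
        (comap (↑) ((volume : Measure U).withDensity fun x => ENNReal.ofReal (jac (f' x)))) =
      μHE[finrank ℝ U].restrict (f '' s) := by
  obtain ⟨u, u_meas, uf⟩ : ∃ u, Measurable u ∧ EqOn u f s := by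
    classical
    refine ⟨piecewise s f 0, ?_, piecewise_eqOn _ _ _⟩
    refine ContinuousOn.measurable_piecewise ?_ continuous_zero.continuousOn hs
    have : DifferentiableOn ℝ f s := fun x hx => (hf' x hx).differentiableWithinAt
    exact this.continuousOn
  have u' : ∀ x ∈ s, HasFDerivWithinAt u (f' x) s x := fun x hx =>
    (hf' x hx).congr (fun y hy => uf hy) (uf hx)
  set F : s → V := u ∘ (↑) with hF
  have A :
    Measure.map F
        (comap (↑) ((volume : Measure U).withDensity fun x => ENNReal.ofReal (jac (f' x)))) =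
      μHE[finrank ℝ U].restrict (u '' s) := by
    rw [hF, ← Measure.map_map u_meas measurable_subtype_coe, map_comap_subtype_coe hs,
      restrict_withDensity hs]
    exact map_withDensity_jac hs u' (hf.congr uf.symm)
  rw [uf.image_eq] at A
  have : F = s.domRestrict f := by
    ext x
    exact uf x.2
  rwa [this] at A

/-- **AREA FORMULA**, injective case, for integrals of arbitrary functions. -/
theorem lintegral_image_eq (hs : MeasurableSet s)
    (hf' : ∀ x ∈ s, HasFDerivWithinAt f (f' x) s x) (hf : InjOn f s) (g : V → ℝ≥0∞) :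
    ∫⁻ y in f '' s, g y ∂μHE[finrank ℝ U] =
      ∫⁻ x in s, ENNReal.ofReal (jac (f' x)) * g (f x) := by
  rw [← restrict_map_withDensity_jac hs hf' hf,
    (measurableEmbedding_of_deriv hs hf' hf).lintegral_map]
  simp only [Set.domRestrict_apply, ← Function.comp_apply (f := g)]
  rw [← (MeasurableEmbedding.subtype_coe hs).lintegral_map, map_comap_subtype_coe hs,
    setLIntegral_withDensity_eq_setLIntegral_mul_non_measurable₀ _ _ _ hs]
  · simp only [Pi.mul_apply]
  · simp only [eventually_true, ENNReal.ofReal_lt_top]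
  · exact aemeasurable_jac hs hf'

end Crest.Agent.R241.AF
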