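import Mathlib

/-!
R241, block A (Theorem A): definitions.
`K` is a compact metric space, `τ` a finite Borel measure on it, `G` a carré du champ (squared
tangential gradient, polarised) on Lipschitz functions.  `zd k x y = (cosh (k d(x,y)) - 1)/k^2` (`= d(x,y)^2/2` for `k = 0`).
-/

set_option autoImplicit false

namespace Crest.Agent.R241.A

open MeasureTheory Set Filter Topology
open scoped NNReal ENNReal RealInnerProductSpace

/-- `z_k(r) = (cosh(k r) - 1)/k^2`, `r^2/2` for `k = 0`. -/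
noncomputable def zk (k r : ℝ) : ℝ := if k = 0 then r ^ 2 / 2 else (Real.cosh (k * r) - 1) / k ^ 2

/-- `sn_k(r) = sinh(k r)/k`, `r` for `k = 0`. -/
noncomputable def snk (k r : ℝ) : ℝ := if k = 0 then r else Real.sinh (k * r) / k

/-- Volume of the unit ball of `ℝ^n`. -/
noncomputable def omegaBall (n : ℕ) : ℝ :=
  (volume (Metric.ball (0 : EuclideanSpace ℝ (Fin n)) 1)).toReal

/-- Area of the unit sphere `S^n ⊂ ℝ^(n+1)`. -/
noncomputable def sphArea (n : ℕ) : ℝ := ((n : ℝ) + 1) * omegaBall (n + 1)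

section
variable {K : Type*} [MetricSpace K]

/-- The comparison function `z_x(y)`. -/
noncomputable def zd (k : ℝ) (x y : K) : ℝ := zk k (dist x y)

/-- Lipschitz real functions. -/
def Lip (f : K → ℝ) : Prop := ∃ C : ℝ≥0, LipschitzWith C f

end

/-- The bridge structure between geometric measure theory and Theorem A. -/
structure PreData (n : ℕ) (k : ℝ) (K : Type*) [MetricSpace K] [CompactSpace K]
    [MeasurableSpace K] [BorelSpace K] where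
  /-- the mass measure -/
  τ : Measure K
  fin : IsFiniteMeasure τ
  /-- carré du champ: `G f g = ⟪∇f, ∇g⟫` (tangential) -/
  G : (K → ℝ) → (K → ℝ) → K → ℝ
  G_meas : ∀ f g : K → ℝ, Lip f → Lip g → AEStronglyMeasurable (G f g) τ
  G_comm : ∀ f g : K → ℝ, Lip f → Lip g → ∀ᵐ y ∂τ, G f g y = G g f y
  G_add : ∀ f g u : K → ℝ, Lip f → Lip g → Lip u →
    ∀ᵐ y ∂τ, G (fun y => f y + g y) u y = G f u y + G g u y
  G_smul : ∀ (c : ℝ) (f u : K → ℝ), Lip f → Lip u →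
    ∀ᵐ y ∂τ, G (fun y => c * f y) u y = c * G f u y
  G_mul : ∀ f g u : K → ℝ, Lip f → Lip g → Lip u →
    ∀ᵐ y ∂τ, G (fun y => f y * g y) u y = f y * G g u y + g y * G f u y
  G_chain : ∀ (f u : K → ℝ) (φ φ' : ℝ → ℝ), Lip f → Lip u → Lip (fun y => φ (f y)) →
    (∀ y, HasDerivAt φ (φ' (f y)) (f y)) → Continuous (fun y => φ' (f y)) →
    ∀ᵐ y ∂τ, G (fun y => φ (f y)) u y = φ' (f y) * G f u y
  G_nonneg : ∀ f : K → ℝ, Lip f → ∀ᵐ y ∂τ, 0 ≤ G f f y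
  G_bound : ∀ (f : K → ℝ) (C : ℝ≥0), LipschitzWith C f → ∀ᵐ y ∂τ, G f f y ≤ (C : ℝ) ^ 2
  G_z : ∀ x : K, ∀ᵐ y ∂τ, G (zd k x) (zd k x) y ≤ 2 * zd k x y + k ^ 2 * zd k x y ^ 2
  dens : ∀ᵐ y ∂τ, ∀ θ : ℝ, θ < 1 → ∀ᶠ r in 𝓝[>] (0 : ℝ),
    θ * omegaBall n * r ^ n ≤ τ.real {y' | zd k y y' < r ^ 2 / 2}

namespace PreData

variable {n : ℕ} {k : ℝ} {K : Type*} [MetricSpace K] [CompactSpace K]
  [MeasurableSpace K] [BorelSpace K]

/-- Length of the normal part of `∇ z_x`. -/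
noncomputable def q (P : PreData n k K) (x y : K) : ℝ :=
  √(2 * zd k x y + k ^ 2 * zd k x y ^ 2 - P.G (zd k x) (zd k x) y)

/-- First variation inequality with mean curvature bound `n h`. -/
def FV (P : PreData n k K) (h : ℝ) : Prop :=
  ∀ (x : K) (f : K → ℝ), Lip f → (∀ y, 0 ≤ f y) →
    ∫ y, ((n : ℝ) * (1 + k ^ 2 * zd k x y) * f y + P.G f (zd k x) y) ∂P.τ
      ≤ (n : ℝ) * h * ∫ y, f y * P.q x y ∂P.τ

/-- The bilinear form `∫ G f g + b f g`. -/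
noncomputable def form (P : PreData n k K) (b : ℝ) (f g : K → ℝ) : ℝ :=
  ∫ y, (P.G f g y + b * (f y * g y)) ∂P.τ

/-- The energy `E(u) = ∫ G u u + b u^2`. -/
noncomputable def energy (P : PreData n k K) (b : ℝ) (u : K → ℝ) : ℝ := P.form b u u

end PreData

/-- Derivative form of the `CAT(-k²)` inequality, the only consequence used by block A. -/
def CatD (k : ℝ) (K : Type*) [MetricSpace K] : Prop :=
  ∀ x p : K, ∃ C : ℝ, ∀ s ∈ Ioo (0 : ℝ) 1, ∃ x' : K, ∀ y : K,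
    zd k x' y ≤ zd k x y + s * (zd k p y - zd k x y - zd k x p - k ^ 2 * zd k x p * zd k x y)
      + C * s ^ 2

/-- `m = (n-2)/2`. -/
noncomputable def mA (n : ℕ) : ℝ := ((n : ℝ) - 2) / 2

/-- `b = m n (h²-k²)/2`. -/
noncomputable def bA (n : ℕ) (k h : ℝ) : ℝ := mA n * n * (h ^ 2 - k ^ 2) / 2

/-- `φ_{x,a} = (z_x + a)^{-m}`. -/
noncomputable def phiA {K : Type*} [MetricSpace K] (n : ℕ) (k : ℝ) (x : K) (a : ℝ) (y : K) : ℝ :=
  (zd k x y + a) ^ (-(mA n))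

/-- `s₀ = 2a - k²a²`. -/
noncomputable def s0 (k a : ℝ) : ℝ := 2 * a - k ^ 2 * a ^ 2

/-- `c_p = m n 2^{m+1} ω_n`. -/
noncomputable def cP (n : ℕ) : ℝ := mA n * n * 2 ^ (mA n + 1) * omegaBall n

/-- `H(r) = m ∫₀¹ s^{m-1} (1+s r)^{-n} ds`. -/
noncomputable def HA (n : ℕ) (r : ℝ) : ℝ :=
  ∫ s in (0 : ℝ)..1, mA n * s ^ (mA n - 1) * (1 + s * r) ^ (-(n : ℝ))

/-- `g(r) = m ∫₀^r s^{m-1} (1+s)^{-n} ds`. -/
noncomputable def gA (n : ℕ) (r : ℝ) : ℝ :=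
  ∫ s in (0 : ℝ)..r, mA n * s ^ (mA n - 1) * (1 + s) ^ (-(n : ℝ))

/-- `C_n = m ∫₀^∞ s^{m-1} (1+s)^{-n} ds = m B(m, m+2)`. -/
noncomputable def CnA (n : ℕ) : ℝ :=
  ∫ s in Ioi (0 : ℝ), mA n * s ^ (mA n - 1) * (1 + s) ^ (-(n : ℝ))

end Crest.Agent.R241.A
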