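import Mathlib
import Crest.Prelude.Def_MetricCurrent
import Crest.Prelude.Def_SubmanifoldIsoperimetric
import Crest.Agent.R241.ADefs

/-!
# R241: common definitions (owner: helper882)

Dimensions: `T` is `n`-dimensional (`n = m+1`), `S` is `(n+1)`-dimensional, curvature `κ = -k²`,
`k ≥ 0`.  The analytic bridge structure `A.PreData` (abstract carré du champ `G`) is in `ADefs`
(namespace `Crest.Agent.R241.A`, owner helper833).
-/

set_option autoImplicit false

open MeasureTheory Filter Topology Set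
open scoped ENNReal NNReal RealInnerProductSpace

universe u

namespace Crest.Agent.R241

open Crest.GeometryTopology.MetricCurrent
open Crest.GeometryTopology.Submanifold (Euc unitBallVol)

/-- `z_k(r) = (cosh (k r) - 1)/k²`, and `r²/2` for `k = 0`. -/
noncomputable def zk (k r : ℝ) : ℝ :=
  if k = 0 then r ^ 2 / 2 else (Real.cosh (k * r) - 1) / k ^ 2

/-- `sn_k(r) = sinh (k r)/k`, and `r` for `k = 0`. -/
noncomputable def sn (k r : ℝ) : ℝ :=
  if k = 0 then r else Real.sinh (k * r) / k

/-- area of the unit `n`-sphere, `s_n = (n+1) ω_{n+1}`. -/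
noncomputable def sphArea (n : ℕ) : ℝ := (n + 1 : ℝ) * unitBallVol (n + 1)

theorem A_zk_eq : A.zk = zk := rfl

theorem A_snk_eq : A.snk = sn := rfl

theorem A_sphArea_eq : A.sphArea = sphArea := rfl

/-- model area of the boundary of a geodesic ball of radius `r` (boundary dimension `n`). -/
noncomputable def modelA (n : ℕ) (k r : ℝ) : ℝ := sphArea n * sn k r ^ n

/-- model volume of a geodesic ball of radius `r` (dimension `n+1`). -/
noncomputable def modelV (n : ℕ) (k r : ℝ) : ℝ := sphArea n * ∫ t in (0 : ℝ)..r, sn k t ^ n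

/-- Geodesic spaces satisfying the `CAT(0)` and the `CAT(-k²)` inequality, with a choice of
geodesics (`geo x y s`, `s ∈ [0,1]`, constant speed). -/
structure CATk (k : ℝ) (X : Type u) [MetricSpace X] where
  geo : X → X → ℝ → X
  geo_zero : ∀ x y, geo x y 0 = x
  geo_one : ∀ x y, geo x y 1 = y
  dist_geo : ∀ x y, ∀ s ∈ Icc (0 : ℝ) 1, ∀ t ∈ Icc (0 : ℝ) 1,
    dist (geo x y s) (geo x y t) = |s - t| * dist x y
  cat0 : ∀ p x y, ∀ s ∈ Icc (0 : ℝ) 1,
    dist p (geo x y s) ^ 2 ≤ (1 - s) * dist p x ^ 2 + s * dist p y ^ 2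
      - s * (1 - s) * dist x y ^ 2
  catk : ∀ p x y, ∀ s ∈ Icc (0 : ℝ) 1,
    Real.sinh (k * dist x y) * Real.cosh (k * dist p (geo x y s)) ≤
      Real.sinh ((1 - s) * (k * dist x y)) * Real.cosh (k * dist p x)
        + Real.sinh (s * (k * dist x y)) * Real.cosh (k * dist p y)

/-- `K` is closed under the chosen geodesics. -/
def CATk.IsConv {k : ℝ} {X : Type u} [MetricSpace X] (C : CATk k X) (K : Set X) : Prop :=
  ∀ x ∈ K, ∀ y ∈ K, ∀ s ∈ Icc (0 : ℝ) 1, C.geo x y s ∈ K

/-- The infinitesimal contraction property used for the centre inequality. -/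
def HasContr (k : ℝ) (K : Type u) [MetricSpace K] : Prop :=
  ∀ x y' : K, ∃ C : ℝ, ∃ σ₀ > (0 : ℝ), ∀ σ ∈ Ioo (0 : ℝ) σ₀, ∃ xσ : K, ∀ y : K,
    zk k (dist xσ y) ≤ (1 - σ * (1 + k ^ 2 * zk k (dist x y'))) * zk k (dist x y)
      + σ * zk k (dist y' y) - σ * zk k (dist x y') + C * σ ^ 2

/-- `f` is Lipschitz (some constant). -/
def IsLip {K : Type u} [MetricSpace K] (f : K → ℝ) : Prop := ∃ L : ℝ≥0, LipschitzWith L f

variable {X : Type u} [MetricSpace X] [MeasurableSpace X]

/-- Integral currents supported in `K`. -/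
structure IsInt {n : ℕ} (K : Set X) (S : Functional X (n + 1)) : Prop where
  cur : IsCurrent S
  rect : IsIntegerRectifiable S
  bdcur : IsCurrent (bd S)
  supp : IsSupportedIn K S

/-- Integral cycles of dimension `m+1` supported in `K`. -/
structure IsCyc {m : ℕ} (K : Set X) (T : Functional X (m + 1)) : Prop where
  int : IsInt K T
  cyc : bd T = 0

end Crest.Agent.R241
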