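import Crest.Agent.R241.D3b
import Crest.Agent.R241.Defs

/-!
R241, block D3c: consequences for the exponential map: expansion, Gauss lemma, Hessian comparison.
-/

set_option autoImplicit false

open Set Filter Topology
open scoped ContDiff RealInnerProductSpace
open Crest.GeometryTopology.Submanifold
open Crest.Agent.R241.DDefs
open Crest.Agent.R241.D2
open Crest.Agent.R241.D3a
open Crest.Agent.R241.D3b

noncomputable section

namespace Crest.Agent.R241.D3c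

variable {n N : ℕ} {κ : ℝ} {S : Set (Euc N)} (G : Geo n N κ S) {p v w : Euc N}

lemma contDiffAt_Exp' (hp : p ∈ S) (hv : v ∈ G.T p) : ContDiffAt ℝ ∞ (Exp G p) v := by
  have h2 : ContDiffAt ℝ ∞ (fun u : Euc N => (p, u)) v := by fun_prop
  exact ContDiffAt.comp (g := fun q : Euc N × Euc N => Exp G q.1 q.2) v
    (contDiffAt_Exp G hp hv) h2

lemma contDiffAt_Vel' (hp : p ∈ S) (hv : v ∈ G.T p) : ContDiffAt ℝ ∞ (Vel G p) v := by
  have h2 : ContDiffAt ℝ ∞ (fun u : Euc N => (p, u)) v := by fun_prop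
  exact ContDiffAt.comp (g := fun q : Euc N × Euc N => Vel G q.1 q.2) v
    (contDiffAt_Vel G hp hv) h2

lemma hasDerivAt_line {g : Euc N → Euc N} (hg : DifferentiableAt ℝ g v) :
    HasDerivAt (fun s : ℝ => g (v + s • w)) (fderiv ℝ g v w) 0 := by
  have h1 : HasDerivAt (fun r : ℝ => v + r • w) w 0 := by
    simpa using ((hasDerivAt_id (0 : ℝ)).smul_const w).const_add v
  have : HasFDerivAt g (fderiv ℝ g v) (v + (0 : ℝ) • w) := by simpa using hg.hasFDerivAt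
  exact this.comp_hasDerivAt (0 : ℝ) h1

lemma fderiv_Exp (hp : p ∈ S) (hv : v ∈ G.T p) (hw : w ∈ G.T p) :
    fderiv ℝ (Exp G p) v w = J G p v w 1 := by
  have h1 := hasDerivAt_line (w := w) ((contDiffAt_Exp' G hp hv).differentiableAt (by simp))
  have h2 := hasDerivAt_s (q := ((0 : ℝ), (1 : ℝ)))
    ((contDiff_al G hp hv hw).differentiable (by simp) ((0 : ℝ), (1 : ℝ)))
  exact h1.unique h2

lemma fderiv_Vel (hp : p ∈ S) (hv : v ∈ G.T p) (hw : w ∈ G.T p) :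
    fderiv ℝ (Vel G p) v w = J' G p v w 1 := by
  rw [J'_eq G hp hv hw]
  have h1 := hasDerivAt_line (w := w) ((contDiffAt_Vel' G hp hv).differentiableAt (by simp))
  have h2 := hasDerivAt_s (q := ((0 : ℝ), (1 : ℝ)))
    ((contDiff_ta G hp hv hw).differentiable (by simp) ((0 : ℝ), (1 : ℝ)))
  exact h1.unique h2

lemma al_zero_one : al G p v w (0, 1) = Exp G p v := by simp [al, Exp]

lemma ta_zero_one : ta G p v w (0, 1) = Vel G p v := by simp [ta, Vel]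

lemma fderiv_Exp_mem (hp : p ∈ S) (hv : v ∈ G.T p) (hw : w ∈ G.T p) :
    fderiv ℝ (Exp G p) v w ∈ G.T (Exp G p v) := by
  rw [fderiv_Exp G hp hv hw, ← al_zero_one G (w := w)]
  exact J_mem G hp hv hw 1

/-- Gauss lemma -/
theorem gauss (hp : p ∈ S) (hv : v ∈ G.T p) (hw : w ∈ G.T p) :
    ⟪fderiv ℝ (Exp G p) v w, Vel G p v⟫ = ⟪v, w⟫ := by
  have := inner_J_ta G hp hv hw 1
  rwa [ta_zero_one, one_mul, ← fderiv_Exp G hp hv hw] at this

lemma fderiv_Exp_self (hp : p ∈ S) (hv : v ∈ G.T p) :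
    fderiv ℝ (Exp G p) v v = Vel G p v := by
  have h1 := hasDerivAt_line (w := v) ((contDiffAt_Exp' G hp hv).differentiableAt (by simp))
  have h2 := hda_fst (hasDerivAt_fl G (complete G (q := (p, v)) ⟨hp, hv⟩ (1 + 0)))
  have h3 : HasDerivAt (fun s : ℝ => 1 + s) 1 0 := (hasDerivAt_id (0 : ℝ)).const_add 1
  have h4 := h2.scomp (0 : ℝ) h3
  have h5 : (fun s : ℝ => Exp G p (v + s • v)) =
      (fun s => (fl G ((p, v), s)).1) ∘ fun s : ℝ => 1 + s := by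
    ext1 s
    have : v + s • v = (1 + s) • v := by rw [add_smul, one_smul]
    rw [this, Exp_smul G hp hv]
    rfl
  rw [h5] at h1
  have h6 := h1.unique h4
  rw [h6]
  simp [X, Vel]

lemma fderiv_Exp_zero (hp : p ∈ S) (hw : w ∈ G.T p) : fderiv ℝ (Exp G p) 0 w = w := by
  have h1 := hasDerivAt_line (v := 0) (w := w)
    ((contDiffAt_Exp' G hp (G.T p).zero_mem).differentiableAt (by simp))
  have h2 := hda_fst (hasDerivAt_fl G (complete G (q := (p, w)) ⟨hp, hw⟩ 0))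
  have h5 : (fun s : ℝ => Exp G p (0 + s • w)) = fun s => (fl G ((p, w), s)).1 := by
    ext1 s
    rw [zero_add, Exp_smul G hp hw]
  rw [h5] at h1
  have h6 := h1.unique h2
  rw [h6]
  simp [X, fl_zero]

section comparison

variable {k : ℝ} (hk : 0 ≤ k) (G : Geo n N (-(k ^ 2)) S)
include hk

/-- The exponential map is expanding. -/
theorem le_norm_fderiv_Exp (hp : p ∈ S) (hv : v ∈ G.T p) (hw : w ∈ G.T p) :
    ‖w‖ ≤ ‖fderiv ℝ (Exp G p) v w‖ := by
  have h := (jdata hk G hp hv hw).le_norm (by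
    simp only [J'_zero G hp hv hw, ta_zero, zero_smul, add_zero]
    exact real_inner_comm _ _) one_pos
  rwa [J'_zero G hp hv hw, one_mul, ← fderiv_Exp G hp hv hw] at h

/-- Hessian comparison at one point. -/
theorem hess_ge (hp : p ∈ S) (hv : v ∈ G.T p) (hw : w ∈ G.T p) :
    ⟪v, w⟫ / ‖v‖ ^ 2 * ⟪v, w⟫ + cth (k * ‖v‖) 1 *
      (‖fderiv ℝ (Exp G p) v w‖ ^ 2 - ⟪v, w⟫ / ‖v‖ ^ 2 * ⟪v, w⟫) ≤
      ⟪fderiv ℝ (Vel G p) v w, fderiv ℝ (Exp G p) v w⟫ := by
  have h := (jdata hk G hp hv hw).Q_nonneg one_pos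
  rw [fderiv_Exp G hp hv hw, fderiv_Vel G hp hv hw]
  unfold Y at h
  simp only [one_pow, one_mul] at h
  linarith

end comparison

section curves

/-- first derivative of `|c|²/2` in terms of `σ = Exp p ∘ c`. -/
lemma hasDerivAt_sigma {c : ℝ → Euc N} {c1 : Euc N} {s : ℝ} (hp : p ∈ S) (hc : c s ∈ G.T p)
    (h1 : HasDerivAt c c1 s) :
    HasDerivAt (fun s => Exp G p (c s)) (fderiv ℝ (Exp G p) (c s) c1) s :=
  ((contDiffAt_Exp' G hp hc).differentiableAt (by simp)).hasFDerivAt.comp_hasDerivAt s h1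

/-- The second derivative of `|c|²/2` along a geodesic `σ = Exp p ∘ c`. -/
theorem hasDerivAt_e {c c' : ℝ → Euc N} {σ'' : Euc N} {s : ℝ} (hp : p ∈ S)
    (hc : ∀ᶠ r in 𝓝 s, c r ∈ G.T p) (hc' : ∀ᶠ r in 𝓝 s, c' r ∈ G.T p)
    (h1 : HasDerivAt c (c' s) s)
    (h3 : HasDerivAt (fun r => fderiv ℝ (Exp G p) (c r) (c' r)) σ'' s)
    (hn : G.P (Exp G p (c s)) σ'' = 0) :
    HasDerivAt (fun r => ⟪c r, c' r⟫)
      ⟪fderiv ℝ (Vel G p) (c s) (c' s), fderiv ℝ (Exp G p) (c s) (c' s)⟫ s := by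
  have hcs := hc.self_of_nhds
  have hv : HasDerivAt (fun r => Vel G p (c r)) (fderiv ℝ (Vel G p) (c s) (c' s)) s :=
    ((contDiffAt_Vel' G hp hcs).differentiableAt (by simp)).hasFDerivAt.comp_hasDerivAt s h1
  have h4 := h3.inner ℝ hv
  have h5 : (fun r => ⟪fderiv ℝ (Exp G p) (c r) (c' r), Vel G p (c r)⟫) =ᶠ[𝓝 s]
      fun r => ⟪c r, c' r⟫ := by
    filter_upwards [hc, hc'] with r h6 h7
    exact gauss G hp h6 h7
  have h6 := h4.congr_of_eventuallyEq h5.symm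
  refine h6.congr_deriv ?_
  have hx := Exp_mem G hp hcs
  have h7 : ⟪σ'', Vel G p (c s)⟫ = 0 := by
    rw [← (P_eq_self G hx).1 (Vel_mem G hp hcs), ← inner_P_left G hx, hn, inner_zero_left]
  rw [h7, add_zero, real_inner_comm]

lemma zk_deriv {k r : ℝ} : HasDerivAt (zk k) (sn k r) r := by
  by_cases h : k = 0
  · subst h
    have h0 : zk 0 = fun r => r ^ 2 / 2 := by ext r; simp [zk]
    have h1 : sn 0 r = r := by simp [sn]
    rw [h0, h1]
    exact ((hasDerivAt_pow 2 r).div_const 2).congr_deriv (by norm_num)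
  · have h0 : zk k = fun r => (Real.cosh (k * r) - 1) / k ^ 2 := by ext r; simp [zk, h]
    have h1 : sn k r = Real.sinh (k * r) / k := by simp [sn, h]
    rw [h0, h1]
    have h2 : HasDerivAt (fun r => k * r) k r := by simpa using (hasDerivAt_id r).const_mul k
    refine ((h2.cosh.sub_const 1).div_const (k ^ 2)).congr_deriv ?_
    field_simp

lemma sn_deriv {k r : ℝ} : HasDerivAt (sn k) (Real.cosh (k * r)) r := by
  have : sn k = snh k := by
    ext r; simp [sn, snh]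
  rw [this]
  exact hasDerivAt_snh

lemma one_add_zk {k r : ℝ} : 1 + k ^ 2 * zk k r = Real.cosh (k * r) := by
  by_cases h : k = 0
  · subst h; simp [zk]
  · simp only [zk, h, if_false]; field_simp; ring

lemma sn_div {k ρ : ℝ} (hρ : 0 < ρ) : sn k ρ / ρ = snh (k * ρ) 1 := by
  by_cases h : k = 0
  · subst h; simp [sn, snh, hρ.ne']
  · simp only [sn, snh, h, if_false, mul_eq_zero, hρ.ne', or_self, mul_one]
    field_simp

/-- Hessian comparison for `z_p` along a geodesic not passing through `p` at time `s`. -/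
theorem hess_zk {k : ℝ} (hk : 0 ≤ k) (G : Geo n N (-(k ^ 2)) S)
    {c c' : ℝ → Euc N} {σ'' : Euc N} {s : ℝ} (hp : p ∈ S)
    (hc : ∀ᶠ r in 𝓝 s, c r ∈ G.T p) (hc' : ∀ᶠ r in 𝓝 s, c' r ∈ G.T p)
    (h1 : ∀ᶠ r in 𝓝 s, HasDerivAt c (c' r) r)
    (h3 : HasDerivAt (fun r => fderiv ℝ (Exp G p) (c r) (c' r)) σ'' s)
    (hn : G.P (Exp G p (c s)) σ'' = 0) (h0 : c s ≠ 0) :
    (∀ᶠ r in 𝓝 s, HasDerivAt (fun r => zk k ‖c r‖) (sn k ‖c r‖ * (⟪c r, c' r⟫ / ‖c r‖)) r) ∧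
    ∃ f2 : ℝ, HasDerivAt (fun r => sn k ‖c r‖ * (⟪c r, c' r⟫ / ‖c r‖)) f2 s ∧
      ‖fderiv ℝ (Exp G p) (c s) (c' s)‖ ^ 2 * (1 + k ^ 2 * zk k ‖c s‖) ≤ f2 := by
  have hnorm : ∀ r, c r ≠ 0 → HasDerivAt c (c' r) r →
      HasDerivAt (fun r => ‖c r‖) (⟪c r, c' r⟫ / ‖c r‖) r := by
    intro r hr hd
    have h2 := hd.norm_sq
    have h4 := h2.sqrt (pow_ne_zero 2 (norm_ne_zero_iff.2 hr))
    have h5 : (fun y => √(‖c y‖ ^ 2)) = fun y => ‖c y‖ := by
      ext y; exact Real.sqrt_sq (norm_nonneg _)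
    rw [h5] at h4
    refine h4.congr_deriv ?_
    rw [Real.sqrt_sq (norm_nonneg _)]
    have : ‖c r‖ ≠ 0 := norm_ne_zero_iff.2 hr
    field_simp
  have hcs := hc.self_of_nhds
  have h1s := h1.self_of_nhds
  have hne : ∀ᶠ r in 𝓝 s, c r ≠ 0 := h1s.continuousAt.eventually_ne h0
  refine ⟨?_, ?_⟩
  · filter_upwards [hne, h1] with r hr hd
    exact zk_deriv.comp r (hnorm r hr hd)
  · have hρ : 0 < ‖c s‖ := norm_pos_iff.2 h0
    have hE := hasDerivAt_e G hp hc hc' h1s h3 hn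
    have hN := hnorm s h0 h1s
    have h4 := (sn_deriv (k := k)).comp s hN
    have h5 := hE.div hN hρ.ne'
    have h6 := h4.mul h5
    refine ⟨_, h6, ?_⟩
    have hH := hess_ge hk G hp hcs hc'.self_of_nhds
    set E1 := ⟪c s, c' s⟫ with hE1
    set E2 := ⟪fderiv ℝ (Vel G p) (c s) (c' s), fderiv ℝ (Exp G p) (c s) (c' s)⟫ with hE2
    set ρ := ‖c s‖ with hρdef
    set W := ‖fderiv ℝ (Exp G p) (c s) (c' s)‖ ^ 2 with hW
    have hμ : 0 ≤ k * ρ := mul_nonneg hk hρ.le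
    have hs1 := snh_mul_cth hμ one_pos
    have hs0 : 0 < snh (k * ρ) 1 := snh_pos hμ one_pos
    rw [mul_one] at hs1
    have h7 := mul_le_mul_of_nonneg_left hH hs0.le
    rw [one_add_zk]
    have h8 : Real.cosh (k * ρ) * (E1 / ρ) * (E1 / ρ) + sn k ρ * ((E2 * ρ - E1 * (E1 / ρ)) / ρ ^ 2)
        = Real.cosh (k * ρ) * (E1 / ρ ^ 2 * E1) +
          snh (k * ρ) 1 * (E2 - E1 / ρ ^ 2 * E1) := by
      rw [← sn_div hρ]
      field_simp
    have h9 : W * Real.cosh (k * ρ) ≤ Real.cosh (k * ρ) * (E1 / ρ ^ 2 * E1) +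
          snh (k * ρ) 1 * (E2 - E1 / ρ ^ 2 * E1) := by
      rw [← hs1]
      nlinarith [h7]
    show W * Real.cosh (k * ρ) ≤ Real.cosh (k * ρ) * (E1 / ρ) * (E1 / ρ) +
      sn k ρ * ((E2 * ρ - E1 * (E1 / ρ)) / ρ ^ 2)
    rw [h8]
    exact h9

end curves

end Crest.Agent.R241.D3c
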