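import Mathlib

/-!
R241, block D3a: the scalar comparison argument for Jacobi fields (no geometry).
-/

set_option autoImplicit false

open Set Filter Topology
open scoped RealInnerProductSpace

noncomputable section

namespace Crest.Agent.R241.D3a

/-- `μ coth (μ t)`, resp. `1/t` for `μ = 0`. -/
def cth (μ t : ℝ) : ℝ := if μ = 0 then 1 / t else μ * Real.cosh (μ * t) / Real.sinh (μ * t)

/-- `sinh (μ t)/μ`, resp. `t` for `μ = 0`. -/
def snh (μ t : ℝ) : ℝ := if μ = 0 then t else Real.sinh (μ * t) / μ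

lemma sinh_mul_pos {μ t : ℝ} (hμ : 0 < μ) (ht : 0 < t) : 0 < Real.sinh (μ * t) :=
  Real.sinh_pos_iff.2 (mul_pos hμ ht)

lemma snh_pos {μ t : ℝ} (hμ : 0 ≤ μ) (ht : 0 < t) : 0 < snh μ t := by
  unfold snh
  split_ifs with h
  · exact ht
  · have hμ' : 0 < μ := lt_of_le_of_ne hμ (Ne.symm h)
    exact div_pos (sinh_mul_pos hμ' ht) hμ'

lemma le_snh {μ t : ℝ} (hμ : 0 ≤ μ) (ht : 0 ≤ t) : t ≤ snh μ t := by
  unfold snh
  split_ifs with h
  · exact le_rfl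
  · have hμ' : 0 < μ := lt_of_le_of_ne hμ (Ne.symm h)
    rw [le_div_iff₀ hμ', mul_comm]
    exact Real.self_le_sinh_iff.2 (mul_nonneg hμ ht)

lemma cth_nonneg {μ t : ℝ} (hμ : 0 ≤ μ) (ht : 0 < t) : 0 ≤ cth μ t := by
  unfold cth
  split_ifs with h
  · positivity
  · have hμ' : 0 < μ := lt_of_le_of_ne hμ (Ne.symm h)
    exact div_nonneg (mul_nonneg hμ (Real.cosh_pos _).le) (sinh_mul_pos hμ' ht).le

lemma cth_le {μ t : ℝ} (hμ : 0 ≤ μ) (ht : 0 < t) : cth μ t ≤ μ + 1 / t := by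
  unfold cth
  split_ifs with h
  · linarith
  · have hμ' : 0 < μ := lt_of_le_of_ne hμ (Ne.symm h)
    have hs := sinh_mul_pos hμ' ht
    rw [div_le_iff₀ hs]
    set x := μ * t with hx
    have hx0 : 0 < x := mul_pos hμ' ht
    have h1 : x ≤ Real.sinh x := Real.self_le_sinh_iff.2 hx0.le
    have h2 : Real.cosh x - Real.sinh x = Real.exp (-x) := Real.cosh_sub_sinh x
    have h3 : Real.exp (-x) ≤ 1 := Real.exp_le_one_iff.2 (by linarith)
    have h4 : 0 < Real.exp (-x) := Real.exp_pos _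
    have h5 : (μ + 1 / t) * Real.sinh x = (x * Real.sinh x + Real.sinh x) / t := by
      rw [hx]; field_simp
    rw [h5, le_div_iff₀ ht]
    have h6 : μ * Real.cosh x * t = x * Real.cosh x := by rw [hx]; ring
    rw [h6]
    nlinarith

lemma hasDerivAt_snh {μ t : ℝ} : HasDerivAt (snh μ) (Real.cosh (μ * t)) t := by
  by_cases h : μ = 0
  · subst h
    have h0 : snh 0 = fun t => t := by ext t; simp [snh]
    rw [h0, zero_mul, Real.cosh_zero]
    exact hasDerivAt_id' t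
  · have h0 : snh μ = fun t => Real.sinh (μ * t) / μ := by ext t; simp [snh, h]
    have h1 : HasDerivAt (fun t => μ * t) μ t := by simpa using (hasDerivAt_id t).const_mul μ
    have h2 := h1.sinh.div_const μ
    rw [h0]
    exact h2.congr_deriv (by rw [mul_div_assoc, div_self h, mul_one])

lemma snh_mul_cth {μ t : ℝ} (hμ : 0 ≤ μ) (ht : 0 < t) :
    snh μ t * cth μ t = Real.cosh (μ * t) := by
  unfold snh cth
  split_ifs with h
  · rw [h]; field_simp; simp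
  · have hμ' : 0 < μ := lt_of_le_of_ne hμ (Ne.symm h)
    have hs := (sinh_mul_pos hμ' ht).ne'
    rw [div_mul_div_comm, mul_comm (Real.sinh (μ * t)), mul_div_mul_right _ _ hs,
      mul_div_cancel_left₀ _ h]

lemma hasDerivAt_cth {μ t : ℝ} (hμ : 0 ≤ μ) (ht : 0 < t) :
    HasDerivAt (cth μ) (μ ^ 2 - cth μ t ^ 2) t := by
  by_cases h : μ = 0
  · subst h
    have h1 : cth 0 = fun t => t⁻¹ := by ext t; simp [cth]
    rw [h1]
    exact (hasDerivAt_inv ht.ne').congr_deriv (by simp)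
  · have hμ' : 0 < μ := lt_of_le_of_ne hμ (Ne.symm h)
    have hs := (sinh_mul_pos hμ' ht).ne'
    have h0 : cth μ = fun t => μ * Real.cosh (μ * t) / Real.sinh (μ * t) := by
      ext t; simp [cth, h]
    have h1 : HasDerivAt (fun t => μ * t) μ t := by simpa using (hasDerivAt_id t).const_mul μ
    have h2 := (h1.cosh.const_mul μ).div h1.sinh hs
    rw [h0]
    refine h2.congr_deriv ?_
    simp only
    rw [div_eq_iff (pow_ne_zero 2 hs), sub_mul, div_pow, div_mul_cancel₀ _ (pow_ne_zero 2 hs)]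
    ring

variable {E : Type*} [NormedAddCommGroup E] [InnerProductSpace ℝ E]

/-- The data along one geodesic. -/
structure JData (k ℓ c r : ℝ) (J J' A T : ℝ → E) (F : ℝ → ℝ) : Prop where
  hk : 0 ≤ k
  hℓ : 0 ≤ ℓ
  hr : r * ℓ ^ 2 = c
  hJ : ∀ t, HasDerivAt J (J' t) t
  hF : ∀ t, HasDerivAt (fun t => ⟪J' t, J t⟫) (F t) t
  hge : ∀ t, ‖A t‖ ^ 2 + k ^ 2 * (ℓ ^ 2 * ‖J t‖ ^ 2 - ⟪J t, T t⟫ ^ 2) ≤ F t
  hA1 : ∀ t, ⟪A t, J t⟫ = ⟪J' t, J t⟫
  hA2 : ∀ t, ⟪A t, T t⟫ = c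
  hJT : ∀ t, ⟪J t, T t⟫ = t * c
  hT : ∀ t, ‖T t‖ = ℓ
  hJ0 : J 0 = 0

namespace JData

variable {k ℓ c r : ℝ} {J J' A T : ℝ → E} {F : ℝ → ℝ} (H : JData k ℓ c r J J' A T F)
include H

/-- the transversal part -/
lemma normB (t : ℝ) : ‖J t - (t * r) • T t‖ ^ 2 = ‖J t‖ ^ 2 - t ^ 2 * (r * c) := by
  rw [norm_sub_sq_real, inner_smul_right, H.hJT, norm_smul, mul_pow, H.hT, Real.norm_eq_abs,
    sq_abs, ← H.hr]
  ring

lemma normA (t : ℝ) : ‖A t - r • T t‖ ^ 2 = ‖A t‖ ^ 2 - r * c := by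
  rw [norm_sub_sq_real, inner_smul_right, H.hA2, norm_smul, mul_pow, H.hT, Real.norm_eq_abs,
    sq_abs, ← H.hr]
  ring

lemma innerAB (t : ℝ) : ⟪A t - r • T t, J t - (t * r) • T t⟫ = ⟪J' t, J t⟫ - t * (r * c) := by
  rw [inner_sub_left, inner_sub_right, inner_sub_right, inner_smul_right, inner_smul_left,
    inner_smul_left, inner_smul_right, H.hA1, H.hA2, real_inner_comm (J t) (T t), H.hJT,
    real_inner_self_eq_norm_sq, H.hT, ← H.hr]
  simp
  ring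

/-- `Y = |J^⊥|²` -/
def _root_.Crest.Agent.R241.D3a.Y (J : ℝ → E) (r c t : ℝ) : ℝ := ‖J t‖ ^ 2 - t ^ 2 * (r * c)

lemma Y_nonneg (t : ℝ) : 0 ≤ Y J r c t := by
  unfold Y; rw [← H.normB]; positivity

lemma hasDerivAt_Y (t : ℝ) : HasDerivAt (Y J r c) (2 * (⟪J' t, J t⟫ - t * (r * c))) t := by
  unfold Y
  have h1 := (H.hJ t).norm_sq
  have h2 : HasDerivAt (fun t : ℝ => t ^ 2 * (r * c)) (2 * t * (r * c)) t := by
    simpa using (hasDerivAt_pow 2 t).mul_const (r * c)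
  refine (h1.sub h2).congr_deriv ?_
  rw [real_inner_comm]; ring

lemma Y_zero : Y J r c 0 = 0 := by simp [Y, H.hJ0]

/-- the monotone quantity -/
def _root_.Crest.Agent.R241.D3a.Q (J J' : ℝ → E) (k ℓ r c t : ℝ) : ℝ :=
  ⟪J' t, J t⟫ - t * (r * c) - cth (k * ℓ) t * Y J r c t

lemma hasDerivAt_Q {t : ℝ} (ht : 0 < t) : ∃ Q', 0 ≤ Q' ∧ HasDerivAt (Q J J' k ℓ r c) Q' t := by
  have hμ : 0 ≤ k * ℓ := mul_nonneg H.hk H.hℓ
  have h1 := H.hF t
  have h2 : HasDerivAt (fun t : ℝ => t * (r * c)) (r * c) t := by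
    simpa using (hasDerivAt_id t).mul_const (r * c)
  have h3 := (hasDerivAt_cth hμ ht).mul (H.hasDerivAt_Y t)
  have h4 := (h1.sub h2).sub h3
  refine ⟨_, ?_, h4⟩
  have hge := H.hge t
  rw [H.hJT] at hge
  set a := cth (k * ℓ) t
  have key : 0 ≤ ‖(A t - r • T t) - a • (J t - (t * r) • T t)‖ ^ 2 := by positivity
  rw [norm_sub_sq_real, inner_smul_right, norm_smul, mul_pow, H.normA, H.normB, H.innerAB,
    Real.norm_eq_abs, sq_abs] at key
  have hr := H.hr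
  have e1 : k ^ 2 * (ℓ ^ 2 * ‖J t‖ ^ 2 - (t * c) ^ 2) =
      (k * ℓ) ^ 2 * (‖J t‖ ^ 2 - t ^ 2 * (r * c)) := by
    have : c ^ 2 = ℓ ^ 2 * (r * c) := by rw [← hr]; ring
    rw [mul_pow t c, this]; ring
  rw [e1] at hge
  unfold Y
  linarith [key, hge]

lemma tendsto_Q : Tendsto (Q J J' k ℓ r c) (𝓝[>] 0) (𝓝 0) := by
  have hμ : 0 ≤ k * ℓ := mul_nonneg H.hk H.hℓ
  have h1 : Tendsto (fun t => ⟪J' t, J t⟫ - t * (r * c)) (𝓝[>] 0) (𝓝 0) := by
    have h2 : ContinuousAt (fun t => ⟪J' t, J t⟫ - t * (r * c)) 0 :=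
      (H.hF 0).continuousAt.sub (by fun_prop)
    have h3 := h2.tendsto.mono_left (nhdsWithin_le_nhds (s := Ioi 0))
    simpa [H.hJ0] using h3
  have h4 : Tendsto (fun t => cth (k * ℓ) t * Y J r c t) (𝓝[>] 0) (𝓝 0) := by
    have h5 : Tendsto (fun t => t⁻¹ * Y J r c t) (𝓝[>] 0) (𝓝 0) := by
      have h6 := (H.hasDerivAt_Y 0).tendsto_slope_zero_right
      simpa [H.Y_zero, H.hJ0] using h6
    have h7 : Tendsto (fun t => (k * ℓ) * Y J r c t) (𝓝[>] 0) (𝓝 0) := by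
      have h8 := ((H.hasDerivAt_Y 0).continuousAt.tendsto.mono_left
        (nhdsWithin_le_nhds (s := Ioi 0))).const_mul (k * ℓ)
      simpa [H.Y_zero] using h8
    have h9 := h7.add h5
    rw [add_zero] at h9
    refine squeeze_zero' ?_ ?_ h9
    · filter_upwards [self_mem_nhdsWithin] with t ht
      exact mul_nonneg (cth_nonneg hμ ht) (H.Y_nonneg t)
    · filter_upwards [self_mem_nhdsWithin] with t ht
      have := mul_le_mul_of_nonneg_right (cth_le hμ ht) (H.Y_nonneg t)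
      refine this.trans (le_of_eq ?_)
      rw [one_div]; ring
  have h := h1.sub h4
  rw [sub_zero] at h
  exact h

lemma monotoneOn_Q : MonotoneOn (Q J J' k ℓ r c) (Ioi 0) := by
  apply monotoneOn_of_deriv_nonneg (convex_Ioi 0)
  · intro t ht
    obtain ⟨Q', -, h⟩ := H.hasDerivAt_Q ht
    exact h.continuousAt.continuousWithinAt
  · intro t ht
    rw [interior_Ioi] at ht
    obtain ⟨Q', -, h⟩ := H.hasDerivAt_Q ht
    exact h.differentiableAt.differentiableWithinAt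
  · intro t ht
    rw [interior_Ioi] at ht
    obtain ⟨Q', h0, h⟩ := H.hasDerivAt_Q ht
    rw [h.deriv]; exact h0

/-- Hessian comparison: `⟨J', J⟩ ≥ (t c²/ℓ²) + μ coth (μ t) (|J|² - t² c²/ℓ²)`. -/
theorem Q_nonneg {t : ℝ} (ht : 0 < t) :
    cth (k * ℓ) t * Y J r c t ≤ ⟪J' t, J t⟫ - t * (r * c) := by
  have h1 : ∀ᶠ s in 𝓝[>] (0 : ℝ), Q J J' k ℓ r c s ≤ Q J J' k ℓ r c t := by
    have : Ioo (0 : ℝ) t ∈ 𝓝[>] (0 : ℝ) := Ioo_mem_nhdsGT ht
    filter_upwards [this] with s hs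
    exact H.monotoneOn_Q hs.1 ht hs.2.le
  have h2 := le_of_tendsto H.tendsto_Q h1
  unfold Q at h2
  linarith

/-- `|J^⊥|²/sn²` is nondecreasing. -/
theorem monotoneOn_ratio : MonotoneOn (fun t => Y J r c t / snh (k * ℓ) t ^ 2) (Ioi 0) := by
  have hμ : 0 ≤ k * ℓ := mul_nonneg H.hk H.hℓ
  have hder : ∀ t ∈ Ioi (0 : ℝ), ∃ R', 0 ≤ R' ∧
      HasDerivAt (fun t => Y J r c t / snh (k * ℓ) t ^ 2) R' t := by
    intro t ht
    have hs := snh_pos hμ ht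
    have h1 := (H.hasDerivAt_Y t).div ((hasDerivAt_snh (μ := k * ℓ) (t := t)).pow 2)
      (pow_ne_zero 2 hs.ne')
    refine ⟨_, ?_, h1⟩
    apply div_nonneg _ (by positivity)
    have h2 := H.Q_nonneg ht
    have h3 := snh_mul_cth hμ ht
    have h4 : (2 : ℝ) * (⟪J' t, J t⟫ - t * (r * c)) * snh (k * ℓ) t ^ 2 -
        Y J r c t * (↑(2 : ℕ) * snh (k * ℓ) t ^ (2 - 1) * Real.cosh (k * ℓ * t)) =
        2 * snh (k * ℓ) t ^ 2 * ((⟪J' t, J t⟫ - t * (r * c)) - cth (k * ℓ) t * Y J r c t) := by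
      rw [← h3]
      norm_num
      ring
    have h5 : 0 ≤ 2 * snh (k * ℓ) t ^ 2 *
        ((⟪J' t, J t⟫ - t * (r * c)) - cth (k * ℓ) t * Y J r c t) :=
      mul_nonneg (by positivity) (by linarith)
    have h6 := h4 ▸ h5
    simpa using h6
  apply monotoneOn_of_deriv_nonneg (convex_Ioi 0)
  · intro t ht
    obtain ⟨Q', -, h⟩ := hder t ht
    exact h.continuousAt.continuousWithinAt
  · intro t ht
    rw [interior_Ioi] at ht
    obtain ⟨Q', -, h⟩ := hder t ht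
    exact h.differentiableAt.differentiableWithinAt
  · intro t ht
    rw [interior_Ioi] at ht
    obtain ⟨Q', h0, h⟩ := hder t ht
    rw [h.deriv]; exact h0

lemma tendsto_ratio :
    Tendsto (fun t => Y J r c t / snh (k * ℓ) t ^ 2) (𝓝[>] 0) (𝓝 (‖J' 0‖ ^ 2 - r * c)) := by
  have h1 : Tendsto (fun t => ‖t⁻¹ • J t‖ ^ 2 - r * c) (𝓝[>] 0) (𝓝 (‖J' 0‖ ^ 2 - r * c)) := by
    have h2 := (H.hJ 0).tendsto_slope_zero_right
    simp only [zero_add, H.hJ0, sub_zero] at h2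
    exact (h2.norm.pow 2).sub_const _
  have h3 : Tendsto (fun t => t / snh (k * ℓ) t) (𝓝[>] 0) (𝓝 1) := by
    have h4 := (hasDerivAt_snh (μ := k * ℓ) (t := 0)).tendsto_slope_zero_right
    have h0 : snh (k * ℓ) 0 = 0 := by unfold snh; split_ifs <;> simp
    simp only [zero_add, h0, sub_zero, mul_zero, Real.cosh_zero, smul_eq_mul] at h4
    have h5 := h4.inv₀ one_ne_zero
    simp only [mul_inv, inv_inv, inv_one] at h5
    refine h5.congr fun t => ?_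
    rw [div_eq_mul_inv]
  have h6 := h1.mul (h3.pow 2)
  rw [one_pow, mul_one] at h6
  refine h6.congr' ?_
  filter_upwards [self_mem_nhdsWithin] with t ht
  have ht' : (0 : ℝ) < t := ht
  unfold Y
  rw [norm_smul, mul_pow, norm_inv, Real.norm_eq_abs, abs_of_pos ht', div_pow]
  field_simp

/-- Rauch comparison. -/
theorem rauch {t : ℝ} (ht : 0 < t) :
    snh (k * ℓ) t ^ 2 * (‖J' 0‖ ^ 2 - r * c) + t ^ 2 * (r * c) ≤ ‖J t‖ ^ 2 := by
  have hμ : 0 ≤ k * ℓ := mul_nonneg H.hk H.hℓ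
  have hs := snh_pos hμ ht
  have h1 : ∀ᶠ s in 𝓝[>] (0 : ℝ), Y J r c s / snh (k * ℓ) s ^ 2 ≤
      Y J r c t / snh (k * ℓ) t ^ 2 := by
    have : Ioo (0 : ℝ) t ∈ 𝓝[>] (0 : ℝ) := Ioo_mem_nhdsGT ht
    filter_upwards [this] with s hs
    exact H.monotoneOn_ratio hs.1 ht hs.2.le
  have h2 := le_of_tendsto H.tendsto_ratio h1
  rw [le_div_iff₀ (by positivity)] at h2
  unfold Y at h2
  linarith

lemma sub_nonneg' (hw : ⟪J' 0, T 0⟫ = c) : 0 ≤ ‖J' 0‖ ^ 2 - r * c := by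
  have h : ‖J' 0 - r • T 0‖ ^ 2 = ‖J' 0‖ ^ 2 - r * c := by
    rw [norm_sub_sq_real, inner_smul_right, hw, norm_smul, mul_pow, H.hT, Real.norm_eq_abs,
      sq_abs, ← H.hr]
    ring
  rw [← h]; positivity

/-- expansion: `t |J'(0)| ≤ |J(t)|`. -/
theorem le_norm (hw : ⟪J' 0, T 0⟫ = c) {t : ℝ} (ht : 0 < t) : t * ‖J' 0‖ ≤ ‖J t‖ := by
  have hμ : 0 ≤ k * ℓ := mul_nonneg H.hk H.hℓ
  have h1 := H.rauch ht
  have h2 := H.sub_nonneg' hw
  have h3 := le_snh hμ ht.le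
  have h4 : t ^ 2 ≤ snh (k * ℓ) t ^ 2 := by gcongr
  have h5 : (t * ‖J' 0‖) ^ 2 ≤ ‖J t‖ ^ 2 := by
    have := mul_le_mul_of_nonneg_right h4 h2
    nlinarith
  exact (sq_le_sq₀ (by positivity) (norm_nonneg _)).1 h5

end JData

end Crest.Agent.R241.D3a
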