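import Crest.Agent.R241.D2
import Crest.Agent.R241.D3a

/-!
R241, block D3b: Jacobi fields of the exponential map of a closed submanifold; Gauss lemma,
Rauch comparison and Hessian comparison.
-/

set_option autoImplicit false

open Set Filter Topology
open scoped ContDiff RealInnerProductSpace
open Crest.GeometryTopology.Submanifold
open Crest.Agent.R241.DDefs
open Crest.Agent.R241.D2
open Crest.Agent.R241.D3a

noncomputable section

namespace Crest.Agent.R241.D3b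

lemma two_le : (2 : WithTop ℕ∞) ≤ ∞ := by
  show ((2 : ℕ∞) : WithTop ℕ∞) ≤ _
  exact WithTop.coe_le_coe.2 le_top

lemma min_le : minSmoothness ℝ 2 ≤ ∞ := by simpa using two_le

section surf

variable {E : Type*} [NormedAddCommGroup E] [NormedSpace ℝ E] {α : ℝ × ℝ → E}

/-- first derivative of a curve `s ↦ g (s, t)` -/
lemma hasDerivAt_s {F : Type*} [NormedAddCommGroup F] [NormedSpace ℝ F] {g : ℝ × ℝ → F}
    {q : ℝ × ℝ} (h : DifferentiableAt ℝ g q) :
    HasDerivAt (fun s => g (s, q.2)) (fderiv ℝ g q (1, 0)) q.1 := by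
  have h1 : HasDerivAt (fun s : ℝ => ((s, q.2) : ℝ × ℝ)) ((1 : ℝ), (0 : ℝ)) q.1 :=
    (hasDerivAt_id q.1).prodMk (hasDerivAt_const q.1 q.2)
  exact (h.hasFDerivAt (x := (q.1, q.2))).comp_hasDerivAt q.1 h1

lemma hasDerivAt_t {F : Type*} [NormedAddCommGroup F] [NormedSpace ℝ F] {g : ℝ × ℝ → F}
    {q : ℝ × ℝ} (h : DifferentiableAt ℝ g q) :
    HasDerivAt (fun t => g (q.1, t)) (fderiv ℝ g q (0, 1)) q.2 := by
  have h1 : HasDerivAt (fun t : ℝ => ((q.1, t) : ℝ × ℝ)) ((0 : ℝ), (1 : ℝ)) q.2 :=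
    (hasDerivAt_const q.2 q.1).prodMk (hasDerivAt_id q.2)
  exact (h.hasFDerivAt (x := (q.1, q.2))).comp_hasDerivAt q.2 h1

end surf

variable {n N : ℕ} {κ : ℝ} {S : Set (Euc N)} (G : Geo n N κ S)

/-- the tangent vectors of a surface in `S`. -/
lemma fderiv_mem {α : ℝ × ℝ → Euc N} {q : ℝ × ℝ} (hα : DifferentiableAt ℝ α q)
    (hS : ∀ᶠ q' in 𝓝 q, α q' ∈ S) (a : ℝ × ℝ) : fderiv ℝ α q a ∈ G.T (α q) := by
  have h1 : HasDerivAt (fun r : ℝ => q + r • a) a 0 := by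
    simpa using ((hasDerivAt_id (0 : ℝ)).smul_const a).const_add q
  have h2 : HasDerivAt (fun r : ℝ => α (q + r • a)) (fderiv ℝ α q a) 0 := by
    have : HasFDerivAt α (fderiv ℝ α q) (q + (0 : ℝ) • a) := by simpa using hα.hasFDerivAt
    exact this.comp_hasDerivAt (0 : ℝ) h1
  have h3 : ∀ᶠ r in 𝓝 (0 : ℝ), α (q + r • a) ∈ S := by
    have h4 : Tendsto (fun r : ℝ => q + r • a) (𝓝 0) (𝓝 q) := by
      have : Continuous (fun r : ℝ => q + r • a) := by fun_prop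
      simpa using this.tendsto 0
    exact h4.eventually hS
  have := G.deriv_mem _ _ _ h3 h2
  simpa using this

/-- the normal part of the second derivative of a surface in `S` is `II`. -/
lemma snd_deriv {α : ℝ × ℝ → Euc N} {q : ℝ × ℝ} (hα : ContDiffAt ℝ 2 α q)
    (hS : ∀ᶠ q' in 𝓝 q, α q' ∈ S) (a b : ℝ × ℝ) :
    fderiv ℝ (fderiv ℝ α) q a b = G.P (α q) (fderiv ℝ (fderiv ℝ α) q a b) +
      II G (α q) (fderiv ℝ α q a) (fderiv ℝ α q b) := by
  have hd : ∀ᶠ q' in 𝓝 q, DifferentiableAt ℝ α q' := by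
    filter_upwards [hα.eventually (by simp)] with q' h
    exact h.differentiableAt (by simp)
  have hS' : ∀ᶠ q' in 𝓝 q, ∀ᶠ q'' in 𝓝 q', α q'' ∈ S := eventually_eventually_nhds.2 hS
  have hdd : DifferentiableAt ℝ (fderiv ℝ α) q :=
    (hα.fderiv_right (m := 1) (by norm_num)).differentiableAt one_ne_zero
  have h1 : HasFDerivAt (fun q' => fderiv ℝ α q' b)
      ((fderiv ℝ (fderiv ℝ α) q).flip b) q := by
    simpa using hdd.hasFDerivAt.clm_apply (hasFDerivAt_const b q)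
  have h2 : HasFDerivAt (fun q' => G.P (α q')) ((fderiv ℝ G.P (α q)).comp (fderiv ℝ α q)) q :=
    ((differentiable_P G) (α q)).hasFDerivAt.comp q (hα.differentiableAt (by simp)).hasFDerivAt
  have h3 := h2.clm_apply h1
  have h4 : (fun q' => G.P (α q') (fderiv ℝ α q' b)) =ᶠ[𝓝 q] fun q' => fderiv ℝ α q' b := by
    filter_upwards [hd, hS'] with q' h5 h6
    exact (P_eq_self G h6.self_of_nhds).1 (fderiv_mem G h5 h6 b)
  have h5 := (h3.congr_of_eventuallyEq h4.symm).unique h1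
  have h6 := congrArg (fun L : ℝ × ℝ →L[ℝ] Euc N => L a) h5
  simp only [add_apply, ContinuousLinearMap.comp_apply,
    ContinuousLinearMap.flip_apply] at h6
  unfold II
  exact h6.symm

section variation

variable {p v w : Euc N}

/-- the geodesic variation `(s,t) ↦ exp_p (t (v + s w))` -/
def al (p v w : Euc N) (q : ℝ × ℝ) : Euc N := (fl G ((p, v + q.1 • w), q.2)).1

/-- its velocity -/
def ta (p v w : Euc N) (q : ℝ × ℝ) : Euc N := (fl G ((p, v + q.1 • w), q.2)).2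

lemma mem_TS' (hp : p ∈ S) (hv : v ∈ G.T p) (hw : w ∈ G.T p) (s : ℝ) :
    (p, v + s • w) ∈ TS G := ⟨hp, (G.T p).add_mem hv ((G.T p).smul_mem _ hw)⟩

lemma contDiff_alta (hp : p ∈ S) (hv : v ∈ G.T p) (hw : w ∈ G.T p) :
    ContDiff ℝ ∞ (fun q : ℝ × ℝ => fl G ((p, v + q.1 • w), q.2)) := by
  rw [contDiff_iff_contDiffAt]
  intro q
  have h1 := contDiffAt_fl' G (mem_TS' G hp hv hw q.1) q.2
  have h2 : ContDiffAt ℝ ∞ (fun q : ℝ × ℝ => ((p, v + q.1 • w), q.2)) q := by fun_prop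
  exact ContDiffAt.comp q h1 h2

lemma contDiff_al (hp : p ∈ S) (hv : v ∈ G.T p) (hw : w ∈ G.T p) :
    ContDiff ℝ ∞ (al G p v w) := (contDiff_alta G hp hv hw).fst

lemma contDiff_ta (hp : p ∈ S) (hv : v ∈ G.T p) (hw : w ∈ G.T p) :
    ContDiff ℝ ∞ (ta G p v w) := (contDiff_alta G hp hv hw).snd

lemma al_mem (hp : p ∈ S) (hv : v ∈ G.T p) (hw : w ∈ G.T p) (q : ℝ × ℝ) :
    al G p v w q ∈ S := (fl_mem G (mem_TS' G hp hv hw q.1) q.2).1

lemma al_zero (q : ℝ) : al G p v w (q, 0) = p := by simp [al, fl_zero]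

lemma ta_zero (s : ℝ) : ta G p v w (s, 0) = v + s • w := by simp [ta, fl_zero]

lemma hasDerivAt_al (hp : p ∈ S) (hv : v ∈ G.T p) (hw : w ∈ G.T p) (s t : ℝ) :
    HasDerivAt (fun t => al G p v w (s, t)) (ta G p v w (s, t)) t :=
  hda_fst (hasDerivAt_fl G (complete G (mem_TS' G hp hv hw s) t))

lemma hasDerivAt_ta (hp : p ∈ S) (hv : v ∈ G.T p) (hw : w ∈ G.T p) (s t : ℝ) :
    HasDerivAt (fun t => ta G p v w (s, t))
      (II G (al G p v w (s, t)) (ta G p v w (s, t)) (ta G p v w (s, t))) t :=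
  hda_snd (hasDerivAt_fl G (complete G (mem_TS' G hp hv hw s) t))

lemma fderiv_al_t (hp : p ∈ S) (hv : v ∈ G.T p) (hw : w ∈ G.T p) (q : ℝ × ℝ) :
    fderiv ℝ (al G p v w) q (0, 1) = ta G p v w q :=
  (hasDerivAt_t ((contDiff_al G hp hv hw).differentiable (by simp) q)).unique
    (hasDerivAt_al G hp hv hw q.1 q.2)

lemma diff_fderiv {F : Type*} [NormedAddCommGroup F] [NormedSpace ℝ F] {g : ℝ × ℝ → F}
    (hg : ContDiff ℝ ∞ g) : ContDiff ℝ ∞ (fderiv ℝ g) := hg.fderiv_right (by simp)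

lemma snd_al_t (hp : p ∈ S) (hv : v ∈ G.T p) (hw : w ∈ G.T p) (q a : ℝ × ℝ) :
    fderiv ℝ (fderiv ℝ (al G p v w)) q a (0, 1) = fderiv ℝ (ta G p v w) q a := by
  have hdd : DifferentiableAt ℝ (fderiv ℝ (al G p v w)) q :=
    (diff_fderiv (contDiff_al G hp hv hw)).differentiable (by simp) q
  have h1 : HasFDerivAt (fun q' => fderiv ℝ (al G p v w) q' (0, 1))
      ((fderiv ℝ (fderiv ℝ (al G p v w)) q).flip (0, 1)) q := by
    simpa using hdd.hasFDerivAt.clm_apply (hasFDerivAt_const ((0 : ℝ), (1 : ℝ)) q)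
  have h2 : (fun q' => fderiv ℝ (al G p v w) q' (0, 1)) = ta G p v w :=
    funext (fderiv_al_t G hp hv hw)
  rw [h2] at h1
  rw [h1.fderiv]
  rfl

lemma snd_al_tt (hp : p ∈ S) (hv : v ∈ G.T p) (hw : w ∈ G.T p) (q : ℝ × ℝ) :
    fderiv ℝ (fderiv ℝ (al G p v w)) q (0, 1) (0, 1) =
      II G (al G p v w q) (ta G p v w q) (ta G p v w q) := by
  rw [snd_al_t G hp hv hw]
  exact (hasDerivAt_t ((contDiff_ta G hp hv hw).differentiable (by simp) q)).unique
    (hasDerivAt_ta G hp hv hw q.1 q.2)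

lemma ta_mem (hp : p ∈ S) (hv : v ∈ G.T p) (hw : w ∈ G.T p) (q : ℝ × ℝ) :
    ta G p v w q ∈ G.T (al G p v w q) := (fl_mem G (mem_TS' G hp hv hw q.1) q.2).2

lemma norm_ta (hp : p ∈ S) (hv : v ∈ G.T p) (hw : w ∈ G.T p) (q : ℝ × ℝ) :
    ‖ta G p v w q‖ = ‖v + q.1 • w‖ := norm_fl G (mem_TS' G hp hv hw q.1) q.2

/-- Jacobi field -/
def J (p v w : Euc N) (t : ℝ) : Euc N := fderiv ℝ (al G p v w) (0, t) (1, 0)

/-- its ambient derivative -/
def J' (p v w : Euc N) (t : ℝ) : Euc N :=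
  fderiv ℝ (fderiv ℝ (al G p v w)) (0, t) (0, 1) (1, 0)

lemma symm2 (hp : p ∈ S) (hv : v ∈ G.T p) (hw : w ∈ G.T p) (q a b : ℝ × ℝ) :
    fderiv ℝ (fderiv ℝ (al G p v w)) q a b = fderiv ℝ (fderiv ℝ (al G p v w)) q b a := by
  have h := ((contDiff_al G hp hv hw).contDiffAt (x := q)).isSymmSndFDerivAt (n := ∞) min_le
  exact h.eq a b

lemma J'_eq (hp : p ∈ S) (hv : v ∈ G.T p) (hw : w ∈ G.T p) (t : ℝ) :
    J' G p v w t = fderiv ℝ (ta G p v w) (0, t) (1, 0) := by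
  unfold J'
  rw [symm2 G hp hv hw, snd_al_t G hp hv hw]

lemma hasDerivAt_J (hp : p ∈ S) (hv : v ∈ G.T p) (hw : w ∈ G.T p) (t : ℝ) :
    HasDerivAt (J G p v w) (J' G p v w t) t := by
  have hdd : DifferentiableAt ℝ (fderiv ℝ (al G p v w)) (0, t) :=
    (diff_fderiv (contDiff_al G hp hv hw)).differentiable (by simp) _
  have h1 := hasDerivAt_t hdd
  refine (h1.clm_apply (hasDerivAt_const t ((1 : ℝ), (0 : ℝ)))).congr_deriv ?_
  simp [J']

lemma J_mem (hp : p ∈ S) (hv : v ∈ G.T p) (hw : w ∈ G.T p) (t : ℝ) :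
    J G p v w t ∈ G.T (al G p v w (0, t)) :=
  fderiv_mem G ((contDiff_al G hp hv hw).differentiable (by simp) _)
    (Eventually.of_forall fun q => al_mem G hp hv hw q) _

lemma J_zero (hp : p ∈ S) (hv : v ∈ G.T p) (hw : w ∈ G.T p) : J G p v w 0 = 0 := by
  have h1 := hasDerivAt_s (q := ((0 : ℝ), (0 : ℝ)))
    ((contDiff_al G hp hv hw).differentiable (by simp) ((0 : ℝ), (0 : ℝ)))
  have h2 : (fun s : ℝ => al G p v w (s, ((0 : ℝ), (0 : ℝ)).2)) = fun _ => p := by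
    ext1 s; exact al_zero G s
  rw [h2] at h1
  exact h1.unique (hasDerivAt_const _ _)

lemma J'_zero (hp : p ∈ S) (hv : v ∈ G.T p) (hw : w ∈ G.T p) : J' G p v w 0 = w := by
  rw [J'_eq G hp hv hw]
  have h1 := hasDerivAt_s (q := ((0 : ℝ), (0 : ℝ)))
    ((contDiff_ta G hp hv hw).differentiable (by simp) ((0 : ℝ), (0 : ℝ)))
  have h2 : (fun s : ℝ => ta G p v w (s, ((0 : ℝ), (0 : ℝ)).2)) = fun s => v + s • w := by
    ext1 s; exact ta_zero G s
  rw [h2] at h1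
  refine h1.unique ?_
  simpa using ((hasDerivAt_id (0 : ℝ)).smul_const w).const_add v

lemma inner_J'_ta (hp : p ∈ S) (hv : v ∈ G.T p) (hw : w ∈ G.T p) (t : ℝ) :
    ⟪J' G p v w t, ta G p v w (0, t)⟫ = ⟪v, w⟫ := by
  rw [J'_eq G hp hv hw]
  have h1 := hasDerivAt_s (q := ((0 : ℝ), t))
    ((contDiff_ta G hp hv hw).differentiable (by simp) ((0 : ℝ), t))
  have h2 := h1.norm_sq
  have h3 : (fun s : ℝ => ‖ta G p v w (s, ((0 : ℝ), t).2)‖ ^ 2) = fun s => ‖v + s • w‖ ^ 2 := by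
    ext1 s; rw [norm_ta G hp hv hw]
  rw [h3] at h2
  have h4 : HasDerivAt (fun s : ℝ => v + s • w) w 0 := by
    simpa using ((hasDerivAt_id (0 : ℝ)).smul_const w).const_add v
  have h5 := h4.norm_sq
  have h6 := h2.unique h5
  simp only [zero_smul, add_zero] at h6
  rw [real_inner_comm]
  linarith

lemma inner_J_ta (hp : p ∈ S) (hv : v ∈ G.T p) (hw : w ∈ G.T p) (t : ℝ) :
    ⟪J G p v w t, ta G p v w (0, t)⟫ = t * ⟪v, w⟫ := by
  have hder : ∀ t, HasDerivAt (fun t => ⟪J G p v w t, ta G p v w (0, t)⟫ - t * ⟪v, w⟫) 0 t := by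
    intro t
    have h1 := (hasDerivAt_J G hp hv hw t).inner ℝ (hasDerivAt_ta G hp hv hw 0 t)
    have h2 : HasDerivAt (fun t : ℝ => t * ⟪v, w⟫) ⟪v, w⟫ t := by
      simpa using (hasDerivAt_id t).mul_const ⟪v, w⟫
    refine (h1.sub h2).congr_deriv ?_
    rw [inner_J'_ta G hp hv hw, real_inner_comm,
      inner_II G (al_mem G hp hv hw _) (ta_mem G hp hv hw _) (ta_mem G hp hv hw _)
        (J_mem G hp hv hw t)]
    ring
  have h1 := is_const_of_deriv_eq_zero (fun t => (hder t).differentiableAt)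
    (fun t => (hder t).deriv) t 0
  simp only [J_zero G hp hv hw, inner_zero_left, zero_mul, sub_zero] at h1
  linarith

lemma symm3 (hp : p ∈ S) (hv : v ∈ G.T p) (hw : w ∈ G.T p) (q a b c : ℝ × ℝ) :
    fderiv ℝ (fderiv ℝ (fderiv ℝ (al G p v w))) q a b c =
      fderiv ℝ (fderiv ℝ (fderiv ℝ (al G p v w))) q b a c := by
  have h := ((diff_fderiv (contDiff_al G hp hv hw)).contDiffAt (x := q)).isSymmSndFDerivAt
    (n := ∞) min_le
  rw [h.eq a b]

lemma symm3' (hp : p ∈ S) (hv : v ∈ G.T p) (hw : w ∈ G.T p) (q a b c : ℝ × ℝ) :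
    fderiv ℝ (fderiv ℝ (fderiv ℝ (al G p v w))) q a b c =
      fderiv ℝ (fderiv ℝ (fderiv ℝ (al G p v w))) q a c b := by
  have hd : DifferentiableAt ℝ (fderiv ℝ (fderiv ℝ (al G p v w))) q :=
    (diff_fderiv (diff_fderiv (contDiff_al G hp hv hw))).differentiable (by simp) q
  have h1 : HasFDerivAt (fun q' => fderiv ℝ (fderiv ℝ (al G p v w)) q' b c)
      (((fderiv ℝ (fderiv ℝ (fderiv ℝ (al G p v w))) q).flip b).flip c) q := by
    have := (hd.hasFDerivAt.clm_apply (hasFDerivAt_const b q)).clm_apply (hasFDerivAt_const c q)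
    simpa using this
  have h2 : HasFDerivAt (fun q' => fderiv ℝ (fderiv ℝ (al G p v w)) q' c b)
      (((fderiv ℝ (fderiv ℝ (fderiv ℝ (al G p v w))) q).flip c).flip b) q := by
    have := (hd.hasFDerivAt.clm_apply (hasFDerivAt_const c q)).clm_apply (hasFDerivAt_const b q)
    simpa using this
  have h3 : (fun q' => fderiv ℝ (fderiv ℝ (al G p v w)) q' b c) =
      fun q' => fderiv ℝ (fderiv ℝ (al G p v w)) q' c b :=
    funext fun q' => symm2 G hp hv hw q' b c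
  rw [h3] at h1
  have h4 := congrArg (fun L : ℝ × ℝ →L[ℝ] Euc N => L a) (h1.unique h2)
  simpa using h4

/-- the second derivative of `|J|²/2`. -/
lemma hasDerivAt_inner (hp : p ∈ S) (hv : v ∈ G.T p) (hw : w ∈ G.T p) (t : ℝ) :
    HasDerivAt (fun t => ⟪J' G p v w t, J G p v w t⟫)
      (‖J' G p v w t‖ ^ 2 - ⟪fderiv ℝ (fderiv ℝ (al G p v w)) (0, t) (0, 1) (0, 1),
        fderiv ℝ (fderiv ℝ (al G p v w)) (0, t) (1, 0) (1, 0)⟫) t := by
  set α := al G p v w with hα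
  have hsm := contDiff_al G hp hv hw
  have hd3 : ∀ q, DifferentiableAt ℝ (fderiv ℝ (fderiv ℝ α)) q :=
    (diff_fderiv (diff_fderiv hsm)).differentiable (by simp)
  have hd2 : ∀ q, DifferentiableAt ℝ (fderiv ℝ α) q :=
    (diff_fderiv hsm).differentiable (by simp)
  -- derivative of J'
  have h1 : HasDerivAt (J' G p v w) (fderiv ℝ (fderiv ℝ (fderiv ℝ α)) (0, t) (0, 1) (0, 1) (1, 0))
      t := by
    have h2 := hasDerivAt_t (F := ℝ × ℝ →L[ℝ] ℝ × ℝ →L[ℝ] Euc N)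
      (g := fderiv ℝ (fderiv ℝ α)) (q := ((0 : ℝ), t)) (hd3 (0, t))
    have h3 := (h2.clm_apply (hasDerivAt_const t ((0 : ℝ), (1 : ℝ)))).clm_apply
      (hasDerivAt_const t ((1 : ℝ), (0 : ℝ)))
    refine h3.congr_deriv ?_
    simp
  -- differentiate orthogonality in `s`
  have h4 : ∀ s, ⟪fderiv ℝ (fderiv ℝ α) (s, t) (0, 1) (0, 1), fderiv ℝ α (s, t) (1, 0)⟫ = 0 := by
    intro s
    rw [hα, snd_al_tt G hp hv hw]
    exact inner_II G (al_mem G hp hv hw _) (ta_mem G hp hv hw _) (ta_mem G hp hv hw _)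
      (fderiv_mem G (hsm.differentiable (by simp) _)
        (Eventually.of_forall fun q => al_mem G hp hv hw q) _)
  have h5 : HasDerivAt (fun s => fderiv ℝ (fderiv ℝ α) (s, t) (0, 1) (0, 1))
      (fderiv ℝ (fderiv ℝ (fderiv ℝ α)) (0, t) (1, 0) (0, 1) (0, 1)) 0 := by
    have h2 := hasDerivAt_s (F := ℝ × ℝ →L[ℝ] ℝ × ℝ →L[ℝ] Euc N)
      (g := fderiv ℝ (fderiv ℝ α)) (q := ((0 : ℝ), t)) (hd3 (0, t))
    have h3 := (h2.clm_apply (hasDerivAt_const (0 : ℝ) ((0 : ℝ), (1 : ℝ)))).clm_apply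
      (hasDerivAt_const (0 : ℝ) ((0 : ℝ), (1 : ℝ)))
    refine h3.congr_deriv ?_
    simp
  have h6 : HasDerivAt (fun s => fderiv ℝ α (s, t) (1, 0))
      (fderiv ℝ (fderiv ℝ α) (0, t) (1, 0) (1, 0)) 0 := by
    have h2 := hasDerivAt_s (F := ℝ × ℝ →L[ℝ] Euc N)
      (g := fderiv ℝ α) (q := ((0 : ℝ), t)) (hd2 (0, t))
    have h3 := h2.clm_apply (hasDerivAt_const (0 : ℝ) ((1 : ℝ), (0 : ℝ)))
    refine h3.congr_deriv ?_
    simp
  have h7 := h5.inner ℝ h6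
  have h8 : (fun s => ⟪fderiv ℝ (fderiv ℝ α) (s, t) (0, 1) (0, 1), fderiv ℝ α (s, t) (1, 0)⟫) =
      fun _ => (0 : ℝ) := funext h4
  rw [h8] at h7
  have h9 := h7.unique (hasDerivAt_const (0 : ℝ) (0 : ℝ))
  have h10 := h1.inner ℝ (hasDerivAt_J G hp hv hw t)
  refine h10.congr_deriv ?_
  rw [real_inner_self_eq_norm_sq]
  have h11 : fderiv ℝ (fderiv ℝ (fderiv ℝ α)) (0, t) (0, 1) (0, 1) (1, 0) =
      fderiv ℝ (fderiv ℝ (fderiv ℝ α)) (0, t) (1, 0) (0, 1) (0, 1) := by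
    rw [hα, symm3' G hp hv hw, symm3 G hp hv hw]
  rw [h11]
  have h12 : ⟪fderiv ℝ (fderiv ℝ (fderiv ℝ α)) (0, t) (1, 0) (0, 1) (0, 1), J G p v w t⟫ =
      -⟪fderiv ℝ (fderiv ℝ α) (0, t) (0, 1) (0, 1), fderiv ℝ (fderiv ℝ α) (0, t) (1, 0) (1, 0)⟫ := by
    unfold J
    linarith
  rw [h12]
  ring

end variation

/-- The Jacobi field data of a geodesic variation. -/
theorem jdata {k : ℝ} (hk : 0 ≤ k) (G : Geo n N (-(k ^ 2)) S) {p v w : Euc N} (hp : p ∈ S)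
    (hv : v ∈ G.T p) (hw : w ∈ G.T p) :
    JData k ‖v‖ ⟪v, w⟫ (⟪v, w⟫ / ‖v‖ ^ 2) (J G p v w) (J' G p v w)
      (fun t => G.P (al G p v w (0, t)) (J' G p v w t)) (fun t => ta G p v w (0, t))
      (fun t => ‖J' G p v w t‖ ^ 2 - ⟪fderiv ℝ (fderiv ℝ (al G p v w)) (0, t) (0, 1) (0, 1),
        fderiv ℝ (fderiv ℝ (al G p v w)) (0, t) (1, 0) (1, 0)⟫) where
  hk := hk
  hℓ := norm_nonneg _
  hr := by
    by_cases h : v = 0
    · simp [h]
    · have : ‖v‖ ^ 2 ≠ 0 := pow_ne_zero 2 (norm_ne_zero_iff.2 h)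
      field_simp
  hJ := hasDerivAt_J G hp hv hw
  hF := hasDerivAt_inner G hp hv hw
  hge := by
    intro t
    have hsm := contDiff_al G hp hv hw
    set q : ℝ × ℝ := (0, t) with hq
    have hx := al_mem G hp hv hw q
    have hS : ∀ᶠ q' in 𝓝 q, al G p v w q' ∈ S := Eventually.of_forall fun q => al_mem G hp hv hw q
    have hT := ta_mem G hp hv hw q
    have hJ := J_mem G hp hv hw t
    have h1 := snd_deriv G (hsm.contDiffAt.of_le two_le) hS (0, 1) (1, 0)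
    have h2 := snd_deriv G (hsm.contDiffAt.of_le two_le) hS (1, 0) (1, 0)
    rw [fderiv_al_t G hp hv hw] at h1
    have e1 : fderiv ℝ (fderiv ℝ (al G p v w)) q (0, 1) (1, 0) = J' G p v w t := rfl
    have e2 : fderiv ℝ (al G p v w) q (1, 0) = J G p v w t := rfl
    rw [e1, e2] at h1
    rw [e2] at h2
    rw [snd_al_tt G hp hv hw, h2]
    have hT' : ta G p v w q ∈ G.T (al G p v w q) := hT
    have hc := G.curv _ hx _ hT _ hJ
    have h3 : ⟪II G (al G p v w q) (ta G p v w q) (ta G p v w q),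
        G.P (al G p v w q) (fderiv ℝ (fderiv ℝ (al G p v w)) q (1, 0) (1, 0))⟫ = 0 :=
      inner_II G hx hT hT (P_mem G hx)
    rw [inner_add_right, h3, zero_add]
    have h4 : ‖J' G p v w t‖ ^ 2 = ‖G.P (al G p v w q) (J' G p v w t)‖ ^ 2 +
        ‖II G (al G p v w q) (ta G p v w q) (J G p v w t)‖ ^ 2 := by
      have h5 : ⟪G.P (al G p v w q) (J' G p v w t),
          II G (al G p v w q) (ta G p v w q) (J G p v w t)⟫ = 0 := by
        rw [real_inner_comm]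
        exact inner_II G hx hT hJ (P_mem G hx)
      conv_lhs => rw [h1]
      rw [norm_add_sq_real, h5]
      ring
    rw [h4]
    have hnT : ‖ta G p v w q‖ = ‖v‖ := by rw [norm_ta G hp hv hw]; simp [hq]
    rw [hnT] at hc
    have hcomm : ⟪ta G p v w q, J G p v w t⟫ = ⟪J G p v w t, ta G p v w q⟫ := real_inner_comm _ _
    rw [hcomm] at hc
    have hII : fderiv ℝ G.P (al G p v w q) (ta G p v w q) (ta G p v w q) =
      II G (al G p v w q) (ta G p v w q) (ta G p v w q) := rfl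
    have hII2 : fderiv ℝ G.P (al G p v w q) (J G p v w t) (J G p v w t) =
      II G (al G p v w q) (J G p v w t) (J G p v w t) := rfl
    have hII3 : fderiv ℝ G.P (al G p v w q) (ta G p v w q) (J G p v w t) =
      II G (al G p v w q) (ta G p v w q) (J G p v w t) := rfl
    have hc' : ⟪II G (al G p v w q) (ta G p v w q) (ta G p v w q),
        II G (al G p v w q) (J G p v w t) (J G p v w t)⟫ -
        ‖II G (al G p v w q) (ta G p v w q) (J G p v w t)‖ ^ 2 ≤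
        -(k ^ 2) * (‖v‖ ^ 2 * ‖J G p v w t‖ ^ 2 - ⟪J G p v w t, ta G p v w q⟫ ^ 2) := hc
    linarith
  hA1 := by
    intro t
    rw [inner_P_left G (al_mem G hp hv hw _), (P_eq_self G (al_mem G hp hv hw _)).1
      (J_mem G hp hv hw t)]
  hA2 := by
    intro t
    rw [inner_P_left G (al_mem G hp hv hw _), (P_eq_self G (al_mem G hp hv hw _)).1
      (ta_mem G hp hv hw (0, t)), inner_J'_ta G hp hv hw]
  hJT := inner_J_ta G hp hv hw
  hT := by
    intro t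
    rw [norm_ta G hp hv hw]; simp
  hJ0 := J_zero G hp hv hw

end Crest.Agent.R241.D3b
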