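import Mathlib
import Crest.Prelude.Def_Submanifold
import Crest.Agent.R241.AF2

/-! Row 241, block AF (helper777): area formula, corollaries.
* Lipschitz maps (Rademacher);
* `Euc n → Euc N`, Jacobian = `sqrt (det (metricMat f x))`;
* metric comparison: locally almost isometric maps preserve `μHE`. -/

set_option autoImplicit false
set_option linter.unusedSectionVars false
open MeasureTheory MeasureTheory.Measure Metric Filter Set Module Asymptotics TopologicalSpace
open scoped NNReal ENNReal Topology Pointwise Function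

noncomputable section

namespace Crest.Agent.R241.AF

section Lipschitz
variable {U V : Type*} [NormedAddCommGroup U] [InnerProductSpace ℝ U] [FiniteDimensional ℝ U]
  [NormedAddCommGroup V] [InnerProductSpace ℝ V] [FiniteDimensional ℝ V]
variable [MeasurableSpace U] [BorelSpace U] [MeasurableSpace V] [BorelSpace V]
variable {s : Set U} {f : U → V}

/-- the differentiability set of a Lipschitz map on a measurable set has a measurable subset of full
measure. -/
theorem exists_good {K : ℝ≥0} (hs : MeasurableSet s) (hf : LipschitzOnWith K f s) :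
    ∃ t ⊆ s, MeasurableSet t ∧ volume (s \ t) = 0 ∧
      ∀ x ∈ t, HasFDerivWithinAt f (fderivWithin ℝ f s x) t x := by
  have h := hf.ae_differentiableWithinAt hs (μ := volume)
  rw [ae_iff] at h
  obtain ⟨N, hN1, hN2, hN3⟩ := exists_measurable_superset_of_null h
  refine ⟨s \ N, sdiff_subset, hs.diff hN2, ?_, ?_⟩
  · rw [Measure.restrict_apply hN2] at hN3
    refine measure_mono_null ?_ hN3
    intro x hx
    simp only [Set.mem_sdiff, not_and, not_not] at hx
    exact ⟨hx.2 hx.1, hx.1⟩
  · intro x hx
    have : DifferentiableWithinAt ℝ f s x := by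
      by_contra hc
      exact hx.2 (hN1 hc)
    exact this.hasFDerivWithinAt.mono sdiff_subset

theorem muHE_image_null_of_lipschitz {K : ℝ≥0} (hf : LipschitzOnWith K f s) (hs : volume s = 0) :
    μHE[finrank ℝ U] (f '' s) = 0 := by
  rw [← nonpos_iff_eq_zero]
  refine (muHE_image_le hf _).trans ?_
  rw [InnerProductSpace.euclideanHausdorffMeasure_eq_volume, hs, mul_zero]

/-- **Area formula** for Lipschitz maps, injective on the measurable set `s`. -/
theorem lintegral_jac_eq_muHE_image_of_lipschitz {K : ℝ≥0} (hs : MeasurableSet s)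
    (hf : LipschitzOnWith K f s) (hinj : InjOn f s) :
    (∫⁻ x in s, ENNReal.ofReal (jac (fderivWithin ℝ f s x))) = μHE[finrank ℝ U] (f '' s) := by
  obtain ⟨t, ts, tm, ht, hd⟩ := exists_good hs hf
  have e1 := lintegral_jac_eq_muHE_image tm hd (hinj.mono ts)
  have e2 : μHE[finrank ℝ U] (f '' s) = μHE[finrank ℝ U] (f '' t) := by
    apply le_antisymm
    · have : f '' s ⊆ f '' t ∪ f '' (s \ t) := by
        rw [← image_union]
        exact image_mono (by simp [union_sdiff_self, subset_union_right])
      refine (measure_mono this).trans ((measure_union_le _ _).trans ?_)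
      rw [muHE_image_null_of_lipschitz (hf.mono sdiff_subset) ht, add_zero]
    · exact measure_mono (image_mono ts)
  rw [e2, ← e1]
  refine (setLIntegral_congr ?_).symm
  exact (ae_eq_set.2 ⟨by rw [sdiff_eq_empty.2 ts]; simp, ht⟩)

/-- **Area inequality** for Lipschitz maps. -/
theorem muHE_image_le_lintegral_of_lipschitz {K : ℝ≥0} (hs : MeasurableSet s)
    (hf : LipschitzOnWith K f s) :
    μHE[finrank ℝ U] (f '' s) ≤ ∫⁻ x in s, ENNReal.ofReal (jac (fderivWithin ℝ f s x)) := by
  obtain ⟨t, ts, tm, ht, hd⟩ := exists_good hs hf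
  have : f '' s ⊆ f '' t ∪ f '' (s \ t) := by
    rw [← image_union]
    exact image_mono (by simp [union_sdiff_self, subset_union_right])
  refine (measure_mono this).trans ((measure_union_le _ _).trans ?_)
  rw [muHE_image_null_of_lipschitz (hf.mono sdiff_subset) ht, add_zero]
  exact (muHE_image_le_lintegral tm hd).trans (lintegral_mono_set ts)

end Lipschitz

section Euc
open Crest.GeometryTopology.Submanifold
variable {n N : ℕ}

theorem finrank_Euc (n : ℕ) : finrank ℝ (Euc n) = n := finrank_euclideanSpace_fin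

theorem jac_sq_metricMat (f : Euc n → Euc N) (x : Euc n) :
    jac (fderiv ℝ f x) ^ 2 = (metricMat f x).det := by
  rw [jac_sq_gram (fderiv ℝ f x) (EuclideanSpace.basisFun (Fin n) ℝ)]
  congr 1
  ext i j
  simp [metricMat, pd, stdVec]

theorem det_metricMat_nonneg (f : Euc n → Euc N) (x : Euc n) : 0 ≤ (metricMat f x).det := by
  rw [← jac_sq_metricMat]; positivity

theorem jac_eq_sqrt (f : Euc n → Euc N) (x : Euc n) :
    jac (fderiv ℝ f x) = Real.sqrt (metricMat f x).det := by
  rw [← jac_sq_metricMat, Real.sqrt_sq (jac_nonneg _)]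

/-- area formula for `Euc n → Euc N`, differentiable on an open set. -/
theorem muHE_image_Euc {f : Euc n → Euc N} {V s : Set (Euc n)} (hV : IsOpen V) (hsV : s ⊆ V)
    (hs : MeasurableSet s) (hd : DifferentiableOn ℝ f V) (hinj : InjOn f s) :
    μHE[n] (f '' s) = ∫⁻ x in s, ENNReal.ofReal (jac (fderiv ℝ f x)) := by
  have h := lintegral_jac_eq_muHE_image (f := f) (f' := fderiv ℝ f) hs
    (fun x hx => ((hd x (hsV hx)).differentiableAt
      (hV.mem_nhds (hsV hx))).hasFDerivAt.hasFDerivWithinAt) hinj
  rw [finrank_Euc] at h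
  exact h.symm

/-- area formula for integrals, `Euc n → Euc N`, differentiable on an open set. -/
theorem lintegral_image_Euc {f : Euc n → Euc N} {V s : Set (Euc n)} (hV : IsOpen V) (hsV : s ⊆ V)
    (hs : MeasurableSet s) (hd : DifferentiableOn ℝ f V) (hinj : InjOn f s) (g : Euc N → ℝ≥0∞) :
    ∫⁻ y in f '' s, g y ∂μHE[n] = ∫⁻ x in s, ENNReal.ofReal (jac (fderiv ℝ f x)) * g (f x) := by
  have h := lintegral_image_eq (f := f) (f' := fderiv ℝ f) hs
    (fun x hx => ((hd x (hsV hx)).differentiableAt
      (hV.mem_nhds (hsV hx))).hasFDerivAt.hasFDerivWithinAt) hinj g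
  rw [finrank_Euc] at h
  exact h

end Euc


section Comparison
variable {X Y : Type*} [MetricSpace X] [MeasurableSpace X] [BorelSpace X]
  [MetricSpace Y] [MeasurableSpace Y] [BorelSpace Y]

/-- one-sided comparison: if `f` is locally Lipschitz with constants arbitrarily close to `1` near
every point of `s`, then it does not increase `μHE[d]` on `s`. -/
theorem muHE_image_le_of_local [SecondCountableTopology X] {f : X → Y} {s : Set X} (d : ℕ)
    (h : ∀ x ∈ s, ∀ K : ℝ≥0, 1 < K → ∃ r > 0, LipschitzOnWith K f (s ∩ ball x r)) :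
    μHE[d] (f '' s) ≤ μHE[d] s := by
  have key : ∀ K : ℝ≥0, 1 < K → μHE[d] (f '' s) ≤ (K : ℝ≥0∞) ^ d * μHE[d] s := by
    intro K hK
    choose! r rpos hr using fun x hx => h x hx K hK
    obtain ⟨T, T_count, hT⟩ :
      ∃ T : Set s, T.Countable ∧
        ⋃ x ∈ T, ball (x : X) (r x) = ⋃ x : s, ball (x : X) (r x) :=
      TopologicalSpace.isOpen_iUnion_countable _ fun x => isOpen_ball
    rcases T.eq_empty_or_nonempty with rfl | hne
    · have hs : s = ∅ := by
        rw [eq_empty_iff_forall_notMem]
        intro x hx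
        have : x ∈ ⋃ x : s, ball (x : X) (r x) := mem_iUnion.2 ⟨⟨x, hx⟩, mem_ball_self (rpos x hx)⟩
        rw [← hT] at this
        simp at this
      simp [hs]
    obtain ⟨e, he⟩ := T_count.exists_eq_range hne
    let B : ℕ → Set X := fun n => ball (e n : X) (r (e n))
    have hcov : s ⊆ ⋃ n, disjointed B n := by
      rw [iUnion_disjointed]
      intro x hx
      have : x ∈ ⋃ x : s, ball (x : X) (r x) := mem_iUnion.2 ⟨⟨x, hx⟩, mem_ball_self (rpos x hx)⟩
      rw [← hT, he] at this
      simpa [B] using this
    have hD : ∀ n, MeasurableSet (disjointed B n) := fun n =>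
      MeasurableSet.disjointed (fun i => measurableSet_ball) n
    have hsub : ∀ n, disjointed B n ⊆ B n := fun n => disjointed_subset _ _
    calc μHE[d] (f '' s) ≤ μHE[d] (⋃ n, f '' (s ∩ disjointed B n)) := by
          apply measure_mono
          rw [← image_iUnion, ← inter_iUnion]
          exact Set.image_mono (subset_inter Subset.rfl hcov)
      _ ≤ ∑' n, μHE[d] (f '' (s ∩ disjointed B n)) := measure_iUnion_le _
      _ ≤ ∑' n, (K : ℝ≥0∞) ^ d * μHE[d] (s ∩ disjointed B n) := by
          apply ENNReal.tsum_le_tsum fun n => ?_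
          refine muHE_image_le ?_ d
          exact (hr (e n) (e n).2).mono (inter_subset_inter_right _ (hsub n))
      _ = (K : ℝ≥0∞) ^ d * ∑' n, (μHE[d].restrict s) (disjointed B n) := by
          rw [ENNReal.tsum_mul_left]
          congr 2
          ext n
          rw [Measure.restrict_apply (hD n), inter_comm]
      _ = (K : ℝ≥0∞) ^ d * (μHE[d].restrict s) (⋃ n, disjointed B n) := by
          rw [measure_iUnion (disjoint_disjointed _) hD]
      _ ≤ (K : ℝ≥0∞) ^ d * (μHE[d].restrict s) univ :=
          mul_le_mul_right (measure_mono (subset_univ _)) _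
      _ = (K : ℝ≥0∞) ^ d * μHE[d] s := by
          rw [Measure.restrict_apply_univ s]
  by_cases htop : μHE[d] s = ∞
  · rw [htop]; exact le_top
  have T : Tendsto (fun K : ℝ≥0 => (K : ℝ≥0∞) ^ d * μHE[d] s) (𝓝[>] 1)
      (𝓝 (((1 : ℝ≥0) : ℝ≥0∞) ^ d * μHE[d] s)) := by
    refine Tendsto.mono_left ?_ nhdsWithin_le_nhds
    refine ENNReal.Tendsto.mul_const ?_ (Or.inr htop)
    exact (ENNReal.continuous_pow d).continuousAt.tendsto.comp (ENNReal.tendsto_coe.2 tendsto_id)
  simp only [ENNReal.coe_one, one_pow, one_mul] at T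
  refine ge_of_tendsto T ?_
  filter_upwards [self_mem_nhdsWithin] with K hK
  exact key K hK

end Comparison

end Crest.Agent.R241.AF
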