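import Crest.Prelude.Def_Submanifold

/-!
R241, block D1: tangent spaces of an embedded submanifold and a smooth ambient extension of the
orthogonal projection onto the tangent space.
-/

set_option autoImplicit false

open Set Filter Topology
open scoped ContDiff RealInnerProductSpace
open Crest.GeometryTopology.Submanifold

noncomputable section

namespace Crest.Agent.R241.D

variable {n N : ℕ} {S : Set (Euc N)} {p : Euc N} {f : Euc n → Euc N} {V : Set (Euc n)}

/-- A smooth local coordinate: an ambient smooth function `ℓ` near `f x` inverting `f` on `S`. -/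
theorem exists_coord (hf : IsLocalParam n N S p f V) {x : Euc n} (hx : x ∈ V) :
    ∃ (O : Set (Euc N)) (ℓ : Euc N → Euc n), IsOpen O ∧ f x ∈ O ∧ ContDiffOn ℝ ∞ ℓ O ∧
      (∀ q ∈ O, ℓ q ∈ V) ∧ ℓ (f x) = x ∧ (∀ q ∈ O, q ∈ S → f (ℓ q) = q) := by
  classical
  have hcd : ∀ y ∈ V, ContDiffAt ℝ ∞ f y := fun y hy =>
    (hf.contDiffOn.contDiffAt (hf.isOpen.mem_nhds hy))
  set A : Euc n →L[ℝ] Euc N := fderiv ℝ f x with hA
  obtain ⟨B0, hB0⟩ := LinearMap.exists_leftInverse_of_injective (A : Euc n →ₗ[ℝ] Euc N)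
    (LinearMap.ker_eq_bot.2 (hf.injective_fderiv x hx))
  set B : Euc N →L[ℝ] Euc n := LinearMap.toContinuousLinearMap B0 with hB
  have hBA : B ∘L A = ContinuousLinearMap.id ℝ (Euc n) := by
    ext1 v
    have := congrArg (fun L => L v) hB0
    simpa [hB] using this
  set g : Euc n → Euc n := fun y => B (f y) with hg
  have hgcd : ∀ y ∈ V, ContDiffAt ℝ ∞ g y := fun y hy => B.contDiff.contDiffAt.comp y (hcd y hy)
  have hgd : ∀ y ∈ V, HasFDerivAt g (B ∘L fderiv ℝ f y) y := fun y hy =>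
    B.hasFDerivAt.comp y ((hcd y hy).differentiableAt (by simp)).hasFDerivAt
  have hgx : HasFDerivAt g ((ContinuousLinearEquiv.refl ℝ (Euc n) : Euc n ≃L[ℝ] Euc n) : Euc n →L[ℝ] Euc n) x := by
    have := hgd x hx
    rw [← hA, hBA] at this
    exact this
  set e := (hgcd x hx).toOpenPartialHomeomorph g hgx (by simp) with he
  have hxe : x ∈ e.source := ContDiffAt.mem_toOpenPartialHomeomorph_source _ _ _
  have hecoe : (e : Euc n → Euc n) = g := rfl
  -- the set where the derivative of g is invertible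
  have hcont : ContinuousOn (fun y => B ∘L fderiv ℝ f y) V := by
    have h1 : ContinuousOn (fderiv ℝ f) V :=
      hf.contDiffOn.continuousOn_fderiv_of_isOpen hf.isOpen (by simp)
    exact (continuousOn_const.clm_comp h1)
  have hinvopen : IsOpen (V ∩ (fun y => B ∘L fderiv ℝ f y) ⁻¹' {L | ∃ M : Euc n ≃L[ℝ] Euc n, (M : Euc n →L[ℝ] Euc n) = L}) := by
    apply hcont.isOpen_inter_preimage hf.isOpen
    exact ContinuousLinearEquiv.isOpen
  set W : Set (Euc n) := (V ∩ (fun y => B ∘L fderiv ℝ f y) ⁻¹' {L | ∃ M : Euc n ≃L[ℝ] Euc n, (M : Euc n →L[ℝ] Euc n) = L}) ∩ e.source with hW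
  have hWo : IsOpen W := hinvopen.inter e.open_source
  have hWV : W ⊆ V := fun y hy => hy.1.1
  have hxW : x ∈ W := by
    refine ⟨⟨hx, ContinuousLinearEquiv.refl ℝ _, ?_⟩, hxe⟩
    change _ = B ∘L fderiv ℝ f x
    rw [← hA, hBA]; rfl
  obtain ⟨U, hU, hUS⟩ := hf.image_open W hWV hWo
  have hT : IsOpen (g '' W) := by
    have := e.isOpen_image_of_subset_source hWo (fun y hy => hy.2)
    exact this
  refine ⟨U ∩ B ⁻¹' (g '' W), fun q => e.symm (B q), hU.inter (hT.preimage B.continuous), ⟨?_, ?_⟩,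
    ?_, ?_, ?_, ?_⟩
  · have : f x ∈ f '' W := ⟨x, hxW, rfl⟩
    rw [hUS] at this; exact this.2
  · exact ⟨x, hxW, rfl⟩
  · rintro q ⟨hqU, y, hyW, hyq⟩
    apply ContDiffAt.contDiffWithinAt
    have hBq : B q = e y := hyq.symm
    have hys : e.symm (B q) = y := by rw [hBq]; exact e.left_inv hyW.2
    obtain ⟨M, hM⟩ := hyW.1.2
    have hM' : HasFDerivAt e (M : Euc n →L[ℝ] Euc n) (e.symm (B q)) := by
      rw [hys, hM]; exact hgd y (hWV hyW)
    have h1 : ContDiffAt ℝ ∞ e.symm (B q) :=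
      e.contDiffAt_symm (by rw [hBq]; exact e.map_source hyW.2) hM' (by rw [hys]; exact hgcd y (hWV hyW))
    exact h1.comp q B.contDiff.contDiffAt
  · rintro q ⟨hqU, y, hyW, hyq⟩
    have hBq : B q = e y := hyq.symm
    have hys : e.symm (B q) = y := by rw [hBq]; exact e.left_inv hyW.2
    simp only [hys]
    exact hWV hyW
  · change e.symm (e x) = x
    exact e.left_inv hxe
  · rintro q ⟨hqU, -⟩ hqS
    have : q ∈ f '' W := by rw [hUS]; exact ⟨hqS, hqU⟩
    obtain ⟨y, hyW, rfl⟩ := this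
    have : e.symm (B (f y)) = y := e.left_inv hyW.2
    simp only [this]

/-- The tangent space of `S` at `p`: span of the velocities of curves in `S`. -/
def Tan (S : Set (Euc N)) (p : Euc N) : Submodule ℝ (Euc N) :=
  Submodule.span ℝ {v | ∃ γ : ℝ → Euc N, γ 0 = p ∧ HasDerivAt γ v 0 ∧ ∀ᶠ t in 𝓝 0, γ t ∈ S}

theorem mem_Tan_of_curve {γ : ℝ → Euc N} {v : Euc N} {t : ℝ} (h : HasDerivAt γ v t)
    (hS : ∀ᶠ s in 𝓝 t, γ s ∈ S) : v ∈ Tan S (γ t) := by
  refine Submodule.subset_span ⟨fun s => γ (t + s), by simp, ?_, ?_⟩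
  · have h1 : HasDerivAt (fun s : ℝ => t + s) 1 0 := (hasDerivAt_id (0 : ℝ)).const_add t
    have h' : HasDerivAt γ v (t + 0) := by simpa using h
    have h2 := h'.scomp (0 : ℝ) h1
    rw [one_smul] at h2
    exact h2
  · have : Tendsto (fun s : ℝ => t + s) (𝓝 0) (𝓝 t) := by
      have : Continuous (fun s : ℝ => t + s) := by fun_prop
      simpa using this.tendsto 0
    exact this.eventually hS

theorem tangentAt_eq_range (f : Euc n → Euc N) (x : Euc n) :
    tangentAt f x = LinearMap.range (fderiv ℝ f x : Euc n →ₗ[ℝ] Euc N) := by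
  apply le_antisymm
  · rw [tangentAt, Submodule.span_le]
    rintro _ ⟨i, rfl⟩
    exact ⟨_, rfl⟩
  · rintro _ ⟨v, rfl⟩
    have hv : v = ∑ i, v i • stdVec n i := by
      ext j
      simp [stdVec, Pi.single_apply]
    rw [hv, map_sum]
    apply Submodule.sum_mem
    intro i _
    rw [map_smul]
    exact Submodule.smul_mem _ _ (Submodule.subset_span ⟨i, rfl⟩)

theorem range_fderiv_eq_Tan (hf : IsLocalParam n N S p f V) {x : Euc n} (hx : x ∈ V) :
    LinearMap.range (fderiv ℝ f x : Euc n →ₗ[ℝ] Euc N) = Tan S (f x) := by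
  have hcd : ∀ y ∈ V, ContDiffAt ℝ ∞ f y := fun y hy =>
    (hf.contDiffOn.contDiffAt (hf.isOpen.mem_nhds hy))
  obtain ⟨U, hU, hUS⟩ := hf.image_open V le_rfl hf.isOpen
  apply le_antisymm
  · rintro _ ⟨w, rfl⟩
    have h1 : HasDerivAt (fun t : ℝ => f (x + t • w)) (fderiv ℝ f x w) 0 := by
      have h2 : HasDerivAt (fun t : ℝ => x + t • w) w 0 := by
        simpa using ((hasDerivAt_id (0 : ℝ)).smul_const w).const_add x
      have h3 : HasFDerivAt f (fderiv ℝ f x) (x + (0 : ℝ) • w) := by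
        simpa using ((hcd x hx).differentiableAt (by simp)).hasFDerivAt
      exact h3.comp_hasDerivAt (0 : ℝ) h2
    have h4 : ∀ᶠ t : ℝ in 𝓝 0, f (x + t • w) ∈ S := by
      have : Tendsto (fun t : ℝ => x + t • w) (𝓝 0) (𝓝 x) := by
        have : Continuous (fun t : ℝ => x + t • w) := by fun_prop
        simpa using this.tendsto 0
      filter_upwards [this.eventually (hf.isOpen.mem_nhds hx)] with t ht
      have : f (x + t • w) ∈ f '' V := ⟨_, ht, rfl⟩
      rw [hUS] at this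
      exact this.1
    have := mem_Tan_of_curve h1 h4
    simpa using this
  · rw [Tan, Submodule.span_le]
    rintro v ⟨γ, hγ0, hγ, hS⟩
    obtain ⟨O, ℓ, hO, hxO, hℓ, hℓV, hℓx, hℓS⟩ := exists_coord hf hx
    have hγc : Tendsto γ (𝓝 0) (𝓝 (f x)) := by rw [← hγ0]; exact hγ.continuousAt
    have hev : γ =ᶠ[𝓝 0] fun t => f (ℓ (γ t)) := by
      filter_upwards [hS, hγc.eventually (hO.mem_nhds hxO)] with t h1 h2
      exact (hℓS _ h2 h1).symm
    have hℓd : HasFDerivAt ℓ (fderiv ℝ ℓ (f x)) (γ 0) := by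
      rw [hγ0]
      exact ((hℓ.contDiffAt (hO.mem_nhds hxO)).differentiableAt (by simp)).hasFDerivAt
    have h1 : HasDerivAt (fun t => ℓ (γ t)) (fderiv ℝ ℓ (f x) v) 0 := hℓd.comp_hasDerivAt 0 hγ
    have h2 : HasFDerivAt f (fderiv ℝ f x) (ℓ (γ 0)) := by
      rw [hγ0, hℓx]
      exact ((hcd x hx).differentiableAt (by simp)).hasFDerivAt
    have h3 : HasDerivAt (fun t => f (ℓ (γ t))) (fderiv ℝ f x (fderiv ℝ ℓ (f x) v)) 0 :=
      h2.comp_hasDerivAt 0 h1
    have h4 := (h3.congr_of_eventuallyEq hev).unique hγ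
    exact ⟨_, h4⟩

theorem tangentAt_eq_Tan (hf : IsLocalParam n N S p f V) {x : Euc n} (hx : x ∈ V) :
    tangentAt f x = Tan S (f x) := by
  rw [tangentAt_eq_range, range_fderiv_eq_Tan hf hx]

theorem finrank_Tan (hS : IsSubmanifold n N S) {p : Euc N} (hp : p ∈ S) :
    Module.finrank ℝ (Tan S p) = n := by
  obtain ⟨f, V, hf⟩ := hS p hp
  have := range_fderiv_eq_Tan hf hf.zero_mem
  rw [hf.map_zero] at this
  rw [← this, LinearMap.finrank_range_of_inj (hf.injective_fderiv 0 hf.zero_mem)]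
  simp

end Crest.Agent.R241.D
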