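import Crest.Agent.R241.ABasic

/-!
R241 block A1: `T_super`, `T_barta`, `T_fv'` from `(FV)`.
-/

set_option autoImplicit false

namespace Crest.Agent.R241.A1

open MeasureTheory Set Filter Topology Crest.Agent.R241.A
open scoped NNReal ENNReal RealInnerProductSpace

section
variable {n : ℕ} {k : ℝ} {K : Type*} [MetricSpace K] [CompactSpace K]
  [MeasurableSpace K] [BorelSpace K]

lemma integrable_of_bound (P : PreData n k K) {g : K → ℝ} (hg : AEStronglyMeasurable g P.τ)
    {M : ℝ} (hM : ∀ᵐ y ∂P.τ, |g y| ≤ M) : Integrable g P.τ :=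
  Integrable.of_bound hg M (by simpa [Real.norm_eq_abs] using hM)

lemma q_bound (P : PreData n k K) (x : K) : ∃ M : ℝ, 0 < M ∧ ∀ᵐ y ∂P.τ, P.q x y ≤ M := by
  have hg : Continuous fun y => √(2 * zd k x y + k ^ 2 * zd k x y ^ 2) :=
    Continuous.sqrt ((continuous_const.mul (continuous_zd k x)).add
        (continuous_const.mul ((continuous_zd k x).pow 2)))
  obtain ⟨B, hB0, hB⟩ := exists_bound_of_continuous hg
  refine ⟨B, hB0, ?_⟩
  filter_upwards [P.q_le x] with y hy
  exact hy.trans ((le_abs_self _).trans (hB y))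

lemma exists_zd_bound (k : ℝ) (x : K) : ∃ M : ℝ, 0 < M ∧ ∀ y, zd k x y ≤ M := by
  obtain ⟨M, h0, hM⟩ := exists_zd_le (K := K) k
  exact ⟨M, h0, hM x⟩

/-- **A1 (FV')**. -/
theorem t_fv' {h : ℝ} (P : PreData n k K) (hFV : P.FV h) : T_fv' P h := by
  intro x f hf hf0
  have key := hFV x f hf hf0
  have hz := lip_zd k x
  have hzc := Lip.continuous hz
  have hfc := Lip.continuous hf
  have i1 : Integrable (fun y => (n : ℝ) * (1 + k ^ 2 * zd k x y) * f y) P.τ :=
    P.integrable_of_continuous (by fun_prop)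
  have i2 : Integrable (fun y => P.G f (zd k x) y) P.τ := P.integrable_G hf hz
  have i3 : Integrable (fun y => f y * P.q x y) P.τ := P.integrable_mul_q hfc x
  have i12 : Integrable (fun y => (n : ℝ) * (1 + k ^ 2 * zd k x y) * f y
      + P.G f (zd k x) y) P.τ := i1.add i2
  have i4 : Integrable (fun y => (n : ℝ) * (1 + k ^ 2 * zd k x y) * f y
      + P.G f (zd k x) y - (n : ℝ) * h * (f y * P.q x y)) P.τ :=
    i12.sub (i3.const_mul _)
  have i5 : ∫ y, ((n : ℝ) * (1 + k ^ 2 * zd k x y) * f y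
      + P.G f (zd k x) y - (n : ℝ) * h * (f y * P.q x y)) ∂P.τ ≤ 0 := by
    rw [integral_sub i12 (i3.const_mul _), integral_const_mul]
    linarith
  obtain ⟨M, hM0, hM⟩ := exists_zd_bound k x
  obtain ⟨Fb, hF0, hFb⟩ := exists_bound_of_continuous hfc
  have i6 : Integrable (fun y => P.G f (zd k x) y + (n : ℝ) / 2 * f y *
      (P.G (zd k x) (zd k x) y / zd k x y - (h ^ 2 - k ^ 2) * zd k x y)) P.τ := by
    refine i2.add (integrable_of_bound P ?_
      (M := (n : ℝ) / 2 * Fb * ((2 + k ^ 2 * M) + |h ^ 2 - k ^ 2| * M)) ?_)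
    · refine ((continuous_const.mul hfc).aestronglyMeasurable).mul
        (((P.G_meas _ _ hz hz).div₀ hzc.aestronglyMeasurable).sub
          (continuous_const.mul hzc).aestronglyMeasurable)
    · filter_upwards [P.G_z x, P.G_nonneg _ hz] with y hy hy0
      have h0 := zd_nonneg k x y
      have h1 : |P.G (zd k x) (zd k x) y / zd k x y| ≤ 2 + k ^ 2 * M := by
        rw [abs_of_nonneg (by positivity)]
        rcases h0.eq_or_lt with h0' | h0'
        · rw [← h0', div_zero]; positivity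
        · rw [div_le_iff₀ h0']
          have : k ^ 2 * zd k x y * zd k x y ≤ k ^ 2 * M * zd k x y := by
            gcongr; exact hM y
          nlinarith
      have h2 : |(h ^ 2 - k ^ 2) * zd k x y| ≤ |h ^ 2 - k ^ 2| * M := by
        rw [abs_mul, abs_of_nonneg h0]; gcongr; exact hM y
      calc |(n : ℝ) / 2 * f y * (P.G (zd k x) (zd k x) y / zd k x y - (h ^ 2 - k ^ 2) * zd k x y)|
          = (n : ℝ) / 2 * |f y| *
            |P.G (zd k x) (zd k x) y / zd k x y - (h ^ 2 - k ^ 2) * zd k x y| := by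
            rw [abs_mul, abs_mul, abs_of_nonneg (by positivity : (0 : ℝ) ≤ (n : ℝ) / 2)]
        _ ≤ (n : ℝ) / 2 * Fb * ((2 + k ^ 2 * M) + |h ^ 2 - k ^ 2| * M) := by
            gcongr
            · exact hFb y
            · exact (abs_sub _ _).trans (add_le_add h1 h2)
  refine (integral_mono_ae i6 i4 ?_).trans i5
  filter_upwards [P.G_z x, P.q_sq x, P.G_nonneg _ hz] with y hy hq hG0
  have h0 := zd_nonneg k x y
  have hf0' := hf0 y
  have hn : (0 : ℝ) ≤ n := Nat.cast_nonneg n
  have hmain : (1 / 2) * (P.G (zd k x) (zd k x) y / zd k x y - (h ^ 2 - k ^ 2) * zd k x y)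
      ≤ (1 + k ^ 2 * zd k x y) - h * P.q x y := by
    rcases h0.eq_or_lt with h0' | h0'
    · have hq0 : P.q x y = 0 := by
        have h1 : P.q x y ^ 2 ≤ 0 := by
          rw [hq, ← h0']; nlinarith [hG0]
        exact pow_eq_zero_iff (two_ne_zero) |>.1 (le_antisymm h1 (sq_nonneg _))
      rw [← h0', div_zero, hq0]; norm_num
    · have hD : P.G (zd k x) (zd k x) y = 2 * zd k x y + k ^ 2 * zd k x y ^ 2 - P.q x y ^ 2 := by
        linarith
      rw [hD]
      have h3 : (2 * zd k x y + k ^ 2 * zd k x y ^ 2 - P.q x y ^ 2) / zd k x y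
          = 2 + k ^ 2 * zd k x y - P.q x y ^ 2 / zd k x y := by
        field_simp
      rw [h3]
      have h4 : 2 * h * P.q x y ≤ P.q x y ^ 2 / zd k x y + h ^ 2 * zd k x y := by
        have h5 : 0 ≤ (P.q x y - h * zd k x y) ^ 2 / zd k x y := by positivity
        have h6 : (P.q x y - h * zd k x y) ^ 2 / zd k x y
            = P.q x y ^ 2 / zd k x y + h ^ 2 * zd k x y - 2 * h * P.q x y := by
          field_simp; ring
        linarith
      linarith
  nlinarith [mul_le_mul_of_nonneg_left hmain (mul_nonneg hn hf0')]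

/-- Pointwise algebra behind the supersolution property. -/
lemma alg {h k a z q D : ℝ} (hD : D = 2 * z + k ^ 2 * z ^ 2 - q ^ 2) :
    2 * (1 + k ^ 2 * z) * (z + a) - 2 * h * q * (z + a) - D + (h ^ 2 - k ^ 2) * (z + a) ^ 2
      = (h * (z + a) - q) ^ 2 + s0 k a := by
  rw [hD, s0]; ring

lemma super_int {h : ℝ} (P : PreData n k K) (x : K) {a : ℝ} (ha : 0 < a)
    {f : K → ℝ} (hfc : Continuous f) : Integrable (fun y => (zd k x y + a) ^ (-(mA n) - 2) * f y *
        ((h * (zd k x y + a) - P.q x y) ^ 2 + s0 k a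
          - (h ^ 2 - k ^ 2) * (zd k x y + a) ^ 2)) P.τ := by
  have hzc : Continuous (zd k x) := continuous_zd k x
  have hpos : ∀ y, 0 < zd k x y + a := zd_add_pos k x ha
  have hp2c : Continuous (fun y => (zd k x y + a) ^ (-(mA n) - 2)) :=
    (lip_zd_rpow k x ha _).continuous
  obtain ⟨M, hM0, hM⟩ := q_bound P x
  have hb : Integrable (fun y => (h * (zd k x y + a) - P.q x y) ^ 2 + s0 k a
        - (h ^ 2 - k ^ 2) * (zd k x y + a) ^ 2) P.τ := by
    obtain ⟨Z, hZ0, hZ⟩ := exists_zd_bound k x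
    refine integrable_of_bound P (M := (|h| * (Z + a) + M) ^ 2 + |s0 k a|
      + |h ^ 2 - k ^ 2| * (Z + a) ^ 2) ?_ (hM.mono fun y hMy => ?_)
    · refine ((((continuous_const.mul (hzc.add_const a)).aestronglyMeasurable).sub
        (P.q_meas x)).pow 2 |>.add_const _).sub ?_
      exact (continuous_const.mul ((hzc.add_const a).pow 2)).aestronglyMeasurable
    · have h1 : zd k x y + a ≤ Z + a := by linarith [hZ y]
      have h2 := (hpos y).le
      have h3 : |h * (zd k x y + a) - P.q x y| ≤ |h| * (Z + a) + M := by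
        refine (abs_sub _ _).trans (add_le_add ?_ ?_)
        · rw [abs_mul, abs_of_nonneg h2]; gcongr
        · rw [abs_of_nonneg (P.q_nonneg x y)]; exact hMy
      refine (abs_sub _ _).trans (add_le_add ((abs_add_le _ _).trans (add_le_add ?_ le_rfl)) ?_)
      · rw [abs_pow]; gcongr
      · rw [abs_mul, abs_of_nonneg (by positivity : 0 ≤ (zd k x y + a) ^ 2)]
        gcongr
  obtain ⟨M', hM0', hM'⟩ := exists_bound_of_continuous (hp2c.mul hfc)
  exact hb.bdd_mul (hp2c.mul hfc).aestronglyMeasurable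
    (Eventually.of_forall fun y => by simpa [Real.norm_eq_abs] using hM' y)

/-- Integrated form of `(FV)` tested with `(z+a)^{-m-1} f`, exact remainder
`∫ (z+a)^{-m-2} f (h(z+a)-q)²`. Valid for every `n` (also `n = 2`), `m = n/2 - 1`. -/
theorem super_aux {h : ℝ} (P : PreData n k K) (hFV : P.FV h) (x : K) {a : ℝ} (ha : 0 < a)
    {f : K → ℝ} (hf : Lip f) (hf0 : ∀ y, 0 ≤ f y) :
    (n : ℝ) / 2 * ∫ y, (zd k x y + a) ^ (-(mA n) - 2) * f y *
        ((h * (zd k x y + a) - P.q x y) ^ 2 + s0 k a - (h ^ 2 - k ^ 2) * (zd k x y + a) ^ 2) ∂P.τ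
      + ∫ y, (zd k x y + a) ^ (-(mA n) - 1) * P.G f (zd k x) y ∂P.τ ≤ 0 := by
  set m := mA n with hm
  have hn : (n : ℝ) = 2 * m + 2 := by rw [hm, mA]; ring
  have hz := lip_zd k x
  have hzc := Lip.continuous hz
  have hfc := Lip.continuous hf
  have hp : Lip (fun y => (zd k x y + a) ^ (-m - 1)) := lip_zd_rpow k x ha _
  have hpc := Lip.continuous hp
  have hp2c : Continuous (fun y => (zd k x y + a) ^ (-m - 2)) := Lip.continuous (lip_zd_rpow k x ha _)
  have hF : Lip (fun y => (zd k x y + a) ^ (-m - 1) * f y) := Lip.mul hp hf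
  have hpos : ∀ y, 0 < zd k x y + a := fun y => by linarith [zd_nonneg k x y]
  have key := hFV x _ hF (fun y => mul_nonneg (Real.rpow_nonneg (hpos y).le _) (hf0 y))
  have hDF : ∀ᵐ y ∂P.τ, P.G (fun y => (zd k x y + a) ^ (-m - 1) * f y) (zd k x) y
      = (zd k x y + a) ^ (-m - 1) * P.G f (zd k x) y
        - (m + 1) * (zd k x y + a) ^ (-m - 2) * f y * P.G (zd k x) (zd k x) y := by
    filter_upwards [P.G_mul _ _ _ hp hf hz, P.G_zd_rpow_left x ha (-m - 1) hz] with y h1 h2
    rw [h1, h2]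
    have : -m - 1 - 1 = -m - 2 := by ring
    rw [this]; ring
  have j1 : Integrable (fun y => (zd k x y + a) ^ (-m - 1) * P.G f (zd k x) y) P.τ := by
    obtain ⟨M, hM0, hM⟩ := exists_bound_of_continuous hpc
    exact (P.integrable_G hf hz).bdd_mul hpc.aestronglyMeasurable
      (Eventually.of_forall fun y => by simpa [Real.norm_eq_abs] using hM y)
  have j2 : Integrable (fun y => (zd k x y + a) ^ (-m - 2) * f y *
        ((h * (zd k x y + a) - P.q x y) ^ 2 + s0 k a
          - (h ^ 2 - k ^ 2) * (zd k x y + a) ^ 2)) P.τ := super_int P x ha hfc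
  have i1 : Integrable (fun y => (n : ℝ) * (1 + k ^ 2 * zd k x y)
      * ((zd k x y + a) ^ (-m - 1) * f y)) P.τ :=
    P.integrable_of_continuous (by fun_prop)
  have i2 : Integrable (fun y => P.G (fun y => (zd k x y + a) ^ (-m - 1) * f y)
      (zd k x) y) P.τ := P.integrable_G hF hz
  have i3 : Integrable (fun y => (zd k x y + a) ^ (-m - 1) * f y * P.q x y) P.τ :=
    P.integrable_mul_q (hpc.mul hfc) x
  have e1 : ∫ y, ((n : ℝ) * (1 + k ^ 2 * zd k x y) * ((zd k x y + a) ^ (-m - 1) * f y)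
      + P.G (fun y => (zd k x y + a) ^ (-m - 1) * f y) (zd k x) y) ∂P.τ
      - (n : ℝ) * h * ∫ y, (zd k x y + a) ^ (-m - 1) * f y * P.q x y ∂P.τ ≤ 0 := by linarith
  have i12 : Integrable (fun y => (n : ℝ) * (1 + k ^ 2 * zd k x y)
      * ((zd k x y + a) ^ (-m - 1) * f y)
      + P.G (fun y => (zd k x y + a) ^ (-m - 1) * f y) (zd k x) y) P.τ := i1.add i2
  rw [← integral_const_mul, ← integral_sub i12 (i3.const_mul _)] at e1
  rw [← integral_const_mul, ← integral_add (j2.const_mul _) j1]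
  refine le_of_eq_of_le (integral_congr_ae ?_) e1
  filter_upwards [hDF, P.q_sq x] with y hy hq
  have hD : P.G (zd k x) (zd k x) y = 2 * zd k x y + k ^ 2 * zd k x y ^ 2 - P.q x y ^ 2 := by
    linarith
  have hA := alg (h := h) (k := k) (a := a) (z := zd k x y) (q := P.q x y)
    (D := P.G (zd k x) (zd k x) y) hD
  rw [hy]
  have hpow : (zd k x y + a) ^ (-m - 1) = (zd k x y + a) ^ (-m - 2) * (zd k x y + a) := by
    rw [show -m - 1 = (-m - 2) + 1 by ring, Real.rpow_add (hpos y), Real.rpow_one]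
  have hA' : (h * (zd k x y + a) - P.q x y) ^ 2 + s0 k a
      - (h ^ 2 - k ^ 2) * (zd k x y + a) ^ 2 = 2 * (1 + k ^ 2 * zd k x y) * (zd k x y + a)
        - 2 * h * P.q x y * (zd k x y + a) - P.G (zd k x) (zd k x) y := by linarith
  rw [hA', hpow, hn]
  ring

/-- **A1 (P)**. -/
theorem t_super {h : ℝ} (P : PreData n k K) (hm : 0 ≤ mA n) (hFV : P.FV h) : T_super P h := by
  intro x a ha f hf hf0
  have key := super_aux P hFV x ha hf hf0
  set m := mA n with hmdef
  have hz := lip_zd k x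
  have hzc := hz.continuous
  have hfc := hf.continuous
  have hpos : ∀ y, 0 < zd k x y + a := zd_add_pos k x ha
  have hphi : Lip (fun y => (zd k x y + a) ^ (-m)) := lip_zd_rpow k x ha _
  have hp2c : Continuous (fun y => (zd k x y + a) ^ (-m - 2)) := (lip_zd_rpow k x ha _).continuous
  have hpc : Continuous (fun y => (zd k x y + a) ^ (-m - 1)) := (lip_zd_rpow k x ha _).continuous
  have j0 : Integrable (fun y => (zd k x y + a) ^ (-m - 2) * f y) P.τ :=
    P.integrable_of_continuous (hp2c.mul hfc)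
  have j1 : Integrable (fun y => (zd k x y + a) ^ (-m - 1) * P.G f (zd k x) y) P.τ :=
    P.integrable_mul_G hf hz hpc
  have j3 : Integrable (fun y => (zd k x y + a) ^ (-m) * f y) P.τ :=
    P.integrable_of_continuous (hphi.continuous.mul hfc)
  have hform : P.form (bA n k h) (phiA n k x a) f
      = -m * (∫ y, (zd k x y + a) ^ (-m - 1) * P.G f (zd k x) y ∂P.τ)
        + bA n k h * ∫ y, (zd k x y + a) ^ (-m) * f y ∂P.τ := by
    rw [PreData.form, ← integral_const_mul, ← integral_const_mul,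
      ← integral_add (j1.const_mul _) (j3.const_mul _)]
    refine integral_congr_ae ?_
    filter_upwards [P.G_zd_rpow_left x ha (-m) hf, P.G_comm _ _ hf hz] with y hy hy2
    have e : phiA n k x a = fun y => (zd k x y + a) ^ (-m) := rfl
    rw [e]
    simp only
    rw [hy, ← hy2]
    ring
  rw [hform]
  -- monotonicity: drop the square
  have j2 : ∫ y, (zd k x y + a) ^ (-m - 2) * f y *
        (s0 k a - (h ^ 2 - k ^ 2) * (zd k x y + a) ^ 2) ∂P.τ
      ≤ ∫ y, (zd k x y + a) ^ (-m - 2) * f y *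
        ((h * (zd k x y + a) - P.q x y) ^ 2 + s0 k a - (h ^ 2 - k ^ 2) * (zd k x y + a) ^ 2) ∂P.τ
      := by
    refine integral_mono_ae ?_ ?_ (Eventually.of_forall fun y => ?_)
    · exact P.integrable_of_continuous (by fun_prop)
    · exact super_int P x ha hfc
    · have h1 : 0 ≤ (zd k x y + a) ^ (-m - 2) * f y :=
        mul_nonneg (Real.rpow_nonneg (hpos y).le _) (hf0 y)
      have h2 := sq_nonneg (h * (zd k x y + a) - P.q x y)
      simp only
      gcongr
      linarith
  have j4 : ∫ y, (zd k x y + a) ^ (-m - 2) * f y *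
        (s0 k a - (h ^ 2 - k ^ 2) * (zd k x y + a) ^ 2) ∂P.τ
      = s0 k a * (∫ y, (zd k x y + a) ^ (-m - 2) * f y ∂P.τ)
        - (h ^ 2 - k ^ 2) * ∫ y, (zd k x y + a) ^ (-m) * f y ∂P.τ := by
    rw [← integral_const_mul, ← integral_const_mul,
      ← integral_sub (j0.const_mul _) (j3.const_mul _)]
    refine integral_congr_ae (Eventually.of_forall fun y => ?_)
    have hpow : (zd k x y + a) ^ (-m) = (zd k x y + a) ^ (-m - 2) * (zd k x y + a) ^ 2 := by
      rw [show -m = (-m - 2) + (2 : ℕ) by push_cast; ring, Real.rpow_add (hpos y),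
        Real.rpow_natCast]
      ring_nf
    simp only
    rw [hpow]; ring
  have hn : 0 ≤ (n : ℝ) / 2 := by positivity
  have h5 := mul_le_mul_of_nonneg_left j2 hn
  rw [j4] at h5
  have h6 : m * ((n : ℝ) / 2 * (s0 k a * (∫ y, (zd k x y + a) ^ (-m - 2) * f y ∂P.τ)
        - (h ^ 2 - k ^ 2) * ∫ y, (zd k x y + a) ^ (-m) * f y ∂P.τ)
        + ∫ y, (zd k x y + a) ^ (-m - 1) * P.G f (zd k x) y ∂P.τ) ≤ 0 :=
    mul_nonpos_of_nonneg_of_nonpos hm (by linarith)
  have hb : bA n k h = m * n * (h ^ 2 - k ^ 2) / 2 := rfl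
  rw [hb]
  nlinarith [h6]

/-- a.e. the quadratic form `s ↦ G(u + s z, u + s z)` is nonnegative for all real `s`. -/
lemma square_nonneg (P : PreData n k K) {u v : K → ℝ} (hu : Lip u) (hv : Lip v) :
    ∀ᵐ y ∂P.τ, ∀ s : ℝ, 0 ≤ P.G u u y + 2 * s * P.G u v y + s ^ 2 * P.G v v y := by
  filter_upwards [P.G_nonneg u hu, P.G_nonneg v hv, P.G_sq_le hu hv] with y h1 h2 h3 s
  rcases h2.eq_or_lt with h0 | h0
  · rw [← h0, mul_zero] at h3
    have h4 : P.G u v y = 0 := pow_eq_zero_iff two_ne_zero |>.1 (le_antisymm h3 (sq_nonneg _))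
    rw [h4, ← h0]; simpa using h1
  · have h5 : 0 ≤ (P.G u v y + s * P.G v v y) ^ 2 := sq_nonneg _
    have h6 : P.G v v y * (P.G u u y + 2 * s * P.G u v y + s ^ 2 * P.G v v y)
        = (P.G u v y + s * P.G v v y) ^ 2 + (P.G u u y * P.G v v y - P.G u v y ^ 2) := by ring
    have h7 : 0 ≤ P.G v v y * (P.G u u y + 2 * s * P.G u v y + s ^ 2 * P.G v v y) := by
      rw [h6]; linarith
    exact nonneg_of_mul_nonneg_right h7 h0

/-- **A1 (Barta)**. -/
theorem t_barta {h : ℝ} (P : PreData n k K) (hS : T_super P h) : T_barta P h := by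
  intro x a ha u hu
  have hpos : ∀ y, 0 < zd k x y + a := zd_add_pos k x ha
  set m := mA n with hmdef
  have hpw : Lip (fun y => (zd k x y + a) ^ m) := lip_zd_rpow k x ha _
  have hphi : Lip (fun y => (zd k x y + a) ^ (-m)) := lip_zd_rpow k x ha _
  have hu2 : Lip (fun y => u y ^ 2) := hu.sq
  have hf : Lip (fun y => u y ^ 2 * (zd k x y + a) ^ m) := hu2.mul hpw
  have key := hS x a ha _ hf
    (fun y => mul_nonneg (sq_nonneg _) (Real.rpow_nonneg (hpos y).le _))
  have e1 : ∫ y, (zd k x y + a) ^ (-m - 2) * (u y ^ 2 * (zd k x y + a) ^ m) ∂P.τ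
      = ∫ y, ((zd k x y + a) ^ 2)⁻¹ * u y ^ 2 ∂P.τ := by
    refine integral_congr_ae (Eventually.of_forall fun y => ?_)
    have hpow : (zd k x y + a) ^ (-m - 2) * (zd k x y + a) ^ m = ((zd k x y + a) ^ 2)⁻¹ := by
      rw [← Real.rpow_add (hpos y), show -m - 2 + m = -((2 : ℕ) : ℝ) by push_cast; ring,
        Real.rpow_neg (hpos y).le, Real.rpow_natCast]
    simp only
    rw [← hpow]; ring
  rw [e1] at key
  refine key.trans ?_
  rw [PreData.energy, PreData.form, PreData.form]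
  refine integral_mono_ae (P.integrable_form _ hphi hf) (P.integrable_form _ hu hu) ?_
  have hz := lip_zd k x
  set φ : K → ℝ := fun y => (zd k x y + a) ^ (-m) with hφdef
  have hφ : phiA n k x a = φ := rfl
  have hpwc := hpw
  -- `G(φ, u² ψ) = u² G(φ, ψ) + ψ G(φ, u²)`
  filter_upwards [P.G_mul_right hu2 hpw hphi, P.G_zd_rpow_left x ha (-m) hpw,
    P.G_zd_rpow_right x ha m hz, P.G_zd_rpow_left x ha (-m) hu2, P.G_comm _ _ hz hu2,
    P.G_sq_left hu hz, P.G_comm _ _ hu hz, square_nonneg P hu hz]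
    with y h1 h2 h3 h4 h5 h6 h7 h8
  have h1' : P.G φ (fun y => u y ^ 2 * (zd k x y + a) ^ m) y
      = u y ^ 2 * P.G φ (fun y => (zd k x y + a) ^ m) y
        + (zd k x y + a) ^ m * P.G φ (fun y => u y ^ 2) y := h1
  rw [hφ, h1', h2, h3, h4, h5, h6]
  have hmul : (zd k x y + a) ^ (-m) * (zd k x y + a) ^ m = 1 := by
    rw [← Real.rpow_add (hpos y)]; simp
  have hA : (zd k x y + a) ^ (-m - 1) = (zd k x y + a) ^ (-m) * (zd k x y + a)⁻¹ := by
    rw [Real.rpow_sub_one (hpos y).ne']; rfl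
  have hB : (zd k x y + a) ^ (m - 1) = (zd k x y + a) ^ m * (zd k x y + a)⁻¹ := by
    rw [Real.rpow_sub_one (hpos y).ne']; rfl
  have h9 := h8 (m * u y * (zd k x y + a)⁻¹)
  simp only [hφdef]
  rw [hA, hB]
  set Z := zd k x y + a with hZ
  set A := Z ^ (-m) with hAdef
  set B := Z ^ m with hBdef
  set guz := P.G u (zd k x) y
  set gzz := P.G (zd k x) (zd k x) y
  set guu := P.G u u y
  have e2 : u y ^ 2 * (-m * (A * Z⁻¹) * (m * (B * Z⁻¹) * gzz))
      + B * (-m * (A * Z⁻¹) * (2 * u y * guz))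
      = (A * B) * (-(m * u y * Z⁻¹) ^ 2 * gzz - 2 * (m * u y * Z⁻¹) * guz) := by ring
  have e3 : A * (u y ^ 2 * B) = u y * u y := by
    calc A * (u y ^ 2 * B) = (A * B) * (u y ^ 2) := by ring
      _ = u y * u y := by rw [hmul]; ring
  rw [e2, e3, hmul]
  linarith

end

end Crest.Agent.R241.A1
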