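import Crest.Agent.R241.A2Sob

/-!
R241, block A2: summary.
-/

set_option autoImplicit false

namespace Crest.Agent.R241.A2

open MeasureTheory Set Filter Topology Crest.Agent.R241.A

variable {n : ℕ} {k h : ℝ} {K : Type*} [MetricSpace K] [CompactSpace K]
  [MeasurableSpace K] [BorelSpace K]

/-- A2 in one statement, given A1's `T_super`. -/
theorem a2 (hn : 3 ≤ n) (hk : 0 ≤ k) (hkh : k < h) (P : PreData n k K) (hFV : P.FV h)
    (hsup : T_super P h) : T_int P ∧ T_pole P ∧ T_pt P ∧ T_sob P h := by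
  have hb := bA_pos hn hk hkh
  have h1 := t_int (by omega) (hk.trans_lt hkh) P hFV
  have h2 := t_pole (by omega) P
  have h3 := t_pt hn hb P h1 h2 hsup
  exact ⟨h1, h2, h3, t_sob hn hb P h1 h3⟩

end Crest.Agent.R241.A2
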