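import Crest.Agent.R241.ABasic

/-!
R241, block A2a: uniform negative moments `T_int`.
-/

set_option autoImplicit false

namespace Crest.Agent.R241.A2

open MeasureTheory Set Filter Topology Crest.Agent.R241.A
open scoped NNReal ENNReal

variable {n : ℕ} {k : ℝ} {K : Type*} [MetricSpace K] [CompactSpace K]
  [MeasurableSpace K] [BorelSpace K]

omit [CompactSpace K] [MeasurableSpace K] [BorelSpace K] in
theorem continuous_pow_zd (x : K) {a : ℝ} (ha : 0 < a) (s : ℝ) :
    Continuous fun y => (zd k x y + a) ^ s :=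
  ((continuous_zd k x).add continuous_const).rpow_const
    fun y => Or.inl (by have := zd_nonneg k x y; change zd k x y + a ≠ 0; positivity)

/-- `q ≤ C √z` -/
theorem q_le' (P : PreData n k K) {Z : ℝ} (hb : ∀ x y : K, zd k x y ≤ Z) (x : K) :
    ∀ᵐ y ∂P.τ, P.q x y ≤ √(2 + k ^ 2 * Z) * √(zd k x y) := by
  filter_upwards [P.q_le x] with y hy
  refine hy.trans ?_
  have h0 := zd_nonneg k x y
  rw [← Real.sqrt_mul' _ h0]
  apply Real.sqrt_le_sqrt
  have h1 : k ^ 2 * zd k x y ^ 2 ≤ k ^ 2 * Z * zd k x y := by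
    have := hb x y
    rw [pow_two (zd k x y), ← mul_assoc]
    gcongr
  nlinarith

theorem fv_pow (P : PreData n k K) {h : ℝ} (hh : 0 < h) (hFV : P.FV h) {Z : ℝ}
    (hb : ∀ x y : K, zd k x y ≤ Z) (x : K) {a : ℝ} (ha : 0 < a) {s : ℝ} (hs0 : 0 ≤ s)
    (hs : s < (n : ℝ) / 2) :
    ((n : ℝ) - 2 * s) * ∫ y, (zd k x y + a) ^ (-s) ∂P.τ ≤
      n * h * √(2 + k ^ 2 * Z) * ∫ y, (zd k x y + a) ^ (-(s - 1 / 2)) ∂P.τ := by
  have hpos : ∀ y, 0 < zd k x y + a := fun y => by have := zd_nonneg k x y; positivity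
  have hf := lip_zd_rpow k x ha (-s)
  have key := hFV x _ hf (fun y => (Real.rpow_pos_of_pos (hpos y) _).le)
  have hint : Integrable (fun y => ((n : ℝ) * (1 + k ^ 2 * zd k x y) * (zd k x y + a) ^ (-s) +
      P.G (fun y => (zd k x y + a) ^ (-s)) (zd k x) y)) P.τ := by
    refine Integrable.add ?_ (P.integrable_G hf (lip_zd k x))
    apply P.integrable_of_continuous
    exact ((continuous_const.mul (continuous_const.add
      (continuous_const.mul (continuous_zd k x)))).mul (continuous_pow_zd x ha _))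
  have h1 : ((n : ℝ) - 2 * s) * ∫ y, (zd k x y + a) ^ (-s) ∂P.τ ≤
      ∫ y, ((n : ℝ) * (1 + k ^ 2 * zd k x y) * (zd k x y + a) ^ (-s) +
      P.G (fun y => (zd k x y + a) ^ (-s)) (zd k x) y) ∂P.τ := by
    rw [← integral_const_mul]
    apply integral_mono_ae ?_ hint
    · filter_upwards [P.G_zd_rpow_left x ha (-s) (lip_zd k x), P.G_z x] with y h2 h3
      rw [h2]
      have hz := zd_nonneg k x y
      have hp := hpos y
      have e1 : (zd k x y + a) ^ (-s) = (zd k x y + a) ^ (-s - 1) * (zd k x y + a) := by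
        rw [← Real.rpow_add_one hp.ne']; ring_nf
      set p := (zd k x y + a) ^ (-s - 1) with hpdef
      have hp0 : 0 < p := Real.rpow_pos_of_pos hp _
      rw [e1]
      have h4 : s * p * P.G (zd k x) (zd k x) y ≤
          s * p * (2 * zd k x y + k ^ 2 * zd k x y ^ 2) := by gcongr
      have h5 : s * p * (2 * zd k x y + k ^ 2 * zd k x y ^ 2) ≤
          s * p * ((zd k x y + a) * (2 + k ^ 2 * zd k x y)) := by
        gcongr
        nlinarith [mul_nonneg ha.le (by positivity : 0 ≤ 2 + k ^ 2 * zd k x y)]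
      have h6 : 0 ≤ ((n : ℝ) - s) * (k ^ 2 * zd k x y) * (p * (zd k x y + a)) := by
        have : 0 ≤ (n : ℝ) - s := by
          have : (0 : ℝ) ≤ n := Nat.cast_nonneg n
          linarith
        positivity
      change _ ≤ (n : ℝ) * (1 + k ^ 2 * zd k x y) * (p * (zd k x y + a)) +
        (-s) * p * P.G (zd k x) (zd k x) y
      nlinarith
    · apply Integrable.const_mul
      exact P.integrable_of_continuous (continuous_pow_zd x ha _)
  refine h1.trans (key.trans ?_)
  have h7 : ∫ y, (zd k x y + a) ^ (-s) * P.q x y ∂P.τ ≤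
      √(2 + k ^ 2 * Z) * ∫ y, (zd k x y + a) ^ (-(s - 1 / 2)) ∂P.τ := by
    rw [← integral_const_mul]
    apply integral_mono_of_nonneg
    · filter_upwards with y
      exact mul_nonneg (Real.rpow_pos_of_pos (hpos y) _).le (Real.sqrt_nonneg _)
    · exact (P.integrable_of_continuous (continuous_pow_zd x ha _)).const_mul _
    · filter_upwards [q_le' P hb x] with y hy
      have hp := hpos y
      have e2 : (zd k x y + a) ^ (-(s - 1 / 2)) = (zd k x y + a) ^ (-s) * √(zd k x y + a) := by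
        rw [Real.sqrt_eq_rpow, ← Real.rpow_add hp]; ring_nf
      rw [e2]
      have e3 : P.q x y ≤ √(2 + k ^ 2 * Z) * √(zd k x y + a) := by
        refine hy.trans ?_
        gcongr
        linarith
      calc (zd k x y + a) ^ (-s) * P.q x y ≤
          (zd k x y + a) ^ (-s) * (√(2 + k ^ 2 * Z) * √(zd k x y + a)) := by gcongr
        _ = _ := by ring
  calc (n : ℝ) * h * ∫ y, (zd k x y + a) ^ (-s) * P.q x y ∂P.τ ≤
      n * h * (√(2 + k ^ 2 * Z) * ∫ y, (zd k x y + a) ^ (-(s - 1 / 2)) ∂P.τ) := by gcongr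
    _ = _ := by ring

theorem phi_bound (P : PreData n k K) {h : ℝ} (hh : 0 < h) (hFV : P.FV h) (N : ℕ) :
    ∀ s : ℝ, s < (n : ℝ) / 2 → s ≤ (N : ℝ) / 2 → ∃ C : ℝ, 0 < C ∧ ∀ x : K, ∀ a : ℝ, 0 < a →
      a ≤ 1 → ∫ y, (zd k x y + a) ^ (-s) ∂P.τ ≤ C := by
  obtain ⟨Z, hZ, hb⟩ := exists_zd_le (K := K) k
  have base : ∀ s : ℝ, s ≤ 0 → ∃ C : ℝ, 0 < C ∧ ∀ x : K, ∀ a : ℝ, 0 < a →
      a ≤ 1 → ∫ y, (zd k x y + a) ^ (-s) ∂P.τ ≤ C := by
    intro s hs
    refine ⟨(Z + 1) ^ (-s) * P.τ.real univ + 1, by positivity, fun x a ha ha1 => ?_⟩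
    calc ∫ y, (zd k x y + a) ^ (-s) ∂P.τ ≤ ∫ _y : K, (Z + 1) ^ (-s) ∂P.τ := by
          apply integral_mono (P.integrable_of_continuous (continuous_pow_zd x ha _))
            (integrable_const _)
          intro y
          apply Real.rpow_le_rpow
          · have := zd_nonneg k x y; positivity
          · have := hb x y; linarith
          · linarith
      _ = (Z + 1) ^ (-s) * P.τ.real univ := by
          rw [integral_const, smul_eq_mul, mul_comm]
      _ ≤ _ := by linarith
  induction N with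
  | zero =>
    intro s _ hs
    exact base s (by simpa using hs)
  | succ N ih =>
    intro s hsn hs
    rcases le_or_gt s 0 with h0 | h0
    · exact base s h0
    · obtain ⟨C, hC, hCb⟩ := ih (s - 1 / 2) (by linarith) (by push_cast at hs; linarith)
      refine ⟨n * h * √(2 + k ^ 2 * Z) * C / (n - 2 * s) + 1, ?_, fun x a ha ha1 => ?_⟩
      · have : 0 < (n : ℝ) - 2 * s := by linarith
        positivity
      · have hd : 0 < (n : ℝ) - 2 * s := by linarith
        have h1 := fv_pow P hh hFV hb x ha h0.le hsn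
        have h2 : (n : ℝ) * h * √(2 + k ^ 2 * Z) * ∫ y, (zd k x y + a) ^ (-(s - 1 / 2)) ∂P.τ ≤
            n * h * √(2 + k ^ 2 * Z) * C := by
          have := hCb x a ha ha1
          gcongr
        have h3 : ∫ y, (zd k x y + a) ^ (-s) ∂P.τ ≤ n * h * √(2 + k ^ 2 * Z) * C / (n - 2 * s) := by
          rw [le_div_iff₀ hd]
          linarith
        linarith

/-- `T_int` -/
theorem t_int (hn : 1 ≤ n) {h : ℝ} (hh : 0 < h) (P : PreData n k K) (hFV : P.FV h) :
    T_int P := by
  have hn' : (1 : ℝ) ≤ n := by exact_mod_cast hn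
  have hsing : ∀ x : K, P.τ {x} = 0 := by
    intro x
    obtain ⟨C, hC, hCb⟩ := phi_bound P hh hFV 1 (1 / 4) (by linarith) (by norm_num)
    have h1 : ∀ a : ℝ, 0 < a → a ≤ 1 → P.τ.real {x} ≤ C * a ^ (1 / 4 : ℝ) := by
      intro a ha ha1
      have h2 : ∫ _y in {x}, a ^ (-(1 / 4) : ℝ) ∂P.τ ≤ ∫ y, (zd k x y + a) ^ (-(1 / 4) : ℝ) ∂P.τ := by
        have hI := P.integrable_of_continuous (continuous_pow_zd (k := k) x ha (-(1 / 4)))
        calc ∫ _y in {x}, a ^ (-(1 / 4) : ℝ) ∂P.τ
            = ∫ y in {x}, (zd k x y + a) ^ (-(1 / 4) : ℝ) ∂P.τ := by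
              apply setIntegral_congr_fun (measurableSet_singleton x)
              intro y hy
              rw [mem_singleton_iff] at hy
              simp [hy, zd_self]
          _ ≤ _ := setIntegral_le_integral hI (by
              filter_upwards with y
              have := zd_nonneg k x y
              change 0 ≤ (zd k x y + a) ^ (-(1 / 4) : ℝ)
              positivity)
      have h3 := h2.trans (hCb x a ha ha1)
      rw [setIntegral_const, smul_eq_mul] at h3
      have h4 : a ^ (-(1 / 4) : ℝ) * a ^ (1 / 4 : ℝ) = 1 := by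
        rw [← Real.rpow_add ha]; norm_num
      calc P.τ.real {x} = (P.τ.real {x} * a ^ (-(1 / 4) : ℝ)) * a ^ (1 / 4 : ℝ) := by
            rw [mul_assoc, h4, mul_one]
        _ ≤ C * a ^ (1 / 4 : ℝ) := by gcongr
    have h5 : Tendsto (fun a : ℝ => C * a ^ (1 / 4 : ℝ)) (𝓝[>] 0) (𝓝 0) := by
      have : Tendsto (fun a : ℝ => C * a ^ (1 / 4 : ℝ)) (𝓝 0) (𝓝 (C * 0 ^ (1 / 4 : ℝ))) := by
        refine Tendsto.const_mul _ ?_
        exact (Real.continuousAt_rpow_const 0 (1 / 4) (Or.inr (by norm_num))).tendsto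
      rw [Real.zero_rpow (by norm_num), mul_zero] at this
      exact this.mono_left nhdsWithin_le_nhds
    have h6 : P.τ.real {x} ≤ 0 := by
      apply ge_of_tendsto h5
      filter_upwards [Ioc_mem_nhdsGT (zero_lt_one (α := ℝ))] with a ha
      exact h1 a ha.1 ha.2
    have h7 : P.τ.real {x} = 0 := le_antisymm h6 measureReal_nonneg
    rwa [measureReal_eq_zero_iff] at h7
  intro s hs0 hs
  obtain ⟨N, hN⟩ := exists_nat_ge (2 * s)
  obtain ⟨C, hC, hCb⟩ := phi_bound P hh hFV N s hs (by linarith)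
  refine ⟨C, hC, fun x => ⟨?_, hsing x⟩⟩
  let aj : ℕ → ℝ := fun j => 1 / ((j : ℝ) + 1)
  have haj0 : ∀ j, 0 < aj j := fun j => by positivity
  have haj1 : ∀ j, aj j ≤ 1 := fun j => by
    change 1 / ((j : ℝ) + 1) ≤ 1
    rw [div_le_one (by positivity)]
    have : (0 : ℝ) ≤ j := Nat.cast_nonneg j
    linarith
  have haj : Tendsto aj atTop (𝓝 0) := tendsto_one_div_add_atTop_nhds_zero_nat
  have hne : ∀ᵐ y ∂P.τ, y ≠ x := by
    rw [ae_iff]
    simpa using hsing x
  calc ∫⁻ y, ENNReal.ofReal (zd k x y ^ (-s)) ∂P.τ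
      ≤ ∫⁻ y, liminf (fun j => ENNReal.ofReal ((zd k x y + aj j) ^ (-s))) atTop ∂P.τ := by
        apply lintegral_mono_ae
        filter_upwards [hne] with y hy
        have hz : 0 < zd k x y := zd_pos (Ne.symm hy)
        have ht : Tendsto (fun j => ENNReal.ofReal ((zd k x y + aj j) ^ (-s))) atTop
            (𝓝 (ENNReal.ofReal (zd k x y ^ (-s)))) := by
          apply ENNReal.tendsto_ofReal
          have h1 : Tendsto (fun j => zd k x y + aj j) atTop (𝓝 (zd k x y)) := by
            simpa using haj.const_add (zd k x y)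
          exact (Real.continuousAt_rpow_const (zd k x y) (-s) (Or.inl hz.ne')).tendsto.comp h1
        exact ht.liminf_eq.ge
    _ ≤ liminf (fun j => ∫⁻ y, ENNReal.ofReal ((zd k x y + aj j) ^ (-s)) ∂P.τ) atTop := by
        apply lintegral_liminf_le
        intro j
        exact ENNReal.measurable_ofReal.comp (continuous_pow_zd x (haj0 j) _).measurable
    _ ≤ ENNReal.ofReal C := by
        apply liminf_le_of_le (by isBoundedDefault)
        intro b hb
        obtain ⟨j, hj⟩ := hb.exists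
        refine hj.trans ?_
        rw [← ofReal_integral_eq_lintegral_ofReal
          (P.integrable_of_continuous (continuous_pow_zd x (haj0 j) _))]
        · exact ENNReal.ofReal_le_ofReal (hCb x (aj j) (haj0 j) (haj1 j))
        · filter_upwards with y
          have := zd_nonneg k x y
          have := haj0 j
          change 0 ≤ (zd k x y + aj j) ^ (-s)
          positivity

/-- real version: `z^{-s}` is integrable, with uniform bound -/
theorem int_real {P : PreData n k K} (h : T_int P) {s : ℝ} (hs0 : 0 ≤ s) (hs : s < (n : ℝ) / 2) :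
    ∃ C : ℝ, 0 < C ∧ ∀ x : K, Integrable (fun y => zd k x y ^ (-s)) P.τ ∧
      ∫ y, zd k x y ^ (-s) ∂P.τ ≤ C := by
  obtain ⟨C, hC, hCb⟩ := h s hs0 hs
  refine ⟨C, hC, fun x => ?_⟩
  have hm : AEStronglyMeasurable (fun y => zd k x y ^ (-s)) P.τ :=
    ((continuous_zd k x).measurable.pow_const _).aestronglyMeasurable
  have hnn : ∀ y, 0 ≤ zd k x y ^ (-s) := fun y => Real.rpow_nonneg (zd_nonneg k x y) _
  have hI : Integrable (fun y => zd k x y ^ (-s)) P.τ := by
    refine ⟨hm, ?_⟩
    rw [hasFiniteIntegral_iff_ofReal (Eventually.of_forall hnn)]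
    exact (hCb x).1.trans_lt ENNReal.ofReal_lt_top
  refine ⟨hI, ?_⟩
  have := (hCb x).1
  rw [← ofReal_integral_eq_lintegral_ofReal hI (Eventually.of_forall hnn)] at this
  exact (ENNReal.ofReal_le_ofReal_iff hC.le).1 this

end Crest.Agent.R241.A2
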