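import Mathlib

/-!
R241, block A2b: layer cake lower bound for the pole inequality.
-/

set_option autoImplicit false

namespace Crest.Agent.R241.A2

open MeasureTheory Set Filter Topology
open scoped NNReal ENNReal

/-- `∫_z^R p (t+a)^{-p-1} dt = (z+a)^{-p} - (R+a)^{-p}`. -/
theorem integral_pow {a p z R : ℝ} (ha : 0 < a) (hz : 0 ≤ z) (hzR : z ≤ R) :
    ∫ t in z..R, p * (t + a) ^ (-p - 1) = (z + a) ^ (-p) - (R + a) ^ (-p) := by
  have h1 : ∀ t ∈ uIcc z R, HasDerivAt (fun t : ℝ => -(t + a) ^ (-p)) (p * (t + a) ^ (-p - 1)) t := by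
    intro t ht
    rw [uIcc_of_le hzR] at ht
    have hne : t + a ≠ 0 := by have := ht.1; linarith
    have := (((hasDerivAt_id t).add_const a).rpow_const (p := -p) (Or.inl hne)).neg
    refine this.congr_deriv ?_
    simp
  have h2 : ContinuousOn (fun t : ℝ => p * (t + a) ^ (-p - 1)) (uIcc z R) := by
    rw [uIcc_of_le hzR]
    refine ContinuousOn.mul continuousOn_const (ContinuousOn.rpow_const (by fun_prop) ?_)
    intro t ht
    left
    have := ht.1
    linarith
  rw [intervalIntegral.integral_eq_sub_of_hasDerivAt h1 h2.intervalIntegrable]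
  ring

/-- `∫_0^R p t^{p-1} (t+a)^{-p-1} dt = (R/(R+a))^p / a`. -/
theorem integral_pole {a p R : ℝ} (ha : 0 < a) (hp : 1 ≤ p) (hR : 0 ≤ R) :
    ∫ t in (0 : ℝ)..R, p * (t + a) ^ (-p - 1) * t ^ (p - 1) = (R / (R + a)) ^ p / a := by
  have hcont : ContinuousOn (fun t : ℝ => p * (t + a) ^ (-p - 1) * t ^ (p - 1)) (Icc 0 R) := by
    refine ContinuousOn.mul (ContinuousOn.mul continuousOn_const
      (ContinuousOn.rpow_const (by fun_prop) ?_)) ?_
    · intro t ht
      left
      have := ht.1
      positivity
    · exact ContinuousOn.rpow_const continuousOn_id fun t _ => Or.inr (by linarith)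
  have h1 : ∫ t in (0 : ℝ)..R, p * (t + a) ^ (-p - 1) * t ^ (p - 1) =
      (fun t : ℝ => (t / (t + a)) ^ p / a) R - (fun t : ℝ => (t / (t + a)) ^ p / a) 0 := by
    apply intervalIntegral.integral_eq_sub_of_hasDerivAt_of_le hR
    · refine ContinuousOn.div_const (ContinuousOn.rpow_const ?_ fun t _ => Or.inr (by linarith)) _
      refine ContinuousOn.div continuousOn_id (by fun_prop) ?_
      intro t ht
      have := ht.1
      positivity
    · intro t ht
      have ht0 := ht.1
      have hne : t + a ≠ 0 := by positivity
      have h2 : HasDerivAt (fun t : ℝ => t / (t + a)) (a / (t + a) ^ 2) t := by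
        have := (hasDerivAt_id t).div ((hasDerivAt_id t).add_const a) hne
        refine this.congr_deriv ?_
        simp
      have h3 := (h2.rpow_const (p := p) (Or.inr hp)).div_const a
      refine h3.congr_deriv ?_
      have e1 : (t / (t + a)) ^ (p - 1) = t ^ (p - 1) / (t + a) ^ (p - 1) :=
        Real.div_rpow ht0.le (by positivity) _
      have e2 : (t + a) ^ (-p - 1) = ((t + a) ^ (p - 1))⁻¹ * ((t + a) ^ 2)⁻¹ := by
        rw [← Real.rpow_neg (by positivity), ← Real.rpow_natCast (t + a) 2,
          ← Real.rpow_neg (by positivity), ← Real.rpow_add (by positivity)]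
        congr 1
        push_cast
        ring
      rw [e1, e2]
      have : (t + a) ^ (p - 1) ≠ 0 := (Real.rpow_pos_of_pos (by positivity) _).ne'
      field_simp
    · rw [← uIcc_of_le hR] at hcont
      exact hcont.intervalIntegrable
  rw [h1]
  have : (0 : ℝ) ^ p = 0 := Real.zero_rpow (by linarith)
  simp [this]

/-- layer cake lower bound -/
theorem layer {K : Type*} [MeasurableSpace K] {μ : Measure K} [IsFiniteMeasure μ] {z : K → ℝ}
    (hz : Measurable z) (hz0 : ∀ y, 0 ≤ z y) {a p R c : ℝ} (ha : 0 < a) (hp : 1 ≤ p)
    (hR : 0 < R) (hc : 0 ≤ c)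
    (h : ∀ t ∈ Ioo 0 R, c * t ^ (p - 1) ≤ μ.real {y | z y < t}) :
    c * ((R / (R + a)) ^ p / a) ≤ ∫ y in {y | z y < R}, (z y + a) ^ (-p) ∂μ := by
  have hp0 : 0 < p := by linarith
  have hmeasS : MeasurableSet {y | z y < R} := measurableSet_lt hz measurable_const
  have hG : Measurable fun y => (z y + a) ^ (-p) := (hz.add_const a).pow_const _
  have hGnn : ∀ y, 0 ≤ (z y + a) ^ (-p) := fun y => by have := hz0 y; positivity
  have hint : IntegrableOn (fun y => (z y + a) ^ (-p)) {y | z y < R} μ := by
    apply Integrable.integrableOn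
    refine Integrable.of_bound hG.aestronglyMeasurable (a ^ (-p)) ?_
    filter_upwards with y
    rw [Real.norm_of_nonneg (hGnn y)]
    apply Real.rpow_le_rpow_of_nonpos ha
    · linarith [hz0 y]
    · linarith
  set g : ℝ → ℝ := fun t => p * (t + a) ^ (-p - 1) with hg
  have hgm : Measurable g := by
    exact measurable_const.mul ((measurable_id.add_const a).pow_const _)
  -- pointwise
  have h1 : ∀ y, z y < R → ∫⁻ t in Ioo 0 R, (Ioi (z y)).indicator (fun t => ENNReal.ofReal (g t)) t
      ≤ ENNReal.ofReal ((z y + a) ^ (-p)) := by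
    intro y hy
    rw [lintegral_indicator measurableSet_Ioi]
    rw [Measure.restrict_restrict measurableSet_Ioi]
    have e0 : Ioi (z y) ∩ Ioo 0 R ⊆ Ioc (z y) R := fun t ht => ⟨ht.1, ht.2.2.le⟩
    refine (lintegral_mono_set e0).trans ?_
    have hI : IntervalIntegrable g volume (z y) R := by
      apply ContinuousOn.intervalIntegrable
      rw [uIcc_of_le hy.le]
      refine ContinuousOn.mul continuousOn_const (ContinuousOn.rpow_const (by fun_prop) ?_)
      intro t ht
      left
      have := ht.1
      have := hz0 y
      linarith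
    rw [← ofReal_integral_eq_lintegral_ofReal]
    · apply ENNReal.ofReal_le_ofReal
      rw [← intervalIntegral.integral_of_le hy.le, integral_pow ha (hz0 y) hy.le]
      have : 0 ≤ (R + a) ^ (-p) := by positivity
      linarith
    · exact (intervalIntegrable_iff_integrableOn_Ioc_of_le hy.le).1 hI
    · filter_upwards [ae_restrict_mem measurableSet_Ioc] with t ht
      have := ht.1
      have := hz0 y
      have : 0 < t + a := by linarith
      change 0 ≤ p * (t + a) ^ (-p - 1)
      positivity
  have hjoint : Measurable (Function.uncurry fun (y : K) (t : ℝ) =>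
      (Ioi (z y)).indicator (fun t => ENNReal.ofReal (g t)) t) := by
    have : (Function.uncurry fun (y : K) (t : ℝ) =>
        (Ioi (z y)).indicator (fun t => ENNReal.ofReal (g t)) t) =
        {q : K × ℝ | z q.1 < q.2}.indicator (fun q => ENNReal.ofReal (g q.2)) := by
      ext ⟨y, t⟩
      simp [Function.uncurry, indicator]
    rw [this]
    apply Measurable.indicator
    · exact ENNReal.measurable_ofReal.comp (hgm.comp measurable_snd)
    · exact measurableSet_lt (hz.comp measurable_fst) measurable_snd
  have h2 : ∫⁻ t in Ioo 0 R, ENNReal.ofReal (c * (g t * t ^ (p - 1))) ≤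
      ∫⁻ y in {y | z y < R}, ENNReal.ofReal ((z y + a) ^ (-p)) ∂μ := by
    calc ∫⁻ t in Ioo 0 R, ENNReal.ofReal (c * (g t * t ^ (p - 1)))
        ≤ ∫⁻ t in Ioo 0 R, ∫⁻ y in {y | z y < R},
            (Ioi (z y)).indicator (fun t => ENNReal.ofReal (g t)) t ∂μ := by
          apply setLIntegral_mono'
          · exact measurableSet_Ioo
          intro t ht
          have ht0 := ht.1
          have e1 : ∫⁻ y in {y | z y < R},
              (Ioi (z y)).indicator (fun t => ENNReal.ofReal (g t)) t ∂μ =
              ENNReal.ofReal (g t) * μ {y | z y < t} := by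
            have : (fun y => (Ioi (z y)).indicator (fun t => ENNReal.ofReal (g t)) t) =
                {y | z y < t}.indicator (fun _ => ENNReal.ofReal (g t)) := by
              ext y
              simp [indicator]
            rw [this, lintegral_indicator (measurableSet_lt hz measurable_const),
              Measure.restrict_restrict (measurableSet_lt hz measurable_const)]
            have e3 : {y | z y < t} ∩ {y | z y < R} = {y | z y < t} := by
              ext y
              simp only [mem_inter_iff, mem_ofPred_eq, and_iff_left_iff_imp]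
              intro h; exact h.trans ht.2
            rw [e3, setLIntegral_const]
          rw [e1]
          have hg0 : 0 ≤ g t := by
            change 0 ≤ p * (t + a) ^ (-p - 1)
            positivity
          calc ENNReal.ofReal (c * (g t * t ^ (p - 1)))
              = ENNReal.ofReal (g t) * ENNReal.ofReal (c * t ^ (p - 1)) := by
                rw [← ENNReal.ofReal_mul hg0]; ring_nf
            _ ≤ ENNReal.ofReal (g t) * μ {y | z y < t} := by
                gcongr
                rw [← ENNReal.ofReal_toReal (measure_ne_top μ {y | z y < t})]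
                exact ENNReal.ofReal_le_ofReal (h t ht)
      _ = ∫⁻ y in {y | z y < R}, (∫⁻ t in Ioo 0 R,
            (Ioi (z y)).indicator (fun t => ENNReal.ofReal (g t)) t) ∂μ := by
          rw [lintegral_lintegral_swap]
          have := hjoint.comp (measurable_swap (α := ℝ) (β := K))
          exact this.aemeasurable
      _ ≤ ∫⁻ y in {y | z y < R}, ENNReal.ofReal ((z y + a) ^ (-p)) ∂μ := by
          apply setLIntegral_mono' hmeasS
          intro y hy
          exact h1 y hy
  have hI2 : IntegrableOn (fun t : ℝ => c * (g t * t ^ (p - 1))) (Ioo 0 R) := by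
    have hcont : ContinuousOn (fun t : ℝ => c * (g t * t ^ (p - 1))) (Icc 0 R) := by
      refine ContinuousOn.mul continuousOn_const (ContinuousOn.mul (ContinuousOn.mul
        continuousOn_const (ContinuousOn.rpow_const (by fun_prop) ?_)) ?_)
      · intro t ht
        left
        have := ht.1
        positivity
      · exact ContinuousOn.rpow_const continuousOn_id fun t _ => Or.inr (by linarith)
    exact hcont.integrableOn_Icc.mono_set Ioo_subset_Icc_self
  rw [← ofReal_integral_eq_lintegral_ofReal hI2, ← ofReal_integral_eq_lintegral_ofReal hint] at h2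
  · have h3 : ∫ t in Ioo 0 R, c * (g t * t ^ (p - 1)) = c * ((R / (R + a)) ^ p / a) := by
      rw [← integral_Ioc_eq_integral_Ioo, ← intervalIntegral.integral_of_le hR.le,
        intervalIntegral.integral_const_mul]
      rw [← integral_pole ha hp hR.le]
    rw [h3] at h2
    exact (ENNReal.ofReal_le_ofReal_iff (integral_nonneg fun y => hGnn y)).1 h2
  · filter_upwards with y using hGnn y
  · filter_upwards [ae_restrict_mem measurableSet_Ioo] with t ht
    have := ht.1
    change 0 ≤ c * (p * (t + a) ^ (-p - 1) * t ^ (p - 1))
    positivity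

end Crest.Agent.R241.A2
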