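import Crest.Agent.R241.A2Int
import Crest.Agent.R241.A2Layer

/-!
R241, block A2b: pole inequality `T_pole`.
-/

set_option autoImplicit false

namespace Crest.Agent.R241.A2

open MeasureTheory Set Filter Topology Crest.Agent.R241.A
open scoped NNReal ENNReal

variable {n : ℕ} {k : ℝ} {K : Type*} [MetricSpace K] [CompactSpace K]
  [MeasurableSpace K] [BorelSpace K]

theorem omegaBall_nonneg (n : ℕ) : 0 ≤ omegaBall n := ENNReal.toReal_nonneg

theorem t_pole (hn : 2 ≤ n) (P : PreData n k K) : T_pole P := by
  have hn' : (2 : ℝ) ≤ n := by exact_mod_cast hn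
  have hm : 0 ≤ mA n := by unfold mA; linarith
  have hω := omegaBall_nonneg n
  have hcP : 0 ≤ cP n := by unfold cP; positivity
  filter_upwards [P.dens] with y' hdens
  intro u hu hu0 θ hθ
  -- `s0 ≥ 0` eventually
  have hs0 : ∀ᶠ a in 𝓝[>] (0 : ℝ), 0 < a ∧ k ^ 2 * a ≤ 1 := by
    have h1 : Tendsto (fun a : ℝ => k ^ 2 * a) (𝓝[>] 0) (𝓝 0) := by
      have : Tendsto (fun a : ℝ => k ^ 2 * a) (𝓝 0) (𝓝 (k ^ 2 * 0)) :=
        (continuous_const.mul continuous_id).tendsto 0
      rw [mul_zero] at this
      exact this.mono_left nhdsWithin_le_nhds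
    filter_upwards [self_mem_nhdsWithin, h1.eventually (ge_mem_nhds zero_lt_one)] with a ha h
    exact ⟨ha, h⟩
  rcases (hu0 y').eq_or_lt with hz | hpos
  · filter_upwards [hs0] with a ⟨ha, hka⟩
    rw [← hz, mul_zero]
    have h1 : 0 ≤ s0 k a := by unfold s0; nlinarith
    have h2 : 0 ≤ ∫ y, (zd k y' y + a) ^ (-(mA n) - 2) * u y ∂P.τ := by
      apply integral_nonneg
      intro y
      have := zd_nonneg k y' y
      have := hu0 y
      change 0 ≤ (zd k y' y + a) ^ (-(mA n) - 2) * u y
      positivity
    positivity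
  · -- choose θ'
    set x := (1 - max θ 0) / 4 with hx
    have hx1 : max θ 0 < 1 := max_lt hθ zero_lt_one
    have hx0 : 0 < x := by rw [hx]; linarith
    have hx2 : x ≤ 1 / 4 := by
      have : 0 ≤ max θ 0 := le_max_right _ _
      rw [hx]; linarith
    set θ' := 1 - x with hθ'
    have hθ'1 : θ' < 1 := by rw [hθ']; linarith
    have hθ'0 : 0 < θ' := by rw [hθ']; linarith
    have hcube : θ ≤ θ' * θ' * θ' := by
      have h1 : θ ≤ max θ 0 := le_max_left _ _
      have h2 : max θ 0 = 1 - 4 * x := by rw [hx]; ring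
      rw [hθ']
      nlinarith [mul_pos hx0 hx0]
    -- continuity radius
    obtain ⟨ρ, hρ, hρu⟩ : ∃ ρ > 0, ∀ y, dist y' y < ρ → θ' * u y' ≤ u y := by
      have h1 : θ' * u y' < u y' := by nlinarith
      have h2 : ∀ᶠ y in 𝓝 y', θ' * u y' < u y := hu.continuousAt.eventually (lt_mem_nhds h1)
      obtain ⟨ρ, hρ, h3⟩ := Metric.eventually_nhds_iff.1 h2
      exact ⟨ρ, hρ, fun y hy => (h3 (by rwa [dist_comm])).le⟩
    -- density radius
    obtain ⟨r1, hr1, hr1d⟩ : ∃ r1 > 0, ∀ r, 0 < r → r < r1 →
        θ' * omegaBall n * r ^ n ≤ P.τ.real {y | zd k y' y < r ^ 2 / 2} := by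
      have h1 := hdens θ' hθ'1
      rw [eventually_nhdsWithin_iff] at h1
      obtain ⟨r1, hr1, h2⟩ := Metric.eventually_nhds_iff.1 h1
      refine ⟨r1, hr1, fun r hr hrr => h2 ?_ hr⟩
      rw [Real.dist_eq, sub_zero, abs_of_pos hr]
      exact hrr
    set R := min (ρ ^ 2 / 2) (r1 ^ 2 / 2) with hR
    have hR0 : 0 < R := by rw [hR]; positivity
    have hRρ : R ≤ ρ ^ 2 / 2 := min_le_left _ _
    have hRr1 : R ≤ r1 ^ 2 / 2 := min_le_right _ _
    -- limit of the bracket
    have hlim : ∀ᶠ a in 𝓝[>] (0 : ℝ), θ' ≤ (1 - k ^ 2 * a / 2) * (R / (R + a)) ^ (mA n + 2) := by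
      have h1 : Tendsto (fun a : ℝ => (1 - k ^ 2 * a / 2) * (R / (R + a)) ^ (mA n + 2)) (𝓝[>] 0)
          (𝓝 1) := by
        have hc : ContinuousAt (fun a : ℝ => (1 - k ^ 2 * a / 2) * (R / (R + a)) ^ (mA n + 2)) 0 := by
          apply ContinuousAt.mul (by fun_prop)
          apply ContinuousAt.rpow_const
          · apply ContinuousAt.div continuousAt_const (by fun_prop)
            simp; positivity
          · right; linarith
        have h2 := hc.tendsto
        simp only [add_zero, mul_zero, zero_div, sub_zero, div_self hR0.ne', Real.one_rpow,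
          one_mul] at h2
        exact h2.mono_left nhdsWithin_le_nhds
      exact h1.eventually (le_mem_nhds hθ'1)
    filter_upwards [hs0, hlim] with a ⟨ha, hka⟩ hlima
    -- lower bound for the integral
    have hp : 1 ≤ mA n + 2 := by linarith
    have hlayer := layer (μ := P.τ) (z := zd k y') (continuous_zd k y').measurable
      (zd_nonneg k y') (a := a) (p := mA n + 2) (R := R)
      (c := θ' * omegaBall n * 2 ^ (mA n + 1)) ha hp hR0 (by positivity) (by
        intro t ht
        have ht0 := ht.1
        have h1 : √(2 * t) < r1 := by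
          rw [Real.sqrt_lt' hr1]
          have := ht.2
          linarith
        have h2 := hr1d (√(2 * t)) (by positivity) h1
        have h3 : (√(2 * t)) ^ 2 / 2 = t := by
          rw [Real.sq_sqrt (by positivity)]; ring
        rw [h3] at h2
        have h4 : (√(2 * t)) ^ n = 2 ^ (mA n + 1) * t ^ (mA n + 1) := by
          rw [← Real.rpow_natCast, Real.sqrt_eq_rpow, ← Real.rpow_mul (by positivity),
            ← Real.mul_rpow (by norm_num) ht0.le]
          congr 1
          rw [n_eq n]; ring
        rw [h4] at h2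
        have h5 : mA n + 2 - 1 = mA n + 1 := by ring
        rw [h5]
        calc θ' * omegaBall n * 2 ^ (mA n + 1) * t ^ (mA n + 1)
            = θ' * omegaBall n * (2 ^ (mA n + 1) * t ^ (mA n + 1)) := by ring
          _ ≤ _ := h2)
    have hexp : -(mA n + 2) = -(mA n) - 2 := by ring
    rw [hexp] at hlayer
    have hmeasS : MeasurableSet {y | zd k y' y < R} :=
      measurableSet_lt (continuous_zd k y').measurable measurable_const
    have hcont : Continuous fun y => (zd k y' y + a) ^ (-(mA n) - 2) * u y :=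
      (continuous_pow_zd y' ha _).mul hu
    have hI1 := P.integrable_of_continuous (continuous_pow_zd (k := k) y' ha (-(mA n) - 2))
    have hI2 := P.integrable_of_continuous hcont
    have h1 : θ' * u y' * ∫ y in {y | zd k y' y < R}, (zd k y' y + a) ^ (-(mA n) - 2) ∂P.τ ≤
        ∫ y, (zd k y' y + a) ^ (-(mA n) - 2) * u y ∂P.τ := by
      calc θ' * u y' * ∫ y in {y | zd k y' y < R}, (zd k y' y + a) ^ (-(mA n) - 2) ∂P.τ
          = ∫ y in {y | zd k y' y < R}, θ' * u y' * (zd k y' y + a) ^ (-(mA n) - 2) ∂P.τ := by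
            rw [integral_const_mul]
        _ ≤ ∫ y in {y | zd k y' y < R}, (zd k y' y + a) ^ (-(mA n) - 2) * u y ∂P.τ := by
            apply setIntegral_mono_on (hI1.const_mul _).integrableOn hI2.integrableOn hmeasS
            intro y hy
            have h2 : dist y' y < ρ := by
              apply dist_lt_of_zd_lt (k := k) hρ.le
              exact lt_of_lt_of_le hy hRρ
            have h3 := hρu y h2
            have h4 : 0 ≤ (zd k y' y + a) ^ (-(mA n) - 2) := by
              have := zd_nonneg k y' y
              positivity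
            rw [mul_comm]
            gcongr
        _ ≤ _ := setIntegral_le_integral hI2 (by
            filter_upwards with y
            have := zd_nonneg k y' y
            have := hu0 y
            change 0 ≤ (zd k y' y + a) ^ (-(mA n) - 2) * u y
            positivity)
    have hs0a : s0 k a = 2 * a * (1 - k ^ 2 * a / 2) := by unfold s0; ring
    have h6 : 0 ≤ 1 - k ^ 2 * a / 2 := by linarith
    calc θ * cP n * u y' ≤ (θ' * θ' * θ') * cP n * u y' := by gcongr
      _ ≤ (θ' * θ' * ((1 - k ^ 2 * a / 2) * (R / (R + a)) ^ (mA n + 2))) * cP n * u y' := by gcongr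
      _ = mA n * n / 2 * s0 k a * (θ' * u y' * (θ' * omegaBall n * 2 ^ (mA n + 1) *
            ((R / (R + a)) ^ (mA n + 2) / a))) := by
          rw [hs0a]
          unfold cP
          field_simp
      _ ≤ mA n * n / 2 * s0 k a * (θ' * u y' *
            ∫ y in {y | zd k y' y < R}, (zd k y' y + a) ^ (-(mA n) - 2) ∂P.τ) := by
          have : 0 ≤ s0 k a := by rw [hs0a]; positivity
          gcongr
      _ ≤ _ := by
          have : 0 ≤ s0 k a := by rw [hs0a]; positivity
          gcongr

end Crest.Agent.R241.A2
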