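import Crest.Agent.R241.A2Pole

/-!
R241, block A2b: pointwise bound `T_pt`.
-/

set_option autoImplicit false

namespace Crest.Agent.R241.A2

open MeasureTheory Set Filter Topology Crest.Agent.R241.A
open scoped NNReal ENNReal

variable {n : ℕ} {k : ℝ} {K : Type*} [MetricSpace K] [CompactSpace K]
  [MeasurableSpace K] [BorelSpace K]

theorem omegaBall_pos (n : ℕ) : 0 < omegaBall n := by
  unfold omegaBall
  apply ENNReal.toReal_pos
  · exact (Metric.measure_ball_pos volume _ one_pos).ne'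
  · exact measure_ball_lt_top.ne

theorem cP_pos (hn : 3 ≤ n) : 0 < cP n := by
  have h1 := mA_pos hn
  have h2 := omegaBall_pos n
  have h3 : (0 : ℝ) < n := by positivity
  unfold cP
  positivity

theorem integrable_kernel {P : PreData n k K} (hint : T_int P) {s : ℝ} (hs0 : 0 ≤ s)
    (hs : s < (n : ℝ) / 2) {u v : K → ℝ} (hu : Lip u) (hv : Continuous v) (x : K) :
    Integrable (fun y => zd k x y ^ (-s) * (√(P.G u u y) + v y)) P.τ := by
  obtain ⟨C, hC, h1⟩ := int_real hint hs0 hs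
  obtain ⟨C1, hC1, hb1⟩ := P.exists_G_bound hu
  obtain ⟨C2, hC2, hb2⟩ := exists_bound_of_continuous hv
  refine (h1 x).1.mul_bdd (c := C1 + C2) ?_ ?_
  · exact (P.aestronglyMeasurable_sqrt hu).add hv.aestronglyMeasurable
  · filter_upwards [hb1] with y hy
    refine (norm_add_le _ _).trans (add_le_add ?_ (hb2 y))
    rw [Real.norm_of_nonneg (Real.sqrt_nonneg _), ← Real.sqrt_sq hC1]
    exact Real.sqrt_le_sqrt hy

theorem t_pt (hn : 3 ≤ n) {h : ℝ} (hb : 0 < bA n k h) (P : PreData n k K) (hint : T_int P)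
    (hpole : T_pole P) (hsup : T_super P h) : T_pt P := by
  have hn' : (3 : ℝ) ≤ n := by exact_mod_cast hn
  have hm := mA_pos hn
  have hcP := cP_pos hn
  obtain ⟨Z, hZ, hbZ⟩ := exists_zd_le (K := K) k
  set b := bA n k h with hbdef
  set C1 := mA n * √(2 + k ^ 2 * Z) + b * √Z with hC1
  have hC1pos : 0 < C1 := by positivity
  refine ⟨2 * C1 / cP n, by positivity, fun u hu hu0 => ?_⟩
  filter_upwards [hpole] with y' hy'
  have hs : mA n + 1 / 2 < (n : ℝ) / 2 := by unfold mA; linarith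
  have hsing : P.τ {y'} = 0 := ((hint (mA n + 1 / 2) (by positivity) hs).choose_spec.2 y').2
  have hne : ∀ᵐ y ∂P.τ, y ≠ y' := by
    rw [ae_iff]
    simpa using hsing
  have hIk := integrable_kernel hint (s := mA n + 1 / 2) (by positivity) hs hu hu.continuous y'
  obtain ⟨a, ha, hpos⟩ := ((hy' u hu.continuous hu0 (1 / 2) (by norm_num)).and
    self_mem_nhdsWithin).exists
  have hpos : 0 < a := hpos
  have h1 := hsup y' a hpos u hu hu0
  have h2 : P.form b (phiA n k y' a) u ≤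
      C1 * ∫ y, zd k y' y ^ (-(mA n + 1 / 2)) * (√(P.G u u y) + u y) ∂P.τ := by
    unfold PreData.form
    rw [← integral_const_mul]
    have hφ : Lip (phiA n k y' a) := lip_zd_rpow k y' hpos _
    apply integral_mono_ae (P.integrable_form b hφ hu) (hIk.const_mul _)
    filter_upwards [hne, P.G_zd_rpow_left y' hpos (-(mA n)) hu, P.abs_G_le (lip_zd k y') hu,
      P.sqrt_G_z_le y'] with y hyne hG hG1 hG2
    have hz : 0 < zd k y' y := zd_pos (Ne.symm hyne)
    change P.G (fun y => (zd k y' y + a) ^ (-(mA n))) u y + b * ((zd k y' y + a) ^ (-(mA n)) * u y)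
      ≤ _
    rw [hG]
    have hz1 : √(2 * zd k y' y + k ^ 2 * zd k y' y ^ 2) ≤ √(2 + k ^ 2 * Z) * √(zd k y' y) := by
      rw [← Real.sqrt_mul' _ hz.le]
      apply Real.sqrt_le_sqrt
      have h1 : k ^ 2 * zd k y' y ^ 2 ≤ k ^ 2 * Z * zd k y' y := by
        have := hbZ y' y
        rw [pow_two (zd k y' y), ← mul_assoc]
        gcongr
      nlinarith
    have hzpow : zd k y' y ^ (-(mA n + 1 / 2)) = zd k y' y ^ (-(mA n) - 1) * √(zd k y' y) := by
      rw [Real.sqrt_eq_rpow, ← Real.rpow_add hz]; ring_nf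
    have hzpow2 : zd k y' y ^ (-(mA n)) = zd k y' y ^ (-(mA n + 1 / 2)) * √(zd k y' y) := by
      rw [Real.sqrt_eq_rpow, ← Real.rpow_add hz]; ring_nf
    have hpow1 : (zd k y' y + a) ^ (-(mA n) - 1) ≤ zd k y' y ^ (-(mA n) - 1) :=
      Real.rpow_le_rpow_of_nonpos hz (by linarith) (by linarith)
    have hpow2 : (zd k y' y + a) ^ (-(mA n)) ≤ zd k y' y ^ (-(mA n)) :=
      Real.rpow_le_rpow_of_nonpos hz (by linarith) (by linarith)
    have hu0y := hu0 y
    have hk0 : 0 ≤ zd k y' y ^ (-(mA n + 1 / 2)) := by positivity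
    have ea : -(mA n) * (zd k y' y + a) ^ (-(mA n) - 1) * P.G (zd k y') u y ≤
        mA n * √(2 + k ^ 2 * Z) * (zd k y' y ^ (-(mA n + 1 / 2)) * √(P.G u u y)) := by
      calc -(mA n) * (zd k y' y + a) ^ (-(mA n) - 1) * P.G (zd k y') u y
          ≤ mA n * (zd k y' y + a) ^ (-(mA n) - 1) * |P.G (zd k y') u y| := by
            have : -P.G (zd k y') u y ≤ |P.G (zd k y') u y| := neg_le_abs _
            have h0 : 0 ≤ mA n * (zd k y' y + a) ^ (-(mA n) - 1) := by positivity
            nlinarith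
        _ ≤ mA n * zd k y' y ^ (-(mA n) - 1) *
            ((√(2 + k ^ 2 * Z) * √(zd k y' y)) * √(P.G u u y)) := by
            have := hG1.trans (mul_le_mul_of_nonneg_right (hG2.trans hz1) (Real.sqrt_nonneg _))
            gcongr
        _ = _ := by rw [hzpow]; ring
    have eb : b * ((zd k y' y + a) ^ (-(mA n)) * u y) ≤
        b * √Z * (zd k y' y ^ (-(mA n + 1 / 2)) * u y) := by
      have : √(zd k y' y) ≤ √Z := Real.sqrt_le_sqrt (hbZ y' y)
      calc b * ((zd k y' y + a) ^ (-(mA n)) * u y)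
          ≤ b * ((zd k y' y ^ (-(mA n + 1 / 2)) * √(zd k y' y)) * u y) := by
            rw [← hzpow2]; gcongr
        _ ≤ b * ((zd k y' y ^ (-(mA n + 1 / 2)) * √Z) * u y) := by gcongr
        _ = _ := by ring
    have ec : 0 ≤ zd k y' y ^ (-(mA n + 1 / 2)) * √(P.G u u y) := by positivity
    have ed : 0 ≤ zd k y' y ^ (-(mA n + 1 / 2)) * u y := by positivity
    have ee : 0 ≤ b * √Z := by positivity
    have ef : 0 ≤ mA n * √(2 + k ^ 2 * Z) := by positivity
    rw [hC1]
    nlinarith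
  have h3 : (1 / 2) * cP n * u y' ≤
      C1 * ∫ y, zd k y' y ^ (-(mA n + 1 / 2)) * (√(P.G u u y) + u y) ∂P.τ :=
    ha.trans (h1.trans h2)
  have hexp : -(mA n) - 1 / 2 = -(mA n + 1 / 2) := by ring
  rw [hexp]
  rw [div_mul_eq_mul_div, le_div_iff₀ hcP]
  linarith

end Crest.Agent.R241.A2
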