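import Mathlib

/-!
R241, block A2: Young / Schur inequality for an integral kernel (ENNReal form).
-/

set_option autoImplicit false

namespace Crest.Agent.R241.A2

open MeasureTheory Set Filter Topology
open scoped NNReal ENNReal

/-- Young / Schur inequality for a kernel `κ` with `∫ κ(x,·)^r ≤ M`, `∫ κ(·,y)^r ≤ M`,
`1/p + 1/r = 1 + 1/q`. -/
theorem young {α β : Type*} [MeasurableSpace α] [MeasurableSpace β] {μ : Measure α}
    {ν : Measure β} [SFinite μ] [SFinite ν]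
    {κ : α → β → ℝ≥0∞} (hκ : Measurable (Function.uncurry κ)) {g : β → ℝ≥0∞}
    (hg : AEMeasurable g ν) {p q r : ℝ} (hp : 0 < p) (hr : 0 < r) (hpq : p ≤ q) (hrq : r ≤ q)
    (h : 1 / p + 1 / r = 1 + 1 / q)
    {M : ℝ≥0∞} (h1 : ∀ x, ∫⁻ y, κ x y ^ r ∂ν ≤ M) (h2 : ∀ y, ∫⁻ x, κ x y ^ r ∂μ ≤ M) :
    (∫⁻ x, (∫⁻ y, κ x y * g y ∂ν) ^ q ∂μ) ≤ M ^ (q / r) * (∫⁻ y, g y ^ p ∂ν) ^ (q / p) := by
  have hq : 0 < q := lt_of_lt_of_le hp hpq
  have hx : ∀ x, Measurable (κ x) := fun x => hκ.comp measurable_prodMk_left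
  have hy : ∀ y, Measurable (fun x => κ x y) := fun y => hκ.comp measurable_prodMk_right
  -- pointwise estimate
  have key : ∀ x, (∫⁻ y, κ x y * g y ∂ν) ^ q ≤
      (∫⁻ y, κ x y ^ r * g y ^ p ∂ν) * ((∫⁻ y, g y ^ p ∂ν) ^ (q / p - 1) * M ^ (q / r - 1)) := by
    intro x
    have e1 : ∀ y, κ x y * g y =
        (κ x y ^ r * g y ^ p) ^ (1 / q) * (g y ^ p) ^ (1 / p - 1 / q) *
          (κ x y ^ r) ^ (1 / r - 1 / q) := by
      intro y
      have a1 : (0 : ℝ) ≤ 1 / q := by positivity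
      have a2 : 0 ≤ 1 / p - 1 / q := sub_nonneg.2 (one_div_le_one_div_of_le hp hpq)
      have a3 : 0 ≤ 1 / r - 1 / q := sub_nonneg.2 (one_div_le_one_div_of_le hr hrq)
      rw [ENNReal.mul_rpow_of_nonneg _ _ a1]
      have b1 : κ x y = (κ x y ^ r) ^ (1 / q) * (κ x y ^ r) ^ (1 / r - 1 / q) := by
        rw [← ENNReal.rpow_add_of_nonneg _ _ a1 a3, ← ENNReal.rpow_mul]
        have : r * (1 / q + (1 / r - 1 / q)) = 1 := by field_simp; ring
        rw [this, ENNReal.rpow_one]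
      have b2 : g y = (g y ^ p) ^ (1 / q) * (g y ^ p) ^ (1 / p - 1 / q) := by
        rw [← ENNReal.rpow_add_of_nonneg _ _ a1 a2, ← ENNReal.rpow_mul]
        have : p * (1 / q + (1 / p - 1 / q)) = 1 := by field_simp; ring
        rw [this, ENNReal.rpow_one]
      calc κ x y * g y = ((κ x y ^ r) ^ (1 / q) * (κ x y ^ r) ^ (1 / r - 1 / q)) *
            ((g y ^ p) ^ (1 / q) * (g y ^ p) ^ (1 / p - 1 / q)) := by rw [← b1, ← b2]
        _ = _ := by ring
    have hol := ENNReal.lintegral_prod_norm_pow_le (μ := ν) (Finset.univ : Finset (Fin 3))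
      (f := ![fun y => κ x y ^ r * g y ^ p, fun y => g y ^ p, fun y => κ x y ^ r])
      (by
        intro i _
        fin_cases i
        · exact (((hx x).pow_const r).aemeasurable).mul (hg.pow_const p)
        · exact hg.pow_const p
        · exact ((hx x).pow_const r).aemeasurable)
      (p := ![1 / q, 1 / p - 1 / q, 1 / r - 1 / q])
      (by simp [Fin.sum_univ_three]; simp at h; linarith)
      (by
        intro i _
        fin_cases i
        · simp; positivity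
        · simpa using inv_anti₀ hp hpq
        · simpa using inv_anti₀ hr hrq)
    simp only [Fin.prod_univ_three, Matrix.cons_val_zero, Matrix.cons_val_one,
      Matrix.cons_val_two, Matrix.head_cons, Matrix.tail_cons] at hol
    have e2 : ∫⁻ y, κ x y * g y ∂ν ≤
        (∫⁻ y, κ x y ^ r * g y ^ p ∂ν) ^ (1 / q) * (∫⁻ y, g y ^ p ∂ν) ^ (1 / p - 1 / q) *
          (∫⁻ y, κ x y ^ r ∂ν) ^ (1 / r - 1 / q) := by
      calc ∫⁻ y, κ x y * g y ∂ν = ∫⁻ y, (κ x y ^ r * g y ^ p) ^ (1 / q) *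
            (g y ^ p) ^ (1 / p - 1 / q) * (κ x y ^ r) ^ (1 / r - 1 / q) ∂ν :=
            lintegral_congr e1
        _ ≤ _ := hol
    have e3 : (∫⁻ y, κ x y * g y ∂ν) ^ q ≤
        ((∫⁻ y, κ x y ^ r * g y ^ p ∂ν) ^ (1 / q) * (∫⁻ y, g y ^ p ∂ν) ^ (1 / p - 1 / q) *
          M ^ (1 / r - 1 / q)) ^ q := by
      apply ENNReal.rpow_le_rpow _ hq.le
      refine e2.trans ?_
      gcongr
      · exact sub_nonneg.2 (one_div_le_one_div_of_le hr hrq)
      · exact h1 x
    refine e3.trans (le_of_eq ?_)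
    rw [ENNReal.mul_rpow_of_nonneg _ _ hq.le, ENNReal.mul_rpow_of_nonneg _ _ hq.le,
      ← ENNReal.rpow_mul, ← ENNReal.rpow_mul, ← ENNReal.rpow_mul]
    have c1 : 1 / q * q = 1 := by field_simp
    have c2 : (1 / p - 1 / q) * q = q / p - 1 := by field_simp
    have c3 : (1 / r - 1 / q) * q = q / r - 1 := by field_simp
    rw [c1, c2, c3, ENNReal.rpow_one, mul_assoc]
  have hmeas : AEMeasurable (Function.uncurry fun x y => κ x y ^ r * g y ^ p) (μ.prod ν) := by
    exact ((hκ.pow_const r).aemeasurable).mul ((hg.pow_const p).comp_snd)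
  calc (∫⁻ x, (∫⁻ y, κ x y * g y ∂ν) ^ q ∂μ)
      ≤ ∫⁻ x, (∫⁻ y, κ x y ^ r * g y ^ p ∂ν) *
          ((∫⁻ y, g y ^ p ∂ν) ^ (q / p - 1) * M ^ (q / r - 1)) ∂μ := lintegral_mono key
    _ = (∫⁻ x, ∫⁻ y, κ x y ^ r * g y ^ p ∂ν ∂μ) *
          ((∫⁻ y, g y ^ p ∂ν) ^ (q / p - 1) * M ^ (q / r - 1)) := by
        rw [lintegral_mul_const'']
        exact hmeas.lintegral_prod_right'
    _ ≤ (M * ∫⁻ y, g y ^ p ∂ν) *
          ((∫⁻ y, g y ^ p ∂ν) ^ (q / p - 1) * M ^ (q / r - 1)) := by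
        gcongr
        rw [lintegral_lintegral_swap hmeas]
        calc ∫⁻ y, ∫⁻ x, κ x y ^ r * g y ^ p ∂μ ∂ν
            = ∫⁻ y, (∫⁻ x, κ x y ^ r ∂μ) * g y ^ p ∂ν := by
              apply lintegral_congr
              intro y
              rw [lintegral_mul_const _ ((hy y).pow_const r)]
          _ ≤ ∫⁻ y, M * g y ^ p ∂ν := by
              apply lintegral_mono
              intro y
              dsimp only
              gcongr
              exact h2 y
          _ = M * ∫⁻ y, g y ^ p ∂ν := by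
              rw [lintegral_const_mul'' _ (hg.pow_const p)]
    _ = M ^ (q / r) * (∫⁻ y, g y ^ p ∂ν) ^ (q / p) := by
        have d1 : 0 ≤ q / p - 1 := by
          rw [sub_nonneg, one_le_div hp]; exact hpq
        have d2 : 0 ≤ q / r - 1 := by
          rw [sub_nonneg, one_le_div hr]; exact hrq
        have f1 : M ^ (q / r) = M * M ^ (q / r - 1) := by
          conv_lhs => rw [show q / r = 1 + (q / r - 1) by ring]
          rw [ENNReal.rpow_add_of_nonneg _ _ zero_le_one d2, ENNReal.rpow_one]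
        have f2 : (∫⁻ y, g y ^ p ∂ν) ^ (q / p) =
            (∫⁻ y, g y ^ p ∂ν) * (∫⁻ y, g y ^ p ∂ν) ^ (q / p - 1) := by
          conv_lhs => rw [show q / p = 1 + (q / p - 1) by ring]
          rw [ENNReal.rpow_add_of_nonneg _ _ zero_le_one d1, ENNReal.rpow_one]
        rw [f1, f2]
        ring

end Crest.Agent.R241.A2
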