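import Crest.Agent.R241.A2Pt
import Crest.Agent.R241.A2Young

/-!
R241, block A2c: subcritical Sobolev inequality `T_sob`.
-/

set_option autoImplicit false

namespace Crest.Agent.R241.A2

open MeasureTheory Set Filter Topology Crest.Agent.R241.A
open scoped NNReal ENNReal

variable {n : ℕ} {k : ℝ} {K : Type*} [MetricSpace K] [CompactSpace K]
  [MeasurableSpace K] [BorelSpace K]

/-! ### regularised absolute value -/

theorem hasDerivAt_reg {δ : ℝ} (hδ : 0 < δ) (t : ℝ) :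
    HasDerivAt (fun t : ℝ => √(t ^ 2 + δ ^ 2)) (t / √(t ^ 2 + δ ^ 2)) t := by
  have h0 : t ^ 2 + δ ^ 2 ≠ 0 := by positivity
  have h1 : HasDerivAt (fun t : ℝ => t ^ 2 + δ ^ 2) (2 * t) t := by
    have := ((hasDerivAt_id' t).pow 2).add_const (δ ^ 2)
    exact this.congr_deriv (by norm_num)
  refine (h1.sqrt h0).congr_deriv ?_
  have : √(t ^ 2 + δ ^ 2) ≠ 0 := by positivity
  field_simp

omit [MeasurableSpace K] [BorelSpace K] in
theorem lip_reg {u : K → ℝ} (hu : Lip u) {δ : ℝ} (hδ : 0 < δ) :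
    Lip (fun y => √(u y ^ 2 + δ ^ 2)) := by
  obtain ⟨B, hB, hBu⟩ := hu.exists_bound
  refine hu.comp_Icc (a := -B) (b := B) (φ := fun t => √(t ^ 2 + δ ^ 2))
    (φ' := fun t => t / √(t ^ 2 + δ ^ 2)) (fun s _ => hasDerivAt_reg hδ s) ?_
    fun y => abs_le.1 (hBu y)
  apply Continuous.continuousOn
  exact continuous_id.div (by fun_prop) fun t => by positivity

theorem G_reg (P : PreData n k K) {u : K → ℝ} (hu : Lip u) {δ : ℝ} (hδ : 0 < δ) :
    ∀ᵐ y ∂P.τ, √(P.G (fun y => √(u y ^ 2 + δ ^ 2)) (fun y => √(u y ^ 2 + δ ^ 2)) y) ≤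
      √(P.G u u y) := by
  have hr := lip_reg hu hδ
  have hc : Continuous (fun y => (fun t => t / √(t ^ 2 + δ ^ 2)) (u y)) := by
    have hcu := hu.continuous
    exact hcu.div (by fun_prop) fun t => by positivity
  filter_upwards [P.G_chain u _ (fun t => √(t ^ 2 + δ ^ 2)) (fun t => t / √(t ^ 2 + δ ^ 2)) hu hr hr
    (fun y => hasDerivAt_reg hδ _) hc,
    P.G_chain_right (φ := fun t => √(t ^ 2 + δ ^ 2)) (φ' := fun t => t / √(t ^ 2 + δ ^ 2)) hu hu hr
    (fun y => hasDerivAt_reg hδ _) hc, P.G_nonneg u hu] with y h1 h2 h3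
  apply Real.sqrt_le_sqrt
  rw [h1, h2]
  have hq : 0 < u y ^ 2 + δ ^ 2 := by positivity
  have e : u y / √(u y ^ 2 + δ ^ 2) * (u y / √(u y ^ 2 + δ ^ 2) * P.G u u y) =
      (u y ^ 2 / (u y ^ 2 + δ ^ 2)) * P.G u u y := by
    have hs : √(u y ^ 2 + δ ^ 2) * √(u y ^ 2 + δ ^ 2) = u y ^ 2 + δ ^ 2 :=
      Real.mul_self_sqrt hq.le
    calc _ = (u y * u y / (√(u y ^ 2 + δ ^ 2) * √(u y ^ 2 + δ ^ 2))) * P.G u u y := by
          rw [← mul_assoc, div_mul_div_comm]
      _ = _ := by rw [hs]; ring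
  rw [e]
  have h4 : u y ^ 2 / (u y ^ 2 + δ ^ 2) ≤ 1 := by
    rw [div_le_one hq]
    nlinarith [sq_nonneg δ]
  nlinarith [sq_nonneg (u y)]

/-- pointwise bound for functions of arbitrary sign -/
theorem t_pt_abs (hn : 3 ≤ n) (P : PreData n k K) (hint : T_int P) (hpt : T_pt P) :
    ∃ C : ℝ, 0 < C ∧ ∀ u : K → ℝ, Lip u → ∀ᵐ y' ∂P.τ,
      |u y'| ≤ C * ∫ y, zd k y' y ^ (-(mA n + 1 / 2)) * (√(P.G u u y) + |u y|) ∂P.τ := by
  obtain ⟨C, hC, hCb⟩ := hpt
  have hm := mA_pos hn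
  have hs : mA n + 1 / 2 < (n : ℝ) / 2 := by unfold mA; linarith
  have hs0 : 0 ≤ mA n + 1 / 2 := by positivity
  refine ⟨C, hC, fun u hu => ?_⟩
  let δ : ℕ → ℝ := fun j => 1 / ((j : ℝ) + 1)
  have hδ0 : ∀ j, 0 < δ j := fun j => by positivity
  have hδ : Tendsto δ atTop (𝓝 0) := tendsto_one_div_add_atTop_nhds_zero_nat
  have h1 : ∀ᵐ y' ∂P.τ, ∀ j, √(u y' ^ 2 + δ j ^ 2) ≤ C * ∫ y, zd k y' y ^ (-(mA n) - 1 / 2) *
      (√(P.G (fun y => √(u y ^ 2 + δ j ^ 2)) (fun y => √(u y ^ 2 + δ j ^ 2)) y)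
        + √(u y ^ 2 + δ j ^ 2)) ∂P.τ := by
    rw [ae_all_iff]
    intro j
    exact hCb _ (lip_reg hu (hδ0 j)) fun y => Real.sqrt_nonneg _
  filter_upwards [h1] with y' hy'
  have hcu := hu.continuous
  have hI0 := integrable_kernel hint hs0 hs hu (v := fun y => |u y|) (by fun_prop) y'
  have hIj : ∀ j, Integrable (fun y => zd k y' y ^ (-(mA n + 1 / 2)) *
      (√(P.G u u y) + (|u y| + δ j))) P.τ := fun j =>
    integrable_kernel hint hs0 hs hu (v := fun y => |u y| + δ j) (by fun_prop) y'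
  obtain ⟨C0, hC0, hC0b⟩ := int_real hint hs0 hs
  have hz := hC0b y'
  have h2 : ∀ j, |u y'| ≤ C * ∫ y, zd k y' y ^ (-(mA n + 1 / 2)) * (√(P.G u u y) + |u y|) ∂P.τ
      + C * (δ j * ∫ y, zd k y' y ^ (-(mA n + 1 / 2)) ∂P.τ) := by
    intro j
    have e1 : |u y'| ≤ √(u y' ^ 2 + δ j ^ 2) := by
      apply Real.abs_le_sqrt
      have := sq_nonneg (δ j)
      linarith
    refine e1.trans ((hy' j).trans ?_)
    have e3 : ∫ y, zd k y' y ^ (-(mA n + 1 / 2)) * (√(P.G u u y) + |u y|) ∂P.τ +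
        δ j * ∫ y, zd k y' y ^ (-(mA n + 1 / 2)) ∂P.τ =
        ∫ y, (zd k y' y ^ (-(mA n + 1 / 2)) * (√(P.G u u y) + |u y|) +
          δ j * zd k y' y ^ (-(mA n + 1 / 2))) ∂P.τ := by
      rw [integral_add hI0 (hz.1.const_mul _), integral_const_mul]
    rw [← mul_add, e3]
    apply mul_le_mul_of_nonneg_left _ hC.le
    have hexp : -(mA n) - 1 / 2 = -(mA n + 1 / 2) := by ring
    rw [hexp]
    have hr := lip_reg hu (hδ0 j)
    apply integral_mono_ae (integrable_kernel hint hs0 hs hr hr.continuous y')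
      (hI0.add (hz.1.const_mul _))
    filter_upwards [G_reg P hu (hδ0 j)] with y hy
    have e2 : √(u y ^ 2 + δ j ^ 2) ≤ |u y| + δ j := by
      rw [Real.sqrt_le_left (by have := hδ0 j; positivity)]
      have := hδ0 j
      have := abs_nonneg (u y)
      have := sq_abs (u y)
      nlinarith
    have hk : 0 ≤ zd k y' y ^ (-(mA n + 1 / 2)) := Real.rpow_nonneg (zd_nonneg k y' y) _
    calc zd k y' y ^ (-(mA n + 1 / 2)) *
        (√(P.G (fun y => √(u y ^ 2 + δ j ^ 2)) (fun y => √(u y ^ 2 + δ j ^ 2)) y)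
          + √(u y ^ 2 + δ j ^ 2))
        ≤ zd k y' y ^ (-(mA n + 1 / 2)) * (√(P.G u u y) + (|u y| + δ j)) := by gcongr
      _ = zd k y' y ^ (-(mA n + 1 / 2)) * (√(P.G u u y) + |u y|) +
            δ j * zd k y' y ^ (-(mA n + 1 / 2)) := by ring
  have h3 : Tendsto (fun j => C * ∫ y, zd k y' y ^ (-(mA n + 1 / 2)) *
      (√(P.G u u y) + |u y|) ∂P.τ + C * (δ j * ∫ y, zd k y' y ^ (-(mA n + 1 / 2)) ∂P.τ)) atTop
      (𝓝 (C * ∫ y, zd k y' y ^ (-(mA n + 1 / 2)) * (√(P.G u u y) + |u y|) ∂P.τ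
        + C * (0 * ∫ y, zd k y' y ^ (-(mA n + 1 / 2)) ∂P.τ))) :=
    ((hδ.mul_const _).const_mul C).const_add _
  rw [zero_mul, mul_zero, add_zero] at h3
  exact ge_of_tendsto' h3 h2

theorem t_sob (hn : 3 ≤ n) {h : ℝ} (hb : 0 < bA n k h) (P : PreData n k K) (hint : T_int P)
    (hpt : T_pt P) : T_sob P h := by
  intro q hq2 hmq
  have hn' : (3 : ℝ) ≤ n := by exact_mod_cast hn
  have hm := mA_pos hn
  have hq0 : 0 < q := by linarith
  obtain ⟨C, hC, hCb⟩ := t_pt_abs hn P hint hpt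
  set s := mA n + 1 / 2 with hs
  have hs0 : 0 < s := by positivity
  set r := 2 * q / (q + 2) with hr
  have hr0 : 0 < r := by positivity
  have hrs : s * r < (n : ℝ) / 2 := by
    rw [hr, hs, mul_div_assoc', div_lt_iff₀ (by positivity)]
    have : (n : ℝ) = 2 * mA n + 2 := n_eq n
    nlinarith
  obtain ⟨C0, hC0, hC0b⟩ := hint (s * r) (by positivity) hrs
  set b := bA n k h with hbdef
  refine ⟨C ^ 2 * C0 ^ (2 / r) * (2 * (1 + 1 / b)), by positivity, fun u hu => ?_⟩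
  have hcu := hu.continuous
  -- the functions
  set g : K → ℝ := fun y => √(P.G u u y) + |u y| with hg
  have hgm : AEStronglyMeasurable g P.τ :=
    (P.aestronglyMeasurable_sqrt hu).add (by fun_prop : Continuous fun y => |u y|).aestronglyMeasurable
  have hg0 : ∀ y, 0 ≤ g y := fun y => by change 0 ≤ √(P.G u u y) + |u y|; positivity
  have hκm : Measurable (Function.uncurry fun x y : K => ENNReal.ofReal (zd k x y ^ (-s))) := by
    have : Measurable fun p : K × K => zd k p.1 p.2 ^ (-s) :=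
      (continuous_zd₂ k).measurable.pow_const _
    exact ENNReal.measurable_ofReal.comp this
  have hκr : ∀ x y : K, ENNReal.ofReal (zd k x y ^ (-s)) ^ r =
      ENNReal.ofReal (zd k x y ^ (-(s * r))) := by
    intro x y
    have hz := zd_nonneg k x y
    rw [ENNReal.ofReal_rpow_of_nonneg (Real.rpow_nonneg hz _) hr0.le, ← Real.rpow_mul hz]
    ring_nf
  have hy := young (μ := P.τ) (ν := P.τ) hκm (g := fun y => ENNReal.ofReal (g y))
    hgm.aemeasurable.ennreal_ofReal (p := 2) (q := q) (r := r) (by norm_num) hr0 hq2.le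
    (by rw [hr, div_le_iff₀ (by positivity)]; nlinarith)
    (by rw [hr]; field_simp; ring) (M := ENNReal.ofReal C0)
    (fun x => by simp_rw [hκr]; exact (hC0b x).1)
    (fun y => by simp_rw [hκr, fun x => zd_comm k x y]; exact (hC0b y).1)
  -- left side
  have hI : Integrable (fun y => |u y| ^ q) P.τ := by
    apply P.integrable_of_continuous
    exact (continuous_abs.comp hcu).rpow_const fun y => Or.inr hq0.le
  have hIk := fun x => integrable_kernel hint (s := s) hs0.le (by rw [hs]; unfold mA; linarith)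
    hu (v := fun y => |u y|) (by fun_prop) x
  have hleft : ENNReal.ofReal (∫ y, |u y| ^ q ∂P.τ) ≤ ENNReal.ofReal C ^ q *
      ∫⁻ x, (∫⁻ y, ENNReal.ofReal (zd k x y ^ (-s)) * ENNReal.ofReal (g y) ∂P.τ) ^ q ∂P.τ := by
    rw [ofReal_integral_eq_lintegral_ofReal hI (Eventually.of_forall fun y => by positivity),
      ← lintegral_const_mul' _ _ (by
        exact (ENNReal.rpow_lt_top_of_nonneg hq0.le ENNReal.ofReal_ne_top).ne)]
    apply lintegral_mono_ae
    filter_upwards [hCb u hu] with x hx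
    rw [← ENNReal.mul_rpow_of_nonneg _ _ hq0.le,
      ← ENNReal.ofReal_rpow_of_nonneg (abs_nonneg _) hq0.le]
    apply ENNReal.rpow_le_rpow _ hq0.le
    have e1 : ∫⁻ y, ENNReal.ofReal (zd k x y ^ (-s)) * ENNReal.ofReal (g y) ∂P.τ =
        ENNReal.ofReal (∫ y, zd k x y ^ (-s) * g y ∂P.τ) := by
      rw [ofReal_integral_eq_lintegral_ofReal (hIk x) (Eventually.of_forall fun y => by
        have := zd_nonneg k x y
        have := hg0 y
        change 0 ≤ zd k x y ^ (-s) * g y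
        positivity)]
      apply lintegral_congr
      intro y
      rw [ENNReal.ofReal_mul (Real.rpow_nonneg (zd_nonneg k x y) _)]
    rw [e1, ← ENNReal.ofReal_mul hC.le]
    exact ENNReal.ofReal_le_ofReal hx
  -- right side
  have hJi : Integrable (fun y => g y ^ 2) P.τ := by
    obtain ⟨C1, hC1, hb1⟩ := P.exists_G_bound hu
    obtain ⟨C2, hC2, hb2⟩ := hu.exists_bound
    refine Integrable.of_bound (hgm.pow 2) ((C1 + C2) ^ 2) ?_
    filter_upwards [hb1] with y hy
    rw [norm_pow]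
    gcongr
    rw [Real.norm_of_nonneg (hg0 y)]
    refine add_le_add ?_ (hb2 y)
    rw [← Real.sqrt_sq hC1]
    exact Real.sqrt_le_sqrt hy
  have hJ : ∫⁻ y, ENNReal.ofReal (g y) ^ (2 : ℝ) ∂P.τ = ENNReal.ofReal (∫ y, g y ^ 2 ∂P.τ) := by
    rw [ofReal_integral_eq_lintegral_ofReal hJi (Eventually.of_forall fun y => by positivity)]
    apply lintegral_congr
    intro y
    rw [ENNReal.ofReal_rpow_of_nonneg (hg0 y) (by norm_num)]
    norm_num
  have hJE : ∫ y, g y ^ 2 ∂P.τ ≤ 2 * (1 + 1 / b) * P.energy b u := by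
    have h1 : ∫ y, g y ^ 2 ∂P.τ ≤ ∫ y, (2 * P.G u u y + 2 * u y ^ 2) ∂P.τ := by
      apply integral_mono_ae hJi
        (((P.integrable_G hu hu).const_mul 2).add ((P.integrable_lip hu.sq).const_mul 2))
      filter_upwards [P.G_nonneg u hu] with y hy
      change (√(P.G u u y) + |u y|) ^ 2 ≤ 2 * P.G u u y + 2 * u y ^ 2
      have h1 := Real.sq_sqrt hy
      have h2 := sq_abs (u y)
      nlinarith [sq_nonneg (√(P.G u u y) - |u y|)]
    rw [integral_add ((P.integrable_G hu hu).const_mul 2) ((P.integrable_lip hu.sq).const_mul 2),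
      integral_const_mul, integral_const_mul] at h1
    have h2 := P.integral_G_le_energy hb.le hu
    have h3 := P.integral_sq_le_energy (b := b) hu
    have h4 : ∫ y, u y ^ 2 ∂P.τ ≤ 1 / b * P.energy b u := by
      rw [one_div, inv_mul_eq_div, le_div_iff₀ hb]
      linarith
    linarith
  set J := ∫ y, g y ^ 2 ∂P.τ with hJdef
  have hJ0 : 0 ≤ J := integral_nonneg fun y => by positivity
  rw [hJ] at hy
  have hfin := hleft.trans (mul_le_mul_right hy (ENNReal.ofReal C ^ q))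
  rw [ENNReal.ofReal_rpow_of_nonneg hC.le hq0.le,
    ENNReal.ofReal_rpow_of_nonneg hC0.le (by positivity),
    ENNReal.ofReal_rpow_of_nonneg hJ0 (by positivity), ← ENNReal.ofReal_mul (by positivity),
    ← ENNReal.ofReal_mul (by positivity)] at hfin
  have hfin2 := (ENNReal.ofReal_le_ofReal_iff (by positivity)).1 hfin
  have hI0 : 0 ≤ ∫ y, |u y| ^ q ∂P.τ := integral_nonneg fun y => by positivity
  calc (∫ y, |u y| ^ q ∂P.τ) ^ (2 / q)
      ≤ (C ^ q * (C0 ^ (q / r) * J ^ (q / 2))) ^ (2 / q) := by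
        apply Real.rpow_le_rpow hI0 hfin2 (by positivity)
    _ = C ^ 2 * (C0 ^ (2 / r) * J) := by
        rw [Real.mul_rpow (by positivity) (by positivity),
          Real.mul_rpow (by positivity) (by positivity), ← Real.rpow_mul hC.le,
          ← Real.rpow_mul hC0.le, ← Real.rpow_mul hJ0]
        have e1 : q * (2 / q) = 2 := by field_simp
        have e2 : q / r * (2 / q) = 2 / r := by field_simp
        have e3 : q / 2 * (2 / q) = 1 := by field_simp
        rw [e1, e2, e3, Real.rpow_one, Real.rpow_two]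
    _ ≤ C ^ 2 * (C0 ^ (2 / r) * (2 * (1 + 1 / b) * P.energy b u)) := by gcongr
    _ = _ := by ring

end Crest.Agent.R241.A2
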