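import Crest.Agent.R241.A3D

/-!
R241, block A, A3: (KEY).
-/

set_option autoImplicit false

namespace Crest.Agent.R241.A3

open MeasureTheory Set Filter Topology Crest.Agent.R241.A Crest.Agent.R241.A3J
open scoped NNReal ENNReal

/-! ### one variable functions -/

/-- `J(r)`, with derivative `J1`. -/
noncomputable def J0 (m r : ℝ) : ℝ := Jab (m + 1) (2 * m + 2) r
noncomputable def J1 (m r : ℝ) : ℝ := -(2 * m + 2) * Jab (m + 1 + 1) (2 * m + 2 + 1) r

lemma hasDerivAt_J0 {m r : ℝ} (hm : 0 < m) (hr : 0 ≤ r) : HasDerivAt (J0 m) (J1 m r) r :=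
  hasDerivAt_Jab (by linarith) (by linarith) (by linarith)

lemma continuousOn_J0 {m : ℝ} (hm : 0 < m) : ContinuousOn (J0 m) (Ici 0) :=
  fun _ hr => (hasDerivAt_J0 hm hr).continuousAt.continuousWithinAt

lemma continuousOn_J1 {m : ℝ} (hm : 0 < m) : ContinuousOn (J1 m) (Ici 0) := by
  intro r hr
  have hr' : (0 : ℝ) ≤ r := hr
  exact (continuousAt_const.mul (continuousAt_Jab (by linarith) (by linarith)
    (by linarith))).continuousWithinAt

lemma J_rel {m r : ℝ} (hm : 0 < m) (hr : 0 ≤ r) :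
    ((1 + r) ^ (-m - 1)) ^ 2 = (m + 2) * J0 m r + r * J1 m r := by
  have h := Jab_rec (α := m + 1) (β := 2 * m + 2) (r := r) (by linarith) (by linarith)
  have h1 : 0 < 1 + r := by linarith
  have e : ((1 + r) ^ (-m - 1)) ^ 2 = (1 + r) ^ (-(2 * m + 2)) := by
    rw [← Real.rpow_natCast, ← Real.rpow_mul h1.le]; congr 1; push_cast; ring
  rw [e, ← h]; unfold J0 J1; ring

/-- `(1+ts)^(-m)` -/
noncomputable def fA (m t s : ℝ) : ℝ := (1 + t * s) ^ (-m)
noncomputable def fA' (m t s : ℝ) : ℝ := t * (-m) * (1 + t * s) ^ (-m - 1)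

lemma hasDerivAt_fA {m t s : ℝ} (ht : 0 < t) (hs : 0 ≤ s) :
    HasDerivAt (fA m t) (fA' m t s) s := by
  have h1 : 0 < 1 + t * s := by positivity
  have h2 : HasDerivAt (fun s : ℝ => 1 + t * s) t s := by
    simpa using ((hasDerivAt_id s).const_mul t).const_add 1
  exact h2.rpow_const (p := -m) (Or.inl h1.ne')

lemma continuousOn_pow {t : ℝ} (p : ℝ) (ht : 0 < t) :
    ContinuousOn (fun s : ℝ => (1 + t * s) ^ p) (Ici 0) := by
  intro s hs
  have hs' : (0 : ℝ) ≤ s := hs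
  have h1 : 0 < 1 + t * s := by positivity
  have h2 : ContinuousAt (fun s : ℝ => 1 + t * s) s := by fun_prop
  exact (h2.rpow_const (Or.inl h1.ne')).continuousWithinAt

lemma continuousOn_fA' {m t : ℝ} (ht : 0 < t) : ContinuousOn (fA' m t) (Ici 0) :=
  continuousOn_const.mul (continuousOn_pow _ ht)

/-- `T(s) = m² t² s J(ts)` -/
noncomputable def fT (m t s : ℝ) : ℝ := m ^ 2 * t ^ 2 * (s * J0 m (t * s))
noncomputable def fT' (m t s : ℝ) : ℝ :=
  m ^ 2 * t ^ 2 * (1 * J0 m (t * s) + s * (J1 m (t * s) * t))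

lemma hasDerivAt_J0t {m t s : ℝ} (hm : 0 < m) (ht : 0 < t) (hs : 0 ≤ s) :
    HasDerivAt (fun s => J0 m (t * s)) (J1 m (t * s) * t) s := by
  have h2 : HasDerivAt (fun s : ℝ => t * s) t s := by
    simpa using (hasDerivAt_id s).const_mul t
  exact (hasDerivAt_J0 hm (by positivity : (0:ℝ) ≤ t * s)).comp s h2

lemma hasDerivAt_fT {m t s : ℝ} (hm : 0 < m) (ht : 0 < t) (hs : 0 ≤ s) :
    HasDerivAt (fT m t) (fT' m t s) s :=
  ((hasDerivAt_id' s).mul (hasDerivAt_J0t hm ht hs)).const_mul _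

lemma mapsTo_mul {t : ℝ} (ht : 0 < t) : MapsTo (fun s : ℝ => t * s) (Ici 0) (Ici 0) :=
  fun s hs => by
    have hs' : (0 : ℝ) ≤ s := hs
    exact mem_Ici.2 (by positivity)

lemma continuousOn_J0t {m t : ℝ} (hm : 0 < m) (ht : 0 < t) :
    ContinuousOn (fun s => J0 m (t * s)) (Ici 0) :=
  (continuousOn_J0 hm).comp (by fun_prop) (mapsTo_mul ht)

lemma continuousOn_J1t {m t : ℝ} (hm : 0 < m) (ht : 0 < t) :
    ContinuousOn (fun s => J1 m (t * s)) (Ici 0) :=
  (continuousOn_J1 hm).comp (by fun_prop) (mapsTo_mul ht)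

lemma continuousOn_fT' {m t : ℝ} (hm : 0 < m) (ht : 0 < t) :
    ContinuousOn (fT' m t) (Ici 0) :=
  continuousOn_const.mul ((continuousOn_const.mul (continuousOn_J0t hm ht)).add
    (continuousOn_id.mul ((continuousOn_J1t hm ht).mul continuousOn_const)))

/-- `B(s) = (1+ts)^(-2m) + m t² s² J(ts) = H(ts)` -/
noncomputable def fB (m t s : ℝ) : ℝ :=
  (1 + t * s) ^ (-(2 * m)) + m * t ^ 2 * (s ^ 2 * J0 m (t * s))
noncomputable def fB' (m t s : ℝ) : ℝ :=
  t * (-(2 * m)) * (1 + t * s) ^ (-(2 * m) - 1)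
    + m * t ^ 2 * (2 * s * J0 m (t * s) + s ^ 2 * (J1 m (t * s) * t))

lemma hasDerivAt_fB {m t s : ℝ} (hm : 0 < m) (ht : 0 < t) (hs : 0 ≤ s) :
    HasDerivAt (fB m t) (fB' m t s) s := by
  have h1 : 0 < 1 + t * s := by positivity
  have h2 : HasDerivAt (fun s : ℝ => 1 + t * s) t s := by
    simpa using ((hasDerivAt_id s).const_mul t).const_add 1
  have h3 : HasDerivAt (fun s : ℝ => s ^ 2) (2 * s) s := by
    simpa using hasDerivAt_pow 2 s
  exact (h2.rpow_const (p := -(2 * m)) (Or.inl h1.ne')).add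
    ((h3.mul (hasDerivAt_J0t hm ht hs)).const_mul _)

lemma continuousOn_fB' {m t : ℝ} (hm : 0 < m) (ht : 0 < t) :
    ContinuousOn (fB' m t) (Ici 0) := by
  refine (continuousOn_const.mul (continuousOn_pow _ ht)).add (continuousOn_const.mul ?_)
  exact ((continuousOn_const.mul continuousOn_id).mul (continuousOn_J0t hm ht)).add
    ((continuousOn_id.pow 2).mul ((continuousOn_J1t hm ht).mul continuousOn_const))

lemma HA_eq_fB {n : ℕ} (hm : 0 < mA n) {t s : ℝ} (ht : 0 < t) (hs : 0 ≤ s) :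
    HA n (t * s) = fB (mA n) t s := by
  have h : 0 ≤ t * s := by positivity
  rw [HA_id hm (by linarith)]
  unfold fB J0; ring

/-- `C(s) = H(ts)`, second form. -/
noncomputable def fC (m t s : ℝ) : ℝ := m * Jab (m - 1) (2 * m + 2) (t * s)
noncomputable def fC' (m t s : ℝ) : ℝ :=
  m * (-(2 * m + 2) * Jab (m - 1 + 1) (2 * m + 2 + 1) (t * s) * t)

lemma hasDerivAt_fC {m t s : ℝ} (hm : 0 < m) (ht : 0 < t) (hs : 0 ≤ s) :
    HasDerivAt (fC m t) (fC' m t s) s := by
  have h2 : HasDerivAt (fun s : ℝ => t * s) t s := by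
    simpa using (hasDerivAt_id s).const_mul t
  have h3 : (0 : ℝ) ≤ t * s := by positivity
  exact ((hasDerivAt_Jab (α := m - 1) (β := 2 * m + 2) (by linarith) (by linarith)
    (by linarith : -1 < t * s)).comp s h2).const_mul m

lemma continuousOn_fC' {m t : ℝ} (hm : 0 < m) (ht : 0 < t) :
    ContinuousOn (fC' m t) (Ici 0) := by
  intro s hs
  have hs' : (0 : ℝ) ≤ s := hs
  have h3 : (0 : ℝ) ≤ t * s := by positivity
  have h4 : ContinuousAt (fun s : ℝ => t * s) s := by fun_prop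
  have h5 : ContinuousAt (Jab (m - 1 + 1) (2 * m + 2 + 1)) (t * s) :=
    continuousAt_Jab (by linarith) (by linarith) (by linarith)
  exact (continuousAt_const.mul ((continuousAt_const.mul
    (ContinuousAt.comp (f := fun s : ℝ => t * s) h5 h4)).mul
      continuousAt_const)).continuousWithinAt

lemma HA_eq_fC (n : ℕ) (t s : ℝ) : HA n (t * s) = fC (mA n) t s := HA_eq n _

lemma fC_rel {m t s : ℝ} (hm : 0 < m) (ht : 0 < t) (hs : 0 ≤ s) :
    fC m t s + s / m * fC' m t s = (1 + t * s) ^ (-(2 * m + 2)) := by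
  have h3 : (0 : ℝ) ≤ t * s := by positivity
  rw [← Jab_rec (α := m - 1) (β := 2 * m + 2) (r := t * s) (by linarith) (by linarith)]
  unfold fC fC'
  field_simp
  ring

lemma fC_nonneg {m t s : ℝ} (hm : 0 < m) (ht : 0 < t) (hs : 0 ≤ s) : 0 ≤ fC m t s := by
  have h3 : (0 : ℝ) ≤ t * s := by positivity
  exact mul_nonneg hm.le (Jab_nonneg (by linarith))

lemma fC_le_one {m t s : ℝ} (hm : 0 < m) (ht : 0 < t) (hs : 0 ≤ s) : fC m t s ≤ 1 := by
  have h3 : (0 : ℝ) ≤ t * s := by positivity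
  have h := Jab_le (α := m - 1) (β := 2 * m + 2) (r := t * s) (by linarith) (by linarith) h3
  have e : m - 1 + 1 = m := by ring
  rw [e] at h
  unfold fC
  calc m * Jab (m - 1) (2 * m + 2) (t * s) ≤ m * (1 / m) := mul_le_mul_of_nonneg_left h hm.le
    _ = 1 := by field_simp

lemma abs_fC'_le {m t s : ℝ} (hm : 0 < m) (ht : 0 < t) (hs : 0 ≤ s) :
    |fC' m t s| ≤ 2 * m * t := by
  have h3 : (0 : ℝ) ≤ t * s := by positivity
  have h := Jab_le (α := m - 1 + 1) (β := 2 * m + 2 + 1) (r := t * s)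
    (by linarith) (by linarith) h3
  have h0 : 0 ≤ Jab (m - 1 + 1) (2 * m + 2 + 1) (t * s) := Jab_nonneg (by linarith)
  have e : m - 1 + 1 + 1 = m + 1 := by ring
  rw [e] at h
  have e2 : fC' m t s = -(m * (2 * m + 2) * t * Jab (m - 1 + 1) (2 * m + 2 + 1) (t * s)) := by
    unfold fC'; ring
  rw [e2, abs_neg, abs_of_nonneg (by positivity)]
  calc m * (2 * m + 2) * t * Jab (m - 1 + 1) (2 * m + 2 + 1) (t * s)
      ≤ m * (2 * m + 2) * t * (1 / (m + 1)) := by gcongr
    _ = 2 * m * t := by field_simp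

lemma s_fC'_le {m t s : ℝ} (hm : 0 < m) (ht : 0 < t) (hs : 0 ≤ s) :
    |s * fC' m t s| ≤ m := by
  have h1 := fC_rel hm ht hs
  have h2 := fC_nonneg hm ht hs
  have h3 := fC_le_one hm ht hs
  have h4 : 0 ≤ (1 + t * s) ^ (-(2 * m + 2)) := Real.rpow_nonneg (by positivity) _
  have h5 : (1 + t * s) ^ (-(2 * m + 2)) ≤ 1 := by
    apply Real.rpow_le_one_of_one_le_of_nonpos _ (by linarith)
    have : 0 ≤ t * s := by positivity
    linarith
  have e : s * fC' m t s = m * ((1 + t * s) ^ (-(2 * m + 2)) - fC m t s) := by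
    rw [← h1]; field_simp; ring
  rw [e, abs_mul, abs_of_pos hm]
  have : |(1 + t * s) ^ (-(2 * m + 2)) - fC m t s| ≤ 1 := abs_le.2 ⟨by linarith, by linarith⟩
  calc m * |(1 + t * s) ^ (-(2 * m + 2)) - fC m t s| ≤ m * 1 :=
        mul_le_mul_of_nonneg_left this hm.le
    _ = m := mul_one m

/-! ### pointwise algebra -/

/-- The key pointwise identity. -/
lemma key_alg (m t U Z p j0 j1 a1 c0 b N Guu Guz Gzz : ℝ) (hm : m ≠ 0) (hU : U ≠ 0)
    (hN : N = 2 * m + 2) (hb : b = m * N * c0 / 2)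
    (hZ : Z = 0 → Gzz = 0 ∧ Guz = 0)
    (ha : a1 ^ 2 = (m + 2) * j0 + t * (Z * p) * j1) :
    -- w = Z p,  A = (1 + t w) a1
    ((U * (t * (-(2 * m)) * ((1 + t * (Z * p)) * a1 ^ 2)
        + m * t ^ 2 * (2 * (Z * p) * j0 + (Z * p) ^ 2 * (j1 * t))) * (Z * (1 / m * (p / U)))
        + (((1 + t * (Z * p)) * a1) ^ 2 + m * t ^ 2 * ((Z * p) ^ 2 * j0)) * 1) * Guu
      + (U * (t * (-(2 * m)) * ((1 + t * (Z * p)) * a1 ^ 2)
        + m * t ^ 2 * (2 * (Z * p) * j0 + (Z * p) ^ 2 * (j1 * t))) * p) * Guz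
      + b * (U * (U * (((1 + t * (Z * p)) * a1) ^ 2 + m * t ^ 2 * ((Z * p) ^ 2 * j0)))))
    - ((U * (t * (-m) * a1) * (Z * (1 / m * (p / U))) + ((1 + t * (Z * p)) * a1) * 1) ^ 2 * Guu
      + 2 * ((U * (t * (-m) * a1) * (Z * (1 / m * (p / U))) + ((1 + t * (Z * p)) * a1) * 1)
        * (U * (t * (-m) * a1) * p)) * Guz
      + (U * (t * (-m) * a1) * p) ^ 2 * Gzz
      + b * ((U * ((1 + t * (Z * p)) * a1)) * (U * ((1 + t * (Z * p)) * a1))))
    = -(((U ^ 2 * p) * (m ^ 2 * t ^ 2 * (1 * j0 + (Z * p) * (j1 * t))) * (Z * (1 / m * (p / U)))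
        + (m ^ 2 * t ^ 2 * ((Z * p) * j0)) * ((2 + 1 / m) * (U * p))) * Guz
      + ((U ^ 2 * p) * (m ^ 2 * t ^ 2 * (1 * j0 + (Z * p) * (j1 * t))) * p) * Gzz
      + N / 2 * ((U ^ 2 * p) * (m ^ 2 * t ^ 2 * ((Z * p) * j0))) * (Gzz / Z - c0 * Z)) := by
  subst hN hb
  rcases eq_or_ne Z 0 with h0 | h0
  · obtain ⟨h1, h2⟩ := hZ h0
    subst h0
    rw [h1, h2]
    ring
  · have hZZ : Gzz = (Gzz / Z) * Z := by field_simp
    set g := Gzz / Z with hg
    rw [hZZ]
    have hj : t * (Z * p) * j1 = a1 ^ 2 - (m + 2) * j0 := by linarith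
    field_simp
    linear_combination (-((t * Z * p) ^ 2 * Guu + 2 * U * t * m * p * (t * Z * p) * Guz
      + U ^ 2 * t ^ 2 * m ^ 2 * Z * p ^ 2 * g)) * ha

/-! ### the functions of `w` -/

variable {n : ℕ} {k : ℝ} {K : Type*} [MetricSpace K] [CompactSpace K]
  [MeasurableSpace K] [BorelSpace K]

omit [CompactSpace K] [MeasurableSpace K] [BorelSpace K] in
lemma wA_nonneg (x : K) {u : K → ℝ} (hpos : ∀ y, 0 < u y) (y : K) : 0 ≤ wA n k x u y :=
  mul_nonneg (zd_nonneg k x y) (Real.rpow_nonneg (hpos y).le _)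

/-- gradient of `w`. -/
lemma D_w (P : PreData n k K) (x : K) {u : K → ℝ} (hu : Lip u) (hpos : ∀ y, 0 < u y) :
    D P u (zd k x) (wA n k x u)
      (fun y => zd k x y * (1 / mA n * (u y ^ (1 / mA n) / u y)))
      (fun y => u y ^ (1 / mA n)) := by
  have h1 := (D.snd (P := P) (u := u) (lip_zd k x)).mul
    ((D.fst (P := P) (z := zd k x) hu).rpow hpos (1 / mA n))
  refine ⟨h1.lip, fun g hg => ?_⟩
  filter_upwards [h1.eq g hg] with y hy
  have e : (fun y => zd k x y * u y ^ (1 / mA n)) = wA n k x u := rfl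
  rw [e] at hy
  rw [hy]
  have e2 : u y ^ (1 / mA n - 1) = u y ^ (1 / mA n) / u y := by
    rw [Real.rpow_sub (hpos y), Real.rpow_one]
  rw [e2]; ring

lemma D_comp_w (P : PreData n k K) (x : K) {u : K → ℝ} (hu : Lip u) (hpos : ∀ y, 0 < u y)
    {φ φ' : ℝ → ℝ} (hφ : ∀ s, 0 ≤ s → HasDerivAt φ (φ' s) s) (hc : ContinuousOn φ' (Ici 0)) :
    D P u (zd k x) (fun y => u y * φ (wA n k x u y))
      (fun y => u y * (φ' (wA n k x u y) * (zd k x y * (1 / mA n * (u y ^ (1 / mA n) / u y))))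
        + φ (wA n k x u y) * 1)
      (fun y => u y * (φ' (wA n k x u y) * u y ^ (1 / mA n)) + φ (wA n k x u y) * 0) :=
  (D.fst (P := P) (z := zd k x) hu).mul ((D_w P x hu hpos).comp_nonneg (wA_nonneg x hpos) hφ hc)

/-- (KEY), first part. -/
theorem key1 {h : ℝ} (hm : 0 < mA n) {P : PreData n k K} (hfv : T_fv' P h) (x : K) {t : ℝ}
    (ht : 0 < t) {u : K → ℝ} (hu : Lip u) (hpos : ∀ y, 0 < u y) :
    Lip (fun y => u y * (1 + t * wA n k x u y) ^ (-(mA n))) ∧
    Lip (fun y => u y * HA n (t * wA n k x u y)) ∧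
    P.energy (bA n k h) (fun y => u y * (1 + t * wA n k x u y) ^ (-(mA n)))
      ≤ P.form (bA n k h) u (fun y => u y * HA n (t * wA n k x u y)) := by
  have hzl : Lip (zd k x) := lip_zd k x
  have hDA := D_comp_w P x hu hpos (φ := fA (mA n) t) (φ' := fA' (mA n) t)
    (fun s hs => hasDerivAt_fA ht hs) (continuousOn_fA' ht)
  have hDB := D_comp_w P x hu hpos (φ := fB (mA n) t) (φ' := fB' (mA n) t)
    (fun s hs => hasDerivAt_fB hm ht hs) (continuousOn_fB' hm ht)
  have hDT := (D_w P x hu hpos).comp_nonneg (wA_nonneg x hpos) (φ := fT (mA n) t)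
    (φ' := fT' (mA n) t) (fun s hs => hasDerivAt_fT hm ht hs) (continuousOn_fT' hm ht)
  have hDU := (D.fst (P := P) (z := zd k x) hu).rpow hpos (2 + 1 / mA n)
  have hDf := hDU.mul hDT
  have eB : (fun y => u y * HA n (t * wA n k x u y))
      = fun y => u y * fB (mA n) t (wA n k x u y) := by
    ext y; rw [HA_eq_fB hm ht (wA_nonneg x hpos y)]
  have eA : (fun y => u y * (1 + t * wA n k x u y) ^ (-(mA n)))
      = fun y => u y * fA (mA n) t (wA n k x u y) := rfl
  rw [eA, eB]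
  refine ⟨hDA.lip, hDB.lip, ?_⟩
  -- the test function
  have hf0 : ∀ y, 0 ≤ u y ^ (2 + 1 / mA n) * fT (mA n) t (wA n k x u y) := by
    intro y
    have h1 := wA_nonneg (n := n) (k := k) x hpos y
    have h2 : 0 ≤ J0 (mA n) (t * wA n k x u y) := Jab_nonneg (by
      have : 0 ≤ t * wA n k x u y := by positivity
      linarith)
    have h3 := Real.rpow_nonneg (hpos y).le (2 + 1 / mA n)
    unfold fT
    positivity
  have hineq := hfv x _ hDf.lip hf0
  have hI1 := P.integrable_form (bA n k h) hu hDB.lip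
  have hI2 := P.integrable_form (bA n k h) hDA.lip hDA.lip
  have hdiff : P.form (bA n k h) u (fun y => u y * fB (mA n) t (wA n k x u y))
      - P.energy (bA n k h) (fun y => u y * fA (mA n) t (wA n k x u y))
      = - ∫ y, (P.G (fun y => u y ^ (2 + 1 / mA n) * fT (mA n) t (wA n k x u y)) (zd k x) y
        + (n : ℝ) / 2 * (u y ^ (2 + 1 / mA n) * fT (mA n) t (wA n k x u y)) *
        (P.G (zd k x) (zd k x) y / zd k x y - (h ^ 2 - k ^ 2) * zd k x y)) ∂P.τ := by
    unfold PreData.energy PreData.form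
    rw [← integral_sub hI1 hI2, ← integral_neg]
    refine integral_congr_ae ?_
    filter_upwards [D.pair hu hzl (D.fst (z := zd k x) hu) hDB, D.pair hu hzl hDA hDA,
      hDf.eq (zd k x) hzl, G_zero_of_zd_zero P x hu] with y h1 h2 h3 h4
    rw [h1, h2, h3]
    have hU := hpos y
    have hw0 := wA_nonneg (n := n) (k := k) x hpos y
    have hw : wA n k x u y = zd k x y * u y ^ (1 / mA n) := rfl
    have htw : 0 ≤ t * wA n k x u y := by positivity
    have hb1 : 0 < 1 + t * wA n k x u y := by linarith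
    set U := u y with hUdef
    set w := wA n k x u y with hwdef
    set a1 := (1 + t * w) ^ (-(mA n) - 1) with ha1
    have hfA : fA (mA n) t w = (1 + t * w) * a1 := by
      unfold fA
      rw [ha1]
      nth_rewrite 2 [← Real.rpow_one (1 + t * w)]
      rw [← Real.rpow_add hb1]; congr 1; ring
    have hfA' : fA' (mA n) t w = t * (-(mA n)) * a1 := rfl
    have hB1 : (1 + t * w) ^ (-(2 * mA n)) = ((1 + t * w) * a1) ^ 2 := by
      rw [← hfA]; unfold fA
      rw [← Real.rpow_natCast, ← Real.rpow_mul hb1.le]; congr 1; push_cast; ring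
    have hB2 : (1 + t * w) ^ (-(2 * mA n) - 1) = (1 + t * w) * a1 ^ 2 := by
      have e1 : (1 + t * w) * a1 ^ 2 = ((1 + t * w) * a1) * a1 := by ring
      rw [e1, ← hfA, ha1]; unfold fA
      rw [← Real.rpow_add hb1]; congr 1; ring
    have hfB : fB (mA n) t w = ((1 + t * w) * a1) ^ 2
        + mA n * t ^ 2 * (w ^ 2 * J0 (mA n) (t * w)) := by
      unfold fB; rw [hB1]
    have hfB' : fB' (mA n) t w = t * (-(2 * mA n)) * ((1 + t * w) * a1 ^ 2)
        + mA n * t ^ 2 * (2 * w * J0 (mA n) (t * w) + w ^ 2 * (J1 (mA n) (t * w) * t)) := by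
      unfold fB'; rw [hB2]
    have hU2 : U ^ (2 + 1 / mA n) = U ^ 2 * U ^ (1 / mA n) := by
      rw [Real.rpow_add hU]; norm_num
    have hU3 : U ^ (2 + 1 / mA n - 1) = U * U ^ (1 / mA n) := by
      have : 2 + 1 / mA n - 1 = 1 + 1 / mA n := by ring
      rw [this, Real.rpow_add hU, Real.rpow_one]
    have hfT : fT (mA n) t w = mA n ^ 2 * t ^ 2 * (w * J0 (mA n) (t * w)) := rfl
    have hfT' : fT' (mA n) t w = mA n ^ 2 * t ^ 2 *
      (1 * J0 (mA n) (t * w) + w * (J1 (mA n) (t * w) * t)) := rfl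
    have hrel := J_rel hm htw
    rw [hfA, hfA', hfB, hfB', hfT, hfT', hU2, hU3]
    set p := U ^ (1 / mA n) with hp
    have key := key_alg (mA n) t U (zd k x y) p (J0 (mA n) (t * w)) (J1 (mA n) (t * w)) a1
      (h ^ 2 - k ^ 2) (bA n k h) n (P.G u u y) (P.G u (zd k x) y) (P.G (zd k x) (zd k x) y)
      hm.ne' hU.ne' (n_eq n) rfl h4 (by rw [← hw]; exact hrel.trans (by ring))
    rw [← hw] at key
    refine Eq.trans ?_ (key.trans ?_)
    · ring
    · ring
  have : 0 ≤ P.form (bA n k h) u (fun y => u y * fB (mA n) t (wA n k x u y))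
      - P.energy (bA n k h) (fun y => u y * fA (mA n) t (wA n k x u y)) := by
    rw [hdiff]; linarith
  linarith

lemma amgm {e β Guu Guz Gzz : ℝ} (h3 : 0 ≤ Guu) (h2 : 0 ≤ Gzz) (h4 : Guz ^ 2 ≤ Guu * Gzz) :
    (e * β + β * e) * Guz ≤ e * e * Guu + β * β * Gzz := by
  have h8 : (2 * e * β * Guz) ^ 2 ≤ (e ^ 2 * Guu + β ^ 2 * Gzz) ^ 2 := by
    have e1 : (2 * e * β * Guz) ^ 2 = 4 * (e ^ 2 * β ^ 2) * Guz ^ 2 := by ring
    have e2 : 4 * (e ^ 2 * β ^ 2) * Guz ^ 2 ≤ 4 * (e ^ 2 * β ^ 2) * (Guu * Gzz) :=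
      mul_le_mul_of_nonneg_left h4 (by positivity)
    have e3 := sq_nonneg (e ^ 2 * Guu - β ^ 2 * Gzz)
    have e4 : (e ^ 2 * Guu + β ^ 2 * Gzz) ^ 2 = (e ^ 2 * Guu - β ^ 2 * Gzz) ^ 2
      + 4 * (e ^ 2 * β ^ 2) * (Guu * Gzz) := by ring
    rw [e1, e4]; linarith
  have h9 := (abs_le_of_sq_le_sq' h8 (by positivity)).2
  calc (e * β + β * e) * Guz = 2 * e * β * Guz := by ring
    _ ≤ e ^ 2 * Guu + β ^ 2 * Gzz := h9
    _ = _ := by ring

/-- (KEY), uniform bound. -/
theorem key2 {h : ℝ} (hm : 0 < mA n) (hb : 0 ≤ bA n k h) {P : PreData n k K}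
    (hfv : T_fv' P h) (x : K) {t : ℝ}
    (ht : 0 < t) {u : K → ℝ} (hu : Lip u) (hpos : ∀ y, 0 < u y) :
    P.energy (bA n k h) (fun y => u y * HA n (t * wA n k x u y))
      ≤ 74 * P.energy (bA n k h) u := by
  have hzl : Lip (zd k x) := lip_zd k x
  have hD := D_comp_w P x hu hpos (φ := fC (mA n) t) (φ' := fC' (mA n) t)
    (fun s hs => hasDerivAt_fC hm ht hs) (continuousOn_fC' hm ht)
  have eC : (fun y => u y * HA n (t * wA n k x u y))
      = fun y => u y * fC (mA n) t (wA n k x u y) := by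
    ext y; rw [HA_eq_fC n t]
  rw [eC]
  -- the scale `a`
  obtain ⟨M, hM, huM⟩ := exists_bound_of_continuous
    (hu.rpow hpos (1 / mA n)).continuous
  have ha : 0 < 1 / (t * M) := by positivity
  have hH := hardy hm hb hfv x ha hu
  obtain ⟨hinvL, -⟩ := G_inv P x ha
  set a := 1 / (t * M) with hadef
  have hI1 : Integrable (fun y => ((zd k x y + a)⁻¹ ^ 2) * u y ^ 2
      * P.G (zd k x) (zd k x) y) P.τ :=
    P.integrable_mul_G hzl hzl (hinvL.sq.mul hu.sq).continuous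
  have hI2 : Integrable (fun y => P.G u u y) P.τ := P.integrable_G hu hu
  have hI3 : Integrable (fun y => u y ^ 2) P.τ := P.integrable_lip hu.sq
  have hI4 := P.integrable_form (bA n k h) hD.lip hD.lip
  have hI5 : Integrable (fun y => 2 * P.G u u y + 18 * mA n ^ 2 * (((zd k x y + a)⁻¹ ^ 2)
      * u y ^ 2 * P.G (zd k x) (zd k x) y)) P.τ := (hI2.const_mul 2).add (hI1.const_mul _)
  have hI6 : Integrable (fun y => 2 * P.G u u y + 18 * mA n ^ 2 * (((zd k x y + a)⁻¹ ^ 2)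
      * u y ^ 2 * P.G (zd k x) (zd k x) y) + bA n k h * u y ^ 2) P.τ :=
    hI5.add (hI3.const_mul _)
  have hle : P.energy (bA n k h) (fun y => u y * fC (mA n) t (wA n k x u y))
      ≤ ∫ y, (2 * P.G u u y + 18 * mA n ^ 2 * (((zd k x y + a)⁻¹ ^ 2) * u y ^ 2
        * P.G (zd k x) (zd k x) y) + bA n k h * u y ^ 2) ∂P.τ := by
    unfold PreData.energy PreData.form
    refine integral_mono_ae hI4 hI6 ?_
    filter_upwards [D.pair hu hzl hD hD, P.G_nonneg _ hzl, P.G_nonneg u hu, P.G_sq_le hu hzl]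
      with y h1 h2 h3 h4
    rw [h1]
    have hU := hpos y
    have hw0 := wA_nonneg (n := n) (k := k) x hpos y
    have hw : wA n k x u y = zd k x y * u y ^ (1 / mA n) := rfl
    have hZ0 : 0 ≤ zd k x y := zd_nonneg k x y
    have hza : 0 < zd k x y + a := zd_add_pos k x ha y
    have hpM : u y ^ (1 / mA n) ≤ M := (le_abs_self _).trans (huM y)
    have hp0 : 0 < u y ^ (1 / mA n) := Real.rpow_pos_of_pos hU _
    have hrel := fC_rel hm ht hw0
    have hC0 := fC_nonneg hm ht hw0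
    have hC1 := fC_le_one hm ht hw0
    have hC2 := abs_fC'_le hm ht hw0
    have hC3 := s_fC'_le hm ht hw0
    have hE0 : 0 ≤ (1 + t * wA n k x u y) ^ (-(2 * mA n + 2)) :=
      Real.rpow_nonneg (by positivity) _
    have hE1 : (1 + t * wA n k x u y) ^ (-(2 * mA n + 2)) ≤ 1 := by
      apply Real.rpow_le_one_of_one_le_of_nonpos _ (by linarith)
      have : 0 ≤ t * wA n k x u y := by positivity
      linarith
    have hat : a * t * M = 1 := by rw [hadef]; field_simp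
    set U := u y with hUdef
    set w := wA n k x u y with hwdef
    set p := U ^ (1 / mA n) with hp
    set Z := zd k x y with hZdef
    set c := fC (mA n) t w with hc
    set c' := fC' (mA n) t w with hc'
    set E1 := (1 + t * w) ^ (-(2 * mA n + 2)) with hE
    set Guu := P.G u u y
    set Guz := P.G u (zd k x) y
    set Gzz := P.G (zd k x) (zd k x) y
    -- coefficients
    have hα : U * (c' * (Z * (1 / mA n * (p / U)))) + c * 1 = E1 := by
      rw [← hrel, hw]; field_simp; ring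
    have hβ : U * (c' * p) + c * 0 = U * (c' * p) := by ring
    rw [hα, hβ]
    -- bound on `p c' (Z+a)`
    have hβ1 : |p * c' * (Z + a)| ≤ 3 * mA n := by
      have e : p * c' * (Z + a) = w * c' + p * a * c' := by rw [hw]; ring
      rw [e]
      have h5 : |p * a * c'| ≤ 2 * mA n := by
        rw [abs_mul, abs_of_pos (by positivity : 0 < p * a)]
        calc p * a * |c'| ≤ M * a * (2 * mA n * t) := by gcongr
          _ = 2 * mA n * (a * t * M) := by ring
          _ = 2 * mA n := by rw [hat, mul_one]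
      calc |w * c' + p * a * c'| ≤ |w * c'| + |p * a * c'| := abs_add_le _ _
        _ ≤ mA n + 2 * mA n := add_le_add hC3 h5
        _ = 3 * mA n := by ring
    have hβ2 : (c' * p) ^ 2 ≤ 9 * mA n ^ 2 * (Z + a)⁻¹ ^ 2 := by
      have h6 : (p * c' * (Z + a)) ^ 2 ≤ (3 * mA n) ^ 2 := by
        rw [← sq_abs]
        exact pow_le_pow_left₀ (abs_nonneg _) hβ1 2
      have e : (c' * p) ^ 2 = (p * c' * (Z + a)) ^ 2 * (Z + a)⁻¹ ^ 2 := by
        field_simp
      rw [e]
      calc (p * c' * (Z + a)) ^ 2 * (Z + a)⁻¹ ^ 2 ≤ (3 * mA n) ^ 2 * (Z + a)⁻¹ ^ 2 :=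
            mul_le_mul_of_nonneg_right h6 (by positivity)
        _ = _ := by ring
    -- AM-GM
    have h7 : (E1 * (U * (c' * p)) + U * (c' * p) * E1) * Guz
        ≤ E1 * E1 * Guu + U * (c' * p) * (U * (c' * p)) * Gzz := amgm h3 h2 h4
    have h8 : E1 * E1 * Guu ≤ Guu := by
      have : E1 * E1 ≤ 1 := mul_le_one₀ hE1 hE0 hE1
      exact mul_le_of_le_one_left h3 this
    have h9 : U * (c' * p) * (U * (c' * p)) * Gzz
        ≤ 9 * mA n ^ 2 * ((Z + a)⁻¹ ^ 2 * U ^ 2 * Gzz) := by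
      have e : U * (c' * p) * (U * (c' * p)) * Gzz = (c' * p) ^ 2 * (U ^ 2 * Gzz) := by ring
      rw [e]
      calc (c' * p) ^ 2 * (U ^ 2 * Gzz) ≤ (9 * mA n ^ 2 * (Z + a)⁻¹ ^ 2) * (U ^ 2 * Gzz) :=
            mul_le_mul_of_nonneg_right hβ2 (by positivity)
        _ = _ := by ring
    have h10 : bA n k h * (U * c * (U * c)) ≤ bA n k h * U ^ 2 := by
      apply mul_le_mul_of_nonneg_left _ hb
      have e : U * c * (U * c) = U ^ 2 * (c * c) := by ring
      rw [e]
      have : c * c ≤ 1 := mul_le_one₀ hC1 hC0 hC1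
      exact mul_le_of_le_one_right (sq_nonneg U) this
    linarith
  refine hle.trans ?_
  rw [integral_add hI5 (hI3.const_mul _), integral_add (hI2.const_mul 2) (hI1.const_mul _),
    integral_const_mul, integral_const_mul, integral_const_mul]
  have hE := P.energy_eq_add (bA n k h) hu
  have hG : 0 ≤ ∫ y, P.G u u y ∂P.τ := integral_nonneg_of_ae (P.G_nonneg u hu)
  have hs : 0 ≤ ∫ y, u y ^ 2 ∂P.τ := integral_nonneg fun y => sq_nonneg _
  have hbs := mul_nonneg hb hs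
  have h11 : 18 * mA n ^ 2 * ∫ y, ((zd k x y + a)⁻¹ ^ 2) * u y ^ 2
      * P.G (zd k x) (zd k x) y ∂P.τ ≤ 72 * P.energy (bA n k h) u := by
    calc 18 * mA n ^ 2 * ∫ y, ((zd k x y + a)⁻¹ ^ 2) * u y ^ 2
          * P.G (zd k x) (zd k x) y ∂P.τ
        ≤ 18 * mA n ^ 2 * (4 / mA n ^ 2 * P.energy (bA n k h) u) :=
          mul_le_mul_of_nonneg_left hH (by positivity)
      _ = 72 * P.energy (bA n k h) u := by field_simp; ring
  linarith

/-- (KEY). -/
theorem t_key {h : ℝ} (hn : 3 ≤ n) (hk : 0 ≤ k) (hkh : k < h) (P : PreData n k K)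
    (hfv : T_fv' P h) : T_key P h :=
  ⟨fun x _ _ ht hu hpos => key1 (mA_pos hn) hfv x ht hu hpos, 74, by norm_num,
    fun x _ _ ht hu hpos => key2 (mA_pos hn) (bA_pos hn hk hkh).le hfv x ht hu hpos⟩

end Crest.Agent.R241.A3
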