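import Crest.Agent.R241.ATargets

/-!
R241, block A, A3: the parametric integrals `∫₀¹ ρ^α (1+ρ r)^(-β) dρ`.
-/

set_option autoImplicit false

namespace Crest.Agent.R241.A3J

open MeasureTheory Set Filter Topology Crest.Agent.R241.A
open scoped NNReal ENNReal

/-- `∫₀¹ ρ^α (1+ρ r)^(-β) dρ`. -/
noncomputable def Jab (α β r : ℝ) : ℝ := ∫ ρ in (0 : ℝ)..1, ρ ^ α * (1 + ρ * r) ^ (-β)

lemma min_le {ρ r : ℝ} (h0 : 0 ≤ ρ) (h1 : ρ ≤ 1) : min 1 (1 + r) ≤ 1 + ρ * r := by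
  have e : 1 + ρ * r = (1 - ρ) * 1 + ρ * (1 + r) := by ring
  have h2 : min 1 (1 + r) ≤ 1 := min_le_left _ _
  have h3 : min 1 (1 + r) ≤ 1 + r := min_le_right _ _
  rw [e]
  nlinarith

lemma base_pos {ρ r : ℝ} (h0 : 0 ≤ ρ) (h1 : ρ ≤ 1) (hr : -1 < r) : 0 < 1 + ρ * r :=
  lt_of_lt_of_le (lt_min one_pos (by linarith)) (min_le h0 h1)

lemma continuousOn_base {r : ℝ} (hr : -1 < r) (β : ℝ) :
    ContinuousOn (fun ρ : ℝ => (1 + ρ * r) ^ β) (Icc 0 1) := by
  intro ρ hρ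
  have h := base_pos hρ.1 hρ.2 hr
  have h1 : ContinuousAt (fun ρ : ℝ => 1 + ρ * r) ρ := by fun_prop
  exact (h1.rpow_const (Or.inl h.ne')).continuousWithinAt

lemma intInt {α : ℝ} (hα : -1 < α) (β : ℝ) {r : ℝ} (hr : -1 < r) :
    IntervalIntegrable (fun ρ => ρ ^ α * (1 + ρ * r) ^ (-β)) volume 0 1 := by
  apply (intervalIntegral.intervalIntegrable_rpow' hα).mul_continuousOn
  rw [uIcc_of_le zero_le_one]
  exact continuousOn_base hr (-β)

theorem hasDerivAt_Jab {α : ℝ} (hα : -1 < α) {β : ℝ} (hβ : 0 ≤ β) {r : ℝ} (hr : -1 < r) :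
    HasDerivAt (Jab α β) (-β * Jab (α + 1) (β + 1) r) r := by
  set δ : ℝ := min 1 ((1 + r) / 2) with hδ
  have hδ0 : 0 < δ := lt_min one_pos (by linarith)
  set s : Set ℝ := Ioi ((r - 1) / 2) with hs
  have hsr : s ∈ 𝓝 r := Ioi_mem_nhds (by linarith)
  have hs1 : ∀ x ∈ s, -1 < x := fun x hx => by have : (r - 1) / 2 < x := hx; linarith
  have hlow : ∀ x ∈ s, ∀ ρ ∈ Icc (0 : ℝ) 1, δ ≤ 1 + ρ * x := by
    intro x hx ρ hρ
    refine le_trans ?_ (min_le hρ.1 hρ.2)
    have : (r - 1) / 2 < x := hx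
    exact min_le_min_left _ (by linarith)
  have hI : uIoc (0 : ℝ) 1 = Ioc 0 1 := uIoc_of_le zero_le_one
  have key := intervalIntegral.hasDerivAt_integral_of_dominated_loc_of_deriv_le
    (μ := volume) (a := 0) (b := 1)
    (F := fun x ρ => ρ ^ α * (1 + ρ * x) ^ (-β))
    (F' := fun x ρ => ρ ^ α * (ρ * (-β) * (1 + ρ * x) ^ (-β - 1)))
    (x₀ := r) (s := s) (bound := fun ρ => β * δ ^ (-β - 1) * ρ ^ α) hsr
    (by
      filter_upwards [hsr] with x hx
      exact ((intervalIntegrable_iff.1 (intInt hα β (hs1 x hx)))).aestronglyMeasurable)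
    (intInt hα β hr)
    (by
      have h1 : IntervalIntegrable (fun ρ => ρ ^ α * (ρ * (-β) * (1 + ρ * r) ^ (-β - 1)))
          volume 0 1 := by
        apply (intervalIntegral.intervalIntegrable_rpow' hα).mul_continuousOn
        rw [uIcc_of_le zero_le_one]
        exact ContinuousOn.mul (by fun_prop) (continuousOn_base hr (-β - 1))
      exact (intervalIntegrable_iff.1 h1).aestronglyMeasurable)
    (by
      refine ae_of_all _ fun ρ hρ x hx => ?_
      rw [hI] at hρ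
      have h1 := hlow x hx ρ ⟨hρ.1.le, hρ.2⟩
      have h2 : (1 + ρ * x) ^ (-β - 1) ≤ δ ^ (-β - 1) :=
        Real.rpow_le_rpow_of_nonpos hδ0 h1 (by linarith)
      have h3 : 0 ≤ (1 + ρ * x) ^ (-β - 1) := Real.rpow_nonneg (hδ0.le.trans h1) _
      have h4 : 0 ≤ ρ ^ α := Real.rpow_nonneg hρ.1.le _
      have e : ρ ^ α * (ρ * (-β) * (1 + ρ * x) ^ (-β - 1))
          = -(β * (ρ * (1 + ρ * x) ^ (-β - 1)) * ρ ^ α) := by ring
      rw [e, norm_neg, Real.norm_of_nonneg (by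
        have := hρ.1.le
        positivity)]
      have h5 : ρ * (1 + ρ * x) ^ (-β - 1) ≤ δ ^ (-β - 1) := by
        calc ρ * (1 + ρ * x) ^ (-β - 1) ≤ 1 * (1 + ρ * x) ^ (-β - 1) :=
              mul_le_mul_of_nonneg_right hρ.2 h3
          _ ≤ _ := by rw [one_mul]; exact h2
      gcongr)
    ((intervalIntegral.intervalIntegrable_rpow' hα).const_mul _)
    (by
      refine ae_of_all _ fun ρ hρ x hx => ?_
      rw [hI] at hρ
      have h1 := base_pos hρ.1.le hρ.2 (hs1 x hx)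
      have h2 : HasDerivAt (fun x : ℝ => 1 + ρ * x) ρ x := by
        simpa using ((hasDerivAt_id x).const_mul ρ).const_add 1
      exact (h2.rpow_const (p := -β) (Or.inl h1.ne')).const_mul _)
  refine key.2.congr_deriv ?_
  unfold Jab
  rw [← intervalIntegral.integral_const_mul]
  refine intervalIntegral.integral_congr_ae (ae_of_all _ fun ρ hρ => ?_)
  rw [hI] at hρ
  have e1 : ρ ^ (α + 1) = ρ ^ α * ρ := by rw [Real.rpow_add hρ.1, Real.rpow_one]
  have e2 : -(β + 1) = -β - 1 := by ring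
  rw [e1, e2]; ring

lemma continuousAt_Jab {α : ℝ} (hα : -1 < α) {β : ℝ} (hβ : 0 ≤ β) {r : ℝ} (hr : -1 < r) :
    ContinuousAt (Jab α β) r := (hasDerivAt_Jab hα hβ hr).continuousAt

/-- `(α+1) J_{α,β} = β r J_{α+1,β+1} + (1+r)^{-β}`. -/
theorem Jab_rec {α : ℝ} (hα : -1 < α) {β r : ℝ} (hr : -1 < r) :
    (α + 1) * Jab α β r - β * r * Jab (α + 1) (β + 1) r = (1 + r) ^ (-β) := by
  have h1 := intInt hα β hr
  have h2 := intInt (α := α + 1) (by linarith) (β + 1) hr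
  unfold Jab
  rw [← intervalIntegral.integral_const_mul, ← intervalIntegral.integral_const_mul,
    ← intervalIntegral.integral_sub (h1.const_mul _) (h2.const_mul _)]
  rw [intervalIntegral.integral_eq_sub_of_hasDerivAt_of_le (f := fun ρ => ρ ^ (α + 1) *
    (1 + ρ * r) ^ (-β)) zero_le_one]
  · have : (0 : ℝ) ^ (α + 1) = 0 := Real.zero_rpow (by linarith)
    simp [this]
  · apply ContinuousOn.mul _ (continuousOn_base hr (-β))
    exact (Real.continuous_rpow_const (by linarith)).continuousOn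
  · intro ρ hρ
    have hb := base_pos hρ.1.le hρ.2.le hr
    have h3 : HasDerivAt (fun ρ : ℝ => ρ ^ (α + 1)) ((α + 1) * ρ ^ (α + 1 - 1)) ρ :=
      Real.hasDerivAt_rpow_const (Or.inl hρ.1.ne')
    have h4 : HasDerivAt (fun ρ : ℝ => 1 + ρ * r) r ρ := by
      simpa using ((hasDerivAt_id ρ).mul_const r).const_add 1
    refine (h3.mul (h4.rpow_const (p := -β) (Or.inl hb.ne'))).congr_deriv ?_
    have e1 : α + 1 - 1 = α := by ring
    have e2 : -(β + 1) = -β - 1 := by ring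
    rw [e1, e2]; ring
  · exact (h1.const_mul _).sub (h2.const_mul _)

/-- `m J_{m-1,n}(r) = (1+r)^{-2m} + m r² J_{m+1,n}(r)`, `n = 2m+2`. -/
theorem Jab_id {m : ℝ} (hm : 0 < m) {r : ℝ} (hr : -1 < r) :
    m * Jab (m - 1) (2 * m + 2) r
      = (1 + r) ^ (-(2 * m)) + m * r ^ 2 * Jab (m + 1) (2 * m + 2) r := by
  have h1 := intInt (α := m - 1) (by linarith) (2 * m + 2) hr
  have h2 := intInt (α := m + 1) (by linarith) (2 * m + 2) hr
  have key : m * Jab (m - 1) (2 * m + 2) r - m * r ^ 2 * Jab (m + 1) (2 * m + 2) r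
      = (1 + r) ^ (-(2 * m)) := by
    unfold Jab
    rw [← intervalIntegral.integral_const_mul, ← intervalIntegral.integral_const_mul,
      ← intervalIntegral.integral_sub (h1.const_mul _) (h2.const_mul _)]
    rw [intervalIntegral.integral_eq_sub_of_hasDerivAt_of_le (f := fun ρ => ρ ^ m *
      (1 + ρ * r) ^ (-(2 * m))) zero_le_one]
    · have : (0 : ℝ) ^ m = 0 := Real.zero_rpow (by linarith)
      simp [this]
    · apply ContinuousOn.mul _ (continuousOn_base hr _)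
      exact (Real.continuous_rpow_const hm.le).continuousOn
    · intro ρ hρ
      have hb := base_pos hρ.1.le hρ.2.le hr
      have h3 : HasDerivAt (fun ρ : ℝ => ρ ^ m) (m * ρ ^ (m - 1)) ρ :=
        Real.hasDerivAt_rpow_const (Or.inl hρ.1.ne')
      have h4 : HasDerivAt (fun ρ : ℝ => 1 + ρ * r) r ρ := by
        simpa using ((hasDerivAt_id ρ).mul_const r).const_add 1
      refine (h3.mul (h4.rpow_const (p := -(2 * m)) (Or.inl hb.ne'))).congr_deriv ?_
      have e1 : ρ ^ (m + 1) = ρ ^ (m - 1) * ρ ^ 2 := by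
        rw [← Real.rpow_natCast, ← Real.rpow_add hρ.1]; congr 1; push_cast; ring
      have e2 : ρ ^ m = ρ ^ (m - 1) * ρ := by
        nth_rewrite 3 [← Real.rpow_one ρ]
        rw [← Real.rpow_add hρ.1]; congr 1; ring
      have e3 : (1 + ρ * r) ^ (-(2 * m)) = (1 + ρ * r) ^ (-(2 * m + 2)) * (1 + ρ * r) ^ 2 := by
        rw [← Real.rpow_natCast, ← Real.rpow_add hb]; congr 1; push_cast; ring
      have e4 : (1 + ρ * r) ^ (-(2 * m) - 1) = (1 + ρ * r) ^ (-(2 * m + 2)) * (1 + ρ * r) := by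
        nth_rewrite 3 [← Real.rpow_one (1 + ρ * r)]
        rw [← Real.rpow_add hb]; congr 1; ring
      rw [e1, e2, e3, e4]; ring
    · exact (h1.const_mul _).sub (h2.const_mul _)
  linarith

lemma Jab_nonneg {α β r : ℝ} (hr : -1 < r) : 0 ≤ Jab α β r := by
  unfold Jab
  apply intervalIntegral.integral_nonneg zero_le_one
  intro ρ hρ
  have := base_pos hρ.1 hρ.2 hr
  have h1 : 0 ≤ ρ ^ α := Real.rpow_nonneg hρ.1 _
  positivity

lemma Jab_le {α β r : ℝ} (hα : -1 < α) (hβ : 0 ≤ β) (hr : 0 ≤ r) :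
    Jab α β r ≤ 1 / (α + 1) := by
  have h0 : ∫ ρ in (0 : ℝ)..1, ρ ^ α = 1 / (α + 1) := by
    rw [integral_rpow (Or.inl hα)]
    have : (0 : ℝ) ^ (α + 1) = 0 := Real.zero_rpow (by linarith)
    rw [this]; simp
  rw [← h0]
  unfold Jab
  apply intervalIntegral.integral_mono_on zero_le_one (intInt hα β (by linarith))
    (intervalIntegral.intervalIntegrable_rpow' hα)
  intro ρ hρ
  have h1 : 0 ≤ ρ ^ α := Real.rpow_nonneg hρ.1 _
  have h2 : (1 + ρ * r) ^ (-β) ≤ 1 := by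
    apply Real.rpow_le_one_of_one_le_of_nonpos _ (by linarith)
    have := mul_nonneg hρ.1 hr
    linarith
  calc ρ ^ α * (1 + ρ * r) ^ (-β) ≤ ρ ^ α * 1 := mul_le_mul_of_nonneg_left h2 h1
    _ = _ := mul_one _

lemma HA_eq (n : ℕ) (r : ℝ) : HA n r = mA n * Jab (mA n - 1) (2 * mA n + 2) r := by
  unfold HA Jab
  rw [← intervalIntegral.integral_const_mul]
  have e : (n : ℝ) = 2 * mA n + 2 := by unfold mA; ring
  congr 1; ext ρ
  rw [← e]; ring

/-- `H(r) = (1+r)^{-2m} + m r² J(r)`. -/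
lemma HA_id {n : ℕ} (hm : 0 < mA n) {r : ℝ} (hr : -1 < r) :
    HA n r = (1 + r) ^ (-(2 * mA n)) + mA n * r ^ 2 * Jab (mA n + 1) (2 * mA n + 2) r := by
  rw [HA_eq, Jab_id hm hr]

end Crest.Agent.R241.A3J
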