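import Crest.Agent.R241.ABasic
import Crest.Agent.R241.A3J

/-!
R241, block A, A3: first order calculus for functions of `(u, z_x)`, and the Hardy inequality.
-/

set_option autoImplicit false

namespace Crest.Agent.R241.A3

open MeasureTheory Set Filter Topology Crest.Agent.R241.A Crest.Agent.R241.A3J
open scoped NNReal ENNReal

variable {n : ℕ} {k : ℝ} {K : Type*} [MetricSpace K] [CompactSpace K]
  [MeasurableSpace K] [BorelSpace K]

/-- `F` is Lipschitz and `∇F = α ∇u + β ∇z`. -/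
structure D (P : PreData n k K) (u z F α β : K → ℝ) : Prop where
  lip : Lip F
  eq : ∀ g : K → ℝ, Lip g → ∀ᵐ y ∂P.τ, P.G F g y = α y * P.G u g y + β y * P.G z g y

section D
variable {P : PreData n k K} {u z : K → ℝ}

lemma D.fst (hu : Lip u) : D P u z u (fun _ => 1) (fun _ => 0) :=
  ⟨hu, fun g _ => ae_of_all _ fun y => by simp⟩

lemma D.snd (hz : Lip z) : D P u z z (fun _ => 0) (fun _ => 1) :=
  ⟨hz, fun g _ => ae_of_all _ fun y => by simp⟩

lemma D.mul {F α β F' α' β' : K → ℝ} (h : D P u z F α β) (h' : D P u z F' α' β') :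
    D P u z (fun y => F y * F' y) (fun y => F y * α' y + F' y * α y)
      (fun y => F y * β' y + F' y * β y) := by
  refine ⟨h.lip.mul h'.lip, fun g hg => ?_⟩
  filter_upwards [P.G_mul F F' g h.lip h'.lip hg, h.eq g hg, h'.eq g hg] with y h1 h2 h3
  rw [h1, h2, h3]; ring

lemma D.comp {F α β : K → ℝ} (h : D P u z F α β) {φ φ' : ℝ → ℝ}
    (hl : Lip (fun y => φ (F y))) (hφ : ∀ y, HasDerivAt φ (φ' (F y)) (F y))
    (hc : Continuous (fun y => φ' (F y))) :
    D P u z (fun y => φ (F y)) (fun y => φ' (F y) * α y) (fun y => φ' (F y) * β y) := by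
  refine ⟨hl, fun g hg => ?_⟩
  filter_upwards [P.G_chain F g φ φ' h.lip hg hl hφ hc, h.eq g hg] with y h1 h2
  rw [h1, h2]; ring

lemma D.comp_nonneg {F α β : K → ℝ} (h : D P u z F α β) (hF : ∀ y, 0 ≤ F y) {φ φ' : ℝ → ℝ}
    (hφ : ∀ s, 0 ≤ s → HasDerivAt φ (φ' s) s) (hc : ContinuousOn φ' (Ici 0)) :
    D P u z (fun y => φ (F y)) (fun y => φ' (F y) * α y) (fun y => φ' (F y) * β y) := by
  obtain ⟨B, hB, hBF⟩ := h.lip.exists_bound
  refine h.comp (h.lip.comp_Icc (a := 0) (b := B) (fun s hs => hφ s hs.1)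
    (hc.mono fun s hs => hs.1) fun y => ⟨hF y, (le_abs_self _).trans (hBF y)⟩)
    (fun y => hφ _ (hF y)) (hc.comp_continuous h.lip.continuous hF)

lemma D.comp_pos {F α β : K → ℝ} (h : D P u z F α β) (hF : ∀ y, 0 < F y) {φ φ' : ℝ → ℝ}
    (hφ : ∀ s, 0 < s → HasDerivAt φ (φ' s) s) (hc : ContinuousOn φ' (Ioi 0)) :
    D P u z (fun y => φ (F y)) (fun y => φ' (F y) * α y) (fun y => φ' (F y) * β y) :=
  h.comp (h.lip.comp_pos hF hφ hc) (fun y => hφ _ (hF y))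
    (hc.comp_continuous h.lip.continuous hF)

lemma D.rpow {F α β : K → ℝ} (h : D P u z F α β) (hF : ∀ y, 0 < F y) (s : ℝ) :
    D P u z (fun y => F y ^ s) (fun y => s * F y ^ (s - 1) * α y)
      (fun y => s * F y ^ (s - 1) * β y) :=
  h.comp_pos hF (φ := fun t => t ^ s) (φ' := fun t => s * t ^ (s - 1))
    (fun _ ht => Real.hasDerivAt_rpow_const (Or.inl ht.ne')) (PreData.continuousOn_rpow_deriv s)

lemma D.pair {F α β F' α' β' : K → ℝ} (hu : Lip u) (hz : Lip z)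
    (h : D P u z F α β) (h' : D P u z F' α' β') :
    ∀ᵐ y ∂P.τ, P.G F F' y = α y * α' y * P.G u u y
      + (α y * β' y + β y * α' y) * P.G u z y + β y * β' y * P.G z z y := by
  filter_upwards [h.eq F' h'.lip, P.G_comm u F' hu h'.lip, P.G_comm z F' hz h'.lip,
    h'.eq u hu, h'.eq z hz, P.G_comm z u hz hu] with y h1 h2 h3 h4 h5 h6
  rw [h1, h2, h3, h4, h5, h6]; ring

end D

/-- Vanishing of `G z z` where `z = 0`. -/
lemma G_zero_of_zd_zero (P : PreData n k K) (x : K) {u : K → ℝ} (hu : Lip u) :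
    ∀ᵐ y ∂P.τ, zd k x y = 0 → P.G (zd k x) (zd k x) y = 0 ∧ P.G u (zd k x) y = 0 := by
  filter_upwards [P.G_z x, P.G_nonneg _ (lip_zd k x), P.G_sq_le hu (lip_zd k x)]
    with y h1 h2 h3 hy
  rw [hy] at h1
  have h4 : P.G (zd k x) (zd k x) y = 0 := le_antisymm (by simpa using h1) h2
  rw [h4, mul_zero] at h3
  exact ⟨h4, by nlinarith [sq_nonneg (P.G u (zd k x) y)]⟩

lemma hardy_alg {m U Z a i b c0 Gzz Guz Guu : ℝ} (hm : 0 < m) (hb : 0 ≤ b)
    (hc0 : c0 * (m + 1) = b / m) (hZ0 : 0 ≤ Z) (ha : 0 < a) (hi : i = (Z + a)⁻¹)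
    (h2 : Z = 0 → Gzz = 0) (h3 : 0 ≤ Gzz) (h4 : 0 ≤ Guu) (h5 : Guz ^ 2 ≤ Guu * Gzz) :
    m / 2 * (i ^ 2 * U ^ 2 * Gzz) - (2 / m * Guu + b / m * U ^ 2)
      ≤ (2 * U * Guz * i - U ^ 2 * i ^ 2 * Gzz)
        + (m + 1) * (U ^ 2 * i) * (Gzz / Z - c0 * Z) := by
  have hZa : 0 < Z + a := by linarith
  have hi0 : 0 < i := by rw [hi]; exact inv_pos.2 hZa
  have hii : i * (Z + a) = 1 := by rw [hi]; exact inv_mul_cancel₀ hZa.ne'
  have h6 : Gzz * i ≤ Gzz / Z := by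
    rcases hZ0.eq_or_lt with h0 | h0
    · rw [h2 h0.symm]; simp
    · rw [div_eq_mul_inv]
      apply mul_le_mul_of_nonneg_left _ h3
      rw [hi]
      exact inv_anti₀ h0 (by linarith)
  have h7 : Z * i ≤ 1 := by
    have : 0 < i * a := by positivity
    linarith [mul_comm i Z, mul_add i Z a]
  have h8 : 0 ≤ 2 / m * Guu + 2 * U * Guz * i + m / 2 * (i ^ 2 * U ^ 2 * Gzz) := by
    have hA : 0 ≤ 2 / m * Guu := by positivity
    have hB : 0 ≤ m / 2 * (i ^ 2 * U ^ 2 * Gzz) := by positivity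
    have hq : (2 * U * Guz * i) ^ 2 ≤ (2 / m * Guu + m / 2 * (i ^ 2 * U ^ 2 * Gzz)) ^ 2 := by
      have e : 4 * (2 / m * Guu) * (m / 2 * (i ^ 2 * U ^ 2 * Gzz))
          = 4 * (U ^ 2 * i ^ 2) * (Guu * Gzz) := by field_simp
      have e2 : (2 * U * Guz * i) ^ 2 = 4 * (U ^ 2 * i ^ 2) * Guz ^ 2 := by ring
      have e3 : 4 * (U ^ 2 * i ^ 2) * Guz ^ 2 ≤ 4 * (U ^ 2 * i ^ 2) * (Guu * Gzz) :=
        mul_le_mul_of_nonneg_left h5 (by positivity)
      have e4 := sq_nonneg (2 / m * Guu - m / 2 * (i ^ 2 * U ^ 2 * Gzz))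
      rw [e2]
      nlinarith
    have := (abs_le_of_sq_le_sq' hq (by positivity)).1
    linarith
  have h9 : (m + 1) * (U ^ 2 * i) * (Gzz * i) ≤ (m + 1) * (U ^ 2 * i) * (Gzz / Z) :=
    mul_le_mul_of_nonneg_left h6 (by positivity)
  have h10 : (m + 1) * (U ^ 2 * i) * (c0 * Z) ≤ b / m * U ^ 2 := by
    have : (m + 1) * (U ^ 2 * i) * (c0 * Z) = b / m * U ^ 2 * (Z * i) := by
      rw [← hc0]; ring
    rw [this]
    have hbm : 0 ≤ b / m * U ^ 2 := by positivity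
    exact mul_le_of_le_one_right hbm h7
  have e3 : (m + 1) * (U ^ 2 * i) * (Gzz / Z - c0 * Z)
      = (m + 1) * (U ^ 2 * i) * (Gzz / Z) - (m + 1) * (U ^ 2 * i) * (c0 * Z) := by
    ring
  have e4 : (m + 1) * (U ^ 2 * i) * (Gzz * i) = m * (i ^ 2 * U ^ 2 * Gzz)
      + i ^ 2 * U ^ 2 * Gzz := by ring
  rw [e3]
  linarith

/-- Integrability of the (FV') integrand. -/
lemma integrable_fv' (P : PreData n k K) (x : K) (h : ℝ) {f : K → ℝ} (hfL : Lip f) :
    Integrable (fun y => P.G f (zd k x) y + (n : ℝ) / 2 * f y *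
      (P.G (zd k x) (zd k x) y / zd k x y - (h ^ 2 - k ^ 2) * zd k x y)) P.τ := by
  have hzl : Lip (zd k x) := lip_zd k x
  have hg : AEStronglyMeasurable (fun y => P.G (zd k x) (zd k x) y / zd k x y) P.τ :=
    ((P.G_meas _ _ hzl hzl).aemeasurable.div
      hzl.continuous.aemeasurable).aestronglyMeasurable
  obtain ⟨B, hB, hzB⟩ := hzl.exists_bound
  have hg2 : Integrable (fun y => P.G (zd k x) (zd k x) y / zd k x y) P.τ := by
    refine Integrable.of_bound hg (2 + k ^ 2 * B) ?_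
    filter_upwards [P.G_z x, P.G_nonneg _ hzl] with y h1 h2
    have hz0 : 0 ≤ zd k x y := zd_nonneg k x y
    rw [Real.norm_of_nonneg (div_nonneg h2 hz0)]
    rcases hz0.eq_or_lt with h0 | h0
    · rw [← h0]; simp; positivity
    · rw [div_le_iff₀ h0]
      have h3 : zd k x y ≤ B := (le_abs_self _).trans (hzB y)
      have h4 : k ^ 2 * zd k x y ^ 2 ≤ k ^ 2 * B * zd k x y := by
        rw [mul_assoc, pow_two (zd k x y)]
        exact mul_le_mul_of_nonneg_left (mul_le_mul_of_nonneg_right h3 hz0) (sq_nonneg k)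
      linarith [add_mul 2 (k ^ 2 * B) (zd k x y)]
  have hg3 : Integrable (fun y => P.G (zd k x) (zd k x) y / zd k x y
      - (h ^ 2 - k ^ 2) * zd k x y) P.τ :=
    hg2.sub ((P.integrable_lip hzl).const_mul _)
  refine (P.integrable_G hfL hzl).add ?_
  have hfc : Continuous (fun y => (n : ℝ) / 2 * f y) := continuous_const.mul hfL.continuous
  obtain ⟨B', _, hB'⟩ := exists_bound_of_continuous hfc
  exact hg3.bdd_mul (c := B') hfc.aestronglyMeasurable
    (ae_of_all _ fun y => by simpa only [Real.norm_eq_abs] using hB' y)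

lemma const_eq {h : ℝ} (hm : 0 < mA n) : (h ^ 2 - k ^ 2) * (mA n + 1) = bA n k h / mA n := by
  unfold bA
  rw [n_eq n]; field_simp

lemma G_inv (P : PreData n k K) (x : K) {a : ℝ} (ha : 0 < a) :
    Lip (fun y => (zd k x y + a)⁻¹) ∧
    ∀ᵐ y ∂P.τ, P.G (fun y => (zd k x y + a)⁻¹) (zd k x) y
      = - ((zd k x y + a)⁻¹ ^ 2) * P.G (zd k x) (zd k x) y := by
  have e : (fun y => (zd k x y + a) ^ (-1 : ℝ)) = fun y => (zd k x y + a)⁻¹ := by
    ext y; rw [Real.rpow_neg_one]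
  refine ⟨e ▸ lip_zd_rpow k x ha (-1), ?_⟩
  filter_upwards [P.G_zd_rpow_left x ha (-1) (lip_zd k x)] with y hy
  rw [e] at hy
  rw [hy]
  have e2 : (-1 : ℝ) - 1 = -(2 : ℕ) := by norm_num
  rw [e2, Real.rpow_neg (zd_add_pos k x ha y).le, Real.rpow_natCast, inv_pow]
  ring

/-- Hardy type inequality. -/
theorem hardy {h : ℝ} (hm : 0 < mA n) (hb : 0 ≤ bA n k h) {P : PreData n k K}
    (hfv : T_fv' P h) (x : K) {a : ℝ} (ha : 0 < a) {u : K → ℝ} (hu : Lip u) :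
    ∫ y, ((zd k x y + a)⁻¹ ^ 2) * u y ^ 2 * P.G (zd k x) (zd k x) y ∂P.τ
      ≤ 4 / mA n ^ 2 * P.energy (bA n k h) u := by
  have hzl : Lip (zd k x) := lip_zd k x
  have hza : ∀ y, 0 < zd k x y + a := zd_add_pos k x ha
  obtain ⟨hinvL, hinv⟩ := G_inv P x ha
  have hfL : Lip (fun y => u y ^ 2 * (zd k x y + a)⁻¹) := hu.sq.mul hinvL
  have h1 := hfv x _ hfL (fun y => mul_nonneg (sq_nonneg _) (inv_nonneg.2 (hza y).le))
  have hI1 : Integrable (fun y => ((zd k x y + a)⁻¹ ^ 2) * u y ^ 2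
      * P.G (zd k x) (zd k x) y) P.τ :=
    P.integrable_mul_G hzl hzl (hinvL.sq.mul hu.sq).continuous
  have hI2 : Integrable (fun y => P.G u u y) P.τ := P.integrable_G hu hu
  have hI3 : Integrable (fun y => u y ^ 2) P.τ := P.integrable_lip hu.sq
  have hI4 := integrable_fv' P x h hfL
  have hae : ∀ᵐ y ∂P.τ, mA n / 2 * (((zd k x y + a)⁻¹ ^ 2) * u y ^ 2
        * P.G (zd k x) (zd k x) y)
      - (2 / mA n * P.G u u y + bA n k h / mA n * u y ^ 2)
      ≤ P.G (fun y => u y ^ 2 * (zd k x y + a)⁻¹) (zd k x) y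
        + (n : ℝ) / 2 * (u y ^ 2 * (zd k x y + a)⁻¹)
        * (P.G (zd k x) (zd k x) y / zd k x y - (h ^ 2 - k ^ 2) * zd k x y) := by
    filter_upwards [P.G_mul (fun y => u y ^ 2) (fun y => (zd k x y + a)⁻¹) (zd k x) hu.sq
      hinvL hzl, hinv, P.G_sq_left hu hzl, G_zero_of_zd_zero P x hu, P.G_nonneg _ hzl,
      P.G_nonneg u hu, P.G_sq_le hu hzl] with y g1 g2 g3 g4 g5 g6 g7
    have key := hardy_alg (m := mA n) (U := u y) (Z := zd k x y) (a := a)
      (i := (zd k x y + a)⁻¹) (b := bA n k h) (c0 := h ^ 2 - k ^ 2)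
      hm hb (const_eq hm) (zd_nonneg k x y) ha rfl (fun h0 => (g4 h0).1) g5 g6 g7
    rw [g1, g2, g3]
    have e : (n : ℝ) / 2 = mA n + 1 := by rw [n_eq n]; ring
    rw [e]
    refine key.trans (le_of_eq ?_)
    ring
  have hI23 : Integrable (fun y => 2 / mA n * P.G u u y + bA n k h / mA n * u y ^ 2) P.τ :=
    (hI2.const_mul _).add (hI3.const_mul _)
  have hI123 : Integrable (fun y => mA n / 2 * (((zd k x y + a)⁻¹ ^ 2) * u y ^ 2
      * P.G (zd k x) (zd k x) y)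
      - (2 / mA n * P.G u u y + bA n k h / mA n * u y ^ 2)) P.τ :=
    (hI1.const_mul _).sub hI23
  have h2 := integral_mono_ae hI123 hI4 hae
  have e : ∫ y, (mA n / 2 * (((zd k x y + a)⁻¹ ^ 2) * u y ^ 2 * P.G (zd k x) (zd k x) y)
      - (2 / mA n * P.G u u y + bA n k h / mA n * u y ^ 2)) ∂P.τ
      = mA n / 2 * ∫ y, ((zd k x y + a)⁻¹ ^ 2) * u y ^ 2 * P.G (zd k x) (zd k x) y ∂P.τ
      - (2 / mA n * ∫ y, P.G u u y ∂P.τ + bA n k h / mA n * ∫ y, u y ^ 2 ∂P.τ) := by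
    rw [integral_sub (hI1.const_mul _) hI23, integral_const_mul,
      integral_add (hI2.const_mul _) (hI3.const_mul _), integral_const_mul,
      integral_const_mul]
  have h3 := h2.trans h1
  rw [e] at h3
  rw [P.energy_eq_add _ hu]
  have hs : 0 ≤ ∫ y, u y ^ 2 ∂P.τ := integral_nonneg fun y => sq_nonneg _
  generalize (∫ y, ((zd k x y + a)⁻¹ ^ 2) * u y ^ 2 * P.G (zd k x) (zd k x) y ∂P.τ) = I1 at *
  generalize (∫ y, P.G u u y ∂P.τ) = I2 at *
  generalize (∫ y, u y ^ 2 ∂P.τ) = I3 at *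
  generalize bA n k h = b at *
  generalize mA n = m at *
  have h4 : m / 2 * I1 ≤ 2 / m * I2 + b / m * I3 := by linarith
  have h5 : I1 = 2 / m * (m / 2 * I1) := by field_simp
  rw [h5]
  calc 2 / m * (m / 2 * I1) ≤ 2 / m * (2 / m * I2 + b / m * I3) :=
        mul_le_mul_of_nonneg_left h4 (by positivity)
    _ ≤ 4 / m ^ 2 * (I2 + b * I3) := by
        have e : 2 / m * (2 / m * I2 + b / m * I3) = 4 / m ^ 2 * (I2 + b * I3)
          - 2 / m ^ 2 * (b * I3) := by field_simp; ring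
        rw [e]
        have : 0 ≤ 2 / m ^ 2 * (b * I3) := by positivity
        linarith

end Crest.Agent.R241.A3
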