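import Crest.Agent.R241.ATargets

/-! R241, block A4H: the functions `H`, `g`, the constant `C_n`. Author: helper459. -/

set_option autoImplicit false

namespace Crest.Agent.R241.A4H

open MeasureTheory Set Filter Topology Crest.Agent.R241.A
open scoped NNReal ENNReal Interval

/-! ### pointwise inequalities -/

/-- `(1+x)^(-n)` as an inverse of a natural power. -/
theorem rpow_neg_nat {x : ℝ} (n : ℕ) : (1 + x) ^ (-(n : ℝ)) = ((1 + x) ^ n)⁻¹ ∨ x < -1 := by
  rcases lt_or_ge x (-1) with h | h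
  · exact Or.inr h
  · left
    rw [Real.rpow_neg (by linarith), Real.rpow_natCast]

theorem rpow_neg_nat' {x : ℝ} (n : ℕ) (hx : 0 ≤ x) :
    (1 + x) ^ (-(n : ℝ)) = ((1 + x) ^ n)⁻¹ := by
  rw [Real.rpow_neg (by linarith), Real.rpow_natCast]

/-- `ψ(x) = (1+x)^{-n}`. -/
noncomputable def psi (n : ℕ) (x : ℝ) : ℝ := (1 + x) ^ (-(n : ℝ))

theorem psi_pos {n : ℕ} {x : ℝ} (hx : 0 ≤ x) : 0 < psi n x :=
  Real.rpow_pos_of_pos (by linarith) _

theorem psi_le_one {n : ℕ} {x : ℝ} (hx : 0 ≤ x) : psi n x ≤ 1 := by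
  unfold psi
  apply Real.rpow_le_one_of_one_le_of_nonpos (by linarith)
  have : (0 : ℝ) ≤ n := Nat.cast_nonneg n
  linarith

theorem psi_anti {n : ℕ} {x y : ℝ} (hx : 0 ≤ x) (hxy : x ≤ y) : psi n y ≤ psi n x := by
  unfold psi
  apply Real.rpow_le_rpow_of_nonpos (by linarith) (by linarith)
  have : (0 : ℝ) ≤ n := Nat.cast_nonneg n
  linarith

theorem one_sub_psi_le {n : ℕ} {x : ℝ} (hx : 0 ≤ x) : 1 - psi n x ≤ n * x := by
  have h1 : psi n x = ((1 + x)⁻¹) ^ n := by
    unfold psi; rw [rpow_neg_nat' n hx, inv_pow]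
  have h2 : 1 + (n : ℝ) * ((1 + x)⁻¹ - 1) ≤ (1 + ((1 + x)⁻¹ - 1)) ^ n := by
    apply one_add_mul_le_pow
    have : 0 < (1 + x)⁻¹ := by positivity
    linarith
  rw [add_sub_cancel] at h2
  rw [h1]
  have h3 : 1 - (1 + x)⁻¹ ≤ x := by
    have : (1 + x)⁻¹ ≥ 1 - x := by
      rw [ge_iff_le, ← one_div, le_div_iff₀ (by linarith)]
      nlinarith
    linarith
  have : (0 : ℝ) ≤ n := Nat.cast_nonneg n
  nlinarith

theorem one_sub_psi_ge {n : ℕ} {x : ℝ} (hx : 0 ≤ x) :
    n * x - (n : ℝ) ^ 2 * x ^ 2 ≤ 1 - psi n x := by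
  have hn : (0 : ℝ) ≤ n := Nat.cast_nonneg n
  have h1 : 1 + (n : ℝ) * x ≤ (1 + x) ^ n := one_add_mul_le_pow (by linarith) n
  have h2 : psi n x ≤ (1 + n * x)⁻¹ := by
    unfold psi
    rw [rpow_neg_nat' n hx]
    gcongr
  have h3 : (1 + n * x)⁻¹ ≤ 1 - n * x + (n : ℝ) ^ 2 * x ^ 2 := by
    have h4 : 0 < 1 + n * x := by positivity
    rw [inv_le_iff_one_le_mul₀ h4]
    have : 0 ≤ (n : ℝ) ^ 3 * x ^ 3 := by positivity
    nlinarith
  linarith

theorem slope_psi_anti {n : ℕ} {x y : ℝ} (hx : 0 < x) (hxy : x ≤ y) :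
    (1 - psi n y) / y ≤ (1 - psi n x) / x := by
  have key : ∀ z : ℝ, 0 < z → (1 - psi n z) / z = ∑ i ∈ Finset.range n, ((1 + z)⁻¹) ^ (i + 1) := by
    intro z hz
    have h1 : psi n z = ((1 + z)⁻¹) ^ n := by
      unfold psi; rw [rpow_neg_nat' n hz.le, inv_pow]
    rw [h1, div_eq_iff hz.ne']
    have h2 := mul_neg_geom_sum ((1 + z)⁻¹) n
    have h3 : 1 - (1 + z)⁻¹ = z * (1 + z)⁻¹ := by field_simp; ring
    rw [← h2, h3]
    simp_rw [pow_succ']
    rw [← Finset.mul_sum]
    ring
  rw [key x hx, key y (by linarith)]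
  apply Finset.sum_le_sum
  intro i _
  have : 0 < x := hx
  have hy : 0 < y := by linarith
  gcongr

/-! ### integrability -/

section
variable {n : ℕ}

theorem mA_pos' (hn : 3 ≤ n) : 0 < mA n := by
  unfold mA
  have : (3 : ℝ) ≤ n := by exact_mod_cast hn
  linarith

theorem n_eq' : (n : ℝ) = 2 * mA n + 2 := by unfold mA; ring

theorem intervalIntegrable_kernel {m : ℝ} (hm : 0 < m) (b : ℝ) :
    IntervalIntegrable (fun s : ℝ => m * s ^ (m - 1)) volume 0 b :=
  (intervalIntegral.intervalIntegrable_rpow' (by linarith)).const_mul m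

theorem continuous_psi_comp {r : ℝ} (hr : 0 ≤ r) :
    ContinuousOn (fun s : ℝ => psi n (s * r)) (Ici 0) := by
  unfold psi
  apply ContinuousOn.rpow_const (by fun_prop)
  intro s hs
  left
  have : (0 : ℝ) ≤ s := hs
  positivity

theorem intervalIntegrable_H (hn : 3 ≤ n) {r : ℝ} (hr : 0 ≤ r) {b : ℝ} (hb : 0 ≤ b) :
    IntervalIntegrable (fun s : ℝ => mA n * s ^ (mA n - 1) * psi n (s * r)) volume 0 b := by
  apply (intervalIntegrable_kernel (mA_pos' hn) b).mul_continuousOn
  apply (continuous_psi_comp hr).mono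
  rw [uIcc_of_le hb]
  exact fun s hs => hs.1

theorem HA_eq (r : ℝ) :
    HA n r = ∫ s in (0 : ℝ)..1, mA n * s ^ (mA n - 1) * psi n (s * r) := rfl

theorem gA_eq (r : ℝ) :
    gA n r = ∫ s in (0 : ℝ)..r, mA n * s ^ (mA n - 1) * psi n (s * 1) := by
  unfold gA psi; simp

theorem CnA_eq :
    CnA n = ∫ s in Ioi (0 : ℝ), mA n * s ^ (mA n - 1) * psi n (s * 1) := by
  unfold CnA psi; simp

theorem kernel_nonneg {m : ℝ} (hm : 0 < m) {s : ℝ} (hs : 0 ≤ s) : 0 ≤ m * s ^ (m - 1) := by
  positivity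

theorem integral_kernel {m : ℝ} (hm : 0 < m) : ∫ s in (0 : ℝ)..1, m * s ^ (m - 1) = 1 := by
  rw [intervalIntegral.integral_const_mul, integral_rpow (Or.inl (by linarith))]
  simp only [sub_add_cancel, Real.one_rpow]
  rw [Real.zero_rpow hm.ne']
  field_simp
  ring

theorem integral_kernel1 {m : ℝ} (hm : 0 < m) :
    ∫ s in (0 : ℝ)..1, m * s ^ (m - 1) * s = m / (m + 1) := by
  have h : ∀ s ∈ [[(0 : ℝ), 1]], m * s ^ (m - 1) * s = m * s ^ m := by
    intro s hs
    rw [uIcc_of_le (by norm_num)] at hs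
    rcases eq_or_lt_of_le hs.1 with h0 | h0
    · rw [← h0, Real.zero_rpow hm.ne']; simp
    · rw [mul_assoc, ← Real.rpow_add_one h0.ne']; simp
  rw [intervalIntegral.integral_congr h, intervalIntegral.integral_const_mul,
    integral_rpow (Or.inl (by linarith))]
  simp only [Real.one_rpow]
  rw [Real.zero_rpow (by linarith)]
  ring

theorem integral_kernel2 {m : ℝ} (hm : 0 < m) :
    ∫ s in (0 : ℝ)..1, m * s ^ (m - 1) * s ^ 2 = m / (m + 2) := by
  have h : ∀ s ∈ [[(0 : ℝ), 1]], m * s ^ (m - 1) * s ^ 2 = m * s ^ (m + 1) := by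
    intro s hs
    rw [uIcc_of_le (by norm_num)] at hs
    rcases eq_or_lt_of_le hs.1 with h0 | h0
    · rw [← h0, Real.zero_rpow (by linarith : m + 1 ≠ 0)]; simp
    · rw [mul_assoc, ← Real.rpow_natCast s 2, ← Real.rpow_add h0]
      norm_num
      left; congr 1; ring
  rw [intervalIntegral.integral_congr h, intervalIntegral.integral_const_mul,
    integral_rpow (Or.inl (by linarith))]
  simp only [Real.one_rpow]
  rw [Real.zero_rpow (by linarith)]
  ring

theorem H_pos (hn : 3 ≤ n) {r : ℝ} (hr : 0 ≤ r) : 0 < HA n r := by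
  rw [HA_eq]
  apply intervalIntegral.intervalIntegral_pos_of_pos_on (intervalIntegrable_H hn hr zero_le_one)
  · intro s hs
    have hs0 : 0 < s := hs.1
    have := mA_pos' hn
    have h2 : 0 < psi n (s * r) := psi_pos (by positivity)
    positivity
  · norm_num

theorem H_anti (hn : 3 ≤ n) : AntitoneOn (HA n) (Ici 0) := by
  intro r hr s hs hrs
  have hr' : (0 : ℝ) ≤ r := hr
  rw [HA_eq, HA_eq]
  apply intervalIntegral.integral_mono_on zero_le_one (intervalIntegrable_H hn hs zero_le_one)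
    (intervalIntegrable_H hn hr zero_le_one)
  intro t ht
  have h0 : 0 ≤ t := ht.1
  apply mul_le_mul_of_nonneg_left _ (kernel_nonneg (mA_pos' hn) h0)
  apply psi_anti (by positivity)
  gcongr

theorem one_sub_H (hn : 3 ≤ n) {r : ℝ} (hr : 0 ≤ r) :
    1 - HA n r = ∫ s in (0 : ℝ)..1, mA n * s ^ (mA n - 1) * (1 - psi n (s * r)) := by
  calc 1 - HA n r = (∫ s in (0 : ℝ)..1, mA n * s ^ (mA n - 1)) -
        ∫ s in (0 : ℝ)..1, mA n * s ^ (mA n - 1) * psi n (s * r) := by
        rw [integral_kernel (mA_pos' hn), HA_eq]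
    _ = _ := by
        rw [← intervalIntegral.integral_sub (intervalIntegrable_kernel (mA_pos' hn) 1)
          (intervalIntegrable_H hn hr zero_le_one)]
        congr 1
        ext s
        ring

theorem intervalIntegrable_one_sub (hn : 3 ≤ n) {r : ℝ} (hr : 0 ≤ r) :
    IntervalIntegrable (fun s : ℝ => mA n * s ^ (mA n - 1) * (1 - psi n (s * r))) volume 0 1 := by
  have := (intervalIntegrable_kernel (mA_pos' hn) 1).sub (intervalIntegrable_H hn hr zero_le_one)
  exact this.congr (fun s _ => by ring)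

theorem H_le_one (hn : 3 ≤ n) {r : ℝ} (hr : 0 ≤ r) : HA n r ≤ 1 := by
  have : 0 ≤ 1 - HA n r := by
    rw [one_sub_H hn hr]
    apply intervalIntegral.integral_nonneg zero_le_one
    intro t ht
    have h0 : 0 ≤ t := ht.1
    apply mul_nonneg (kernel_nonneg (mA_pos' hn) h0)
    have := psi_le_one (n := n) (x := t * r) (by positivity)
    linarith
  linarith

theorem intervalIntegrable_kernel_mul {m : ℝ} (hm : 0 < m) {f : ℝ → ℝ} (hf : Continuous f) :
    IntervalIntegrable (fun s : ℝ => m * s ^ (m - 1) * f s) volume 0 1 :=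
  (intervalIntegrable_kernel hm 1).mul_continuousOn hf.continuousOn

theorem one_sub_H_le (hn : 3 ≤ n) {r : ℝ} (hr : 0 ≤ r) : 1 - HA n r ≤ 2 * mA n * r := by
  have hm := mA_pos' hn
  rw [one_sub_H hn hr]
  calc ∫ s in (0 : ℝ)..1, mA n * s ^ (mA n - 1) * (1 - psi n (s * r))
      ≤ ∫ s in (0 : ℝ)..1, (n * r) * (mA n * s ^ (mA n - 1) * s) := by
        apply intervalIntegral.integral_mono_on zero_le_one (intervalIntegrable_one_sub hn hr)
        · exact (intervalIntegrable_kernel_mul hm continuous_id).const_mul _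
        · intro t ht
          have h0 : 0 ≤ t := ht.1
          have h1 := one_sub_psi_le (n := n) (x := t * r) (by positivity)
          have h2 := kernel_nonneg hm h0
          calc mA n * t ^ (mA n - 1) * (1 - psi n (t * r))
              ≤ mA n * t ^ (mA n - 1) * (n * (t * r)) := by gcongr
            _ = _ := by ring
    _ = 2 * mA n * r := by
        rw [intervalIntegral.integral_const_mul, integral_kernel1 hm, n_eq']
        field_simp

theorem one_sub_H_ge (hn : 3 ≤ n) {r : ℝ} (hr : 0 ≤ r) :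
    2 * mA n * r - ((n : ℝ) ^ 2 * mA n / (mA n + 2)) * r ^ 2 ≤ 1 - HA n r := by
  have hm := mA_pos' hn
  rw [one_sub_H hn hr]
  calc 2 * mA n * r - ((n : ℝ) ^ 2 * mA n / (mA n + 2)) * r ^ 2
      = (∫ s in (0 : ℝ)..1, (n * r) * (mA n * s ^ (mA n - 1) * s)) -
        ∫ s in (0 : ℝ)..1, ((n : ℝ) ^ 2 * r ^ 2) * (mA n * s ^ (mA n - 1) * s ^ 2) := by
        rw [intervalIntegral.integral_const_mul, integral_kernel1 hm,
          intervalIntegral.integral_const_mul, integral_kernel2 hm]
        have : (n : ℝ) * r * (mA n / (mA n + 1)) = 2 * mA n * r := by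
          rw [n_eq']; field_simp
        rw [this]; ring
    _ = ∫ s in (0 : ℝ)..1, ((n * r) * (mA n * s ^ (mA n - 1) * s) -
          ((n : ℝ) ^ 2 * r ^ 2) * (mA n * s ^ (mA n - 1) * s ^ 2)) := by
        rw [intervalIntegral.integral_sub]
        · exact (intervalIntegrable_kernel_mul hm continuous_id).const_mul _
        · exact (intervalIntegrable_kernel_mul hm (continuous_pow 2)).const_mul _
    _ ≤ _ := by
        apply intervalIntegral.integral_mono_on zero_le_one _ (intervalIntegrable_one_sub hn hr)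
        · intro t ht
          have h0 : 0 ≤ t := ht.1
          have h1 := one_sub_psi_ge (n := n) (x := t * r) (by positivity)
          have h2 := kernel_nonneg hm h0
          calc _ = mA n * t ^ (mA n - 1) * (n * (t * r) - (n : ℝ) ^ 2 * (t * r) ^ 2) := by ring
            _ ≤ _ := by gcongr
        · exact ((intervalIntegrable_kernel_mul hm continuous_id).const_mul _).sub
            ((intervalIntegrable_kernel_mul hm (continuous_pow 2)).const_mul _)

theorem H_slope (hn : 3 ≤ n) {r s : ℝ} (hr : 0 < r) (hrs : r ≤ s) :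
    (1 - HA n s) / s ≤ (1 - HA n r) / r := by
  have hm := mA_pos' hn
  have hs : 0 < s := by linarith
  rw [one_sub_H hn hr.le, one_sub_H hn hs.le, ← intervalIntegral.integral_div,
    ← intervalIntegral.integral_div]
  apply intervalIntegral.integral_mono_on_of_le_Ioo zero_le_one
  · exact (intervalIntegrable_one_sub hn hs.le).div_const _
  · exact (intervalIntegrable_one_sub hn hr.le).div_const _
  · intro t ht
    have h0 : 0 < t := ht.1
    have h2 := kernel_nonneg hm h0.le
    have h3 := slope_psi_anti (n := n) (x := t * r) (y := t * s) (by positivity) (by gcongr)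
    calc mA n * t ^ (mA n - 1) * (1 - psi n (t * s)) / s
        = mA n * t ^ (mA n - 1) * t * ((1 - psi n (t * s)) / (t * s)) := by
          field_simp
      _ ≤ mA n * t ^ (mA n - 1) * t * ((1 - psi n (t * r)) / (t * r)) := by gcongr
      _ = _ := by field_simp

theorem H_cont (hn : 3 ≤ n) : ContinuousOn (HA n) (Ici 0) := by
  have hm := mA_pos' hn
  intro r hr
  have hr' : (0 : ℝ) ≤ r := hr
  apply intervalIntegral.continuousWithinAt_of_dominated_interval
    (bound := fun s => mA n * s ^ (mA n - 1))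
  · filter_upwards [self_mem_nhdsWithin] with r' hr'
    exact (intervalIntegrable_H hn hr' zero_le_one).def'.aestronglyMeasurable
  · filter_upwards [self_mem_nhdsWithin] with r' hr'
    filter_upwards with t ht
    rw [uIoc_of_le zero_le_one] at ht
    have h0 : 0 < t := ht.1
    have h1 : (0 : ℝ) ≤ r' := hr'
    have h2 := kernel_nonneg hm h0.le
    have h3 := psi_pos (n := n) (x := t * r') (by positivity)
    have h4 := psi_le_one (n := n) (x := t * r') (by positivity)
    change ‖mA n * t ^ (mA n - 1) * psi n (t * r')‖ ≤ _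
    rw [Real.norm_of_nonneg (by positivity)]
    nlinarith
  · exact intervalIntegrable_kernel hm 1
  · filter_upwards with t ht
    rw [uIoc_of_le zero_le_one] at ht
    have h0 : 0 < t := ht.1
    apply ContinuousAt.continuousWithinAt
    apply ContinuousAt.mul continuousAt_const
    apply ContinuousAt.rpow_const (by fun_prop)
    left
    positivity

theorem g_eq (_hn : 3 ≤ n) {r : ℝ} (hr : 0 < r) : gA n r = r ^ mA n * HA n r := by
  have h := intervalIntegral.integral_comp_mul_left (a := 0) (b := 1)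
    (fun s : ℝ => mA n * s ^ (mA n - 1) * psi n (s * 1)) hr.ne'
  simp only [mul_zero, mul_one, smul_eq_mul] at h
  have h1 : gA n r = r * ∫ x in (0 : ℝ)..1, mA n * (r * x) ^ (mA n - 1) * psi n (r * x) := by
    rw [h, gA_eq]
    field_simp
  rw [h1, HA_eq, ← intervalIntegral.integral_const_mul, ← intervalIntegral.integral_const_mul]
  apply intervalIntegral.integral_congr
  intro s hs
  rw [uIcc_of_le zero_le_one] at hs
  simp only
  rw [Real.mul_rpow hr.le hs.1, mul_comm s r]
  have : r ^ mA n = r * r ^ (mA n - 1) := by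
    rw [mul_comm, ← Real.rpow_add_one hr.ne']; simp
  rw [this]; ring

/-! ### monotonicity and tail of `g` -/

theorem g_integrand_nonneg (hn : 3 ≤ n) {s : ℝ} (hs : 0 ≤ s) :
    0 ≤ mA n * s ^ (mA n - 1) * psi n (s * 1) :=
  mul_nonneg (kernel_nonneg (mA_pos' hn) hs) (psi_pos (by linarith)).le

theorem g_integrand_le (hn : 3 ≤ n) {s : ℝ} (hs : 0 < s) :
    mA n * s ^ (mA n - 1) * psi n (s * 1) ≤ mA n * s ^ (-(mA n) - 3) := by
  have hm := mA_pos' hn
  have h1 : psi n (s * 1) ≤ s ^ (-(n : ℝ)) := by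
    unfold psi
    apply Real.rpow_le_rpow_of_nonpos hs (by linarith)
    have : (0 : ℝ) ≤ n := Nat.cast_nonneg n
    linarith
  calc mA n * s ^ (mA n - 1) * psi n (s * 1) ≤ mA n * s ^ (mA n - 1) * s ^ (-(n : ℝ)) := by
        gcongr
    _ = mA n * s ^ (-(mA n) - 3) := by
        rw [mul_assoc, ← Real.rpow_add hs, n_eq']
        congr 2; ring

theorem g_integrableOn_tail (hn : 3 ≤ n) {r : ℝ} (hr : 0 < r) :
    IntegrableOn (fun s : ℝ => mA n * s ^ (mA n - 1) * psi n (s * 1)) (Ioi r) := by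
  have hm := mA_pos' hn
  have h := (integrableOn_Ioi_rpow_of_lt (a := -(mA n) - 3) (by linarith) hr).const_mul (mA n)
  refine Integrable.mono' h ?_ ?_
  · apply ContinuousOn.aestronglyMeasurable _ measurableSet_Ioi
    apply ContinuousOn.mul
    · apply ContinuousOn.mul continuousOn_const
      apply ContinuousOn.rpow_const continuousOn_id
      intro x hx
      left
      exact (lt_trans hr hx).ne'
    · apply (continuous_psi_comp zero_le_one).mono
      intro x hx
      exact (lt_trans hr hx).le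
  · rw [ae_restrict_iff' measurableSet_Ioi]
    filter_upwards with x hx
    have hx0 : 0 < x := lt_trans hr hx
    rw [Real.norm_of_nonneg (g_integrand_nonneg hn hx0.le)]
    exact g_integrand_le hn hx0

theorem g_integrableOn (hn : 3 ≤ n) :
    IntegrableOn (fun s : ℝ => mA n * s ^ (mA n - 1) * psi n (s * 1)) (Ioi 0) := by
  rw [← Ioc_union_Ioi_eq_Ioi (zero_le_one' ℝ)]
  apply IntegrableOn.union
  · have := (intervalIntegrable_H (r := 1) hn zero_le_one zero_le_one)
    rwa [intervalIntegrable_iff_integrableOn_Ioc_of_le zero_le_one] at this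
  · exact g_integrableOn_tail hn zero_lt_one

theorem Cn_sub_g (hn : 3 ≤ n) {r : ℝ} (hr : 0 ≤ r) :
    CnA n - gA n r = ∫ s in Ioi r, mA n * s ^ (mA n - 1) * psi n (s * 1) := by
  have h := setIntegral_union (μ := volume)
    (f := fun s : ℝ => mA n * s ^ (mA n - 1) * psi n (s * 1))
    (s := Ioc 0 r) (t := Ioi r) (Ioc_disjoint_Ioi (le_refl r)) measurableSet_Ioi
    ((g_integrableOn hn).mono_set Ioc_subset_Ioi_self)
    ((g_integrableOn hn).mono_set (Ioi_subset_Ioi hr))
  rw [Ioc_union_Ioi_eq_Ioi hr] at h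
  rw [CnA_eq, h, gA_eq, intervalIntegral.integral_of_le hr]
  ring

theorem g_mono (hn : 3 ≤ n) : MonotoneOn (gA n) (Ici 0) := by
  intro r hr s hs hrs
  have hr' : (0 : ℝ) ≤ r := hr
  have hs' : (0 : ℝ) ≤ s := hs
  have h1 := Cn_sub_g hn hr'
  have h2 := Cn_sub_g hn hs'
  have h3 : ∫ x in Ioi s, mA n * x ^ (mA n - 1) * psi n (x * 1) ≤
      ∫ x in Ioi r, mA n * x ^ (mA n - 1) * psi n (x * 1) := by
    apply setIntegral_mono_set ((g_integrableOn hn).mono_set (Ioi_subset_Ioi hr'))
    · rw [EventuallyLE, ae_restrict_iff' measurableSet_Ioi]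
      filter_upwards with x hx
      exact g_integrand_nonneg hn (le_trans hr' (le_of_lt hx))
    · exact (Ioi_subset_Ioi hrs).eventuallyLE
  linarith

theorem g_le (hn : 3 ≤ n) {r : ℝ} (hr : 0 ≤ r) : gA n r ≤ CnA n := by
  have h1 := Cn_sub_g hn hr
  have h3 : 0 ≤ ∫ x in Ioi r, mA n * x ^ (mA n - 1) * psi n (x * 1) := by
    apply setIntegral_nonneg measurableSet_Ioi
    intro x hx
    exact g_integrand_nonneg hn (le_trans hr (le_of_lt hx))
  linarith

theorem g_tail (hn : 3 ≤ n) {r : ℝ} (hr : 0 < r) :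
    CnA n - gA n r ≤ mA n / (mA n + 2) * r ^ (-(mA n) - 2) := by
  have hm := mA_pos' hn
  rw [Cn_sub_g hn hr.le]
  calc ∫ s in Ioi r, mA n * s ^ (mA n - 1) * psi n (s * 1)
      ≤ ∫ s in Ioi r, mA n * s ^ (-(mA n) - 3) := by
        apply setIntegral_mono_on (g_integrableOn_tail hn hr)
          ((integrableOn_Ioi_rpow_of_lt (by linarith) hr).const_mul _) measurableSet_Ioi
        intro x hx
        exact g_integrand_le hn (lt_trans hr hx)
    _ = mA n / (mA n + 2) * r ^ (-(mA n) - 2) := by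
        rw [integral_const_mul, integral_Ioi_rpow_of_lt (by linarith) hr]
        rw [show -(mA n) - 3 + 1 = -(mA n) - 2 by ring]
        have : (-(mA n) - 2) ≠ 0 := by linarith
        have : (mA n + 2) ≠ 0 := by linarith
        field_simp
        ring

theorem Cn_pos (hn : 3 ≤ n) : 0 < CnA n := by
  have h1 := g_le hn (zero_le_one' ℝ)
  have h2 := g_eq hn one_pos
  have h3 := H_pos hn (zero_le_one' ℝ)
  rw [Real.one_rpow, one_mul] at h2
  linarith

/-! ### the constant -/

theorem integral_beta {α β : ℝ} (hα : 0 < α) (hβ : 0 < β) :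
    ∫ x in Ioo (0 : ℝ) 1, x ^ (α - 1) * (1 - x) ^ (β - 1) =
      Real.Gamma α * Real.Gamma β / Real.Gamma (α + β) := by
  have h0 := ProbabilityTheory.beta_eq_betaIntegralReal α β hα hβ
  unfold ProbabilityTheory.beta at h0
  rw [h0, Complex.betaIntegral, intervalIntegral.integral_of_le (by norm_num),
    ← integral_Ioc_eq_integral_Ioo, ← RCLike.re_to_complex, ← integral_re]
  · refine setIntegral_congr_fun measurableSet_Ioc fun x ⟨hx1, hx₂⟩ ↦ ?_
    norm_cast
    rw [← Complex.ofReal_cpow, ← Complex.ofReal_cpow, RCLike.re_to_complex,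
      Complex.re_mul_ofReal, Complex.ofReal_re]
    all_goals linarith
  convert! Complex.betaIntegral_convergent (u := α) (v := β) (by simpa) (by simpa)
  rw [intervalIntegrable_iff_integrableOn_Ioc_of_le (by simp), IntegrableOn]

/-- `∫₀^∞ s^{α-1} (1+s)^{-(α+β)} ds = B(α, β)`. -/
theorem integral_beta' {α β : ℝ} (hα : 0 < α) (hβ : 0 < β) :
    ∫ s in Ioi (0 : ℝ), s ^ (α - 1) * (1 + s) ^ (-(α + β)) =
      Real.Gamma α * Real.Gamma β / Real.Gamma (α + β) := by
  rw [← integral_beta hα hβ]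
  have himg : (fun s : ℝ => s / (1 + s)) '' Ioi 0 = Ioo 0 1 := by
    ext x
    simp only [mem_image, mem_Ioi, mem_Ioo]
    constructor
    · rintro ⟨s, hs, rfl⟩
      refine ⟨by positivity, ?_⟩
      rw [div_lt_one (by linarith)]; linarith
    · rintro ⟨h0, h1⟩
      refine ⟨x / (1 - x), div_pos h0 (by linarith), ?_⟩
      have : 1 - x ≠ 0 := by linarith
      field_simp
      ring
  rw [← himg, integral_image_eq_integral_abs_deriv_smul measurableSet_Ioi
    (f' := fun s => 1 / (1 + s) ^ 2)]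
  · apply setIntegral_congr_fun measurableSet_Ioi
    intro s hs
    have hs0 : 0 < s := hs
    have h1 : 0 < 1 + s := by linarith
    simp only [smul_eq_mul]
    rw [abs_of_pos (by positivity)]
    have h2 : 1 - s / (1 + s) = (1 + s)⁻¹ := by field_simp; ring
    have h3 : (1 : ℝ) / (1 + s) ^ 2 = (1 + s) ^ (-(2 : ℝ)) := by
      rw [Real.rpow_neg h1.le]; norm_num
    rw [h3, h2, Real.div_rpow hs0.le h1.le, Real.inv_rpow h1.le, ← Real.rpow_neg h1.le,
      div_eq_mul_inv (s ^ (α - 1)), ← Real.rpow_neg h1.le (α - 1)]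
    have h4 : (1 + s) ^ (-(α + β)) = (1 + s) ^ (-(2 : ℝ)) * (1 + s) ^ (-(α - 1)) *
        (1 + s) ^ (-(β - 1)) := by
      rw [← Real.rpow_add h1, ← Real.rpow_add h1]
      congr 1; ring
    rw [h4]; ring
  · intro s hs
    have hs0 : 0 < s := hs
    have h1 : 1 + s ≠ 0 := by linarith
    apply HasDerivAt.hasDerivWithinAt
    have h := (hasDerivAt_id s).div ((hasDerivAt_id s).const_add 1) h1
    refine h.congr_deriv ?_
    simp only [id]
    field_simp
    ring
  · intro s hs t ht hst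
    have hs0 : 0 < s := hs
    have ht0 : 0 < t := ht
    simp only at hst
    rw [div_eq_div_iff (by linarith) (by linarith)] at hst
    linarith

theorem Cn_val (hn : 3 ≤ n) :
    CnA n = Real.Gamma ((n : ℝ) / 2) * Real.Gamma ((n : ℝ) / 2 + 1) / Real.Gamma n := by
  have hm := mA_pos' hn
  have h := integral_beta' (α := mA n) (β := mA n + 2) hm (by linarith)
  have e1 : mA n + (mA n + 2) = n := by rw [n_eq']; ring
  rw [e1] at h
  have e2 : mA n + 2 = (n : ℝ) / 2 + 1 := by unfold mA; ring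
  have e3 : mA n + 1 = (n : ℝ) / 2 := by unfold mA; ring
  unfold CnA
  have : ∀ s : ℝ, mA n * s ^ (mA n - 1) * (1 + s) ^ (-(n : ℝ)) =
      mA n * (s ^ (mA n - 1) * (1 + s) ^ (-(n : ℝ))) := fun s => by ring
  simp_rw [this]
  rw [integral_const_mul, h, ← e3, Real.Gamma_add_one hm.ne', e3, e2]
  ring

theorem omegaBall_eq (n : ℕ) (hn : 1 ≤ n) :
    omegaBall n = √Real.pi ^ n / Real.Gamma ((n : ℝ) / 2 + 1) := by
  unfold omegaBall
  have : Nonempty (Fin n) := ⟨⟨0, hn⟩⟩
  rw [EuclideanSpace.volume_ball]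
  simp only [Fintype.card_fin, ENNReal.ofReal_one, one_pow, one_mul]
  apply ENNReal.toReal_ofReal
  have : 0 < Real.Gamma ((n : ℝ) / 2 + 1) := Real.Gamma_pos_of_pos (by positivity)
  positivity

theorem const (hn : 3 ≤ n) : 2 ^ n * omegaBall n * CnA n = sphArea n := by
  have h1 := omegaBall_eq n (by omega)
  have h2 := omegaBall_eq (n + 1) (by omega)
  have hnpos : (0 : ℝ) < n := by positivity
  unfold sphArea
  rw [h1, h2, Cn_val hn]
  have hG1 : 0 < Real.Gamma ((n : ℝ) / 2 + 1) := Real.Gamma_pos_of_pos (by positivity)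
  have hG2 : 0 < Real.Gamma (n : ℝ) := Real.Gamma_pos_of_pos hnpos
  have hG3 : 0 < Real.Gamma ((n : ℝ) / 2 + 1 / 2) := Real.Gamma_pos_of_pos (by positivity)
  have hdup := Real.Gamma_mul_Gamma_add_half ((n : ℝ) / 2)
  have e1 : 2 * ((n : ℝ) / 2) = n := by ring
  rw [e1] at hdup
  have e2 : (((n + 1 : ℕ) : ℝ)) / 2 + 1 = ((n : ℝ) / 2 + 1 / 2) + 1 := by push_cast; ring
  rw [e2, Real.Gamma_add_one (s := (n : ℝ) / 2 + 1 / 2) (by positivity)]
  have h3 : Real.Gamma ((n : ℝ) / 2) =
      Real.Gamma n * 2 ^ (1 - (n : ℝ)) * √Real.pi / Real.Gamma ((n : ℝ) / 2 + 1 / 2) := by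
    rw [eq_div_iff hG3.ne', hdup]
  rw [h3]
  have h4 : (2 : ℝ) ^ (1 - (n : ℝ)) = 2 / 2 ^ n := by
    rw [Real.rpow_sub two_pos, Real.rpow_one, Real.rpow_natCast]
  rw [h4]
  have h5 : √Real.pi ^ (n + 1) = √Real.pi ^ n * √Real.pi := pow_succ _ _
  rw [h5]
  have : (n : ℝ) / 2 + 1 / 2 ≠ 0 := by positivity
  field_simp
  try ring

theorem t_H (hn : 3 ≤ n) : T_H n where
  cont := H_cont hn
  pos := fun _ hr => H_pos hn hr
  anti := H_anti hn
  le_one := fun _ hr => H_le_one hn hr
  one_sub_le := fun _ hr => one_sub_H_le hn hr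
  one_sub_ge := by
    have hm := mA_pos' hn
    have hnpos : (0 : ℝ) < n := by positivity
    exact ⟨(n : ℝ) ^ 2 * mA n / (mA n + 2), by positivity, fun r hr => one_sub_H_ge hn hr⟩
  slope_anti := fun _ _ hr hrs => H_slope hn hr hrs
  g_eq := fun _ hr => g_eq hn hr
  g_mono := g_mono hn
  g_le := fun _ hr => g_le hn hr
  g_tail := fun _ hr => g_tail hn hr
  Cn_pos := Cn_pos hn
  const := const hn

end

end Crest.Agent.R241.A4H
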