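import Crest.Agent.R241.ATargets

/-!
R241, block A, T_ode: the ODE comparison.
-/

set_option autoImplicit false

namespace Crest.Agent.R241.A4Ode

open MeasureTheory Set Filter Topology Crest.Agent.R241.A
open scoped NNReal ENNReal

lemma intInt {m : ℝ} (hm : 0 < m) {N : ℝ → ℝ} (hN : Continuous N) (a b : ℝ) :
    IntervalIntegrable (fun s => m * s ^ (m - 1) * N s) volume a b :=
  ((intervalIntegral.intervalIntegrable_rpow' (by linarith : -1 < m - 1)).const_mul m
    ).mul_continuousOn hN.continuousOn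

lemma W_pos {m : ℝ} (hm : 0 < m) {N : ℝ → ℝ} (hN : Continuous N)
    (hpos : ∀ s, 0 ≤ s → 0 < N s) {t : ℝ} (ht : 0 < t) :
    0 < ∫ s in (0 : ℝ)..t, m * s ^ (m - 1) * N s := by
  apply intervalIntegral.intervalIntegral_pos_of_pos_on (intInt hm hN 0 t) _ ht
  intro x hx
  have h1 : 0 < x ^ (m - 1) := Real.rpow_pos_of_pos hx.1 _
  have h2 := hpos x hx.1.le
  positivity

lemma W_deriv {m : ℝ} (hm : 0 < m) {N : ℝ → ℝ} (hN : Continuous N) {t : ℝ} (ht : 0 < t) :
    HasDerivAt (fun t => ∫ s in (0 : ℝ)..t, m * s ^ (m - 1) * N s) (m * t ^ (m - 1) * N t) t := by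
  have hcont : ContinuousOn (fun s : ℝ => m * s ^ (m - 1) * N s) (Ioi 0) := by
    intro s hs
    have hs0 : s ≠ 0 := ne_of_gt hs
    exact ((continuousAt_const.mul
      (Real.continuousAt_rpow_const s (m - 1) (Or.inl hs0))).mul
        hN.continuousAt).continuousWithinAt
  apply intervalIntegral.integral_hasDerivAt_right (intInt hm hN 0 t)
  · exact hcont.stronglyMeasurableAtFilter isOpen_Ioi t ht
  · exact hcont.continuousAt (Ioi_mem_nhds ht)

theorem t_ode : T_ode := by
  intro m q e t0 T N hm hq he ht0 htT hN hpos hyp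
  set W : ℝ → ℝ := fun t => ∫ s in (0 : ℝ)..t, m * s ^ (m - 1) * N s with hW
  have hWpos : ∀ t, 0 < t → 0 < W t := fun t ht => W_pos hm hN hpos ht
  have hT : 0 < T := ht0.trans_le htT
  set c : ℝ := e * T ^ m with hc
  have hc0 : 0 ≤ c := mul_nonneg he (Real.rpow_nonneg hT.le _)
  have hWt : ∀ t, 0 < t → 0 < W t + c := fun t ht => by have := hWpos t ht; linarith
  set p : ℝ := (q - 2) / 2 with hp
  have hp0 : 0 < p := by rw [hp]; linarith
  have hq2 : q / 2 = p + 1 := by rw [hp]; ring
  -- key pointwise bound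
  have hkey : ∀ t ∈ Icc t0 T, N t ≤ (t ^ (-m) * (W t + c)) ^ (q / 2) := by
    intro t ht
    have htp : 0 < t := ht0.trans_le ht.1
    have h1 : N t ^ (2 / q) ≤ t ^ (-m) * (W t + c) := by
      refine (hyp t ht).trans ?_
      rw [mul_add]
      have : e ≤ t ^ (-m) * c := by
        rw [hc]
        have h2 : t ^ (-m) * t ^ m = 1 := by
          rw [← Real.rpow_add htp]; simp
        have h3 : t ^ m ≤ T ^ m := Real.rpow_le_rpow htp.le ht.2 hm.le
        have h4 : 0 < t ^ (-m) := Real.rpow_pos_of_pos htp _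
        calc e = e * (t ^ (-m) * t ^ m) := by rw [h2, mul_one]
          _ ≤ e * (t ^ (-m) * T ^ m) := by gcongr
          _ = _ := by ring
      linarith
    have hNt := hpos t htp.le
    have h2 : N t = (N t ^ (2 / q)) ^ (q / 2) := by
      rw [← Real.rpow_mul hNt.le]
      have : 2 / q * (q / 2) = 1 := by field_simp
      rw [this, Real.rpow_one]
    rw [h2]
    exact Real.rpow_le_rpow (Real.rpow_nonneg hNt.le _) h1 (by linarith)
  have hmono : MonotoneOn (fun t => (W t + c) ^ (-p) - t ^ (-(m * p))) (Icc t0 T) := by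
    have hder : ∀ t, 0 < t → HasDerivAt (fun t => (W t + c) ^ (-p) - t ^ (-(m * p)))
        ((m * t ^ (m - 1) * N t) * (-p) * (W t + c) ^ (-p - 1)
          - (-(m * p)) * t ^ (-(m * p) - 1)) t := by
      intro t ht
      have h1 := ((W_deriv hm hN ht).add_const c).rpow_const (p := -p)
        (Or.inl (hWt t ht).ne')
      have h2 := Real.hasDerivAt_rpow_const (x := t) (p := -(m * p)) (Or.inl ht.ne')
      exact h1.sub h2
    apply monotoneOn_of_deriv_nonneg (convex_Icc _ _)
    · intro t ht
      exact (hder t (ht0.trans_le ht.1)).continuousAt.continuousWithinAt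
    · intro t ht
      have ht' := interior_subset ht
      exact (hder t (ht0.trans_le ht'.1)).differentiableAt.differentiableWithinAt
    · intro t ht
      have ht' := interior_subset ht
      have htp : 0 < t := ht0.trans_le ht'.1
      rw [(hder t htp).deriv]
      have h1 := hkey t ht'
      have hA : 0 < W t + c := hWt t htp
      have h2 : (t ^ (-m) * (W t + c)) ^ (q / 2) * (W t + c) ^ (-p - 1)
          = t ^ (-(m * (p + 1))) := by
        rw [Real.mul_rpow (Real.rpow_nonneg htp.le _) hA.le, hq2, mul_assoc,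
          ← Real.rpow_add hA, ← Real.rpow_mul htp.le]
        have : p + 1 + (-p - 1) = 0 := by ring
        rw [this, Real.rpow_zero, mul_one]
        congr 1; ring
      have h3 : t ^ (m - 1) * t ^ (-(m * (p + 1))) = t ^ (-(m * p) - 1) := by
        rw [← Real.rpow_add htp]; congr 1; ring
      have h4 : N t * (W t + c) ^ (-p - 1) ≤ t ^ (-(m * (p + 1))) := by
        rw [← h2]
        exact mul_le_mul_of_nonneg_right h1 (Real.rpow_nonneg hA.le _)
      have h5 : t ^ (m - 1) * (N t * (W t + c) ^ (-p - 1)) ≤ t ^ (-(m * p) - 1) := by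
        rw [← h3]
        exact mul_le_mul_of_nonneg_left h4 (Real.rpow_nonneg htp.le _)
      have h6 : (m * t ^ (m - 1) * N t) * (-p) * (W t + c) ^ (-p - 1)
          - (-(m * p)) * t ^ (-(m * p) - 1)
          = m * p * (t ^ (-(m * p) - 1) - t ^ (m - 1) * (N t * (W t + c) ^ (-p - 1))) := by
        ring
      rw [h6]
      have : 0 ≤ t ^ (-(m * p) - 1) - t ^ (m - 1) * (N t * (W t + c) ^ (-p - 1)) := by linarith
      positivity
  have h1 := hmono (left_mem_Icc.2 htT) (right_mem_Icc.2 htT) htT
  simp only at h1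
  have h2 : (W T + c) ^ (-p) ≤ W T ^ (-p) :=
    Real.rpow_le_rpow_of_nonpos (hWpos T hT) (by linarith) (by linarith)
  have h3 : 0 ≤ T ^ (-(m * p)) := Real.rpow_nonneg hT.le _
  have h4 : m * (q - 2) / 2 = m * p := by rw [hp]; ring
  rw [h4]
  linarith

end Crest.Agent.R241.A4Ode
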