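import Crest.Agent.R241.ATargets

/-!
R241, block A5: the centre inequality (`T_centre`), the two point bound (`T_two`), and
`CATk => CatD` in elementary form.
-/

set_option autoImplicit false
set_option linter.unusedSectionVars false

namespace Crest.Agent.R241.A5

open MeasureTheory Set Filter Topology
open Crest.Agent.R241.A
open scoped NNReal ENNReal RealInnerProductSpace

/-! ### Elementary facts on `zk` -/

/-- `sh_k(r) = sinh(k r / 2)/k` (`r/2` for `k = 0`). -/
noncomputable def sh (k r : ℝ) : ℝ := if k = 0 then r / 2 else Real.sinh (k * r / 2) / k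

/-- `ch_k(r) = cosh(k r / 2)`. -/
noncomputable def ch (k r : ℝ) : ℝ := Real.cosh (k * r / 2)

theorem zk_eq (k r : ℝ) : zk k r = 2 * sh k r ^ 2 := by
  unfold zk sh
  split_ifs with h
  · ring
  · have h2 : Real.cosh (k * r) = 1 + 2 * Real.sinh (k * r / 2) ^ 2 := by
      have := Real.cosh_two_mul (k * r / 2)
      rw [show 2 * (k * r / 2) = k * r by ring] at this
      rw [this, Real.cosh_sq (k * r / 2)]; ring
    rw [h2]; field_simp; ring

theorem ch_sq (k r : ℝ) : ch k r ^ 2 = 1 + k ^ 2 * sh k r ^ 2 := by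
  unfold ch sh
  split_ifs with h
  · subst h; simp
  · rw [Real.cosh_sq]; field_simp; ring

theorem sh_add (k r s : ℝ) : sh k (r + s) = sh k r * ch k s + ch k r * sh k s := by
  unfold ch sh
  split_ifs with h
  · subst h; simp; ring
  · rw [show k * (r + s) / 2 = k * r / 2 + k * s / 2 by ring, Real.sinh_add]; field_simp

theorem sh_nonneg {k r : ℝ} (hk : 0 ≤ k) (hr : 0 ≤ r) : 0 ≤ sh k r := by
  unfold sh
  split_ifs with h
  · positivity
  · apply div_nonneg _ hk
    exact Real.sinh_nonneg_iff.2 (by positivity)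

theorem ch_pos (k r : ℝ) : 0 < ch k r := Real.cosh_pos _

theorem sh_mono {k r s : ℝ} (hk : 0 ≤ k) (hrs : r ≤ s) : sh k r ≤ sh k s := by
  unfold sh
  split_ifs with h
  · linarith
  · have hk' : 0 < k := lt_of_le_of_ne hk (Ne.symm h)
    apply div_le_div_of_nonneg_right _ hk
    apply Real.sinh_le_sinh.2
    have : k * r ≤ k * s := mul_le_mul_of_nonneg_left hrs hk
    linarith

theorem zk_nonneg (k r : ℝ) : 0 ≤ zk k r := by rw [zk_eq]; positivity

theorem zk_mono {k r s : ℝ} (hk : 0 ≤ k) (hr : 0 ≤ r) (hrs : r ≤ s) : zk k r ≤ zk k s := by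
  rw [zk_eq, zk_eq]
  have h1 := sh_nonneg hk hr
  have h2 := sh_mono hk hrs
  nlinarith

theorem continuous_zk (k : ℝ) : Continuous (zk k) := by
  unfold zk
  split_ifs with h
  · fun_prop
  · have : Continuous fun r : ℝ => Real.cosh (k * r) := Real.continuous_cosh.comp (by fun_prop)
    fun_prop

/-! ### CAT(-k²) in the derivative form -/

theorem one_add_zk {k : ℝ} (hk : k ≠ 0) (r : ℝ) : Real.cosh (k * r) = 1 + k ^ 2 * zk k r := by
  unfold zk; rw [if_neg hk]; field_simp; ring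

section
variable {K : Type*} [MetricSpace K]

theorem zd_nonneg (k : ℝ) (x y : K) : 0 ≤ zd k x y := zk_nonneg _ _

theorem zd_comm (k : ℝ) (x y : K) : zd k x y = zd k y x := by unfold zd; rw [dist_comm]

theorem continuous_zd (k : ℝ) : Continuous fun p : K × K => zd k p.1 p.2 :=
  (continuous_zk k).comp continuous_dist

theorem continuous_zd_right (k : ℝ) (x : K) : Continuous fun y : K => zd k x y :=
  (continuous_zk k).comp (by fun_prop)

theorem zd_pos {k : ℝ} {x y : K} (hk : 0 ≤ k) (h : x ≠ y) : 0 < zd k x y := by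
  have hd : 0 < dist x y := dist_pos.2 h
  unfold zd zk
  split_ifs with h0
  · positivity
  · have hk' : 0 < k := lt_of_le_of_ne hk (Ne.symm h0)
    have : 1 < Real.cosh (k * dist x y) := Real.one_lt_cosh.2 (by positivity)
    apply div_pos (by linarith) (by positivity)

theorem zd_self (k : ℝ) (x : K) : zd k x x = 0 := by
  unfold zd zk; simp

/-- Two point bound. -/
theorem two (k : ℝ) (hk : 0 ≤ k) (x y p : K) (a : ℝ) (ha : 0 < a) (hs : 0 < s0 k a) :
    zd k y p * (s0 k a / ((zd k x y + a) * (zd k x p + a))) ≤ 2 := by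
  set r := dist x y with hr
  set r' := dist x p with hr'
  have h1 : zd k y p ≤ zk k (r + r') := by
    apply zk_mono hk dist_nonneg
    rw [hr, hr', dist_comm x y]; exact dist_triangle y x p
  have hA : 0 < zd k x y + a := by have := zd_nonneg k x y; linarith
  have hA' : 0 < zd k x p + a := by have := zd_nonneg k x p; linarith
  have key : zk k (r + r') * s0 k a ≤ 2 * ((zd k x y + a) * (zd k x p + a)) := by
    have e1 : zd k x y = 2 * sh k r ^ 2 := zk_eq k r
    have e2 : zd k x p = 2 * sh k r' ^ 2 := zk_eq k r'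
    rw [zk_eq, sh_add, e1, e2]
    have c1 := ch_sq k r
    have c2 := ch_sq k r'
    set σ := sh k r
    set σ' := sh k r'
    set c := ch k r
    set c' := ch k r'
    have hs' : s0 k a = a * (2 - k ^ 2 * a) := by unfold s0; ring
    have h2a : 0 < 2 - k ^ 2 * a := by
      rw [hs'] at hs; exact (mul_pos_iff_of_pos_left ha).1 hs
    -- (2σ²+a)(2σ'²+a) - s0 (σc'+cσ')² = ((2-k²a) σ σ' - a c c')² ≥ 0
    have : (2 * σ ^ 2 + a) * (2 * σ' ^ 2 + a) - a * (2 - k ^ 2 * a) * (σ * c' + c * σ') ^ 2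
        = ((2 - k ^ 2 * a) * σ * σ' - a * c * c') ^ 2 := by
      have e3 : (σ * c' + c * σ') ^ 2 = σ ^ 2 * c' ^ 2 + 2 * (σ * c' * c * σ') + c ^ 2 * σ' ^ 2 := by
        ring
      have e4 : ((2 - k ^ 2 * a) * σ * σ' - a * c * c') ^ 2
          = (2 - k ^ 2 * a) ^ 2 * σ ^ 2 * σ' ^ 2 - 2 * a * (2 - k ^ 2 * a) * (σ * c' * c * σ')
            + a ^ 2 * c ^ 2 * c' ^ 2 := by ring
      rw [e3, e4, c1, c2]; ring
    rw [hs']
    nlinarith [sq_nonneg ((2 - k ^ 2 * a) * σ * σ' - a * c * c')]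
  have h3 : zd k y p * s0 k a ≤ 2 * ((zd k x y + a) * (zd k x p + a)) :=
    le_trans (mul_le_mul_of_nonneg_right h1 hs.le) key
  rw [← mul_div_assoc, div_le_iff₀ (by positivity)]
  exact h3

theorem t_two (k : ℝ) (hk : 0 ≤ k) : T_two k K := fun x y p a ha hs => two k hk x y p a ha hs

end

/-! ### The centre -/

section centre
variable {K : Type*} [MetricSpace K] [CompactSpace K] [MeasurableSpace K] [BorelSpace K]

theorem integrable_cont {ν : Measure K} [IsFiniteMeasure ν] {f : K → ℝ} (hf : Continuous f) :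
    Integrable f ν :=
  hf.integrable_of_hasCompactSupport (HasCompactSupport.of_compactSpace f)

/-- `G(x,a) = ∫ log (z_x + a) dν`. -/
noncomputable def G (k : ℝ) (ν : Measure K) (x : K) (a : ℝ) : ℝ :=
  ∫ y, Real.log (zd k x y + a) ∂ν

/-- `J(x,a) = ∫ log (z_x + a) dν - (1/2) log s₀(a)`. -/
noncomputable def J (k : ℝ) (ν : Measure K) (x : K) (a : ℝ) : ℝ :=
  G k ν x a - Real.log (s0 k a) / 2

theorem continuous_log_zd (k : ℝ) (x : K) {a : ℝ} (ha : 0 < a) :
    Continuous fun y : K => Real.log (zd k x y + a) := by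
  have h := continuous_zd_right k x
  refine Continuous.log (by fun_prop) fun y => ?_
  have := zd_nonneg k x y
  positivity

theorem continuous_inv_zd (k : ℝ) (x : K) {a : ℝ} (ha : 0 < a) :
    Continuous fun y : K => (zd k x y + a)⁻¹ := by
  have h := continuous_zd_right k x
  refine Continuous.inv₀ (by fun_prop) fun y => ?_
  have := zd_nonneg k x y
  positivity

theorem exists_bound (k : ℝ) : ∃ M : ℝ, 0 ≤ M ∧ ∀ x y : K, zd k x y ≤ M := by
  obtain ⟨M, hM⟩ := (isCompact_univ (X := K × K)).bddAbove_image (continuous_zd k).continuousOn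
  refine ⟨max M 0, le_max_right _ _, fun x y => le_trans ?_ (le_max_left _ _)⟩
  exact hM ⟨(x, y), mem_univ _, rfl⟩

theorem continuousOn_G (k : ℝ) (ν : Measure K) [IsProbabilityMeasure ν] {a₁ a₂ : ℝ}
    (h1 : 0 < a₁) : ContinuousOn (fun p : K × ℝ => G k ν p.1 p.2) (univ ×ˢ Icc a₁ a₂) := by
  obtain ⟨M, hM0, hM⟩ := exists_bound (K := K) k
  unfold G
  refine continuousOn_of_dominated (bound := fun _ => |Real.log a₁| + |Real.log (M + a₂)|)
    ?_ ?_ (integrable_const _) ?_
  · rintro ⟨x, a⟩ ⟨-, ha⟩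
    exact (continuous_log_zd k x (lt_of_lt_of_le h1 ha.1)).aestronglyMeasurable
  · rintro ⟨x, a⟩ ⟨-, ha⟩
    refine Eventually.of_forall fun y => ?_
    have hz := zd_nonneg k x y
    have hzM := hM x y
    have ha1 := ha.1
    have ha2 := ha.2
    simp only at ha1 ha2
    have l1 : Real.log a₁ ≤ Real.log (zd k x y + a) := Real.log_le_log h1 (by linarith)
    have l2 : Real.log (zd k x y + a) ≤ Real.log (M + a₂) :=
      Real.log_le_log (by linarith) (by linarith)
    rw [Real.norm_eq_abs, abs_le]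
    constructor
    · have := neg_abs_le (Real.log a₁)
      have := abs_nonneg (Real.log (M + a₂))
      linarith
    · have := le_abs_self (Real.log (M + a₂))
      have := abs_nonneg (Real.log a₁)
      linarith
  · refine Eventually.of_forall fun y => ?_
    refine ContinuousOn.log ?_ ?_
    · have h := continuous_zd (K := K) k
      have h' : Continuous fun p : K × ℝ => zd k p.1 y :=
        h.comp (by fun_prop : Continuous fun p : K × ℝ => ((p.1, y) : K × K))
      fun_prop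
    · rintro ⟨x, a⟩ ⟨-, ha⟩
      have hz := zd_nonneg k x y
      have ha1 := ha.1
      simp only at ha1 ⊢
      have : 0 < zd k x y + a := by linarith
      exact this.ne'

theorem G_ge_log (k : ℝ) (ν : Measure K) [IsProbabilityMeasure ν] (x : K) {a : ℝ} (ha : 0 < a) :
    Real.log a ≤ G k ν x a := by
  have : ∫ _y : K, Real.log a ∂ν ≤ G k ν x a := by
    refine integral_mono (integrable_const _) (integrable_cont (continuous_log_zd k x ha)) ?_
    intro y
    exact Real.log_le_log ha (by have := zd_nonneg k x y; linarith)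
  simpa using this

theorem G_ge_moment (k : ℝ) (hk : 0 ≤ k) (ν : Measure K) [IsProbabilityMeasure ν] {s C : ℝ}
    (hs : 0 < s) (x : K) (hx : ν {x} = 0)
    (hC : ∫⁻ y, ENNReal.ofReal (zd k x y ^ (-s)) ∂ν ≤ ENNReal.ofReal C) {a : ℝ} (ha : 0 < a) :
    -(max C 0 / s) ≤ G k ν x a := by
  have hcont : Continuous fun y : K => (zd k x y + a) ^ (-s) := by
    have h := continuous_zd_right k x
    refine Continuous.rpow_const (by fun_prop) fun y => Or.inl ?_
    have := zd_nonneg k x y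
    positivity
  have hmom : ∫ y, (zd k x y + a) ^ (-s) ∂ν ≤ max C 0 := by
    rw [integral_eq_lintegral_of_nonneg_ae
      (Eventually.of_forall fun y => by have := zd_nonneg k x y; positivity)
      hcont.aestronglyMeasurable]
    refine ENNReal.toReal_le_of_le_ofReal (le_max_right _ _) ?_
    refine le_trans ?_ (le_trans hC (ENNReal.ofReal_le_ofReal (le_max_left _ _)))
    have hae : ∀ᵐ y ∂ν, y ≠ x := by
      rw [ae_iff]; simpa using hx
    refine lintegral_mono_ae ?_
    filter_upwards [hae] with y hy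
    apply ENNReal.ofReal_le_ofReal
    have hz : 0 < zd k x y := zd_pos hk (Ne.symm hy)
    exact Real.rpow_le_rpow_of_nonpos hz (by linarith) (by linarith)
  have hle : ∫ y, -((zd k x y + a) ^ (-s)) / s ∂ν ≤ G k ν x a := by
    refine integral_mono (integrable_cont (by fun_prop))
      (integrable_cont (continuous_log_zd k x ha)) fun y => ?_
    have hz : 0 < zd k x y + a := by have := zd_nonneg k x y; linarith
    have h1 : Real.log ((zd k x y + a) ^ (-s)) ≤ (zd k x y + a) ^ (-s) - 1 :=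
      Real.log_le_sub_one_of_pos (Real.rpow_pos_of_pos hz _)
    rw [Real.log_rpow hz] at h1
    simp only
    rw [div_le_iff₀ hs]
    nlinarith
  refine le_trans ?_ hle
  have e : ∫ y, -((zd k x y + a) ^ (-s)) / s ∂ν = -(∫ y, (zd k x y + a) ^ (-s) ∂ν) / s := by
    rw [integral_div, integral_neg]
  rw [e, neg_div, neg_le_neg_iff]
  exact div_le_div_of_nonneg_right hmom hs.le

theorem s0_eq (k a : ℝ) : s0 k a = a * (2 - k ^ 2 * a) := by unfold s0; ring

theorem lower_end (k : ℝ) (hk : 0 ≤ k) (ν : Measure K) [IsProbabilityMeasure ν] {s C : ℝ}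
    (hs : 0 < s) (hν : ∀ x : K, ν {x} = 0 ∧
      ∫⁻ y, ENNReal.ofReal (zd k x y ^ (-s)) ∂ν ≤ ENNReal.ofReal C) (M a₀ : ℝ) (ha₀ : 0 < a₀) :
    ∃ a₁ : ℝ, 0 < a₁ ∧ a₁ ≤ a₀ ∧
      ∀ (x : K) (a : ℝ), 0 < a → a ≤ a₁ → 0 < s0 k a → M ≤ J k ν x a := by
  refine ⟨min a₀ (Real.exp (-(2 * (M + max C 0 / s))) / 2), by positivity, min_le_left _ _, ?_⟩
  intro x a ha ha1 hsa
  have hG := G_ge_moment k hk ν hs x (hν x).1 (hν x).2 ha
  have h2 : s0 k a ≤ Real.exp (-(2 * (M + max C 0 / s))) := by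
    have : a ≤ Real.exp (-(2 * (M + max C 0 / s))) / 2 := le_trans ha1 (min_le_right _ _)
    have h3 : s0 k a ≤ 2 * a := by
      unfold s0; nlinarith [sq_nonneg (k * a)]
    linarith
  have h4 : Real.log (s0 k a) ≤ -(2 * (M + max C 0 / s)) := by
    have := Real.log_le_log hsa h2
    rwa [Real.log_exp] at this
  unfold J
  linarith

theorem upper_end_zero (ν : Measure K) [IsProbabilityMeasure ν] (M a₀ : ℝ) (ha₀ : 0 < a₀) :
    ∃ a₂ : ℝ, a₀ ≤ a₂ ∧ 0 < s0 0 a₂ ∧
      ∀ (x : K) (a : ℝ), a₂ ≤ a → 0 < s0 0 a → M ≤ J 0 ν x a := by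
  refine ⟨max a₀ (2 * Real.exp (2 * M)), le_max_left _ _, ?_, ?_⟩
  · have : 0 < max a₀ (2 * Real.exp (2 * M)) := lt_of_lt_of_le ha₀ (le_max_left _ _)
    rw [s0_eq]; nlinarith
  · intro x a ha hsa
    have hapos : 0 < a := lt_of_lt_of_le (lt_of_lt_of_le ha₀ (le_max_left _ _)) ha
    have hG := G_ge_log 0 ν x hapos
    have h3 : 2 * Real.exp (2 * M) ≤ a := le_trans (le_max_right _ _) ha
    have h4 : s0 0 a = 2 * a := by unfold s0; ring
    unfold J
    rw [h4, Real.log_mul (by norm_num) hapos.ne']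
    have h5 : Real.log (2 * Real.exp (2 * M)) ≤ Real.log a := Real.log_le_log (by positivity) h3
    rw [Real.log_mul (by norm_num) (Real.exp_pos _).ne', Real.log_exp] at h5
    linarith

theorem upper_end_pos (k : ℝ) (hk0 : 0 < k) (ν : Measure K) [IsProbabilityMeasure ν] (M a₀ : ℝ)
    (ha₀ : 0 < a₀) (hs₀ : 0 < s0 k a₀) :
    ∃ a₂ : ℝ, a₀ ≤ a₂ ∧ 0 < s0 k a₂ ∧
      ∀ (x : K) (a : ℝ), a₂ ≤ a → 0 < s0 k a → M ≤ J k ν x a := by
  have hk2 : 0 < k ^ 2 := by positivity
  obtain ⟨δ, hδ⟩ : ∃ δ, δ = Real.exp (2 * (Real.log (1 / k ^ 2) - M)) := ⟨_, rfl⟩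
  have hδpos : 0 < δ := by rw [hδ]; exact Real.exp_pos _
  have ha₀' : k ^ 2 * a₀ < 2 := by
    rw [s0_eq] at hs₀
    have := (mul_pos_iff_of_pos_left ha₀).1 hs₀
    linarith
  have hlt : max a₀ (max (1 / k ^ 2) ((2 - δ * k ^ 2 / 2) / k ^ 2)) < 2 / k ^ 2 := by
    refine max_lt ?_ (max_lt ?_ ?_)
    · rw [lt_div_iff₀ hk2]; linarith
    · exact div_lt_div_of_pos_right (by norm_num) hk2
    · apply div_lt_div_of_pos_right _ hk2
      have : 0 < δ * k ^ 2 / 2 := by positivity
      linarith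
  obtain ⟨a₂, ha₂⟩ : ∃ a₂, a₂ = max a₀ (max (1 / k ^ 2) ((2 - δ * k ^ 2 / 2) / k ^ 2)) := ⟨_, rfl⟩
  rw [← ha₂] at hlt
  have e1 : a₀ ≤ a₂ := by rw [ha₂]; exact le_max_left _ _
  have e2 : 1 / k ^ 2 ≤ a₂ := by rw [ha₂]; exact le_trans (le_max_left _ _) (le_max_right _ _)
  have e3 : (2 - δ * k ^ 2 / 2) / k ^ 2 ≤ a₂ := by
    rw [ha₂]; exact le_trans (le_max_right _ _) (le_max_right _ _)
  refine ⟨a₂, e1, ?_, ?_⟩
  · rw [s0_eq]
    rw [lt_div_iff₀ hk2] at hlt
    apply mul_pos (lt_of_lt_of_le ha₀ e1)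
    linarith
  · intro x a ha hsa
    have hapos : 0 < a := lt_of_lt_of_le (lt_of_lt_of_le ha₀ e1) ha
    have hG := G_ge_log k ν x hapos
    have h3 : 1 / k ^ 2 ≤ a := le_trans e2 ha
    have h4 : (2 - δ * k ^ 2 / 2) / k ^ 2 ≤ a := le_trans e3 ha
    have h5 : 2 - k ^ 2 * a ≤ δ * k ^ 2 / 2 := by
      rw [div_le_iff₀ hk2] at h4; linarith
    have h6 : 0 < 2 - k ^ 2 * a := by
      rw [s0_eq] at hsa; exact (mul_pos_iff_of_pos_left hapos).1 hsa
    have h7 : a ≤ 2 / k ^ 2 := by rw [le_div_iff₀ hk2]; linarith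
    have h8 : s0 k a ≤ δ := by
      rw [s0_eq]
      calc a * (2 - k ^ 2 * a) ≤ 2 / k ^ 2 * (δ * k ^ 2 / 2) :=
            mul_le_mul h7 h5 h6.le (by positivity)
        _ = δ := by field_simp
    have h9 : Real.log (s0 k a) ≤ 2 * (Real.log (1 / k ^ 2) - M) := by
      have := Real.log_le_log hsa h8
      rwa [hδ, Real.log_exp] at this
    have h10 : Real.log (1 / k ^ 2) ≤ Real.log a := Real.log_le_log (by positivity) h3
    unfold J
    linarith

theorem upper_end (k : ℝ) (hk : 0 ≤ k) (ν : Measure K) [IsProbabilityMeasure ν] (M a₀ : ℝ)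
    (ha₀ : 0 < a₀) (hs₀ : 0 < s0 k a₀) :
    ∃ a₂ : ℝ, a₀ ≤ a₂ ∧ 0 < s0 k a₂ ∧
      ∀ (x : K) (a : ℝ), a₂ ≤ a → 0 < s0 k a → M ≤ J k ν x a := by
  rcases eq_or_lt_of_le hk with hk0 | hk0
  · subst hk0; exact upper_end_zero ν M a₀ ha₀
  · exact upper_end_pos k hk0 ν M a₀ ha₀ hs₀

theorem nonempty_of (ν : Measure K) [IsProbabilityMeasure ν] : Nonempty K := by
  by_contra h
  rw [not_nonempty_iff] at h
  have : ν univ = 0 := by
    rw [univ_eq_empty_iff.2 h]; simp
  rw [measure_univ] at this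
  exact one_ne_zero this

theorem dom_pt (k : ℝ) : ∃ a₀ : ℝ, 0 < a₀ ∧ 0 < s0 k a₀ := by
  refine ⟨1 / (1 + k ^ 2), by positivity, ?_⟩
  rw [s0_eq]
  have : k ^ 2 * (1 / (1 + k ^ 2)) ≤ 1 := by
    rw [mul_one_div, div_le_one (by positivity)]; linarith
  have h2 : 0 < 2 - k ^ 2 * (1 / (1 + k ^ 2)) := by linarith
  positivity

theorem dom_mono {k a₁ a₂ : ℝ} (h1 : 0 < a₁) (h2dom : 0 < s0 k a₂) :
    ∀ a ∈ Icc a₁ a₂, 0 < s0 k a := by
  intro a ha
  have hapos : 0 < a := lt_of_lt_of_le h1 ha.1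
  have ha2pos : 0 < a₂ := lt_of_lt_of_le hapos ha.2
  rw [s0_eq] at h2dom ⊢
  have h3 := (mul_pos_iff_of_pos_left ha2pos).1 h2dom
  have h4 : k ^ 2 * a ≤ k ^ 2 * a₂ := mul_le_mul_of_nonneg_left ha.2 (by positivity)
  apply mul_pos hapos
  linarith

theorem cont_J (k : ℝ) (ν : Measure K) [IsProbabilityMeasure ν] {a₁ a₂ : ℝ} (h1 : 0 < a₁)
    (h2dom : 0 < s0 k a₂) :
    ContinuousOn (fun p : K × ℝ => J k ν p.1 p.2) (univ ×ˢ Icc a₁ a₂) := by
  have hlog : ContinuousOn (fun p : K × ℝ => Real.log (s0 k p.2) / 2) (univ ×ˢ Icc a₁ a₂) := by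
    refine ContinuousOn.div_const ?_ _
    refine ContinuousOn.log ?_ ?_
    · have : Continuous fun p : K × ℝ => s0 k p.2 := by unfold s0; fun_prop
      exact this.continuousOn
    · intro q hq
      exact (dom_mono h1 h2dom q.2 hq.2).ne'
  exact (continuousOn_G k ν h1).sub hlog

theorem min_compact (k : ℝ) (ν : Measure K) [IsProbabilityMeasure ν] {a₁ a₂ a₀ : ℝ}
    (h1 : 0 < a₁) (h2dom : 0 < s0 k a₂) (x₀ : K) (h01 : a₁ ≤ a₀) (h02 : a₀ ≤ a₂) :
    ∃ (x : K) (a : ℝ), a ∈ Icc a₁ a₂ ∧ ∀ (x' : K), ∀ a' ∈ Icc a₁ a₂, J k ν x a ≤ J k ν x' a' := by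
  have hcompact : IsCompact ((univ : Set K) ×ˢ Icc a₁ a₂) := isCompact_univ.prod isCompact_Icc
  have hne : ((univ : Set K) ×ˢ Icc a₁ a₂).Nonempty := ⟨(x₀, a₀), mem_univ _, h01, h02⟩
  obtain ⟨q, hmem, hmin⟩ := hcompact.exists_isMinOn hne (cont_J k ν h1 h2dom)
  refine ⟨q.1, q.2, hmem.2, fun x' a' ha' => ?_⟩
  exact (isMinOn_iff.1 hmin) (x', a') ⟨mem_univ _, ha'⟩

theorem exists_min (k : ℝ) (hk : 0 ≤ k) (ν : Measure K) [IsProbabilityMeasure ν] {s C : ℝ}
    (hs : 0 < s) (hν : ∀ x : K, ν {x} = 0 ∧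
      ∫⁻ y, ENNReal.ofReal (zd k x y ^ (-s)) ∂ν ≤ ENNReal.ofReal C) :
    ∃ (x : K) (a : ℝ), 0 < a ∧ 0 < s0 k a ∧
      ∀ (x' : K) (a' : ℝ), 0 < a' → 0 < s0 k a' → J k ν x a ≤ J k ν x' a' := by
  obtain ⟨x₀⟩ := nonempty_of ν
  obtain ⟨a₀, ha₀, hs₀⟩ := dom_pt k
  obtain ⟨a₁, h1pos, h1le, h1⟩ := lower_end k hk ν hs hν (J k ν x₀ a₀) a₀ ha₀
  obtain ⟨a₂, h2le, h2dom, h2⟩ := upper_end k hk ν (J k ν x₀ a₀) a₀ ha₀ hs₀
  obtain ⟨x, a, hmem, hmin⟩ := min_compact k ν h1pos h2dom x₀ h1le h2le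
  have hxa : J k ν x a ≤ J k ν x₀ a₀ := hmin x₀ a₀ ⟨h1le, h2le⟩
  refine ⟨x, a, lt_of_lt_of_le h1pos hmem.1, dom_mono h1pos h2dom a hmem, fun x' a' ha' hsa' => ?_⟩
  rcases le_or_gt a' a₁ with h | h
  · exact le_trans hxa (h1 x' a' ha' h hsa')
  rcases le_or_gt a₂ a' with h' | h'
  · exact le_trans hxa (h2 x' a' h' hsa')
  · exact hmin x' a' ⟨h.le, h'.le⟩

theorem centre (k : ℝ) (hk : 0 ≤ k) (hC : CatD k K) : T_centre k K := by
  intro ν hν hmom
  obtain ⟨s, hs, C, hC'⟩ := hmom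
  obtain ⟨x, a, ha, hsa, hmin⟩ := exists_min k hk ν hs hC'
  refine ⟨x, a, ha, hsa, fun p => ?_⟩
  set I := ∫ y, (zd k x y + a)⁻¹ ∂ν with hI
  have hu : ∀ y, 0 < zd k x y + a := fun y => by have := zd_nonneg k x y; linarith
  have hIint : Integrable (fun y => (zd k x y + a)⁻¹) ν := integrable_cont (continuous_inv_zd k x ha)
  -- condition in `a`
  have hIeq : I = (1 - k ^ 2 * a) / s0 k a := by
    have hder0 : HasDerivAt (fun t : ℝ => s0 k t) (2 - 2 * k ^ 2 * a) a := by
      unfold s0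
      have h1 : HasDerivAt (fun t : ℝ => 2 * t) (2 * 1) a := (hasDerivAt_id a).const_mul 2
      have h2 : HasDerivAt (fun t : ℝ => k ^ 2 * t ^ 2) (k ^ 2 * (2 * a)) a := by
        simpa using (hasDerivAt_pow 2 a).const_mul (k ^ 2)
      exact (h1.sub h2).congr_deriv (by ring)
    have hder1 : HasDerivAt (fun t : ℝ => (t - a) * I - Real.log (s0 k t) / 2
        + Real.log (s0 k a) / 2) (I - (2 - 2 * k ^ 2 * a) / s0 k a / 2) a := by
      have h1 : HasDerivAt (fun t : ℝ => (t - a) * I) (1 * I) a :=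
        ((hasDerivAt_id a).sub_const a).mul_const I
      have h2 := (hder0.log hsa.ne').div_const 2
      exact ((h1.sub h2).add_const (Real.log (s0 k a) / 2)).congr_deriv (by ring)
    have hloc : IsLocalMin (fun t : ℝ => (t - a) * I - Real.log (s0 k t) / 2
        + Real.log (s0 k a) / 2) a := by
      have hopen : ∀ᶠ t in 𝓝 a, 0 < t ∧ 0 < s0 k t := by
        have hc : Continuous fun t : ℝ => s0 k t := by unfold s0; fun_prop
        exact (eventually_gt_nhds ha).and (hc.continuousAt.eventually (eventually_gt_nhds hsa))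
      filter_upwards [hopen] with t ht
      have hJ := hmin x t ht.1 ht.2
      unfold J G at hJ
      have hle : ∫ y, Real.log (zd k x y + t) ∂ν
          ≤ ∫ y, (Real.log (zd k x y + a) + (t - a) * (zd k x y + a)⁻¹) ∂ν := by
        refine integral_mono (integrable_cont (continuous_log_zd k x ht.1)) ?_ fun y => ?_
        · exact (integrable_cont (continuous_log_zd k x ha)).add (hIint.const_mul _)
        · have hy := hu y
          have hy' : 0 < zd k x y + t := by have := zd_nonneg k x y; linarith [ht.1]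
          have h1 : Real.log ((zd k x y + t) / (zd k x y + a))
              ≤ (zd k x y + t) / (zd k x y + a) - 1 :=
            Real.log_le_sub_one_of_pos (by positivity)
          rw [Real.log_div hy'.ne' hy.ne'] at h1
          have h2 : (zd k x y + t) / (zd k x y + a) - 1 = (t - a) * (zd k x y + a)⁻¹ := by
            field_simp; ring
          simp only
          linarith
      rw [integral_add (integrable_cont (continuous_log_zd k x ha)) (hIint.const_mul _),
        integral_const_mul] at hle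
      simp only [sub_self, zero_mul, zero_sub]
      linarith
    have := hloc.hasDerivAt_eq_zero hder1
    have h2 : I = (2 - 2 * k ^ 2 * a) / s0 k a / 2 := by linarith
    rw [h2]; ring
  -- condition in `x`
  obtain ⟨C₁, hC₁⟩ := hC x p
  set B : K → ℝ := fun y => zd k p y - zd k x y - zd k x p - k ^ 2 * zd k x p * zd k x y with hB
  have hBc : Continuous B := by
    have h1 := continuous_zd_right k x
    have h2 := continuous_zd_right k p
    rw [hB]; fun_prop
  have hBint : Integrable (fun y => B y * (zd k x y + a)⁻¹) ν :=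
    integrable_cont (hBc.mul (continuous_inv_zd k x ha))
  have hBnonneg : 0 ≤ ∫ y, B y * (zd k x y + a)⁻¹ ∂ν := by
    by_contra hneg
    rw [not_le] at hneg
    set b := ∫ y, B y * (zd k x y + a)⁻¹ ∂ν with hb
    have hstep : ∀ σ ∈ Ioo (0 : ℝ) 1, 0 ≤ σ * b + C₁ * σ ^ 2 * I := by
      intro σ hσ
      obtain ⟨x', hx'⟩ := hC₁ σ hσ
      have hJ := hmin x' a ha hsa
      unfold J G at hJ
      have hle : ∫ y, Real.log (zd k x' y + a) ∂ν
          ≤ ∫ y, (Real.log (zd k x y + a) + (σ * (B y * (zd k x y + a)⁻¹)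
              + C₁ * σ ^ 2 * (zd k x y + a)⁻¹)) ∂ν := by
        refine integral_mono (integrable_cont (continuous_log_zd k x' ha)) ?_ fun y => ?_
        · exact (integrable_cont (continuous_log_zd k x ha)).add
            ((hBint.const_mul _).add (hIint.const_mul _))
        · have hy := hu y
          have hy' : 0 < zd k x' y + a := by have := zd_nonneg k x' y; linarith
          have h1 : Real.log ((zd k x' y + a) / (zd k x y + a))
              ≤ (zd k x' y + a) / (zd k x y + a) - 1 :=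
            Real.log_le_sub_one_of_pos (by positivity)
          rw [Real.log_div hy'.ne' hy.ne'] at h1
          have h3 : (zd k x' y + a) / (zd k x y + a) - 1
              = (zd k x' y - zd k x y) * (zd k x y + a)⁻¹ := by
            field_simp; ring
          have h4 : (zd k x' y - zd k x y) * (zd k x y + a)⁻¹
              ≤ (σ * B y + C₁ * σ ^ 2) * (zd k x y + a)⁻¹ := by
            apply mul_le_mul_of_nonneg_right _ (inv_pos.2 hy).le
            have := hx' y
            simp only [hB]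
            linarith
          simp only
          nlinarith
      have i1 : ∫ y, (Real.log (zd k x y + a) + (σ * (B y * (zd k x y + a)⁻¹)
              + C₁ * σ ^ 2 * (zd k x y + a)⁻¹)) ∂ν = ∫ y, Real.log (zd k x y + a) ∂ν
              + ∫ y, (σ * (B y * (zd k x y + a)⁻¹) + C₁ * σ ^ 2 * (zd k x y + a)⁻¹) ∂ν :=
        integral_add (integrable_cont (continuous_log_zd k x ha))
          ((hBint.const_mul _).add (hIint.const_mul _))
      have i2 : ∫ y, (σ * (B y * (zd k x y + a)⁻¹) + C₁ * σ ^ 2 * (zd k x y + a)⁻¹) ∂ν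
          = ∫ y, σ * (B y * (zd k x y + a)⁻¹) ∂ν + ∫ y, C₁ * σ ^ 2 * (zd k x y + a)⁻¹ ∂ν :=
        integral_add (hBint.const_mul _) (hIint.const_mul _)
      rw [i1, i2, integral_const_mul, integral_const_mul] at hle
      linarith
    have hInn : 0 ≤ I := integral_nonneg fun y => (inv_pos.2 (hu y)).le
    -- choose σ small
    have hD : 0 ≤ |C₁| * I := by positivity
    set σ := min (1 / 2) (-b / (2 * (|C₁| * I + 1))) with hσ
    have hσpos : 0 < σ := by
      apply lt_min (by norm_num)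
      apply div_pos (by linarith) (by positivity)
    have hσ1 : σ < 1 := lt_of_le_of_lt (min_le_left _ _) (by norm_num)
    have hσ2 : σ * (|C₁| * I + 1) ≤ -b / 2 := by
      have : σ ≤ -b / (2 * (|C₁| * I + 1)) := min_le_right _ _
      rw [le_div_iff₀ (by positivity)] at this
      linarith
    have h5 := hstep σ ⟨hσpos, hσ1⟩
    have h6 : C₁ * σ ^ 2 * I ≤ σ * (σ * (|C₁| * I + 1)) := by
      have : C₁ * I ≤ |C₁| * I := mul_le_mul_of_nonneg_right (le_abs_self _) hInn
      nlinarith [sq_nonneg σ]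
    have h7 : σ * (σ * (|C₁| * I + 1)) ≤ σ * (-b / 2) := mul_le_mul_of_nonneg_left hσ2 hσpos.le
    nlinarith
  -- conclusion
  set z' := zd k x p with hz'
  have hz'n : 0 ≤ z' := zd_nonneg k x p
  set P := ∫ y, zd k y p * (zd k x y + a)⁻¹ ∂ν with hP
  have hzc : Continuous fun y : K => zd k y p := by
    simp_rw [zd_comm k _ p]; exact continuous_zd_right k p
  have hPint : Integrable (fun y => zd k y p * (zd k x y + a)⁻¹) ν :=
    integrable_cont (hzc.mul (continuous_inv_zd k x ha))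
  have hBeq : ∫ y, B y * (zd k x y + a)⁻¹ ∂ν
      = P - (1 + k ^ 2 * z') - (z' - a - a * k ^ 2 * z') * I := by
    have : ∀ y, B y * (zd k x y + a)⁻¹ = zd k y p * (zd k x y + a)⁻¹
        - ((1 + k ^ 2 * z') + (z' - a - a * k ^ 2 * z') * (zd k x y + a)⁻¹) := by
      intro y
      have hy := (hu y).ne'
      simp only [hB]
      rw [zd_comm k p y]
      field_simp
      ring
    simp_rw [this]
    have i1 : ∫ y, (zd k y p * (zd k x y + a)⁻¹
        - ((1 + k ^ 2 * z') + (z' - a - a * k ^ 2 * z') * (zd k x y + a)⁻¹)) ∂ν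
        = P - ∫ y, ((1 + k ^ 2 * z') + (z' - a - a * k ^ 2 * z') * (zd k x y + a)⁻¹) ∂ν :=
      integral_sub hPint ((integrable_const _).add (hIint.const_mul _))
    have i2 : ∫ y, ((1 + k ^ 2 * z') + (z' - a - a * k ^ 2 * z') * (zd k x y + a)⁻¹) ∂ν
        = ∫ _y : K, (1 + k ^ 2 * z') ∂ν + ∫ y, (z' - a - a * k ^ 2 * z') * (zd k x y + a)⁻¹ ∂ν :=
      integral_add (integrable_const _) (hIint.const_mul _)
    rw [i1, i2, integral_const_mul, ← hI]
    simp
    ring
  have hPge : (1 + k ^ 2 * z') + (z' - a - a * k ^ 2 * z') * I ≤ P := by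
    rw [hBeq] at hBnonneg; linarith
  have hfin : z' + a ≤ s0 k a * P := by
    have h1 : s0 k a * ((1 + k ^ 2 * z') + (z' - a - a * k ^ 2 * z') * I) = z' + a := by
      rw [hIeq]
      have : s0 k a * ((1 + k ^ 2 * z') + (z' - a - a * k ^ 2 * z') * ((1 - k ^ 2 * a) / s0 k a))
          = s0 k a * (1 + k ^ 2 * z') + (z' - a - a * k ^ 2 * z') * (1 - k ^ 2 * a) := by
        field_simp
      rw [this]; unfold s0; ring
    rw [← h1]
    exact mul_le_mul_of_nonneg_left hPge hsa.le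
  have hza : 0 < z' + a := by linarith
  have : ∫ y, zd k y p * (s0 k a / ((zd k x y + a) * (z' + a))) ∂ν = s0 k a * P / (z' + a) := by
    have h1 : ∀ y, zd k y p * (s0 k a / ((zd k x y + a) * (z' + a)))
        = (s0 k a / (z' + a)) * (zd k y p * (zd k x y + a)⁻¹) := by
      intro y
      have hy := (hu y).ne'
      field_simp
    simp_rw [h1]
    rw [integral_const_mul, ← hP]; ring
  rw [this, le_div_iff₀ hza]
  linarith

end centre

/-! ### `CAT(-k²)` implies `CatD` -/

section cat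
variable {K : Type*} [MetricSpace K]

/-- `CAT(-k²)` for a bounded metric space (only existence of the comparison point is used):
for all `x p` and `s ∈ [0,1]` a point `x'` on the "geodesic" from `x` to `p` with parameter `s`. -/
theorem catD_of_cat (k : ℝ) (hk : 0 ≤ k) (M : ℝ) (hM : ∀ x y : K, zd k x y ≤ M)
    (hcat : ∀ x p : K, ∀ s ∈ Icc (0 : ℝ) 1, ∃ x' : K, ∀ y : K,
      dist y x' ^ 2 ≤ (1 - s) * dist y x ^ 2 + s * dist y p ^ 2 - s * (1 - s) * dist x p ^ 2 ∧
      Real.sinh (k * dist x p) * Real.cosh (k * dist y x') ≤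
        Real.sinh ((1 - s) * (k * dist x p)) * Real.cosh (k * dist y x)
          + Real.sinh (s * (k * dist x p)) * Real.cosh (k * dist y p)) :
    CatD k K := by
  intro x p
  rcases eq_or_lt_of_le hk with hk0 | hk0
  · -- k = 0
    subst hk0
    refine ⟨zd 0 x p, fun s hs => ?_⟩
    obtain ⟨x', hx'⟩ := hcat x p s ⟨hs.1.le, hs.2.le⟩
    refine ⟨x', fun y => ?_⟩
    have h1 := (hx' y).1
    have e : ∀ u v : K, zd 0 u v = dist v u ^ 2 / 2 := by
      intro u v; unfold zd zk; rw [if_pos rfl, dist_comm]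
    have e2 : zd 0 x p = dist x p ^ 2 / 2 := by rw [e, dist_comm]
    rw [e x' y, e x y, e p y, e2]
    nlinarith
  · -- k > 0
    by_cases hxp : x = p
    · subst hxp
      refine ⟨0, fun s _ => ⟨x, fun y => ?_⟩⟩
      rw [zd_self]; simp
    have hD : 0 < dist x p := dist_pos.2 hxp
    set κ := k * dist x p with hκ
    have hκpos : 0 < κ := by positivity
    have hS : 0 < Real.sinh κ := Real.sinh_pos_iff.2 hκpos
    have hM0 : 0 ≤ M := le_trans (zd_nonneg k x p) (hM x p)
    refine ⟨Real.sinh κ ^ 2 / 2 * (1 + k ^ 2 * M) / k ^ 2, fun s hs => ?_⟩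
    -- reparametrisation
    set t := Real.arsinh (s * Real.sinh κ) / κ with ht
    have htκ : Real.sinh (t * κ) = s * Real.sinh κ := by
      rw [ht, div_mul_cancel₀ _ hκpos.ne', Real.sinh_arsinh]
    have ht0 : 0 ≤ t := by
      apply div_nonneg _ hκpos.le
      rw [Real.arsinh_nonneg_iff]; have := hs.1; positivity
    have ht1 : t ≤ 1 := by
      rw [ht, div_le_one hκpos]
      have : Real.arsinh (s * Real.sinh κ) ≤ Real.arsinh (Real.sinh κ) := by
        apply Real.arsinh_le_arsinh.2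
        nlinarith [hs.1, hs.2]
      rwa [Real.arsinh_sinh] at this
    obtain ⟨x', hx'⟩ := hcat x p t ⟨ht0, ht1⟩
    refine ⟨x', fun y => ?_⟩
    have h1 := (hx' y).2
    rw [htκ] at h1
    -- α
    have hα : Real.sinh ((1 - t) * κ)
        ≤ Real.sinh κ * (1 + s ^ 2 * Real.sinh κ ^ 2 / 2 - s * Real.cosh κ) := by
      rw [show (1 - t) * κ = κ - t * κ by ring, Real.sinh_sub, htκ]
      have hc : Real.cosh (t * κ) ≤ 1 + s ^ 2 * Real.sinh κ ^ 2 / 2 := by
        have h2 : Real.cosh (t * κ) ^ 2 = 1 + (s * Real.sinh κ) ^ 2 := by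
          rw [Real.cosh_sq, htκ]; ring
        have h3 := Real.cosh_pos (t * κ)
        nlinarith [sq_nonneg (s ^ 2 * Real.sinh κ ^ 2)]
      nlinarith
    have ez : ∀ u v : K, Real.cosh (k * dist u v) = 1 + k ^ 2 * zd k u v := fun u v =>
      one_add_zk hk0.ne' _
    have h4 : Real.cosh (k * dist y x) = 1 + k ^ 2 * zd k x y := by rw [dist_comm, ez]
    have h5 : Real.cosh (k * dist y p) = 1 + k ^ 2 * zd k p y := by rw [dist_comm, ez]
    have h6 : Real.cosh (k * dist y x') = 1 + k ^ 2 * zd k x' y := by rw [dist_comm, ez]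
    have h7 : Real.cosh κ = 1 + k ^ 2 * zd k x p := by rw [hκ, ez]
    rw [h4, h5, h6] at h1
    rw [h7] at hα
    have hz := zd_nonneg k x y
    have hzM := hM x y
    have hk2 : 0 < k ^ 2 := by positivity
    have h8 : Real.sinh ((1 - t) * κ) * (1 + k ^ 2 * zd k x y)
        ≤ Real.sinh κ * (1 + s ^ 2 * Real.sinh κ ^ 2 / 2 - s * (1 + k ^ 2 * zd k x p))
          * (1 + k ^ 2 * zd k x y) := mul_le_mul_of_nonneg_right hα (by positivity)
    have h9 : Real.sinh κ * (1 + k ^ 2 * zd k x' y) ≤ Real.sinh κ *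
        ((1 + s ^ 2 * Real.sinh κ ^ 2 / 2 - s * (1 + k ^ 2 * zd k x p)) * (1 + k ^ 2 * zd k x y)
          + s * (1 + k ^ 2 * zd k p y)) := by linarith
    have h10 := le_of_mul_le_mul_left h9 hS
    have h11 : s ^ 2 * Real.sinh κ ^ 2 / 2 * (1 + k ^ 2 * zd k x y)
        ≤ s ^ 2 * Real.sinh κ ^ 2 / 2 * (1 + k ^ 2 * M) := by
      apply mul_le_mul_of_nonneg_left _ (by positivity)
      nlinarith
    have h12 : k ^ 2 * zd k x' y ≤ k ^ 2 * (zd k x y + s * (zd k p y - zd k x y - zd k x p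
        - k ^ 2 * zd k x p * zd k x y)) + s ^ 2 * Real.sinh κ ^ 2 / 2 * (1 + k ^ 2 * M) := by
      nlinarith
    have h13 : k ^ 2 * (Real.sinh κ ^ 2 / 2 * (1 + k ^ 2 * M) / k ^ 2 * s ^ 2)
        = s ^ 2 * Real.sinh κ ^ 2 / 2 * (1 + k ^ 2 * M) := by field_simp
    have h14 : k ^ 2 * zd k x' y ≤ k ^ 2 * (zd k x y + s * (zd k p y - zd k x y - zd k x p
        - k ^ 2 * zd k x p * zd k x y)
        + Real.sinh κ ^ 2 / 2 * (1 + k ^ 2 * M) / k ^ 2 * s ^ 2) := by
      rw [mul_add, h13]; exact h12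
    exact le_of_mul_le_mul_left h14 hk2

end cat

end Crest.Agent.R241.A5
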