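import Mathlib
import Crest.Prelude.Def_MetricCurrent
import Crest.Agent.R241.Defs

/-!
# R241, block CAT, file 1

Metric geometry of the space class `CATk k X` of `R241/Defs.lean`: `ofIsCATZero`, uniqueness of
geodesics, two-point comparison, convexity of the metric, convexity of balls, the quadrilateral
inequality.
-/

set_option autoImplicit false

open Set

namespace Crest.Agent.R241.Cat1

open Crest.GeometryTopology.MetricCurrent

universe u

variable {X : Type u} [MetricSpace X]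

/-- Midpoint convex + continuous implies below the chord. -/
theorem le_of_midpoint {F : ℝ → ℝ} (hF : ContinuousOn F (Icc 0 1))
    (hmid : ∀ s ∈ Icc (0 : ℝ) 1, ∀ t ∈ Icc (0 : ℝ) 1, F ((s + t) / 2) ≤ (F s + F t) / 2)
    {s : ℝ} (hs : s ∈ Icc (0 : ℝ) 1) : F s ≤ (1 - s) * F 0 + s * F 1 := by
  -- subtract the chord
  set G : ℝ → ℝ := fun s => F s - ((1 - s) * F 0 + s * F 1) with hG
  have hGc : ContinuousOn G (Icc 0 1) := by
    apply hF.sub
    fun_prop
  have hGmid : ∀ s ∈ Icc (0 : ℝ) 1, ∀ t ∈ Icc (0 : ℝ) 1, G ((s + t) / 2) ≤ (G s + G t) / 2 := by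
    intro s hs t ht
    have := hmid s hs t ht
    simp only [hG]
    linarith
  have hG0 : G 0 = 0 := by simp [hG]
  have hG1 : G 1 = 0 := by simp [hG]
  suffices h : G s ≤ 0 by
    simp only [hG] at h
    linarith
  -- maximum
  obtain ⟨a, ha, hamax⟩ := isCompact_Icc.exists_isMaxOn (nonempty_Icc.2 zero_le_one) hGc
  by_contra hcon
  push Not at hcon
  have hMpos : 0 < G a := lt_of_lt_of_le hcon (hamax hs)
  -- the set of maximisers
  set A : Set ℝ := {t | t ∈ Icc (0 : ℝ) 1 ∧ G t = G a} with hA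
  have hAcl : IsClosed A := by
    have : A = Icc (0 : ℝ) 1 ∩ G ⁻¹' {G a} := by
      ext t; simp [hA]
    rw [this]
    exact hGc.preimage_isClosed_of_isClosed isClosed_Icc isClosed_singleton
  have hAne : A.Nonempty := ⟨a, ha, rfl⟩
  have hAbdd : BddBelow A := ⟨0, fun t ht => ht.1.1⟩
  have hb := hAcl.csInf_mem hAne hAbdd
  set b := sInf A with hbdef
  obtain ⟨⟨hb0, hb1⟩, hGb⟩ := hb
  have hb0' : 0 < b := by
    rcases hb0.lt_or_eq with h | h
    · exact h
    · rw [← h, hG0] at hGb; linarith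
  have hb1' : b < 1 := by
    rcases hb1.lt_or_eq with h | h
    · exact h
    · rw [h, hG1] at hGb; linarith
  set d := min b (1 - b) with hd
  have hdpos : 0 < d := lt_min hb0' (by linarith)
  have h1 : b - d ∈ Icc (0 : ℝ) 1 := ⟨by linarith [min_le_left b (1 - b)], by linarith⟩
  have h2 : b + d ∈ Icc (0 : ℝ) 1 := ⟨by linarith, by linarith [min_le_right b (1 - b)]⟩
  have h3 := hGmid _ h1 _ h2
  rw [show (b - d + (b + d)) / 2 = b by ring, hGb] at h3
  have h4 : G (b + d) ≤ G a := hamax h2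
  have h5 : G (b - d) ≤ G a := hamax h1
  have h6 : G (b - d) = G a := by linarith
  have h7 : b ≤ b - d := csInf_le hAbdd ⟨h1, h6⟩
  linarith

/-- Points dividing a constant speed segment satisfy the Bruhat–Tits inequality. -/
theorem bruhatTits_of_segment
    (hmidp : ∀ p x y m : X, dist x m = dist x y / 2 → dist y m = dist x y / 2 →
      dist p m ^ 2 ≤ (dist p x ^ 2 + dist p y ^ 2) / 2 - dist x y ^ 2 / 4)
    {x y : X} {γ : ℝ → X} (h0 : γ 0 = x) (h1 : γ 1 = y)
    (hγ : ∀ s ∈ Icc (0 : ℝ) 1, ∀ t ∈ Icc (0 : ℝ) 1, dist (γ s) (γ t) = |s - t| * dist x y)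
    (p : X) {s : ℝ} (hs : s ∈ Icc (0 : ℝ) 1) :
    dist p (γ s) ^ 2 ≤ (1 - s) * dist p x ^ 2 + s * dist p y ^ 2 - s * (1 - s) * dist x y ^ 2 := by
  set D := dist x y with hD
  have hcont : ContinuousOn γ (Icc 0 1) := by
    have hL : LipschitzOnWith (Real.toNNReal D) γ (Icc 0 1) := by
      apply LipschitzOnWith.of_dist_le_mul
      intro s hs t ht
      rw [hγ s hs t ht, Real.coe_toNNReal _ dist_nonneg, Real.dist_eq, mul_comm]
    exact hL.continuousOn
  have key := le_of_midpoint (F := fun s => dist p (γ s) ^ 2 - s ^ 2 * D ^ 2) ?_ ?_ hs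
  · simp only [h0, h1] at key
    nlinarith [key]
  · apply ContinuousOn.sub
    · exact (((continuous_const.dist continuous_id).comp_continuousOn hcont)).pow 2
    · fun_prop
  · intro s hs t ht
    have hm : (s + t) / 2 ∈ Icc (0 : ℝ) 1 := ⟨by linarith [hs.1, ht.1], by linarith [hs.2, ht.2]⟩
    have e1 : dist (γ s) (γ ((s + t) / 2)) = dist (γ s) (γ t) / 2 := by
      rw [hγ s hs _ hm, hγ s hs t ht, show s - (s + t) / 2 = (s - t) / 2 by ring, abs_div,
        abs_of_pos (by norm_num : (0 : ℝ) < 2)]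
      ring
    have e2 : dist (γ t) (γ ((s + t) / 2)) = dist (γ s) (γ t) / 2 := by
      rw [hγ t ht _ hm, hγ s hs t ht, show t - (s + t) / 2 = -((s - t) / 2) by ring, abs_neg,
        abs_div, abs_of_pos (by norm_num : (0 : ℝ) < 2)]
      ring
    have := hmidp p (γ s) (γ t) (γ ((s + t) / 2)) e1 e2
    rw [hγ s hs t ht, mul_pow, sq_abs] at this
    nlinarith [this]

/-- The prelude's `IsCATZero` gives the structure with `k = 0`. -/
noncomputable def ofIsCATZero {X : Type u} [MetricSpace X] (hX : IsCATZero X) : CATk 0 X where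
  geo x y := Classical.choose (hX.1 x y)
  geo_zero x y := (Classical.choose_spec (hX.1 x y)).1
  geo_one x y := (Classical.choose_spec (hX.1 x y)).2.1
  dist_geo x y := (Classical.choose_spec (hX.1 x y)).2.2
  cat0 p x y _ hs := bruhatTits_of_segment hX.2 (Classical.choose_spec (hX.1 x y)).1
    (Classical.choose_spec (hX.1 x y)).2.1 (Classical.choose_spec (hX.1 x y)).2.2 p hs
  catk p x y s _ := by simp

section

variable {k : ℝ} (C : CATk k X)

include C

theorem dist_left {x y : X} {s : ℝ} (hs : s ∈ Icc (0 : ℝ) 1) :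
    dist x (C.geo x y s) = s * dist x y := by
  have := C.dist_geo x y 0 (by simp) s hs
  rw [C.geo_zero, zero_sub, abs_neg, abs_of_nonneg hs.1] at this
  exact this

theorem dist_right {x y : X} {s : ℝ} (hs : s ∈ Icc (0 : ℝ) 1) :
    dist (C.geo x y s) y = (1 - s) * dist x y := by
  have := C.dist_geo x y s hs 1 (by simp)
  rw [C.geo_one, abs_sub_comm, abs_of_nonneg (by linarith [hs.2])] at this
  exact this

/-- Uniqueness of the point at fraction `s`. -/
theorem eq_geo {x y m : X} {s : ℝ} (hs : s ∈ Icc (0 : ℝ) 1)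
    (h1 : dist x m ≤ s * dist x y) (h2 : dist m y ≤ (1 - s) * dist x y) : m = C.geo x y s := by
  have h := C.cat0 m x y s hs
  rw [dist_comm m x] at h
  have h1' : dist x m ^ 2 ≤ (s * dist x y) ^ 2 := pow_le_pow_left₀ dist_nonneg h1 2
  have h2' : dist m y ^ 2 ≤ ((1 - s) * dist x y) ^ 2 := pow_le_pow_left₀ dist_nonneg h2 2
  have h3 : dist m (C.geo x y s) ^ 2 ≤ 0 := by
    have e1 : (1 - s) * dist x m ^ 2 ≤ (1 - s) * (s * dist x y) ^ 2 :=
      mul_le_mul_of_nonneg_left h1' (by linarith [hs.2])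
    have e2 : s * dist m y ^ 2 ≤ s * ((1 - s) * dist x y) ^ 2 :=
      mul_le_mul_of_nonneg_left h2' hs.1
    nlinarith [h, e1, e2]
  have h4 : dist m (C.geo x y s) = 0 := by
    have := sq_nonneg (dist m (C.geo x y s))
    exact pow_eq_zero_iff (two_ne_zero) |>.1 (le_antisymm h3 this)
  exact dist_eq_zero.1 h4

theorem geo_symm (x y : X) {s : ℝ} (hs : s ∈ Icc (0 : ℝ) 1) :
    C.geo x y s = C.geo y x (1 - s) := by
  have hs' : 1 - s ∈ Icc (0 : ℝ) 1 := ⟨by linarith [hs.2], by linarith [hs.1]⟩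
  apply eq_geo C hs'
  · rw [dist_comm, dist_right C hs, dist_comm x y]
  · rw [dist_comm, dist_left C hs, dist_comm x y]; linarith

theorem geo_self (x : X) {s : ℝ} (hs : s ∈ Icc (0 : ℝ) 1) : C.geo x x s = x := by
  have := dist_left C (x := x) (y := x) hs
  rw [dist_self, mul_zero] at this
  exact (dist_eq_zero.1 this).symm

theorem geo_geo_right (x y : X) {s t : ℝ} (hs : s ∈ Icc (0 : ℝ) 1) (ht : t ∈ Icc (0 : ℝ) 1) :
    C.geo x (C.geo x y t) s = C.geo x y (s * t) := by
  have hst : s * t ∈ Icc (0 : ℝ) 1 := ⟨mul_nonneg hs.1 ht.1, mul_le_one₀ hs.2 ht.1 ht.2⟩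
  symm
  apply eq_geo C hs
  · rw [dist_left C hst, dist_left C ht]
    linarith
  · rw [C.dist_geo x y _ hst t ht, dist_left C ht, abs_sub_comm, abs_of_nonneg (by
      nlinarith [hs.1, hs.2, ht.1, ht.2])]
    linarith

/-- Two-point comparison in its CAT(0) form: two points on two segments issuing from `x`. -/
theorem two_point (x y y' : X) {s s' : ℝ} (hs : s ∈ Icc (0 : ℝ) 1) (hs' : s' ∈ Icc (0 : ℝ) 1) :
    dist (C.geo x y s) (C.geo x y' s') ^ 2 ≤
      s * s' * dist y y' ^ 2 + (s - s') * (s * dist x y ^ 2 - s' * dist x y' ^ 2) := by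
  have h1 := C.cat0 (C.geo x y s) x y' s' hs'
  have h2 := C.cat0 y' x y s hs
  rw [dist_comm (C.geo x y s) x, dist_left C hs] at h1
  rw [dist_comm y' x, dist_comm y' y, dist_comm y' (C.geo x y s)] at h2
  have h3 : s' * dist (C.geo x y s) y' ^ 2 ≤
      s' * ((1 - s) * dist x y' ^ 2 + s * dist y y' ^ 2 - s * (1 - s) * dist x y ^ 2) :=
    mul_le_mul_of_nonneg_left h2 hs'.1
  nlinarith [h1, h3]

/-- Contraction towards `x` at the same fraction. -/
theorem dist_geo_geo_left (x y y' : X) {s : ℝ} (hs : s ∈ Icc (0 : ℝ) 1) :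
    dist (C.geo x y s) (C.geo x y' s) ≤ s * dist y y' := by
  have h := two_point C x y y' hs hs
  rw [sub_self, zero_mul, add_zero] at h
  have : dist (C.geo x y s) (C.geo x y' s) ^ 2 ≤ (s * dist y y') ^ 2 := by
    rw [mul_pow]; nlinarith [h]
  exact le_of_sq_le_sq this (mul_nonneg hs.1 dist_nonneg)

theorem dist_geo_geo_right (x x' y : X) {s : ℝ} (hs : s ∈ Icc (0 : ℝ) 1) :
    dist (C.geo x y s) (C.geo x' y s) ≤ (1 - s) * dist x x' := by
  have hs' : 1 - s ∈ Icc (0 : ℝ) 1 := ⟨by linarith [hs.2], by linarith [hs.1]⟩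
  rw [geo_symm C x y hs, geo_symm C x' y hs]
  exact dist_geo_geo_left C y x x' hs'

/-- Joint convexity of the metric (Busemann). -/
theorem dist_geo_geo (x x' y y' : X) {s : ℝ} (hs : s ∈ Icc (0 : ℝ) 1) :
    dist (C.geo x y s) (C.geo x' y' s) ≤ (1 - s) * dist x x' + s * dist y y' := by
  calc dist (C.geo x y s) (C.geo x' y' s)
      ≤ dist (C.geo x y s) (C.geo x' y s) + dist (C.geo x' y s) (C.geo x' y' s) :=
        dist_triangle _ _ _
    _ ≤ _ := add_le_add (dist_geo_geo_right C x x' y hs) (dist_geo_geo_left C x' y y' hs)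

/-- General modulus of continuity of `geo`. -/
theorem dist_geo_geo' (x x' y y' : X) {s s' : ℝ} (hs : s ∈ Icc (0 : ℝ) 1)
    (hs' : s' ∈ Icc (0 : ℝ) 1) :
    dist (C.geo x y s) (C.geo x' y' s') ≤
      (1 - s) * dist x x' + s * dist y y' + |s - s'| * dist x' y' := by
  calc dist (C.geo x y s) (C.geo x' y' s')
      ≤ dist (C.geo x y s) (C.geo x' y' s) + dist (C.geo x' y' s) (C.geo x' y' s') :=
        dist_triangle _ _ _
    _ ≤ _ := add_le_add (dist_geo_geo C x x' y y' hs) (C.dist_geo x' y' s hs s' hs').le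

theorem continuousOn_geo :
    ContinuousOn (fun q : X × X × ℝ => C.geo q.1 q.2.1 q.2.2)
      {q | q.2.2 ∈ Icc (0 : ℝ) 1} := by
  rw [Metric.continuousOn_iff]
  rintro ⟨x, y, s⟩ hs ε hε
  simp only [mem_ofPred_eq] at hs
  set δ := ε / (3 + dist x y) with hδ
  have hD : 0 ≤ dist x y := dist_nonneg
  have hδpos : 0 < δ := div_pos hε (by linarith)
  refine ⟨δ, hδpos, ?_⟩
  rintro ⟨x', y', s'⟩ hs' hq
  simp only [mem_ofPred_eq] at hs'
  simp only [Prod.dist_eq, max_lt_iff] at hq
  obtain ⟨hx, hy, hs''⟩ := hq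
  rw [Real.dist_eq] at hs''
  have h1 := dist_geo_geo' C x' x y' y hs' hs
  calc dist (C.geo x' y' s') (C.geo x y s)
      ≤ (1 - s') * dist x' x + s' * dist y' y + |s' - s| * dist x y := h1
    _ ≤ 1 * δ + 1 * δ + δ * dist x y := by
        have a1 : (1 - s') * dist x' x ≤ 1 * δ :=
          mul_le_mul (by linarith [hs'.1]) hx.le dist_nonneg zero_le_one
        have a2 : s' * dist y' y ≤ 1 * δ :=
          mul_le_mul hs'.2 hy.le dist_nonneg zero_le_one
        have a3 : |s' - s| * dist x y ≤ δ * dist x y :=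
          mul_le_mul_of_nonneg_right hs''.le hD
        linarith
    _ = δ * (2 + dist x y) := by ring
    _ < δ * (3 + dist x y) := by
        apply mul_lt_mul_of_pos_left _ hδpos; linarith
    _ = ε := by
        rw [hδ, div_mul_cancel₀]; linarith

/-- Closed balls are geodesically convex. -/
theorem geo_mem_closedBall {p x y : X} {R s : ℝ} (hs : s ∈ Icc (0 : ℝ) 1)
    (hx : x ∈ Metric.closedBall p R) (hy : y ∈ Metric.closedBall p R) :
    C.geo x y s ∈ Metric.closedBall p R := by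
  rw [Metric.mem_closedBall, dist_comm] at hx hy ⊢
  have hR : 0 ≤ R := dist_nonneg.trans hx
  have h := C.cat0 p x y s hs
  have h1 : dist p x ^ 2 ≤ R ^ 2 := pow_le_pow_left₀ dist_nonneg hx 2
  have h2 : dist p y ^ 2 ≤ R ^ 2 := pow_le_pow_left₀ dist_nonneg hy 2
  have h3 : 0 ≤ s * (1 - s) * dist x y ^ 2 :=
    mul_nonneg (mul_nonneg hs.1 (by linarith [hs.2])) (sq_nonneg _)
  have h4 : dist p (C.geo x y s) ^ 2 ≤ R ^ 2 := by
    nlinarith [mul_le_mul_of_nonneg_left h1 (by linarith [hs.2] : (0 : ℝ) ≤ 1 - s),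
      mul_le_mul_of_nonneg_left h2 hs.1]
  exact le_of_sq_le_sq h4 hR

/-- Reshetnyak's quadrilateral inequality. -/
theorem quadrilateral (a b c d : X) :
    dist a c ^ 2 + dist b d ^ 2 ≤
      dist a d ^ 2 + dist b c ^ 2 + 2 * dist a b * dist c d := by
  rcases eq_or_ne a b with rfl | hab
  · simp [add_comm]
  rcases eq_or_ne c d with rfl | hcd
  · simp
  have hab' : 0 < dist a b := dist_pos.2 hab
  have hcd' : 0 < dist c d := dist_pos.2 hcd
  set P := dist a b with hP
  set Q := dist c d with hQ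
  -- t = P / (P + Q) is the fraction on [b, d]
  set t := P / (P + Q) with ht
  have hPQ : 0 < P + Q := by linarith
  have ht0 : 0 < t := div_pos hab' hPQ
  have ht1 : t < 1 := by rw [ht, div_lt_one hPQ]; linarith
  have htI : t ∈ Icc (0 : ℝ) 1 := ⟨ht0.le, ht1.le⟩
  have h1t : 1 - t = Q / (P + Q) := by rw [ht]; field_simp; ring
  set m := C.geo b d t with hm
  have h1 := C.cat0 a b d t htI
  have h2 := C.cat0 c b d t htI
  rw [← hm] at h1 h2
  have htri : dist a c ≤ dist a m + dist c m := by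
    rw [dist_comm c m]; exact dist_triangle _ _ _
  -- (u + v)^2 ≤ u^2 / t + v^2 / (1 - t)
  have hcs : dist a c ^ 2 * (t * (1 - t)) ≤ (1 - t) * dist a m ^ 2 + t * dist c m ^ 2 := by
    have hu : dist a c ^ 2 ≤ (dist a m + dist c m) ^ 2 := pow_le_pow_left₀ dist_nonneg htri 2
    have h0 : 0 < 1 - t := by linarith
    have hmul : dist a c ^ 2 * (t * (1 - t)) ≤ (dist a m + dist c m) ^ 2 * (t * (1 - t)) :=
      mul_le_mul_of_nonneg_right hu (mul_pos ht0 h0).le
    nlinarith [sq_nonneg ((1 - t) * dist a m - t * dist c m), hmul]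
  have h3 : dist a c ^ 2 * (t * (1 - t)) ≤
      (1 - t) * ((1 - t) * P ^ 2 + t * dist a d ^ 2 - t * (1 - t) * dist b d ^ 2) +
      t * ((1 - t) * dist b c ^ 2 + t * Q ^ 2 - t * (1 - t) * dist b d ^ 2) := by
    have a1 := mul_le_mul_of_nonneg_left h1 (by linarith : (0 : ℝ) ≤ 1 - t)
    have a2 := mul_le_mul_of_nonneg_left h2 ht0.le
    rw [dist_comm c b] at a2
    linarith [hcs]
  have h4 : (t * (1 - t)) * (dist a c ^ 2 + dist b d ^ 2) ≤
      (t * (1 - t)) * (dist a d ^ 2 + dist b c ^ 2 + 2 * P * Q) := by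
    have e : (1 - t) ^ 2 * P ^ 2 + t ^ 2 * Q ^ 2 = (t * (1 - t)) * (2 * P * Q) := by
      rw [h1t, ht]; field_simp; ring
    nlinarith [h3, e]
  exact le_of_mul_le_mul_left h4 (mul_pos ht0 (by linarith))

end

end Crest.Agent.R241.Cat1
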