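import Mathlib
import Crest.Agent.R241.Cat1

/-!
# R241, block CAT, file 2

Two-point contraction in `CATk k X`, all `k ≥ 0`, in terms of `zk`, `sn`; Lipschitz bounds;
infinitesimal form along charts.
-/

set_option autoImplicit false

open Set Filter Topology

namespace Crest.Agent.R241.Cat2

open Crest.Agent.R241.Cat1

universe u

variable {X : Type u} [MetricSpace X]

/-! ### `sn` and `zk` -/

theorem sn_zero_left (r : ℝ) : sn 0 r = r := by simp [sn]

theorem zk_zero_left (r : ℝ) : zk 0 r = r ^ 2 / 2 := by simp [zk]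

theorem sn_zero (k : ℝ) : sn k 0 = 0 := by by_cases h : k = 0 <;> simp [sn, h]

theorem sn_nonneg {k r : ℝ} (hk : 0 ≤ k) (hr : 0 ≤ r) : 0 ≤ sn k r := by
  unfold sn
  split_ifs with h
  · exact hr
  · exact div_nonneg (Real.sinh_nonneg_iff.2 (mul_nonneg hk hr)) hk

theorem self_le_sn {k r : ℝ} (hk : 0 ≤ k) (hr : 0 ≤ r) : r ≤ sn k r := by
  unfold sn
  split_ifs with h
  · exact le_rfl
  · have hk' : 0 < k := lt_of_le_of_ne hk (Ne.symm h)
    rw [le_div_iff₀ hk', mul_comm]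
    exact Real.self_le_sinh_iff.2 (mul_nonneg hk hr)

theorem sn_pos {k r : ℝ} (hk : 0 ≤ k) (hr : 0 < r) : 0 < sn k r :=
  lt_of_lt_of_le hr (self_le_sn hk hr.le)

theorem sn_mono {k r s : ℝ} (hk : 0 ≤ k) (hrs : r ≤ s) : sn k r ≤ sn k s := by
  unfold sn
  split_ifs with h
  · exact hrs
  · have hk' : 0 < k := lt_of_le_of_ne hk (Ne.symm h)
    exact div_le_div_of_nonneg_right (Real.sinh_le_sinh.2 (mul_le_mul_of_nonneg_left hrs hk)) hk

theorem sn_neg (k r : ℝ) : sn k (-r) = -sn k r := by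
  unfold sn
  split_ifs with h
  · rfl
  · rw [mul_neg, Real.sinh_neg, neg_div]

theorem zk_eq (k r : ℝ) : zk k r = 2 * sn k (r / 2) ^ 2 := by
  unfold sn zk
  split_ifs with h
  · ring
  · have h1 : Real.cosh (k * r) = 1 + 2 * Real.sinh (k * (r / 2)) ^ 2 := by
      have := Real.cosh_two_mul (k * (r / 2))
      rw [show 2 * (k * (r / 2)) = k * r by ring, Real.cosh_sq] at this
      linarith
    rw [h1]
    field_simp
    ring

theorem zk_nonneg (k r : ℝ) : 0 ≤ zk k r := by rw [zk_eq]; positivity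

theorem zk_zero (k : ℝ) : zk k 0 = 0 := by rw [zk_eq, zero_div, sn_zero]; ring

theorem zk_neg (k r : ℝ) : zk k (-r) = zk k r := by
  rw [zk_eq, zk_eq, neg_div, sn_neg]; ring

theorem zk_abs (k r : ℝ) : zk k |r| = zk k r := by
  rcases abs_cases r with ⟨h, _⟩ | ⟨h, _⟩ <;> rw [h]
  exact zk_neg k r

theorem half_sq_le_zk {k : ℝ} (hk : 0 ≤ k) (r : ℝ) : r ^ 2 / 2 ≤ zk k r := by
  rw [← zk_abs, ← sq_abs, zk_eq]
  have h1 : |r| / 2 ≤ sn k (|r| / 2) := self_le_sn hk (by positivity)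
  have h2 : (|r| / 2) ^ 2 ≤ sn k (|r| / 2) ^ 2 := pow_le_pow_left₀ (by positivity) h1 2
  nlinarith

theorem zk_mono {k r s : ℝ} (hk : 0 ≤ k) (hr : 0 ≤ r) (hrs : r ≤ s) : zk k r ≤ zk k s := by
  rw [zk_eq, zk_eq]
  have h1 : sn k (r / 2) ≤ sn k (s / 2) := sn_mono hk (by linarith)
  have h0 : 0 ≤ sn k (r / 2) := sn_nonneg hk (by linarith)
  have := pow_le_pow_left₀ h0 h1 2
  linarith

/-- `sn² = 2 z + k² z²`. -/
theorem sn_sq (k r : ℝ) : sn k r ^ 2 = 2 * zk k r + k ^ 2 * zk k r ^ 2 := by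
  unfold sn zk
  split_ifs with h
  · subst h; ring
  · have h1 : Real.sinh (k * r) ^ 2 = Real.cosh (k * r) ^ 2 - 1 := by
      rw [Real.cosh_sq]; ring
    rw [div_pow, h1]
    field_simp
    ring

theorem hasDerivAt_zk (k r : ℝ) : HasDerivAt (zk k) (sn k r) r := by
  unfold zk sn
  by_cases h : k = 0
  · simp only [h, if_true]
    have := ((hasDerivAt_id r).pow 2).div_const 2
    simpa using this
  · simp only [h, if_false]
    have h1 : HasDerivAt (fun r => Real.cosh (k * r)) (Real.sinh (k * r) * (k * 1)) r :=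
      ((hasDerivAt_id r).const_mul k).cosh
    have h2 := (h1.sub_const 1).div_const (k ^ 2)
    refine h2.congr_deriv ?_
    field_simp

theorem hasDerivAt_sn (k r : ℝ) : HasDerivAt (sn k) (1 + k ^ 2 * zk k r) r := by
  unfold zk sn
  by_cases h : k = 0
  · simp only [h, if_true]
    refine (hasDerivAt_id' r).congr_deriv ?_
    simp
  · simp only [h, if_false]
    have h1 : HasDerivAt (fun r => Real.sinh (k * r)) (Real.cosh (k * r) * (k * 1)) r :=
      ((hasDerivAt_id r).const_mul k).sinh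
    have h2 := h1.div_const k
    refine h2.congr_deriv ?_
    field_simp
    ring

theorem continuous_zk (k : ℝ) : Continuous (zk k) :=
  continuous_iff_continuousAt.2 fun r => (hasDerivAt_zk k r).continuousAt

theorem continuous_sn (k : ℝ) : Continuous (sn k) :=
  continuous_iff_continuousAt.2 fun r => (hasDerivAt_sn k r).continuousAt

/-- Upper bound for small radii. -/
theorem zk_le_of_small {k : ℝ} {r : ℝ} (hr : k ^ 2 * r ^ 2 ≤ 2) :
    zk k r ≤ r ^ 2 / 2 + k ^ 2 * r ^ 4 / 4 := by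
  unfold zk
  split_ifs with h
  · subst h; simp
  · have hk2 : 0 < k ^ 2 := by positivity
    rw [div_le_iff₀ hk2]
    have h1 := Real.cosh_le_exp_half_sq (k * r)
    set t := (k * r) ^ 2 / 2 with ht
    have ht0 : 0 ≤ t := by positivity
    have ht1 : t ≤ 1 := by rw [ht, mul_pow]; linarith
    have h2 : Real.exp t ≤ 1 + t + t ^ 2 := by
      have := Real.abs_exp_sub_one_sub_id_le (x := t) (by rw [abs_of_nonneg ht0]; exact ht1)
      have := (abs_le.1 this).2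
      linarith
    have h3 : t + t ^ 2 = (r ^ 2 / 2 + k ^ 2 * r ^ 4 / 4) * k ^ 2 := by
      rw [ht]; ring
    linarith

/-! ### The two-point inequality -/

/-- Hyperbolic two-point comparison, `k > 0` or `k = 0`, in the multiplied form. -/
theorem two_point_sn {k : ℝ} (hk : 0 ≤ k) (C : CATk k X) (x y y' : X) {s s' : ℝ}
    (hs : s ∈ Icc (0 : ℝ) 1) (hs' : s' ∈ Icc (0 : ℝ) 1) :
    sn k (dist x y) * sn k (dist x y') *
        (zk k (dist (C.geo x y s) (C.geo x y' s')) - zk k (s * dist x y - s' * dist x y')) ≤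
      sn k (s * dist x y) * sn k (s' * dist x y') *
        (zk k (dist y y') - zk k (dist x y - dist x y')) := by
  set D := dist x y with hD
  set D' := dist x y' with hD'
  have hD0 : 0 ≤ D := dist_nonneg
  have hD0' : 0 ≤ D' := dist_nonneg
  rcases hk.eq_or_lt with h | hk'
  · subst h
    simp only [sn_zero_left, zk_zero_left]
    have h1 := two_point C x y y' hs hs'
    have h2 := mul_le_mul_of_nonneg_left h1 (mul_nonneg hD0 hD0')
    nlinarith [h2]
  · have hk0 : k ≠ 0 := hk'.ne'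
    have c1 := C.catk (C.geo x y s) x y' s' hs'
    have c2 := C.catk y' x y s hs
    rw [dist_comm (C.geo x y s) x, dist_left C hs] at c1
    rw [dist_comm y' x, dist_comm y' y, dist_comm y' (C.geo x y s)] at c2
    rw [← hD, ← hD'] at c1 c2
    set P := Real.cosh (k * dist (C.geo x y s) (C.geo x y' s')) with hP
    set M := Real.cosh (k * dist (C.geo x y s) y') with hM
    set Y := Real.cosh (k * dist y y') with hY
    have hsa : 0 ≤ Real.sinh (k * D) := Real.sinh_nonneg_iff.2 (mul_nonneg hk hD0)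
    have hss' : 0 ≤ Real.sinh (s' * (k * D')) :=
      Real.sinh_nonneg_iff.2 (mul_nonneg hs'.1 (mul_nonneg hk hD0'))
    have key : Real.sinh (k * D) * Real.sinh (k * D') *
        (P - Real.cosh (k * (s * D - s' * D'))) ≤
        Real.sinh (k * (s * D)) * Real.sinh (k * (s' * D')) *
          (Y - Real.cosh (k * (D - D'))) := by
      have a1 := mul_le_mul_of_nonneg_left c1 hsa
      have a2 := mul_le_mul_of_nonneg_left c2 hss'
      -- expansions
      have e1 : Real.sinh ((1 - s') * (k * D')) =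
          Real.sinh (k * D') * Real.cosh (s' * (k * D'))
            - Real.cosh (k * D') * Real.sinh (s' * (k * D')) := by
        rw [show (1 - s') * (k * D') = k * D' - s' * (k * D') by ring, Real.sinh_sub]
      have e2 : Real.sinh ((1 - s) * (k * D)) =
          Real.sinh (k * D) * Real.cosh (s * (k * D))
            - Real.cosh (k * D) * Real.sinh (s * (k * D)) := by
        rw [show (1 - s) * (k * D) = k * D - s * (k * D) by ring, Real.sinh_sub]
      have e3 : Real.cosh (k * (s * D - s' * D')) =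
          Real.cosh (s * (k * D)) * Real.cosh (s' * (k * D'))
            - Real.sinh (s * (k * D)) * Real.sinh (s' * (k * D')) := by
        rw [show k * (s * D - s' * D') = s * (k * D) - s' * (k * D') by ring, Real.cosh_sub]
      have e4 : Real.cosh (k * (D - D')) =
          Real.cosh (k * D) * Real.cosh (k * D') - Real.sinh (k * D) * Real.sinh (k * D') := by
        rw [show k * (D - D') = k * D - k * D' by ring, Real.cosh_sub]
      rw [e3, e4, show k * (s * D) = s * (k * D) by ring, show k * (s' * D') = s' * (k * D') by ring]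
      rw [show k * (s * D) = s * (k * D) by ring] at a1
      rw [e1] at a1
      rw [e2] at a2
      linear_combination a1 + a2
    have hk2 : 0 < k ^ 2 := by positivity
    unfold sn zk
    simp only [if_neg hk0]
    have key2 := mul_le_mul_of_nonneg_left key (by positivity : (0 : ℝ) ≤ 1 / (k ^ 2 * k ^ 2))
    calc Real.sinh (k * D) / k * (Real.sinh (k * D') / k) *
          ((P - 1) / k ^ 2 - (Real.cosh (k * (s * D - s' * D')) - 1) / k ^ 2)
        = 1 / (k ^ 2 * k ^ 2) * (Real.sinh (k * D) * Real.sinh (k * D') *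
            (P - Real.cosh (k * (s * D - s' * D')))) := by field_simp; ring
      _ ≤ _ := key2
      _ = Real.sinh (k * (s * D)) / k * (Real.sinh (k * (s' * D')) / k) *
          ((Y - 1) / k ^ 2 - (Real.cosh (k * (D - D')) - 1) / k ^ 2) := by field_simp; ring

/-! ### The point of the segment `[x,y]` at distance `ρ` from `x` -/

/-- the point of `[x,y]` at distance `ρ` from `x` (for `0 ≤ ρ ≤ dist x y`) -/
noncomputable def pt {k : ℝ} (C : CATk k X) (x y : X) (ρ : ℝ) : X := C.geo x y (ρ / dist x y)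

theorem div_mem {D ρ : ℝ} (h0 : 0 ≤ ρ) (h1 : ρ ≤ D) : ρ / D ∈ Icc (0 : ℝ) 1 := by
  have hD : 0 ≤ D := h0.trans h1
  exact ⟨div_nonneg h0 hD, div_le_one_of_le₀ h1 hD⟩

theorem div_mul_self' {D ρ : ℝ} (h0 : 0 ≤ ρ) (h1 : ρ ≤ D) : ρ / D * D = ρ := by
  rcases eq_or_ne D 0 with h | h
  · subst h; have : ρ = 0 := le_antisymm h1 h0; simp [this]
  · exact div_mul_cancel₀ ρ h

theorem pt_zero {k : ℝ} (C : CATk k X) (x y : X) : pt C x y 0 = x := by
  simp [pt, C.geo_zero]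

theorem pt_dist {k : ℝ} (C : CATk k X) (x y : X) : pt C x y (dist x y) = y := by
  unfold pt
  rcases eq_or_ne (dist x y) 0 with h | h
  · rw [h, zero_div, C.geo_zero]; exact dist_eq_zero.1 h
  · rw [div_self h, C.geo_one]

theorem dist_pt {k : ℝ} (C : CATk k X) {x y : X} {ρ : ℝ} (h0 : 0 ≤ ρ) (h1 : ρ ≤ dist x y) :
    dist x (pt C x y ρ) = ρ := by
  unfold pt
  rw [dist_left C (div_mem h0 h1), div_mul_self' h0 h1]

theorem dist_pt_right {k : ℝ} (C : CATk k X) {x y : X} {ρ : ℝ} (h0 : 0 ≤ ρ)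
    (h1 : ρ ≤ dist x y) : dist (pt C x y ρ) y = dist x y - ρ := by
  unfold pt
  rw [dist_right C (div_mem h0 h1), sub_mul, div_mul_self' h0 h1, one_mul]

theorem pt_two_point_sn {k : ℝ} (hk : 0 ≤ k) (C : CATk k X) {x y y' : X} {ρ ρ' : ℝ}
    (h0 : 0 ≤ ρ) (h1 : ρ ≤ dist x y) (h0' : 0 ≤ ρ') (h1' : ρ' ≤ dist x y') :
    sn k (dist x y) * sn k (dist x y') *
        (zk k (dist (pt C x y ρ) (pt C x y' ρ')) - zk k (ρ - ρ')) ≤
      sn k ρ * sn k ρ' * (zk k (dist y y') - zk k (dist x y - dist x y')) := by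
  have := two_point_sn hk C x y y' (div_mem h0 h1) (div_mem h0' h1')
  rw [div_mul_self' h0 h1, div_mul_self' h0' h1'] at this
  exact this

/-- CAT(0) form, without division. -/
theorem pt_two_point {k : ℝ} (C : CATk k X) {x y y' : X} {ρ ρ' : ℝ}
    (h0 : 0 ≤ ρ) (h1 : ρ ≤ dist x y) (h0' : 0 ≤ ρ') (h1' : ρ' ≤ dist x y') :
    dist (pt C x y ρ) (pt C x y' ρ') ^ 2 ≤
      (ρ - ρ') ^ 2 + (dist y y' ^ 2 - (dist x y - dist x y') ^ 2) := by
  have h := two_point C x y y' (div_mem h0 h1) (div_mem h0' h1')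
  have e1 := div_mul_self' h0 h1
  have e1' := div_mul_self' h0' h1'
  have m1 := div_mem h0 h1
  have m1' := div_mem h0' h1'
  set s := ρ / dist x y with hs
  set s' := ρ' / dist x y' with hs'
  set D := dist x y with hD
  set D' := dist x y' with hD'
  have hpos : 0 ≤ dist y y' ^ 2 - (D - D') ^ 2 := by
    have : |D - D'| ≤ dist y y' := by
      rw [hD, hD', dist_comm x y, dist_comm x y']
      exact abs_dist_sub_le y y' x
    have h3 := pow_le_pow_left₀ (abs_nonneg _) this 2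
    rw [sq_abs] at h3
    linarith
  have hss : s * s' ≤ 1 := mul_le_one₀ m1.2 m1'.1 m1'.2
  have h4 : s * s' * (dist y y' ^ 2 - (D - D') ^ 2) ≤ 1 * (dist y y' ^ 2 - (D - D') ^ 2) :=
    mul_le_mul_of_nonneg_right hss hpos
  have e : s * s' * dist y y' ^ 2 + (s - s') * (s * D ^ 2 - s' * D' ^ 2) =
      (s * D - s' * D') ^ 2 + s * s' * (dist y y' ^ 2 - (D - D') ^ 2) := by ring
  have h' : dist (pt C x y ρ) (pt C x y' ρ') ^ 2 ≤
      (s * D - s' * D') ^ 2 + s * s' * (dist y y' ^ 2 - (D - D') ^ 2) := by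
    rw [← e]; exact h
  rw [e1, e1'] at h'
  linarith

/-- Lipschitz bound for `y ↦ pt x y (ρ y)`. -/
theorem dist_pt_pt_le {k : ℝ} (C : CATk k X) {x y y' : X} {ρ ρ' L : ℝ}
    (h0 : 0 ≤ ρ) (h1 : ρ ≤ dist x y) (h0' : 0 ≤ ρ') (h1' : ρ' ≤ dist x y')
    (hL : |ρ - ρ'| ≤ L * dist y y') :
    dist (pt C x y ρ) (pt C x y' ρ') ≤ √(1 + L ^ 2) * dist y y' := by
  have h := pt_two_point C h0 h1 h0' h1'
  have h2 : (ρ - ρ') ^ 2 ≤ (L * dist y y') ^ 2 := by
    rw [← sq_abs (ρ - ρ')]; exact pow_le_pow_left₀ (abs_nonneg _) hL 2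
  have h3 : dist (pt C x y ρ) (pt C x y' ρ') ^ 2 ≤ (√(1 + L ^ 2) * dist y y') ^ 2 := by
    rw [mul_pow, Real.sq_sqrt (by positivity)]
    nlinarith [sq_nonneg (dist x y - dist x y')]
  exact le_of_sq_le_sq h3 (by positivity)

/-- If `|ρ - ρ'| ≤ |dist x y - dist x y'|` the map is 1-Lipschitz. -/
theorem dist_pt_pt_le_one {k : ℝ} (C : CATk k X) {x y y' : X} {ρ ρ' : ℝ}
    (h0 : 0 ≤ ρ) (h1 : ρ ≤ dist x y) (h0' : 0 ≤ ρ') (h1' : ρ' ≤ dist x y')
    (hL : |ρ - ρ'| ≤ |dist x y - dist x y'|) :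
    dist (pt C x y ρ) (pt C x y' ρ') ≤ dist y y' := by
  have h := pt_two_point C h0 h1 h0' h1'
  have h2 : (ρ - ρ') ^ 2 ≤ (dist x y - dist x y') ^ 2 := by
    rw [← sq_abs (ρ - ρ'), ← sq_abs (dist x y - dist x y')]
    exact pow_le_pow_left₀ (abs_nonneg _) hL 2
  exact le_of_sq_le_sq (by linarith) dist_nonneg

/-- The radial 1-Lipschitz retraction onto `closedBall x R`. -/
noncomputable def retr {k : ℝ} (C : CATk k X) (x : X) (R : ℝ) (y : X) : X :=
  pt C x y (min R (dist x y))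

theorem retr_lipschitz {k : ℝ} (C : CATk k X) (x : X) {R : ℝ} (hR : 0 ≤ R) :
    LipschitzWith 1 (retr C x R) := by
  apply LipschitzWith.of_dist_le_mul
  intro y y'
  rw [NNReal.coe_one, one_mul]
  apply dist_pt_pt_le_one C (le_min hR dist_nonneg) (min_le_right _ _) (le_min hR dist_nonneg)
    (min_le_right _ _)
  exact (abs_min_sub_min_le_max R (dist x y) R (dist x y')).trans (by simp)

theorem retr_mem {k : ℝ} (C : CATk k X) (x : X) {R : ℝ} (hR : 0 ≤ R) (y : X) :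
    retr C x R y ∈ Metric.closedBall x R := by
  rw [Metric.mem_closedBall, dist_comm]
  unfold retr
  rw [dist_pt C (le_min hR dist_nonneg) (min_le_right _ _)]
  exact min_le_left _ _

theorem retr_eq {k : ℝ} (C : CATk k X) (x : X) {R : ℝ} {y : X}
    (hy : y ∈ Metric.closedBall x R) : retr C x R y = y := by
  rw [Metric.mem_closedBall, dist_comm] at hy
  unfold retr
  rw [min_eq_right hy, pt_dist]

/-! ### Infinitesimal form along a chart -/

section infinitesimal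

variable {V : Type*} [NormedAddCommGroup V] [NormedSpace ℝ V]

theorem sq_sub_sq_small {E : Set V} {z : V} {u : V → ℝ} {u' : V →L[ℝ] ℝ}
    (hu : HasFDerivWithinAt u u' E z) {δ : ℝ} (hδ : 0 < δ) :
    ∀ᶠ w in 𝓝[E] z, |(u w - u z) ^ 2 - (u' (w - z)) ^ 2| ≤ δ * ‖w - z‖ ^ 2 := by
  set B : ℝ := 2 * ‖u'‖ + 1 with hB
  have hBpos : 0 < B := by positivity
  set η : ℝ := min 1 (δ / B) with hη
  have hηpos : 0 < η := lt_min one_pos (div_pos hδ hBpos)
  have h1 : ∀ᶠ w in 𝓝[E] z, ‖u w - u z - u' (w - z)‖ ≤ η * ‖w - z‖ :=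
    hu.isLittleO.bound hηpos
  filter_upwards [h1] with w hw
  have h2 : ‖u' (w - z)‖ ≤ ‖u'‖ * ‖w - z‖ := u'.le_opNorm _
  set a := u w - u z with ha
  set b := u' (w - z) with hb
  set N := ‖w - z‖ with hN
  have hN0 : 0 ≤ N := norm_nonneg _
  rw [Real.norm_eq_abs] at hw h2
  have h3 : |a + b| ≤ B * N := by
    have : a + b = (a - b) + 2 * b := by ring
    rw [this]
    calc |a - b + 2 * b| ≤ |a - b| + |2 * b| := abs_add_le _ _
      _ ≤ η * N + 2 * (‖u'‖ * N) := by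
          rw [abs_mul, abs_two]; linarith
      _ ≤ 1 * N + 2 * (‖u'‖ * N) := by
          have := mul_le_mul_of_nonneg_right (min_le_left 1 (δ / B)) hN0
          linarith
      _ = B * N := by rw [hB]; ring
  have h4 : a ^ 2 - b ^ 2 = (a - b) * (a + b) := by ring
  rw [h4, abs_mul]
  calc |a - b| * |a + b| ≤ (η * N) * (B * N) :=
        mul_le_mul hw h3 (abs_nonneg _) (mul_nonneg hηpos.le hN0)
    _ = η * B * N ^ 2 := by ring
    _ ≤ δ * N ^ 2 := by
        apply mul_le_mul_of_nonneg_right _ (sq_nonneg _)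
        calc η * B ≤ δ / B * B := mul_le_mul_of_nonneg_right (min_le_right _ _) hBpos.le
          _ = δ := div_mul_cancel₀ _ hBpos.ne'

theorem quart_aux {k M N δ a : ℝ} (hM0 : 0 < M) (hN0 : 0 ≤ N) (hδpos : 0 < δ) (hδ1 : δ ≤ 1)
    (w7 : (k ^ 2 + 1) * (M + 1) ^ 2 * N < δ) (ha : a ^ 2 ≤ M * N) :
    k ^ 2 * a ^ 2 ≤ 2 ∧ k ^ 2 * a ^ 4 / 4 ≤ δ * N := by
  have hMM : M ≤ (M + 1) ^ 2 := by nlinarith
  have h1 : k ^ 2 * a ^ 2 ≤ δ := by
    calc k ^ 2 * a ^ 2 ≤ k ^ 2 * (M * N) := mul_le_mul_of_nonneg_left ha (sq_nonneg _)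
      _ ≤ (k ^ 2 + 1) * ((M + 1) ^ 2 * N) := by
          apply mul_le_mul (by linarith) (mul_le_mul_of_nonneg_right hMM hN0)
            (mul_nonneg hM0.le hN0) (by positivity)
      _ = (k ^ 2 + 1) * (M + 1) ^ 2 * N := by ring
      _ ≤ δ := w7.le
  refine ⟨by linarith, ?_⟩
  have hMM2 : M ^ 2 ≤ (M + 1) ^ 2 := by nlinarith
  have h2 : k ^ 2 * (M * (M * N)) ≤ δ := by
    calc k ^ 2 * (M * (M * N)) = k ^ 2 * (M ^ 2 * N) := by ring
      _ ≤ (k ^ 2 + 1) * ((M + 1) ^ 2 * N) := by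
          apply mul_le_mul (by linarith) (mul_le_mul_of_nonneg_right hMM2 hN0)
            (mul_nonneg (sq_nonneg _) hN0) (by positivity)
      _ = (k ^ 2 + 1) * (M + 1) ^ 2 * N := by ring
      _ ≤ δ := w7.le
  have h3 : a ^ 4 ≤ (M * N) ^ 2 := by
    have := pow_le_pow_left₀ (sq_nonneg a) ha 2
    calc a ^ 4 = (a ^ 2) ^ 2 := by ring
      _ ≤ _ := this
  calc k ^ 2 * a ^ 4 / 4 ≤ k ^ 2 * (M * N) ^ 2 / 4 := by
        have := mul_le_mul_of_nonneg_left h3 (sq_nonneg k); linarith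
    _ = (k ^ 2 * (M * (M * N))) * N / 4 := by ring
    _ ≤ δ * N / 4 := by
        have := mul_le_mul_of_nonneg_right h2 hN0; linarith
    _ ≤ δ * N := by
        have := mul_nonneg hδpos.le hN0; linarith

set_option maxHeartbeats 1000000 in
/-- **Infinitesimal contraction.**  If `dist (φ w) (φ z)² ≤ g (w - z) + o(|w-z|²)` along `E` and
`ψ w` is the point of `[x, φ w]` at distance `ρ w` from `x`, then
`dist (ψ w) (ψ z)² ≤ (ρ'(w-z))² + (sn ρ / sn r)² (g (w-z) - (r'(w-z))²) + o(|w-z|²)`. -/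
theorem infinitesimal {k : ℝ} (hk : 0 ≤ k) (C : CATk k X) (x : X) {E : Set V} {z : V}
    {φ : V → X} {g : V → ℝ} {B : ℝ} (hB : ∀ v, |g v| ≤ B * ‖v‖ ^ 2)
    (hφ : ∀ ε > 0, ∀ᶠ w in 𝓝[E] z, dist (φ w) (φ z) ^ 2 ≤ g (w - z) + ε * ‖w - z‖ ^ 2)
    {ρ : V → ℝ} {ρ' r' : V →L[ℝ] ℝ} (hρ : HasFDerivWithinAt ρ ρ' E z)
    (hr : HasFDerivWithinAt (fun w => dist x (φ w)) r' E z)
    (hρ0 : ∀ᶠ w in 𝓝[E] z, 0 ≤ ρ w ∧ ρ w ≤ dist x (φ w))
    (hρz : 0 ≤ ρ z ∧ ρ z ≤ dist x (φ z)) (hxz : x ≠ φ z) {ε : ℝ} (hε : 0 < ε) :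
    ∀ᶠ w in 𝓝[E] z, dist (pt C x (φ w) (ρ w)) (pt C x (φ z) (ρ z)) ^ 2 ≤
      (ρ' (w - z)) ^ 2 + (sn k (ρ z) / sn k (dist x (φ z))) ^ 2 * (g (w - z) - (r' (w - z)) ^ 2)
        + ε * ‖w - z‖ ^ 2 := by
  set B' : ℝ := |B| + ‖r'‖ ^ 2 with hB'
  have hB'0 : 0 ≤ B' := by positivity
  set δ : ℝ := min 1 (ε / (7 + B')) with hδ
  have hδpos : 0 < δ := lt_min one_pos (div_pos hε (by positivity))
  have hδ1 : δ ≤ 1 := min_le_left _ _
  have hδε : (7 + B') * δ ≤ ε := by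
    calc (7 + B') * δ ≤ (7 + B') * (ε / (7 + B')) :=
          mul_le_mul_of_nonneg_left (min_le_right _ _) (by positivity)
      _ = ε := mul_div_cancel₀ _ (by positivity)
  set D := dist x (φ z) with hD
  have hDpos : 0 < D := dist_pos.2 hxz
  set c0 : ℝ := (sn k (ρ z) / sn k D) ^ 2 with hc0
  have hsnD : 0 < sn k D := sn_pos hk hDpos
  -- continuity statements
  have hDw : Tendsto (fun w => dist x (φ w)) (𝓝[E] z) (𝓝 D) := hr.continuousWithinAt
  have hρw : Tendsto ρ (𝓝[E] z) (𝓝 (ρ z)) := hρ.continuousWithinAt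
  have hDwpos : ∀ᶠ w in 𝓝[E] z, 0 < dist x (φ w) := hDw.eventually (lt_mem_nhds hDpos)
  have hc : Tendsto (fun w => sn k (ρ w) * sn k (ρ z) / (sn k (dist x (φ w)) * sn k D))
      (𝓝[E] z) (𝓝 c0) := by
    have h1 : Tendsto (fun w => sn k (ρ w) * sn k (ρ z)) (𝓝[E] z)
        (𝓝 (sn k (ρ z) * sn k (ρ z))) :=
      (((continuous_sn k).tendsto _).comp hρw).mul tendsto_const_nhds
    have h2 : Tendsto (fun w => sn k (dist x (φ w)) * sn k D) (𝓝[E] z)
        (𝓝 (sn k D * sn k D)) :=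
      (((continuous_sn k).tendsto _).comp hDw).mul tendsto_const_nhds
    have h3 := h1.div h2 (mul_pos hsnD hsnD).ne'
    have : c0 = sn k (ρ z) * sn k (ρ z) / (sn k D * sn k D) := by
      rw [hc0, div_pow]; ring
    rw [this]
    exact h3
  have hc' : ∀ᶠ w in 𝓝[E] z,
      |sn k (ρ w) * sn k (ρ z) / (sn k (dist x (φ w)) * sn k D) - c0| < δ := by
    have := hc.eventually (Metric.ball_mem_nhds c0 hδpos)
    simpa [Metric.mem_ball, Real.dist_eq] using this
  have hsmall : Tendsto (fun w => ‖w - z‖) (𝓝[E] z) (𝓝 0) := by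
    have : Tendsto (fun w => ‖w - z‖) (𝓝 z) (𝓝 ‖z - z‖) := by
      exact (continuous_norm.comp (continuous_id.sub continuous_const)).tendsto z
    rw [sub_self, norm_zero] at this
    exact this.mono_left nhdsWithin_le_nhds
  -- quantities controlled by a multiple of ‖w - z‖²
  set M : ℝ := |B| + 1 + (‖ρ'‖ ^ 2 + 1) with hM
  have hM0 : 0 < M := by positivity
  have hN1 : ∀ᶠ w in 𝓝[E] z, (k ^ 2 + 1) * (M + 1) ^ 2 * ‖w - z‖ ^ 2 < δ := by
    have h1 : Tendsto (fun w => (k ^ 2 + 1) * (M + 1) ^ 2 * ‖w - z‖ ^ 2) (𝓝[E] z)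
        (𝓝 ((k ^ 2 + 1) * (M + 1) ^ 2 * 0 ^ 2)) :=
      (hsmall.pow 2).const_mul _
    have h2 : (k ^ 2 + 1) * (M + 1) ^ 2 * (0 : ℝ) ^ 2 < δ := by simpa using hδpos
    exact h1.eventually (gt_mem_nhds h2)
  filter_upwards [hφ δ hδpos, sq_sub_sq_small hρ hδpos, sq_sub_sq_small hr hδpos, hρ0, hDwpos,
    hc', hN1] with w w1 w2 w3 w4 w5 w6 w7
  set N := ‖w - z‖ ^ 2 with hN
  have hN0 : 0 ≤ N := sq_nonneg _
  set G := g (w - z) with hG
  have hGB : |G| ≤ |B| * N := (hB _).trans (mul_le_mul_of_nonneg_right (le_abs_self _) hN0)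
  set Dw := dist x (φ w) with hDw'
  set Y := dist (φ w) (φ z) with hY
  set P := dist (pt C x (φ w) (ρ w)) (pt C x (φ z) (ρ z)) with hP
  have hY0 : 0 ≤ Y := dist_nonneg
  have hr'N : (r' (w - z)) ^ 2 ≤ ‖r'‖ ^ 2 * N := by
    rw [← sq_abs, ← Real.norm_eq_abs, hN, ← mul_pow]
    exact pow_le_pow_left₀ (norm_nonneg _) (r'.le_opNorm _) 2
  have hρ'N : (ρ' (w - z)) ^ 2 ≤ ‖ρ'‖ ^ 2 * N := by
    rw [← sq_abs, ← Real.norm_eq_abs, hN, ← mul_pow]
    exact pow_le_pow_left₀ (norm_nonneg _) (ρ'.le_opNorm _) 2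
  -- the two point inequality
  have tp := pt_two_point_sn hk C w4.1 w4.2 hρz.1 hρz.2
  rw [← hD, ← hDw', ← hY, ← hP] at tp
  have hsnDw : 0 < sn k Dw := sn_pos hk w5
  set c := sn k (ρ w) * sn k (ρ z) / (sn k Dw * sn k D) with hcdef
  have hden : 0 < sn k Dw * sn k D := mul_pos hsnDw hsnD
  have hc_nonneg : 0 ≤ c := div_nonneg (mul_nonneg (sn_nonneg hk w4.1) (sn_nonneg hk hρz.1)) hden.le
  have hc_le : c ≤ 1 := by
    rw [hcdef, div_le_one hden]
    exact mul_le_mul (sn_mono hk w4.2) (sn_mono hk hρz.2) (sn_nonneg hk hρz.1) hsnDw.le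
  have tp2 : zk k P ≤ zk k (ρ w - ρ z) + c * (zk k Y - zk k (Dw - D)) := by
    have h1 : (sn k Dw * sn k D) * (zk k P - zk k (ρ w - ρ z)) ≤
        (sn k Dw * sn k D) * (c * (zk k Y - zk k (Dw - D))) := by
      have : (sn k Dw * sn k D) * (c * (zk k Y - zk k (Dw - D))) =
          sn k (ρ w) * sn k (ρ z) * (zk k Y - zk k (Dw - D)) := by
        rw [hcdef]; field_simp
      rw [this]; exact tp
    have := le_of_mul_le_mul_left h1 hden
    linarith
  -- bounds of the individual terms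
  have hY2 : Y ^ 2 ≤ (|B| + 1) * N := by
    have := (abs_le.1 hGB).2
    have h2 : δ * N ≤ 1 * N := mul_le_mul_of_nonneg_right hδ1 hN0
    linarith
  have hR2 : (ρ w - ρ z) ^ 2 ≤ (‖ρ'‖ ^ 2 + 1) * N := by
    have := (abs_le.1 w2).2
    have h2 : δ * N ≤ 1 * N := mul_le_mul_of_nonneg_right hδ1 hN0
    linarith
  have quart : ∀ a : ℝ, a ^ 2 ≤ M * N → k ^ 2 * a ^ 2 ≤ 2 ∧ k ^ 2 * a ^ 4 / 4 ≤ δ * N :=
    fun a ha => quart_aux hM0 hN0 hδpos hδ1 w7 ha
  have hBB : (|B| + 1) * N ≤ M * N := mul_le_mul_of_nonneg_right (by rw [hM]; nlinarith [sq_nonneg ‖ρ'‖]) hN0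
  have hBB' : (‖ρ'‖ ^ 2 + 1) * N ≤ M * N :=
    mul_le_mul_of_nonneg_right (by rw [hM]; nlinarith [abs_nonneg B]) hN0
  obtain ⟨qY1, qY2⟩ := quart Y (hY2.trans hBB)
  obtain ⟨qR1, qR2⟩ := quart (ρ w - ρ z) (hR2.trans hBB')
  have zY : zk k Y ≤ Y ^ 2 / 2 + δ * N := (zk_le_of_small qY1).trans (by linarith)
  have zR : zk k (ρ w - ρ z) ≤ (ρ w - ρ z) ^ 2 / 2 + δ * N := (zk_le_of_small qR1).trans (by linarith)
  have zD : (Dw - D) ^ 2 / 2 ≤ zk k (Dw - D) := half_sq_le_zk hk _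
  have zP : P ^ 2 / 2 ≤ zk k P := half_sq_le_zk hk _
  have w2' := abs_le.1 w2
  have w3' := abs_le.1 w3
  have hb : zk k Y - zk k (Dw - D) ≤ (G - (r' (w - z)) ^ 2) / 2 + 2 * (δ * N) := by
    have h1 : (r' (w - z)) ^ 2 - δ * N ≤ (Dw - D) ^ 2 := by linarith [w3'.1]
    linarith
  have hcb : c * (zk k Y - zk k (Dw - D)) ≤
      c0 * ((G - (r' (w - z)) ^ 2) / 2) + δ * (B' * N) / 2 + 2 * (δ * N) := by
    have h1 : c * (zk k Y - zk k (Dw - D)) ≤
        c * ((G - (r' (w - z)) ^ 2) / 2 + 2 * (δ * N)) :=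
      mul_le_mul_of_nonneg_left hb hc_nonneg
    have h2 : c * (2 * (δ * N)) ≤ 1 * (2 * (δ * N)) :=
      mul_le_mul_of_nonneg_right hc_le (by positivity)
    have h3 : (c - c0) * (G - (r' (w - z)) ^ 2) ≤ δ * (B' * N) := by
      have h4 : |G - (r' (w - z)) ^ 2| ≤ B' * N := by
        calc |G - (r' (w - z)) ^ 2| ≤ |G| + |(r' (w - z)) ^ 2| := abs_sub _ _
          _ ≤ |B| * N + ‖r'‖ ^ 2 * N := by
              rw [abs_of_nonneg (sq_nonneg (r' (w - z)))]; linarith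
          _ = B' * N := by rw [hB']; ring
      calc (c - c0) * (G - (r' (w - z)) ^ 2) ≤ |(c - c0) * (G - (r' (w - z)) ^ 2)| := le_abs_self _
        _ = |c - c0| * |G - (r' (w - z)) ^ 2| := abs_mul _ _
        _ ≤ δ * (B' * N) := mul_le_mul w6.le h4 (abs_nonneg _) hδpos.le
    linarith [h1, h2, h3]
  have hfin : P ^ 2 ≤ (ρ' (w - z)) ^ 2 + c0 * (G - (r' (w - z)) ^ 2) + (7 + B') * δ * N := by
    linarith [tp2, hcb, zR, zP, w2'.2]
  calc P ^ 2 ≤ _ := hfin
    _ ≤ (ρ' (w - z)) ^ 2 + c0 * (G - (r' (w - z)) ^ 2) + ε * N := by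
        have := mul_le_mul_of_nonneg_right hδε hN0
        linarith

end infinitesimal

end Crest.Agent.R241.Cat2
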