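import Mathlib
import Crest.Agent.R241.A5
import Crest.Agent.R241.Cat3

/-!
R241, block A5 (glue): `CATk k X` and compactness imply `A.CatD k X` and `HasContr k X`;
the same for compact convex subsets.
-/

set_option autoImplicit false

universe u

namespace Crest.Agent.R241.A5

open MeasureTheory Set Filter Topology
open scoped NNReal ENNReal RealInnerProductSpace

/-- `CATk` and compact give the derivative form `CatD`. -/
theorem catD_of_CATk {k : ℝ} (hk : 0 ≤ k) {X : Type u} [MetricSpace X] [CompactSpace X]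
    (C : CATk k X) : A.CatD k X := by
  letI : MeasurableSpace X := borel X
  haveI : BorelSpace X := ⟨rfl⟩
  obtain ⟨M, -, hM⟩ := exists_bound (K := X) k
  refine catD_of_cat k hk M hM (fun x p s hs => ⟨C.geo x p s, fun y => ⟨?_, ?_⟩⟩)
  · exact C.cat0 y x p s hs
  · exact C.catk y x p s hs

/-- `CatD` is `HasContr`. -/
theorem hasContr_of_catD {k : ℝ} {X : Type u} [MetricSpace X] (h : A.CatD k X) :
    HasContr k X := by
  intro x y'
  obtain ⟨C, hC⟩ := h x y'
  refine ⟨C, 1, one_pos, fun σ hσ => ?_⟩
  obtain ⟨xσ, hx⟩ := hC σ hσ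
  refine ⟨xσ, fun y => ?_⟩
  have h1 := hx y
  simp only [A.zd, A_zk_eq] at h1
  linarith

theorem hasContr_of_CATk {k : ℝ} (hk : 0 ≤ k) {X : Type u} [MetricSpace X] [CompactSpace X]
    (C : CATk k X) : HasContr k X := hasContr_of_catD (catD_of_CATk hk C)

/-- Compact convex subsets. -/
theorem catD_of_isConv {k : ℝ} (hk : 0 ≤ k) {X : Type u} [MetricSpace X] (C : CATk k X)
    {K : Set X} [CompactSpace K] (hK : C.IsConv K) : A.CatD k K :=
  catD_of_CATk hk (Cat3.restrict C hK)

theorem hasContr_of_isConv {k : ℝ} (hk : 0 ≤ k) {X : Type u} [MetricSpace X] (C : CATk k X)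
    {K : Set X} [CompactSpace K] (hK : C.IsConv K) : HasContr k K :=
  hasContr_of_catD (catD_of_isConv hk C hK)

/-- The centre inequality on compact convex subsets. -/
theorem centre_of_isConv {k : ℝ} (hk : 0 ≤ k) {X : Type u} [MetricSpace X] [MeasurableSpace X]
    [BorelSpace X] (C : CATk k X) {K : Set X} [CompactSpace K] (hK : C.IsConv K) :
    A.T_centre k K :=
  centre k hk (catD_of_isConv hk C hK)

end Crest.Agent.R241.A5
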