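import Crest.Agent.R241.ABasic

/-!
R241, Theorem A, block A6: finite sums in the form `⟨f,g⟩ = ∫ G f g + b f g`; the "free Ekeland"
inequality.
-/

set_option autoImplicit false

namespace Crest.Agent.R241.A6

open Crest.Agent.R241.A
open MeasureTheory Set Filter Topology
open scoped NNReal ENNReal

section
variable {K : Type*} [MetricSpace K]

theorem lip_sum {ι : Type*} (s : Finset ι) {f : ι → K → ℝ} (hf : ∀ i ∈ s, Lip (f i)) :
    Lip (fun y => ∑ i ∈ s, f i y) := by
  classical
  induction s using Finset.induction_on with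
  | empty => simpa using Lip.const (K := K) 0
  | insert a s ha ih =>
    simp_rw [Finset.sum_insert ha]
    exact (hf a (Finset.mem_insert_self a s)).add
      (ih fun i hi => hf i (Finset.mem_insert_of_mem hi))
end

section Form
variable {n : ℕ} {k : ℝ} {K : Type*} [MetricSpace K] [CompactSpace K]
  [MeasurableSpace K] [BorelSpace K] (P : PreData n k K)

theorem form_sum_left {ι : Type*} (b : ℝ) (s : Finset ι) {f : ι → K → ℝ} {e : K → ℝ}
    (hf : ∀ i ∈ s, Lip (f i)) (he : Lip e) :
    P.form b (fun y => ∑ i ∈ s, f i y) e = ∑ i ∈ s, P.form b (f i) e := by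
  classical
  induction s using Finset.induction_on with
  | empty =>
    simp only [Finset.sum_empty]
    have := P.form_smul_left b 0 (f := fun _ => (0 : ℝ)) (u := e) (Lip.const 0) he
    simpa using this
  | insert a s ha ih =>
    simp_rw [Finset.sum_insert ha]
    rw [P.form_add_left b (hf a (Finset.mem_insert_self a s))
      (lip_sum s fun i hi => hf i (Finset.mem_insert_of_mem hi)) he,
      ih fun i hi => hf i (Finset.mem_insert_of_mem hi)]

theorem form_sum_right {ι : Type*} (b : ℝ) (s : Finset ι) {f : ι → K → ℝ} {e : K → ℝ}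
    (hf : ∀ i ∈ s, Lip (f i)) (he : Lip e) :
    P.form b e (fun y => ∑ i ∈ s, f i y) = ∑ i ∈ s, P.form b e (f i) := by
  rw [P.form_comm b he (lip_sum s hf), form_sum_left P b s hf he]
  exact Finset.sum_congr rfl fun i hi => P.form_comm b (hf i hi) he

theorem energy_smul (b c : ℝ) {u : K → ℝ} (hu : Lip u) :
    P.energy b (fun y => c * u y) = c ^ 2 * P.energy b u := by
  unfold PreData.energy
  rw [P.form_smul_left b c hu (hu.const_mul c), P.form_smul_right b c hu hu]
  ring

/-- Subgradient of `|v|_q^2` at a positive function of norm one. -/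
theorem norm_sq_subgradient (τ : Measure K) [IsFiniteMeasure τ] {q : ℝ} (hq : 1 < q)
    {u v : K → ℝ} (hu : Continuous u) (hv : Continuous v) (hpos : ∀ y, 0 < u y)
    (hu1 : ∫ y, u y ^ q ∂τ = 1) :
    2 * ∫ y, u y ^ (q - 1) * v y ∂τ - 1 ≤ (∫ y, |v y| ^ q ∂τ) ^ (2 / q) := by
  have hq0 : 0 < q := by linarith
  have hq1 : 0 < q - 1 := by linarith
  have hconj : (q / (q - 1)).HolderConjugate q := by
    rw [Real.holderConjugate_iff]
    constructor
    · rw [lt_div_iff₀ hq1]; linarith
    · field_simp; ring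
  have hcont1 : Continuous fun y => u y ^ (q - 1) :=
    hu.rpow_const fun y => Or.inl (hpos y).ne'
  have hL1 : MemLp (fun y => u y ^ (q - 1)) (ENNReal.ofReal (q / (q - 1))) τ :=
    hcont1.memLp_of_hasCompactSupport (HasCompactSupport.of_compactSpace _)
  have hL2 : MemLp (fun y => |v y|) (ENNReal.ofReal q) τ :=
    (continuous_abs.comp hv).memLp_of_hasCompactSupport (HasCompactSupport.of_compactSpace _)
  have hH := integral_mul_le_Lp_mul_Lq_of_nonneg (μ := τ) hconj
    (f := fun y => u y ^ (q - 1)) (g := fun y => |v y|)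
    (Eventually.of_forall fun y => (Real.rpow_pos_of_pos (hpos y) _).le)
    (Eventually.of_forall fun y => abs_nonneg _) hL1 hL2
  have e1 : ∫ y, (u y ^ (q - 1)) ^ (q / (q - 1)) ∂τ = 1 := by
    refine Eq.trans (integral_congr_ae (Eventually.of_forall fun y => ?_)) hu1
    simp only
    rw [← Real.rpow_mul (hpos y).le]
    congr 1
    field_simp
  rw [e1, Real.one_rpow, one_mul] at hH
  have h2 : ∫ y, u y ^ (q - 1) * v y ∂τ ≤ ∫ y, u y ^ (q - 1) * |v y| ∂τ := by
    refine integral_mono ?_ ?_ fun y => ?_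
    · exact (hcont1.mul hv).integrable_of_hasCompactSupport (HasCompactSupport.of_compactSpace _)
    · exact (hcont1.mul (continuous_abs.comp hv)).integrable_of_hasCompactSupport
        (HasCompactSupport.of_compactSpace _)
    · exact mul_le_mul_of_nonneg_left (le_abs_self _) (Real.rpow_pos_of_pos (hpos y) _).le
  set I : ℝ := ∫ y, |v y| ^ q ∂τ with hI
  have hI0 : 0 ≤ I := integral_nonneg fun y => Real.rpow_nonneg (abs_nonneg _) _
  have h3 : I ^ (2 / q) = (I ^ (1 / q)) ^ 2 := by
    rw [← Real.rpow_natCast, ← Real.rpow_mul hI0]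
    congr 1
    push_cast
    ring
  rw [h3]
  have h4 : ∫ y, u y ^ (q - 1) * v y ∂τ ≤ I ^ (1 / q) := h2.trans hH
  nlinarith [sq_nonneg (I ^ (1 / q) - 1)]

/-- (EK), "free Ekeland": for an `ε`-near-minimiser of `E(v)/|v|_q²`. -/
theorem free_ekeland {b q Q ε : ℝ} (hb : 0 ≤ b) (hq : 1 < q) (hQ : 0 ≤ Q)
    (hmin : ∀ v : K → ℝ, Lip v → Q * (∫ y, |v y| ^ q ∂P.τ) ^ (2 / q) ≤ P.energy b v)
    {u : K → ℝ} (hu : Lip u) (hpos : ∀ y, 0 < u y) (hu1 : ∫ y, u y ^ q ∂P.τ = 1)
    (huE : P.energy b u ≤ Q + ε) {η : K → ℝ} (hη : Lip η) :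
    (P.form b u η - Q * ∫ y, u y ^ (q - 1) * η y ∂P.τ) ^ 2 ≤ ε * P.energy b η := by
  set X : ℝ := P.form b u η - Q * ∫ y, u y ^ (q - 1) * η y ∂P.τ with hX
  set E : ℝ := P.energy b η with hE
  have hE0 : 0 ≤ E := P.energy_nonneg hb hη
  have hucont := hu.continuous
  have hηcont := hη.continuous
  have hcont1 : Continuous fun y => u y ^ (q - 1) :=
    hucont.rpow_const fun y => Or.inl (hpos y).ne'
  have hquad : ∀ s : ℝ, 0 ≤ E * (s * s) + (2 * X) * s + ε := by
    intro s
    have hv := hu.add (hη.const_mul s)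
    have h1 := hmin _ hv
    have h2 := norm_sq_subgradient P.τ hq hucont (hv.continuous) hpos hu1
    have h3 : ∫ y, u y ^ (q - 1) * (u y + s * η y) ∂P.τ =
        1 + s * ∫ y, u y ^ (q - 1) * η y ∂P.τ := by
      have i1 : Integrable (fun y => u y ^ q) P.τ :=
        (hucont.rpow_const fun y => Or.inl (hpos y).ne').integrable_of_hasCompactSupport
          (HasCompactSupport.of_compactSpace _)
      have i2 : Integrable (fun y => u y ^ (q - 1) * η y) P.τ :=
        (hcont1.mul hηcont).integrable_of_hasCompactSupport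
          (HasCompactSupport.of_compactSpace _)
      calc ∫ y, u y ^ (q - 1) * (u y + s * η y) ∂P.τ
          = ∫ y, (u y ^ q + s * (u y ^ (q - 1) * η y)) ∂P.τ := by
            refine integral_congr_ae (Eventually.of_forall fun y => ?_)
            simp only
            have : u y ^ q = u y ^ (q - 1) * u y := by
              rw [← Real.rpow_add_one (hpos y).ne']; congr 1; ring
            rw [this]; ring
        _ = 1 + s * ∫ y, u y ^ (q - 1) * η y ∂P.τ := by
            rw [integral_add i1 (i2.const_mul s), integral_const_mul, hu1]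
    rw [h3] at h2
    have h4 := P.energy_add_smul b s hu hη
    rw [h4] at h1
    have h5 : Q * (2 * (1 + s * ∫ y, u y ^ (q - 1) * η y ∂P.τ) - 1) ≤
        Q * (∫ y, |u y + s * η y| ^ q ∂P.τ) ^ (2 / q) := mul_le_mul_of_nonneg_left h2 hQ
    rw [← hE] at h1
    nlinarith
  have hd := discrim_le_zero hquad
  unfold discrim at hd
  nlinarith

end Form

end Crest.Agent.R241.A6
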