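import Crest.Agent.R241.A6Form

/-!
R241, Theorem A, block A6: existence of positive Lipschitz near-minimisers.
-/

set_option autoImplicit false

namespace Crest.Agent.R241.A6

open Crest.Agent.R241.A
open MeasureTheory Set Filter Topology
open scoped NNReal ENNReal

variable {n : ℕ} {k : ℝ} {K : Type*} [MetricSpace K] [CompactSpace K]
  [MeasurableSpace K] [BorelSpace K] (P : PreData n k K)

theorem sqrt_add_lip {δ : ℝ} (hδ : 0 < δ) {v : K → ℝ} (hv : Lip v) :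
    Lip (fun y => √(v y ^ 2 + δ ^ 2)) := by
  obtain ⟨C, hC⟩ := hv
  refine ⟨C, LipschitzWith.of_dist_le_mul fun x y => ?_⟩
  have h1 : ∀ a b : ℝ, √(a ^ 2 + δ ^ 2) ≤ √(b ^ 2 + δ ^ 2) + |a - b| := by
    intro a b
    apply Real.sqrt_le_iff.2
    constructor
    · positivity
    · have hb : |b| ≤ √(b ^ 2 + δ ^ 2) := by
        apply Real.le_sqrt_of_sq_le
        rw [sq_abs]; nlinarith [sq_nonneg δ]
      have h2 := Real.sq_sqrt (show 0 ≤ b ^ 2 + δ ^ 2 by positivity)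
      have h3 : (a - b) * b ≤ |a - b| * |b| := by
        rw [← abs_mul]; exact le_abs_self _
      have h4 : |a - b| * |b| ≤ |a - b| * √(b ^ 2 + δ ^ 2) :=
        mul_le_mul_of_nonneg_left hb (abs_nonneg _)
      nlinarith [sq_abs (a - b)]
  have h2 : dist (√(v x ^ 2 + δ ^ 2)) (√(v y ^ 2 + δ ^ 2)) ≤ |v x - v y| := by
    rw [Real.dist_eq, abs_sub_le_iff]
    constructor
    · have := h1 (v x) (v y); linarith
    · have := h1 (v y) (v x)
      rw [abs_sub_comm] at this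
      linarith
  refine h2.trans ?_
  rw [← Real.dist_eq]
  exact hC.dist_le_mul x y

theorem energy_sqrt_le {b δ : ℝ} (hδ : 0 < δ) {v : K → ℝ} (hv : Lip v) :
    P.energy b (fun y => √(v y ^ 2 + δ ^ 2)) ≤ P.energy b v + b * δ ^ 2 * P.τ.real univ := by
  have hL := sqrt_add_lip hδ hv
  have hder : ∀ y, HasDerivAt (fun t => √(t ^ 2 + δ ^ 2)) (v y / √(v y ^ 2 + δ ^ 2)) (v y) := by
    intro y
    have hpos : 0 < v y ^ 2 + δ ^ 2 := by positivity
    have h1 : HasDerivAt (fun t : ℝ => t ^ 2 + δ ^ 2) (2 * v y) (v y) := by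
      simpa using (hasDerivAt_pow 2 (v y)).add_const (δ ^ 2)
    refine (h1.sqrt hpos.ne').congr_deriv ?_
    field_simp
  have hc : Continuous fun y => v y / √(v y ^ 2 + δ ^ 2) := by
    refine hv.continuous.div ((hv.continuous.pow 2).add continuous_const).sqrt fun y => ?_
    have hpos : 0 < v y ^ 2 + δ ^ 2 := by positivity
    exact (Real.sqrt_pos.2 hpos).ne'
  have hD := P.G_chain v (fun y => √(v y ^ 2 + δ ^ 2)) (fun t => √(t ^ 2 + δ ^ 2))
    (fun t => t / √(t ^ 2 + δ ^ 2)) hv hL hL hder hc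
  have hD' := P.G_chain_right (φ := fun t => √(t ^ 2 + δ ^ 2))
    (φ' := fun t => t / √(t ^ 2 + δ ^ 2)) hv hv hL hder hc
  have h0 : ∫ _, b * δ ^ 2 ∂P.τ = b * δ ^ 2 * P.τ.real univ := by
    rw [integral_const, smul_eq_mul]; ring
  unfold PreData.energy PreData.form
  rw [← h0, ← integral_add (P.integrable_form b hv hv) (integrable_const _)]
  refine integral_mono_ae (P.integrable_form b hL hL)
    ((P.integrable_form b hv hv).add (integrable_const _)) ?_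
  filter_upwards [hD, hD', P.G_nonneg v hv] with y hy hy' h3
  rw [hy, hy']
  have hpos : 0 < v y ^ 2 + δ ^ 2 := by positivity
  have hs := Real.mul_self_sqrt hpos.le
  have hsp : 0 < √(v y ^ 2 + δ ^ 2) := Real.sqrt_pos.2 hpos
  have h1 : v y / √(v y ^ 2 + δ ^ 2) * (v y / √(v y ^ 2 + δ ^ 2) * P.G v v y) ≤ P.G v v y := by
    have h2 : v y / √(v y ^ 2 + δ ^ 2) * (v y / √(v y ^ 2 + δ ^ 2)) ≤ 1 := by
      rw [div_mul_div_comm, hs, div_le_one hpos]
      nlinarith [sq_nonneg δ]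
    nlinarith
  rw [hs]
  show _ + b * (v y ^ 2 + δ ^ 2) ≤ P.G v v y + b * (v y * v y) + b * δ ^ 2
  nlinarith

theorem cont_rpow_abs {q : ℝ} (hq : 0 ≤ q) {v : K → ℝ} (hv : Continuous v) :
    Continuous fun y => |v y| ^ q :=
  (continuous_abs.comp hv).rpow_const fun _ => Or.inr hq

/-- Existence of the constant `Q` and of near-minimisers. -/
theorem exists_Q {b q : ℝ} (hb : 0 ≤ b) (hq : 2 < q) (hτ : P.τ ≠ 0)
    (hsob : ∃ C : ℝ, 0 < C ∧ ∀ u : K → ℝ, Lip u →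
      (∫ y, |u y| ^ q ∂P.τ) ^ (2 / q) ≤ C * P.energy b u) :
    ∃ Q : ℝ, 0 < Q ∧
      (∀ v : K → ℝ, Lip v → Q * (∫ y, |v y| ^ q ∂P.τ) ^ (2 / q) ≤ P.energy b v) ∧
      ∀ ε : ℝ, 0 < ε → ∃ u : K → ℝ, Lip u ∧ (∀ y, 0 < u y) ∧ ∫ y, u y ^ q ∂P.τ = 1 ∧
        P.energy b u ≤ Q + ε := by
  obtain ⟨C, hC, hsob⟩ := hsob
  have hq0 : 0 < q := by linarith
  have hM : 0 < P.τ.real univ :=
    ENNReal.toReal_pos (Measure.measure_univ_ne_zero.2 hτ) (measure_ne_top _ _)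
  set S : Set ℝ := {r | ∃ v : K → ℝ, Lip v ∧ 0 < ∫ y, |v y| ^ q ∂P.τ ∧
    r = P.energy b v / (∫ y, |v y| ^ q ∂P.τ) ^ (2 / q)} with hS
  have hSne : S.Nonempty := by
    refine ⟨_, fun _ => 1, Lip.const 1, ?_, rfl⟩
    simpa using hM
  have hlb : ∀ r ∈ S, 1 / C ≤ r := by
    rintro r ⟨v, hv, hv0, rfl⟩
    have h1 := hsob v hv
    have h2 : 0 < (∫ y, |v y| ^ q ∂P.τ) ^ (2 / q) := Real.rpow_pos_of_pos hv0 _
    rw [div_le_div_iff₀ hC h2]
    linarith
  have hbdd : BddBelow S := ⟨1 / C, hlb⟩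
  set Q := sInf S with hQdef
  have hQpos : 0 < Q := lt_of_lt_of_le (by positivity) (le_csInf hSne hlb)
  have hmin : ∀ v : K → ℝ, Lip v → Q * (∫ y, |v y| ^ q ∂P.τ) ^ (2 / q) ≤ P.energy b v := by
    intro v hv
    have hI0 : 0 ≤ ∫ y, |v y| ^ q ∂P.τ :=
      integral_nonneg fun y => Real.rpow_nonneg (abs_nonneg _) _
    rcases hI0.eq_or_lt with h | h
    · rw [← h, Real.zero_rpow (by positivity), mul_zero]
      exact P.energy_nonneg hb hv
    · have : Q ≤ P.energy b v / (∫ y, |v y| ^ q ∂P.τ) ^ (2 / q) :=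
        csInf_le hbdd ⟨v, hv, h, rfl⟩
      rwa [le_div_iff₀ (Real.rpow_pos_of_pos h _)] at this
  refine ⟨Q, hQpos, hmin, ?_⟩
  intro ε hε
  obtain ⟨r, ⟨v, hv, hv0, rfl⟩, hr⟩ := exists_lt_of_csInf_lt hSne
    (show sInf S < Q + ε / 2 by rw [← hQdef]; linarith)
  set N : ℝ := (∫ y, |v y| ^ q ∂P.τ) ^ (2 / q) with hN
  have hN0 : 0 < N := Real.rpow_pos_of_pos hv0 _
  -- choose δ
  obtain ⟨δ, hδ, hδε⟩ : ∃ δ : ℝ, 0 < δ ∧ b * δ ^ 2 * P.τ.real univ ≤ ε / 2 * N := by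
    have h1 : Tendsto (fun δ : ℝ => b * δ ^ 2 * P.τ.real univ) (𝓝[>] 0) (𝓝 0) := by
      have : Continuous fun δ : ℝ => b * δ ^ 2 * P.τ.real univ := by fun_prop
      have h := this.tendsto 0
      simp only [ne_eq, OfNat.ofNat_ne_zero, not_false_eq_true, zero_pow, mul_zero,
        zero_mul] at h
      exact h.mono_left nhdsWithin_le_nhds
    have h2 := (h1.eventually (gt_mem_nhds (show 0 < ε / 2 * N by positivity))).and
      self_mem_nhdsWithin
    obtain ⟨δ, h3, h4⟩ := h2.exists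
    exact ⟨δ, h4, h3.le⟩
  set vδ : K → ℝ := fun y => √(v y ^ 2 + δ ^ 2) with hvδ
  have hvδL : Lip vδ := sqrt_add_lip hδ hv
  have hvδpos : ∀ y, 0 < vδ y := fun y => Real.sqrt_pos.2 (by positivity)
  have hle : ∀ y, |v y| ≤ vδ y := fun y => by
    apply Real.le_sqrt_of_sq_le
    rw [sq_abs]; nlinarith [sq_nonneg δ]
  set J : ℝ := ∫ y, vδ y ^ q ∂P.τ with hJ
  have hvδc := hvδL.continuous
  have hJint : Integrable (fun y => vδ y ^ q) P.τ :=
    P.integrable_of_continuous (hvδc.rpow_const fun y => Or.inl (hvδpos y).ne')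
  have hIJ : ∫ y, |v y| ^ q ∂P.τ ≤ J := by
    refine integral_mono (P.integrable_of_continuous (cont_rpow_abs hq0.le hv.continuous)) hJint
      fun y => ?_
    exact Real.rpow_le_rpow (abs_nonneg _) (hle y) hq0.le
  have hJ0 : 0 < J := lt_of_lt_of_le hv0 hIJ
  have hEδ : P.energy b vδ ≤ P.energy b v + ε / 2 * N :=
    (energy_sqrt_le P hδ hv).trans (by gcongr)
  set c : ℝ := J ^ (-(1 / q)) with hc
  have hc0 : 0 < c := Real.rpow_pos_of_pos hJ0 _
  refine ⟨fun y => c * vδ y, hvδL.const_mul c, fun y => mul_pos hc0 (hvδpos y), ?_, ?_⟩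
  · have : ∀ y, (c * vδ y) ^ q = c ^ q * vδ y ^ q := fun y =>
      Real.mul_rpow hc0.le (hvδpos y).le
    simp_rw [this]
    rw [integral_const_mul, ← hJ, hc, ← Real.rpow_mul hJ0.le]
    have : -(1 / q) * q = -1 := by field_simp
    rw [this, Real.rpow_neg_one, inv_mul_cancel₀ hJ0.ne']
  · rw [energy_smul P b c hvδL]
    have hc2 : c ^ 2 = (J ^ (2 / q))⁻¹ := by
      rw [hc, ← Real.rpow_natCast, ← Real.rpow_mul hJ0.le, ← Real.rpow_neg hJ0.le]
      congr 1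
      push_cast
      ring
    have hNJ : N ≤ J ^ (2 / q) := Real.rpow_le_rpow hv0.le hIJ (by positivity)
    have hJp : 0 < J ^ (2 / q) := Real.rpow_pos_of_pos hJ0 _
    rw [hc2, inv_mul_le_iff₀ hJp]
    have h1 : P.energy b v < (Q + ε / 2) * N := by
      rwa [div_lt_iff₀ hN0] at hr
    calc P.energy b vδ ≤ P.energy b v + ε / 2 * N := hEδ
      _ ≤ (Q + ε / 2) * N + ε / 2 * N := by linarith
      _ = (Q + ε) * N := by ring
      _ ≤ J ^ (2 / q) * (Q + ε) := by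
        rw [mul_comm]
        gcongr

end Crest.Agent.R241.A6
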