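import Mathlib

/-!
R241, Theorem A, block A7c, step 3 (abstract): integrating the two-point inequality over the good
set.
-/

set_option autoImplicit false

namespace Crest.Agent.R241.A7

open MeasureTheory Set Filter Topology
open scoped NNReal ENNReal

variable {K : Type*} [MetricSpace K] [CompactSpace K] [MeasurableSpace K] [BorelSpace K]

theorem step3 (ν : Measure K) [IsProbabilityMeasure ν] {D κ : K → K → ℝ}
    (hD : Continuous (Function.uncurry D)) (hκ : Continuous (Function.uncurry κ))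
    {Φ : K → ℝ} (hΦ : Continuous Φ) (hD0 : ∀ y p, 0 ≤ D y p) (hDs : ∀ y p, D y p = D p y)
    (hΦ0 : ∀ y, 0 ≤ Φ y) (hκ2 : ∀ y p, κ y p ≤ 2) (hκ1 : ∀ p, 1 ≤ ∫ y, κ y p ∂ν)
    {DR R Y : ℝ} (hDR : 0 < DR) (hR : 0 ≤ R) (hY : 0 ≤ Y)
    (hκD : ∀ y p, κ y p ≤ D y p / DR * (2 + R / 2 * (Φ y + Φ p)))
    {G : Set K} (hG : MeasurableSet G) (hGY : ∀ p ∈ G, ∫ y, D y p ∂ν ≤ Y) :
    1 - 3 * ν.real Gᶜ ≤ Y / DR * (2 + R * ∫ y, Φ y ∂ν) := by
  have hint : ∀ (μ : Measure K) [IsFiniteMeasure μ] (f : K → ℝ), Continuous f → Integrable f μ :=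
    fun μ _ f hf => hf.integrable_of_hasCompactSupport (HasCompactSupport.of_compactSpace _)
  have hint2 : ∀ (μ : Measure K) [IsFiniteMeasure μ] (f : K × K → ℝ), Continuous f →
      Integrable f (μ.prod μ) := fun μ _ f hf =>
    hf.integrable_of_hasCompactSupport (HasCompactSupport.of_compactSpace _)
  set c : ℝ := ν.real Gᶜ with hc
  have hc0 : 0 ≤ c := measureReal_nonneg
  have hGc : ν.real G = 1 - c := by
    rw [hc, probReal_compl_eq_one_sub hG]; ring
  set ν' : Measure K := ν.restrict G with hν'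
  have hDy : ∀ p, Continuous fun y => D y p := fun p => by
    have : Continuous fun y : K => (y, p) := Continuous.prodMk_left p
    exact hD.comp this
  have hκy : ∀ p, Continuous fun y => κ y p := fun p => by
    have : Continuous fun y : K => (y, p) := Continuous.prodMk_left p
    exact hκ.comp this
  -- swapped continuity
  have hD' : Continuous (fun z : K × K => D z.2 z.1) := hD.comp continuous_swap
  have hκ' : Continuous (fun z : K × K => κ z.2 z.1) := hκ.comp continuous_swap
  -- continuity of inner integrals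
  have hcI : ∀ f : K × K → ℝ, Continuous f → Continuous fun p => ∫ y, f (p, y) ∂ν' := by
    intro f hf
    have h := continuous_parametric_integral_of_continuous (X := K) (μ := ν')
      (f := fun p y => f (p, y)) hf isCompact_univ
    simpa only [Measure.restrict_univ] using h
  -- step A: pointwise
  have hA : ∀ p, 1 - 2 * c ≤ ∫ y, κ y p ∂ν' := by
    intro p
    have h1 := hκ1 p
    have h2 : ∫ y, κ y p ∂ν = ∫ y in G, κ y p ∂ν + ∫ y in Gᶜ, κ y p ∂ν :=
      (integral_add_compl hG (hint ν _ (hκy p))).symm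
    have h3 : ∫ y in Gᶜ, κ y p ∂ν ≤ 2 * c := by
      calc ∫ y in Gᶜ, κ y p ∂ν ≤ ∫ y in Gᶜ, (2 : ℝ) ∂ν :=
            integral_mono (hint _ _ (hκy p)) (integrable_const _) fun y => hκ2 y p
        _ = 2 * c := by
            rw [integral_const, smul_eq_mul, measureReal_restrict_apply MeasurableSet.univ,
              univ_inter]
            ring
    linarith
  -- step B: integrate over G
  have hB : (1 - 2 * c) * (1 - c) ≤ ∫ p, ∫ y, κ y p ∂ν' ∂ν' := by
    have h1 : ∫ _, (1 - 2 * c) ∂ν' = (1 - 2 * c) * (1 - c) := by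
      rw [integral_const, smul_eq_mul, hν', measureReal_restrict_apply MeasurableSet.univ,
        univ_inter, hGc]
      ring
    rw [← h1]
    exact integral_mono (integrable_const _) (hint ν' _ (hcI _ hκ')) hA
  -- step C
  have hΦ1 : Continuous fun z : K × K => Φ z.1 := hΦ.comp continuous_fst
  have hΦ2 : Continuous fun z : K × K => Φ z.2 := hΦ.comp continuous_snd
  have hsw : ∫ p, ∫ y, D y p * Φ y ∂ν' ∂ν' = ∫ p, ∫ y, D y p * Φ p ∂ν' ∂ν' := by
    rw [integral_integral_swap]
    · refine integral_congr_ae (Eventually.of_forall fun y => ?_)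
      refine integral_congr_ae (Eventually.of_forall fun p => ?_)
      simp only
      rw [hDs]
    · exact hint2 ν' _ (hD'.mul hΦ2)
  have hC1 : ∫ p, ∫ y, κ y p ∂ν' ∂ν' ≤
      ∫ p, ∫ y, D y p / DR * (2 + R / 2 * (Φ y + Φ p)) ∂ν' ∂ν' := by
    have hc2 : Continuous fun z : K × K => D z.2 z.1 / DR * (2 + R / 2 * (Φ z.2 + Φ z.1)) :=
      (hD'.div_const _).mul (continuous_const.add (continuous_const.mul (hΦ2.add hΦ1)))
    refine integral_mono (hint ν' _ (hcI _ hκ')) (hint ν' _ (hcI _ hc2)) fun p => ?_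
    refine integral_mono (hint ν' _ (hκy p)) (hint ν' _ ?_) fun y => hκD y p
    exact ((hDy p).div_const _).mul
      (continuous_const.add (continuous_const.mul (hΦ.add continuous_const)))
  have hC2 : ∫ p, ∫ y, D y p / DR * (2 + R / 2 * (Φ y + Φ p)) ∂ν' ∂ν' =
      (1 / DR) * ∫ p, ((2 + R * Φ p) * ∫ y, D y p ∂ν') ∂ν' := by
    have e1 : ∀ p, ∫ y, D y p / DR * (2 + R / 2 * (Φ y + Φ p)) ∂ν' =
        (1 / DR) * (2 * ∫ y, D y p ∂ν' + R / 2 * ∫ y, D y p * Φ y ∂ν' +
          R / 2 * ∫ y, D y p * Φ p ∂ν') := by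
      intro p
      have i1 : Integrable (fun y => 2 * D y p) ν' := (hint ν' _ (hDy p)).const_mul 2
      have i2 : Integrable (fun y => R / 2 * (D y p * Φ y)) ν' :=
        (hint ν' _ ((hDy p).mul hΦ)).const_mul _
      have i3 : Integrable (fun y => R / 2 * (D y p * Φ p)) ν' :=
        (hint ν' _ ((hDy p).mul (continuous_const (y := Φ p)))).const_mul _
      have i12 : Integrable (fun y => 2 * D y p + R / 2 * (D y p * Φ y)) ν' := i1.add i2
      rw [← integral_const_mul, ← integral_const_mul, ← integral_const_mul,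
        ← integral_add i1 i2, ← integral_add i12 i3, ← integral_const_mul]
      refine integral_congr_ae (Eventually.of_forall fun y => ?_)
      simp only
      field_simp
      ring
    simp_rw [e1]
    rw [integral_const_mul]
    congr 1
    have j1 : Integrable (fun p => 2 * ∫ y, D y p ∂ν') ν' :=
      (hint ν' _ (hcI _ hD')).const_mul 2
    have j2 : Integrable (fun p => R / 2 * ∫ y, D y p * Φ y ∂ν') ν' :=
      (hint ν' _ (hcI _ (hD'.mul hΦ2))).const_mul _
    have j3 : Integrable (fun p => R / 2 * ∫ y, D y p * Φ p ∂ν') ν' :=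
      (hint ν' _ (hcI _ (hD'.mul hΦ1))).const_mul _
    have j3' : Integrable (fun p => R * ∫ y, D y p * Φ p ∂ν') ν' :=
      (hint ν' _ (hcI _ (hD'.mul hΦ1))).const_mul _
    have j12 : Integrable (fun p => 2 * ∫ y, D y p ∂ν' + R / 2 * ∫ y, D y p * Φ y ∂ν') ν' :=
      j1.add j2
    rw [integral_add j12 j3, integral_add j1 j2, integral_const_mul,
      integral_const_mul, integral_const_mul, hsw]
    have e2 : ∫ p, (2 + R * Φ p) * ∫ y, D y p ∂ν' ∂ν' =
        ∫ p, (2 * ∫ y, D y p ∂ν' + R * ∫ y, D y p * Φ p ∂ν') ∂ν' := by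
      refine integral_congr_ae (Eventually.of_forall fun p => ?_)
      simp only
      rw [integral_mul_const]
      ring
    rw [e2, integral_add j1 j3', integral_const_mul, integral_const_mul]
    ring
  have hD0' : ∀ p, ∫ y, D y p ∂ν' ≤ ∫ y, D y p ∂ν := fun p =>
    setIntegral_le_integral (hint ν _ (hDy p)) (Eventually.of_forall fun y => hD0 y p)
  have hC3 : ∫ p, ((2 + R * Φ p) * ∫ y, D y p ∂ν') ∂ν' ≤ ∫ p, (2 + R * Φ p) * Y ∂ν' := by
    refine integral_mono_ae (hint ν' _ ?_) (hint ν' _ ?_) ?_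
    · exact (continuous_const.add (continuous_const.mul hΦ)).mul (hcI _ hD')
    · exact (continuous_const.add (continuous_const.mul hΦ)).mul continuous_const
    · rw [EventuallyLE, hν', ae_restrict_iff' hG]
      refine Eventually.of_forall fun p hp => ?_
      refine mul_le_mul_of_nonneg_left ((hD0' p).trans (hGY p hp)) ?_
      have := mul_nonneg hR (hΦ0 p)
      linarith
  have hC4 : ∫ p, (2 + R * Φ p) * Y ∂ν' ≤ ∫ p, (2 + R * Φ p) * Y ∂ν := by
    refine setIntegral_le_integral (hint ν _ ?_) (Eventually.of_forall fun p => ?_)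
    · exact (continuous_const.add (continuous_const.mul hΦ)).mul continuous_const
    · have := mul_nonneg hR (hΦ0 p)
      show 0 ≤ (2 + R * Φ p) * Y
      positivity
  have hC5 : ∫ p, (2 + R * Φ p) * Y ∂ν = (2 + R * ∫ y, Φ y ∂ν) * Y := by
    rw [integral_mul_const, integral_add (integrable_const _) ((hint ν _ hΦ).const_mul R),
      integral_const_mul, integral_const]
    simp
  have hfin : (1 - 2 * c) * (1 - c) ≤ (1 / DR) * ((2 + R * ∫ y, Φ y ∂ν) * Y) := by
    refine hB.trans (hC1.trans ?_)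
    rw [hC2]
    refine mul_le_mul_of_nonneg_left ?_ (by positivity)
    rw [← hC5]
    exact hC3.trans hC4
  have e : Y / DR * (2 + R * ∫ y, Φ y ∂ν) = (1 / DR) * ((2 + R * ∫ y, Φ y ∂ν) * Y) := by
    field_simp
  rw [e]
  refine le_trans ?_ hfin
  nlinarith [sq_nonneg c]

end Crest.Agent.R241.A7
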