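import Crest.Agent.R241.A7Ineq

/-!
R241, Theorem A, block A7c: `ε → 0`, `Λ → ∞`, `δ → 0` for fixed `q`.
-/

set_option autoImplicit false

namespace Crest.Agent.R241.A7

open Crest.Agent.R241.A Crest.Agent.R241.A6
open MeasureTheory Set Filter Topology
open scoped NNReal ENNReal

variable {n : ℕ} {k : ℝ} {K : Type*} [MetricSpace K] [CompactSpace K]
  [MeasurableSpace K] [BorelSpace K] (P : PreData n k K)

/-- the tail estimate in the form needed -/
theorem tail_P (hn : 3 ≤ n) (hH : T_H n) (hint : T_int P) {q : ℝ} (hq : 2 < q)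
    (hqn : mA n * q < n) {ρ : ℝ} (hρ : 0 < ρ) :
    ∃ Λ0 : ℝ, 0 < Λ0 ∧ ∀ Λ, Λ0 ≤ Λ → ∀ u : K → ℝ, Continuous u → (∀ x, 0 < u x) →
      ∫ x, u x ^ q ∂P.τ = 1 →
      ∫⁻ x, ∫⁻ y, ENNReal.ofReal (zd k x y) ^ (-(mA n)) *
        ENNReal.ofReal (u x ^ (q - 1)) * ENNReal.ofReal (u y ^ (q - 1)) *
        ENNReal.ofReal (CnA n - gE n (Λ * (zd k x y * (u x * u y) ^ (1 / mA n)))) ∂P.τ ∂P.τ
        ≤ ENNReal.ofReal ρ := by
  have hm := mA_pos hn
  set σ : ℝ := (q / 2 + n / (2 * mA n)) / 2 with hσ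
  have h1 : q / 2 < n / (2 * mA n) := by
    rw [lt_div_iff₀ (by positivity)]; linarith
  have hσ1 : q / 2 < σ := by rw [hσ]; linarith
  have hσ2 : σ < n / (2 * mA n) := by rw [hσ]; linarith
  have hs : mA n * σ < (n : ℝ) / 2 := by
    have := mul_lt_mul_of_pos_left hσ2 hm
    refine this.trans_le (le_of_eq ?_)
    field_simp
  have hs0 : 0 ≤ mA n * σ := by
    have : 0 < σ := by linarith
    positivity
  obtain ⟨C, hC, hC'⟩ := hint (mA n * σ) hs0 hs
  have hA : ∀ x : K, ∫⁻ y, ENNReal.ofReal (zd k x y) ^ (-(mA n * σ)) ∂P.τ ≤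
      ENNReal.ofReal C := by
    intro x
    refine le_trans (le_of_eq ?_) (hC' x).1
    refine lintegral_congr_ae ?_
    filter_upwards [ae_ne_of_int P hm hint x] with y hy
    have hz : 0 < zd k x y := zd_pos (Ne.symm hy)
    rw [ENNReal.ofReal_rpow_of_pos hz]
  have hA' : ∀ y : K, ∫⁻ x, ENNReal.ofReal (zd k x y) ^ (-(mA n * σ)) ∂P.τ ≤
      ENNReal.ofReal C := by
    intro y
    refine le_trans (le_of_eq ?_) (hA y)
    refine lintegral_congr fun x => ?_
    rw [zd_comm]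
  obtain ⟨Λ0, hΛ0, h2⟩ := tail_small P.τ (fun x y : K => zd k x y)
    (continuous_zd₂ k).measurable (fun x y => zd_nonneg k x y) hm hq hσ1 (ENNReal.ofReal C)
    ENNReal.ofReal_ne_top hA' hA (gE n) (CnA n) (gE_mono hH) (gE_zero (n := n)).ge
    (gE_tendsto hn hH) (ENNReal.ofReal ρ) (ENNReal.ofReal_pos.2 hρ)
  refine ⟨Λ0, hΛ0, fun Λ hΛ u hu hpos hu1 => ?_⟩
  refine h2 Λ hΛ u hu.measurable hpos ?_
  rw [← ofReal_integral_eq_lintegral_ofReal (P.integrable_of_continuous (cont_rpow hu hpos q))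
    (Eventually.of_forall fun y => (Real.rpow_pos_of_pos (hpos y) _).le), hu1,
    ENNReal.ofReal_one]

/-- `A_δ` -/
theorem A_pos {c Q δ : ℝ} (hc : 0 < c) (hQ : 0 < Q) (hδ : 0 < δ) (h1 : δ < 1 / 2)
    (h2 : δ < c / (4 * Q)) : 0 < c * (1 - δ) / Q - δ := by
  have h3 : c * (1 / 2) / Q ≤ c * (1 - δ) / Q := by
    gcongr; linarith
  have h4 : c * (1 / 2) / Q = 2 * (c / (4 * Q)) := by field_simp; ring
  have h5 : 0 < c / (4 * Q) := by positivity
  linarith

theorem claim_q (hn : 3 ≤ n) {h q : ℝ} (hk : 0 ≤ k) (hkh : k < h) (hτ : P.τ ≠ 0)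
    (hH : T_H n) (hode : T_ode) (hkey : T_key P h) (hcentre : T_centre k K) (htwo : T_two k K)
    (hint : T_int P) (hsup : T_super P h) (hbarta : T_barta P h) (hpole : T_pole P)
    (hsob : T_sob P h)
    (hq : 2 < q) (hqn : mA n * q < n) (hv : (n : ℝ) / mA n - q < 2) :
    ∃ Q : ℝ, 0 < Q ∧
      (∀ v : K → ℝ, Lip v → Q * (∫ y, |v y| ^ q ∂P.τ) ^ (2 / q) ≤ P.energy (bA n k h) v) ∧
      ∀ lam R : ℝ, 0 < lam → 0 < R →
        1 - HA n (lam * R) ≤
          (lam ^ mA n / (CnA n * cP n / Q)) ^ ((q - 2) / 2) / ((q - 2) / 2) *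
          (2 + R * ((2 * Q / (mA n * n)) ^ (1 - ((n : ℝ) / mA n - q) / 2) *
          (2 * (bA n k h * P.τ.real univ) / (mA n * n)) ^ (((n : ℝ) / mA n - q) / 2))) := by
  have hm := mA_pos hn
  have hb := bA_pos hn hk hkh
  have hcP := cP_pos hn
  have hn0 : (0 : ℝ) < n := by
    have : (3 : ℝ) ≤ n := by exact_mod_cast hn
    linarith
  obtain ⟨Q, hQ, hmin, hnear⟩ := exists_Q P hb.le hq hτ (hsob q hq hqn)
  obtain ⟨CB, C2, hCB, hC2, hfix⟩ := fixed_ineq P hn hk hkh hH hode hkey hcentre htwo hint hsup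
    hbarta hpole hq hqn hv
  refine ⟨Q, hQ, hmin, ?_⟩
  intro lam R hlam hR
  set α : ℝ := (q - 2) / 2 with hα
  have hα0 : 0 < α := by rw [hα]; linarith
  set v2 : ℝ := ((n : ℝ) / mA n - q) / 2 with hv2
  set X1 : ℝ := (2 * (bA n k h * P.τ.real univ) / (mA n * n)) ^ v2 with hX1
  set c : ℝ := CnA n * cP n with hc
  have hc0 : 0 < c := mul_pos hH.Cn_pos hcP
  have hDR : 0 < 1 - HA n (lam * R) := by
    have := HA_lt_one hn hH (mul_pos hlam hR); linarith
  have hmn : 0 < mA n * n := by positivity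
  -- the inequality for small δ
  have hδineq : ∀ δ : ℝ, 0 < δ → δ < 1 / 2 → δ < c / (4 * Q) →
      (1 - 6 * δ) * (1 - HA n (lam * R)) ≤
        (δ + (lam ^ mA n / (c * (1 - δ) / Q - δ)) ^ α / α) *
        (2 + R * ((2 * (Q + δ) / (mA n * n)) ^ (1 - v2) * X1)) := by
    intro δ hδ hδ1 hδ2
    have hA := A_pos hc0 hQ hδ hδ1 hδ2
    obtain ⟨Λ0, hΛ0, htail⟩ := tail_P P hn hH hint hq hqn (ρ := δ ^ 2) (by positivity)
    set Lam : ℝ := max Λ0 lam with hLam
    -- choice of ε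
    obtain ⟨ε, hε, hε1, hε2, hε3⟩ : ∃ ε : ℝ, 0 < ε ∧ CB * √ε / (δ * cP n) ≤ δ ∧
        √(ε * (C2 * (Q + ε))) / Q * (Lam / lam) ^ mA n ≤ δ ∧ ε ≤ δ := by
      have t1 : Tendsto (fun ε : ℝ => CB * √ε / (δ * cP n)) (𝓝[>] 0) (𝓝 0) := by
        have : Continuous fun ε : ℝ => CB * √ε / (δ * cP n) := by fun_prop
        have h := this.tendsto 0
        simp only [Real.sqrt_zero, mul_zero, zero_div] at h
        exact h.mono_left nhdsWithin_le_nhds
      have t2 : Tendsto (fun ε : ℝ => √(ε * (C2 * (Q + ε))) / Q * (Lam / lam) ^ mA n)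
          (𝓝[>] 0) (𝓝 0) := by
        have : Continuous fun ε : ℝ => √(ε * (C2 * (Q + ε))) / Q * (Lam / lam) ^ mA n := by
          fun_prop
        have h := this.tendsto 0
        simp only [Real.sqrt_zero, zero_mul, zero_div] at h
        exact h.mono_left nhdsWithin_le_nhds
      have t3 : Tendsto (fun ε : ℝ => ε) (𝓝[>] 0) (𝓝 0) :=
        tendsto_id.mono_left nhdsWithin_le_nhds
      have := (((t1.eventually (gt_mem_nhds hδ)).and (t2.eventually (gt_mem_nhds hδ))).and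
        (t3.eventually (gt_mem_nhds hδ))).and self_mem_nhdsWithin
      obtain ⟨ε, ⟨⟨h1, h2⟩, h3⟩, h4⟩ := this.exists
      exact ⟨ε, h4, h1.le, h2.le, h3.le⟩
    obtain ⟨u, huL, hupos, hu1, huE⟩ := hnear ε hε
    have hN : Near P (bA n k h) q Q ε u := ⟨huL, hupos, hu1, huE, hmin,
      fun η hη => free_ekeland P hb.le (by linarith) hQ.le hmin huL hupos hu1 huE hη⟩
    have hF := hfix Q ε u δ lam Lam R (δ ^ 2) hQ hε.le hN hδ hlam (le_max_right _ _) hR
      (by positivity) (htail Lam (le_max_left _ _) u huL.continuous hupos hu1) hA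
    have e1 : δ ^ 2 / δ = δ := by field_simp
    rw [e1] at hF
    set Z : ℝ := (lam ^ mA n / (c * (1 - δ) / Q - δ)) ^ α / α with hZ
    have hlm : 0 < lam ^ mA n := Real.rpow_pos_of_pos hlam _
    have hZ0 : 0 ≤ Z := by positivity
    have hX10 : 0 ≤ X1 := Real.rpow_nonneg (by positivity) _
    have hv2' : 0 ≤ 1 - v2 := by rw [hv2]; linarith
    have h1 : 1 - 6 * δ ≤ (δ + Z) / (1 - HA n (lam * R)) *
        (2 + R * ((2 * (Q + δ) / (mA n * n)) ^ (1 - v2) * X1)) := by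
      have h2 : 1 - 6 * δ ≤ 1 - 3 * (CB * √ε / (δ * cP n) + δ) := by linarith
      refine h2.trans (hF.trans ?_)
      have h3 : (2 * (Q + ε) / (mA n * n)) ^ (1 - v2) ≤
          (2 * (Q + δ) / (mA n * n)) ^ (1 - v2) := by
        refine Real.rpow_le_rpow (by positivity) ?_ hv2'
        gcongr
      have h4 : 0 ≤ (2 * (Q + ε) / (mA n * n)) ^ (1 - v2) := Real.rpow_nonneg (by positivity) _
      have h5 : 0 ≤ √(ε * (C2 * (Q + ε))) / Q * (Lam / lam) ^ mA n := by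
        have : 0 ≤ (Lam / lam) ^ mA n := Real.rpow_nonneg (by positivity) _
        positivity
      refine mul_le_mul ?_ ?_ ?_ ?_
      · gcongr
      · gcongr
      · positivity
      · positivity
    rw [div_mul_eq_mul_div, le_div_iff₀ hDR] at h1
    exact h1
  -- limit δ → 0
  have hev : ∀ᶠ δ in 𝓝[>] (0 : ℝ), (1 - 6 * δ) * (1 - HA n (lam * R)) ≤
        (δ + (lam ^ mA n / (c * (1 - δ) / Q - δ)) ^ α / α) *
        (2 + R * ((2 * (Q + δ) / (mA n * n)) ^ (1 - v2) * X1)) := by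
    have e1 : ∀ᶠ δ in 𝓝[>] (0 : ℝ), 0 < δ := self_mem_nhdsWithin
    have e2 : ∀ᶠ δ in 𝓝[>] (0 : ℝ), δ < 1 / 2 :=
      nhdsWithin_le_nhds (gt_mem_nhds (by norm_num))
    have e3 : ∀ᶠ δ in 𝓝[>] (0 : ℝ), δ < c / (4 * Q) :=
      nhdsWithin_le_nhds (gt_mem_nhds (by positivity))
    filter_upwards [e1, e2, e3] with δ h1 h2 h3
    exact hδineq δ h1 h2 h3
  have hL : Tendsto (fun δ : ℝ => (1 - 6 * δ) * (1 - HA n (lam * R))) (𝓝[>] 0)
      (𝓝 (1 - HA n (lam * R))) := by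
    have : Continuous fun δ : ℝ => (1 - 6 * δ) * (1 - HA n (lam * R)) := by fun_prop
    have h := this.tendsto 0
    simp only [mul_zero, sub_zero, one_mul] at h
    exact h.mono_left nhdsWithin_le_nhds
  have hRt : Tendsto (fun δ : ℝ => (δ + (lam ^ mA n / (c * (1 - δ) / Q - δ)) ^ α / α) *
        (2 + R * ((2 * (Q + δ) / (mA n * n)) ^ (1 - v2) * X1))) (𝓝[>] 0)
      (𝓝 ((lam ^ mA n / (c / Q)) ^ α / α *
        (2 + R * ((2 * Q / (mA n * n)) ^ (1 - v2) * X1)))) := by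
    have hcont : ContinuousAt (fun δ : ℝ => (δ + (lam ^ mA n / (c * (1 - δ) / Q - δ)) ^ α / α) *
        (2 + R * ((2 * (Q + δ) / (mA n * n)) ^ (1 - v2) * X1))) 0 := by
      have c1 : ContinuousAt (fun δ : ℝ => c * (1 - δ) / Q - δ) 0 := by fun_prop
      have hne : c * (1 - 0) / Q - 0 ≠ 0 := by
        simp only [sub_zero, mul_one]; positivity
      have c2 : ContinuousAt (fun δ : ℝ => lam ^ mA n / (c * (1 - δ) / Q - δ)) 0 :=
        continuousAt_const.div c1 hne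
      have c3 : ContinuousAt (fun δ : ℝ => (lam ^ mA n / (c * (1 - δ) / Q - δ)) ^ α) 0 :=
        c2.rpow_const (Or.inr hα0.le)
      have c4 : ContinuousAt (fun δ : ℝ => 2 * (Q + δ) / (mA n * n)) 0 := by fun_prop
      have c5 : ContinuousAt (fun δ : ℝ => (2 * (Q + δ) / (mA n * n)) ^ (1 - v2)) 0 := by
        refine c4.rpow_const (Or.inl ?_)
        simp only [add_zero]; positivity
      exact (continuousAt_id.add (c3.div_const α)).mul
        (continuousAt_const.add (continuousAt_const.mul (c5.mul continuousAt_const)))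
    have h := hcont.tendsto
    simp only [sub_zero, mul_one, zero_add, add_zero] at h
    exact h.mono_left nhdsWithin_le_nhds
  exact le_of_tendsto_of_tendsto hL hRt hev

end Crest.Agent.R241.A7
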