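import Mathlib

/-!
R241, Theorem A, block A7b: from finite sums to integrals (discretisation of a finite measure on
a compact metric space).
-/

set_option autoImplicit false

open MeasureTheory Filter Topology Set

namespace Crest.Agent.R241.A7

variable {K : Type*} [MetricSpace K] [CompactSpace K] [MeasurableSpace K] [BorelSpace K]

/-- A measurable map with finite range which moves points by less than `η`. -/
theorem exists_simple_near [Nonempty K] {η : ℝ} (hη : 0 < η) :
    ∃ T : SimpleFunc K K, ∀ y, dist (T y) y < η := by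
  classical
  set e : ℕ → K := TopologicalSpace.denseSeq K with he
  have hcov : (Set.univ : Set K) ⊆ ⋃ k : ℕ, Metric.ball (e k) η := by
    intro x _
    obtain ⟨k, hk⟩ := (TopologicalSpace.denseRange_denseSeq K).exists_dist_lt x hη
    exact mem_iUnion.2 ⟨k, by simpa [Metric.mem_ball] using hk⟩
  obtain ⟨t, ht⟩ := isCompact_univ.elim_finite_subcover (fun k : ℕ => Metric.ball (e k) η)
    (fun k => Metric.isOpen_ball) hcov
  refine ⟨SimpleFunc.nearestPt e (t.sup id), fun y => ?_⟩
  obtain ⟨k, hk, hy⟩ : ∃ k ∈ t, y ∈ Metric.ball (e k) η := by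
    have := ht (mem_univ y)
    simpa using this
  have h1 : edist (SimpleFunc.nearestPt e (t.sup id) y) y ≤ edist (e k) y :=
    SimpleFunc.edist_nearestPt_le e y (Finset.le_sup (f := id) hk)
  have h2 : edist (e k) y < ENNReal.ofReal η := by
    rw [edist_dist]
    refine (ENNReal.ofReal_lt_ofReal_iff hη).2 ?_
    rw [dist_comm]; exact hy
  have h3 := lt_of_le_of_lt h1 h2
  rw [edist_dist] at h3
  exact (ENNReal.ofReal_lt_ofReal_iff hη).1 h3

/-- Integral of a function composed with a simple map. -/
theorem integral_comp_simple (μ : Measure K) [IsFiniteMeasure μ] (T : SimpleFunc K K)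
    (F : K → ℝ) :
    ∫ y, F (T y) ∂μ = ∑ p ∈ T.range, μ.real (T ⁻¹' {p}) * F p := by
  classical
  have h1 : ∀ y, F (T y) = ∑ p ∈ T.range, (T ⁻¹' {p}).indicator (fun _ => F p) y := by
    intro y
    rw [Finset.sum_eq_single (T y)]
    · rw [indicator_of_mem]; simp
    · intro b _ hb
      rw [indicator_of_notMem]
      simp only [mem_preimage, mem_singleton_iff]
      exact fun h => hb h.symm
    · intro h; exact absurd (SimpleFunc.mem_range_self T y) h
  simp_rw [h1]
  rw [integral_finset_sum]
  · refine Finset.sum_congr rfl fun p _ => ?_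
    rw [integral_indicator (T.measurableSet_preimage _), setIntegral_const, smul_eq_mul]
  · intro p _
    exact (integrable_const _).indicator (T.measurableSet_preimage _)

/-- Discretisation: an inequality for all finitely supported measures passes to all finite
measures. -/
theorem disc_ineq [Nonempty K] (F : K → ℝ) (hF : Continuous F) (G : K → K → ℝ)
    (hG : Continuous (Function.uncurry G))
    (h : ∀ (s : Finset K) (w : K → ℝ), (∀ p, 0 ≤ w p) →
      ∑ p ∈ s, w p * F p ≤ √(∑ p ∈ s, ∑ r ∈ s, w p * w r * G p r))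
    (μ : Measure K) [IsFiniteMeasure μ] :
    ∫ y, F y ∂μ ≤ √(∫ x, ∫ y, G x y ∂μ ∂μ) := by
  classical
  set M : ℝ := μ.real univ with hM
  have hM0 : 0 ≤ M := measureReal_nonneg
  have hFint : Integrable F μ := hF.integrable_of_hasCompactSupport
    (HasCompactSupport.of_compactSpace F)
  have hGx : ∀ x, Continuous (G x) := fun x => hG.comp (Continuous.prodMk_right x)
  have hGint : ∀ x, Integrable (G x) μ := fun x => (hGx x).integrable_of_hasCompactSupport
    (HasCompactSupport.of_compactSpace _)
  -- key estimate for each tolerance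
  have key : ∀ δ > 0, ∫ y, F y ∂μ ≤ δ * M + √(∫ x, ∫ y, G x y ∂μ ∂μ + δ * M ^ 2) := by
    intro δ hδ
    have hFu : UniformContinuous F := CompactSpace.uniformContinuous_of_continuous hF
    have hGu : UniformContinuous (Function.uncurry G) :=
      CompactSpace.uniformContinuous_of_continuous hG
    obtain ⟨η1, hη1, hF1⟩ := Metric.uniformContinuous_iff.1 hFu δ hδ
    obtain ⟨η2, hη2, hG1⟩ := Metric.uniformContinuous_iff.1 hGu δ hδ
    obtain ⟨T, hT⟩ := exists_simple_near (K := K) (lt_min hη1 hη2)
    have hsumF : ∫ y, F (T y) ∂μ = ∑ p ∈ T.range, μ.real (T ⁻¹' {p}) * F p :=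
      integral_comp_simple μ T F
    have hsumG : ∫ x, ∫ y, G (T x) (T y) ∂μ ∂μ =
        ∑ p ∈ T.range, ∑ r ∈ T.range, μ.real (T ⁻¹' {p}) * μ.real (T ⁻¹' {r}) * G p r := by
      rw [integral_comp_simple μ T (fun x => ∫ y, G x (T y) ∂μ)]
      refine Finset.sum_congr rfl fun p _ => ?_
      rw [integral_comp_simple μ T (G p), Finset.mul_sum]
      refine Finset.sum_congr rfl fun r _ => ?_
      ring
    have hFT : Integrable (fun y => F (T y)) μ := (T.map F).integrable_of_isFiniteMeasure
    have e1 : ∫ y, F y ∂μ ≤ δ * M + ∫ y, F (T y) ∂μ := by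
      have : ∫ y, F y ∂μ - ∫ y, F (T y) ∂μ ≤ δ * M := by
        rw [← integral_sub hFint hFT]
        calc ∫ y, (F y - F (T y)) ∂μ ≤ ∫ _, δ ∂μ := by
              refine integral_mono (hFint.sub hFT) (integrable_const _) fun y => ?_
              have h1 := hF1 (a := y) (b := T y) (by
                rw [dist_comm]; exact lt_of_lt_of_le (hT y) (min_le_left _ _))
              rw [Real.dist_eq] at h1
              exact (le_abs_self _).trans h1.le
          _ = δ * M := by rw [integral_const, smul_eq_mul, hM]; ring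
      linarith
    have hGT : ∀ x, Integrable (fun y => G (T x) (T y)) μ := fun x =>
      (T.map (G (T x))).integrable_of_isFiniteMeasure
    have hGT2 : Integrable (fun x => ∫ y, G (T x) (T y) ∂μ) μ :=
      (T.map (fun p => ∫ y, G p (T y) ∂μ)).integrable_of_isFiniteMeasure
    have hG2 : Integrable (fun x => ∫ y, G x y ∂μ) μ := by
      have hprod : Integrable (Function.uncurry G) (μ.prod μ) :=
        hG.integrable_of_hasCompactSupport (HasCompactSupport.of_compactSpace _)
      exact hprod.integral_prod_left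
    have e2 : ∫ x, ∫ y, G (T x) (T y) ∂μ ∂μ ≤ ∫ x, ∫ y, G x y ∂μ ∂μ + δ * M ^ 2 := by
      have : ∫ x, ∫ y, G (T x) (T y) ∂μ ∂μ - ∫ x, ∫ y, G x y ∂μ ∂μ ≤ δ * M ^ 2 := by
        rw [← integral_sub hGT2 hG2]
        calc ∫ x, (∫ y, G (T x) (T y) ∂μ - ∫ y, G x y ∂μ) ∂μ ≤ ∫ _, δ * M ∂μ := by
              refine integral_mono (hGT2.sub hG2) (integrable_const _) fun x => ?_
              simp only
              rw [← integral_sub (hGT x) (hGint x)]
              calc ∫ y, (G (T x) (T y) - G x y) ∂μ ≤ ∫ _, δ ∂μ := by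
                    refine integral_mono ((hGT x).sub (hGint x)) (integrable_const _) fun y => ?_
                    have h1 := hG1 (a := (T x, T y)) (b := (x, y)) (by
                      rw [Prod.dist_eq]
                      exact max_lt (lt_of_lt_of_le (hT x) (min_le_right _ _))
                        (lt_of_lt_of_le (hT y) (min_le_right _ _)))
                    rw [Real.dist_eq] at h1
                    exact (le_abs_self _).trans h1.le
                _ = δ * M := by rw [integral_const, smul_eq_mul, hM]; ring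
          _ = δ * M ^ 2 := by rw [integral_const, smul_eq_mul, hM]; ring
      linarith
    have h3 := h T.range (fun p => μ.real (T ⁻¹' {p})) (fun p => measureReal_nonneg)
    rw [← hsumF, ← hsumG] at h3
    calc ∫ y, F y ∂μ ≤ δ * M + ∫ y, F (T y) ∂μ := e1
      _ ≤ δ * M + √(∫ x, ∫ y, G (T x) (T y) ∂μ ∂μ) := by gcongr
      _ ≤ δ * M + √(∫ x, ∫ y, G x y ∂μ ∂μ + δ * M ^ 2) := by gcongr
  have hlim : Tendsto (fun δ : ℝ => δ * M + √(∫ x, ∫ y, G x y ∂μ ∂μ + δ * M ^ 2)) (𝓝[>] 0)
      (𝓝 (0 * M + √(∫ x, ∫ y, G x y ∂μ ∂μ + 0 * M ^ 2))) := by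
    have : Continuous (fun δ : ℝ => δ * M + √(∫ x, ∫ y, G x y ∂μ ∂μ + δ * M ^ 2)) := by
      fun_prop
    exact (this.tendsto 0).mono_left nhdsWithin_le_nhds
  have := ge_of_tendsto hlim (by
    filter_upwards [self_mem_nhdsWithin] with δ hδ using key δ hδ)
  simpa using this

end Crest.Agent.R241.A7
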