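import Crest.Agent.R241.A9Bary

/-!
R241, block A9: the equality case of Theorem A for `n ≥ 3`, `k = 0`.
`u = 1` is an exact minimiser of the sharp Sobolev quotient; the ODE comparison with
`q = 2* = n/m`, `e = 0` gives `∫ z_x dτ ≤ τ(K)/h²` for a.e. `x`; then `A9Bary`.
-/

set_option autoImplicit false

namespace Crest.Agent.R241.A9

open MeasureTheory Set Filter Topology
open scoped NNReal ENNReal
open Crest.Agent.R241.A

section
variable {n : ℕ} {k : ℝ} {K : Type*} [MetricSpace K] [CompactSpace K]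
  [MeasurableSpace K] [BorelSpace K]

/-- Sharp Sobolev inequality (exported by A7). -/
def T_sharp (P : PreData n k K) (h : ℝ) : Prop :=
  ∀ v : K → ℝ, Lip v →
    mA n * n / 2 * sphArea n ^ (2 / (n : ℝ)) *
      (∫ y, |v y| ^ ((n : ℝ) / mA n) ∂P.τ) ^ (2 * mA n / n)
      ≤ P.energy (bA n k h) v

end

/-! ### one-dimensional facts about `HA` -/

/-- The integrand of `W`. -/
lemma integral_eq_HA {n : ℕ} {t z : ℝ} (ht : 0 < t) :
    ∫ s in (0 : ℝ)..t, mA n * s ^ (mA n - 1) * (1 + s * z) ^ (-(n : ℝ))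
      = t ^ mA n * HA n (t * z) := by
  unfold HA
  have h1 := intervalIntegral.integral_comp_mul_left (a := 0) (b := 1)
    (fun s : ℝ => mA n * s ^ (mA n - 1) * (1 + s * z) ^ (-(n : ℝ))) ht.ne'
  simp only [mul_zero, mul_one, smul_eq_mul] at h1
  have h2 : ∫ s in (0 : ℝ)..t, mA n * s ^ (mA n - 1) * (1 + s * z) ^ (-(n : ℝ))
      = t * ∫ x in (0 : ℝ)..1, mA n * (t * x) ^ (mA n - 1) * (1 + t * x * z) ^ (-(n : ℝ)) := by
    rw [h1, mul_inv_cancel_left₀ ht.ne']
  rw [h2]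
  have h3 : ∫ x in (0 : ℝ)..1, mA n * (t * x) ^ (mA n - 1) * (1 + t * x * z) ^ (-(n : ℝ))
      = t ^ (mA n - 1) * ∫ s in (0 : ℝ)..1, mA n * s ^ (mA n - 1)
          * (1 + s * (t * z)) ^ (-(n : ℝ)) := by
    rw [← intervalIntegral.integral_const_mul]
    refine intervalIntegral.integral_congr fun x hx => ?_
    rw [uIcc_of_le zero_le_one] at hx
    rw [Real.mul_rpow ht.le hx.1]
    have e : 1 + t * x * z = 1 + x * (t * z) := by ring
    rw [e]; ring
  rw [h3, ← mul_assoc]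
  congr 1
  have : t * t ^ (mA n - 1) = t ^ (1 : ℝ) * t ^ (mA n - 1) := by rw [Real.rpow_one]
  rw [this, ← Real.rpow_add ht]
  congr 1; ring

section
variable {n : ℕ} {K : Type*} [MetricSpace K] [CompactSpace K]
  [MeasurableSpace K] [BorelSpace K]

/-- normalised `N`. -/
noncomputable def Nf (n : ℕ) (τ : Measure K) (z : K → ℝ) (s : ℝ) : ℝ :=
  (τ.real univ)⁻¹ * ∫ y, (1 + |s| * z y) ^ (-(n : ℝ)) ∂τ

lemma base_pos {z : K → ℝ} (hz : ∀ y, 0 ≤ z y) {s : ℝ} (hs : 0 ≤ s) (y : K) :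
    0 < 1 + s * z y := by
  have := mul_nonneg hs (hz y); linarith

lemma rpow_le_one' {n : ℕ} {x : ℝ} (hx : 1 ≤ x) : x ^ (-(n : ℝ)) ≤ 1 :=
  Real.rpow_le_one_of_one_le_of_nonpos hx (by simp)

lemma continuous_Nf (n : ℕ) (τ : Measure K) [IsFiniteMeasure τ] {z : K → ℝ}
    (hzc : Continuous z) (hz : ∀ y, 0 ≤ z y) : Continuous (Nf n τ z) := by
  unfold Nf
  refine continuous_const.mul ?_
  refine continuous_of_dominated (bound := fun _ => (1 : ℝ)) ?_ ?_ ?_ ?_
  · intro s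
    refine Continuous.aestronglyMeasurable ?_
    refine Continuous.rpow_const (by fun_prop) fun y => Or.inl ?_
    exact (base_pos hz (abs_nonneg s) y).ne'
  · intro s
    refine ae_of_all _ fun y => ?_
    have h1 := base_pos hz (abs_nonneg s) y
    rw [Real.norm_eq_abs, abs_of_nonneg (Real.rpow_nonneg h1.le _)]
    exact rpow_le_one' (by have := mul_nonneg (abs_nonneg s) (hz y); linarith)
  · exact integrable_const _
  · refine ae_of_all _ fun y => ?_
    refine Continuous.rpow_const (by fun_prop) fun s => Or.inl ?_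
    exact (base_pos hz (abs_nonneg s) y).ne'

lemma integrable_base (n : ℕ) (τ : Measure K) [IsFiniteMeasure τ] {z : K → ℝ}
    (hzc : Continuous z) (hz : ∀ y, 0 ≤ z y) {s : ℝ} (hs : 0 ≤ s) :
    Integrable (fun y => (1 + s * z y) ^ (-(n : ℝ))) τ := by
  refine Integrable.of_bound (C := 1) ?_ ?_
  · refine Continuous.aestronglyMeasurable ?_
    refine Continuous.rpow_const (by fun_prop) fun y => Or.inl ?_
    exact (base_pos hz hs y).ne'
  · refine ae_of_all _ fun y => ?_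
    have h1 := base_pos hz hs y
    rw [Real.norm_eq_abs, abs_of_nonneg (Real.rpow_nonneg h1.le _)]
    exact rpow_le_one' (by have := mul_nonneg hs (hz y); linarith)

lemma Nf_pos (n : ℕ) (τ : Measure K) [IsFiniteMeasure τ] (hM : 0 < τ.real univ) {z : K → ℝ}
    (hzc : Continuous z) (hz : ∀ y, 0 ≤ z y) {s : ℝ} : 0 < Nf n τ z s := by
  unfold Nf
  refine mul_pos (inv_pos.2 hM) ?_
  rw [integral_pos_iff_support_of_nonneg]
  · have : Function.support (fun y => (1 + |s| * z y) ^ (-(n : ℝ))) = univ := by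
      ext y
      simp only [Function.mem_support, mem_univ, iff_true]
      exact (Real.rpow_pos_of_pos (base_pos hz (abs_nonneg s) y) _).ne'
    rw [this]
    exact (ENNReal.toReal_pos_iff.1 hM).1
  · intro y
    exact (Real.rpow_pos_of_pos (base_pos hz (abs_nonneg s) y) _).le
  · exact integrable_base n τ hzc hz (abs_nonneg s)

/-- Fubini. -/
lemma integral_Nf (n : ℕ) (hn : 3 ≤ n) (τ : Measure K) [IsFiniteMeasure τ] {z : K → ℝ}
    (hzc : Continuous z) (hz : ∀ y, 0 ≤ z y) {t : ℝ} (ht : 0 < t) :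
    ∫ s in (0 : ℝ)..t, mA n * s ^ (mA n - 1) * Nf n τ z s
      = (τ.real univ)⁻¹ * ∫ y, t ^ mA n * HA n (t * z y) ∂τ := by
  have hm := mA_pos hn
  have h1 : ∫ s in (0 : ℝ)..t, mA n * s ^ (mA n - 1) * Nf n τ z s
      = (τ.real univ)⁻¹ * ∫ s in (0 : ℝ)..t, ∫ y,
        mA n * s ^ (mA n - 1) * (1 + s * z y) ^ (-(n : ℝ)) ∂τ := by
    rw [← intervalIntegral.integral_const_mul]
    refine intervalIntegral.integral_congr fun s hs => ?_
    rw [uIcc_of_le ht.le] at hs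
    simp only [Nf]
    rw [abs_of_nonneg hs.1, integral_const_mul]
    ring
  rw [h1]
  congr 1
  rw [intervalIntegral.integral_of_le ht.le, integral_integral_swap]
  · refine integral_congr_ae (ae_of_all _ fun y => ?_)
    simp only
    rw [← intervalIntegral.integral_of_le ht.le, integral_eq_HA ht]
  · -- integrability on the product
    have h2 : Integrable (fun s : ℝ => mA n * s ^ (mA n - 1)) (volume.restrict (Ioc 0 t)) := by
      have : IntervalIntegrable (fun s : ℝ => s ^ (mA n - 1)) volume 0 t :=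
        intervalIntegral.intervalIntegrable_rpow' (by linarith)
      rw [intervalIntegrable_iff_integrableOn_Ioc_of_le ht.le] at this
      exact this.const_mul _
    have h3 : Integrable (fun p : ℝ × K => (mA n * p.1 ^ (mA n - 1)) * (1 : ℝ))
        ((volume.restrict (Ioc 0 t)).prod τ) :=
      h2.mul_prod (integrable_const (1 : ℝ))
    refine Integrable.mono' h3 ?_ ?_
    · refine Measurable.aestronglyMeasurable ?_
      have hmz : Measurable z := hzc.measurable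
      simp only [Function.uncurry_def]
      fun_prop
    · have h4 : ∀ᵐ p ∂((volume.restrict (Ioc 0 t)).prod τ), p.1 ∈ Ioc (0 : ℝ) t := by
        have : ∀ᵐ s ∂(volume.restrict (Ioc (0 : ℝ) t)), s ∈ Ioc (0 : ℝ) t :=
          ae_restrict_mem measurableSet_Ioc
        exact (Measure.quasiMeasurePreserving_fst
          (μ := volume.restrict (Ioc (0 : ℝ) t)) (ν := τ)).ae this
      filter_upwards [h4] with p hp
      simp only [Function.uncurry_def]
      have h5 := base_pos hz hp.1.le p.2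
      have h6 : 0 ≤ mA n * p.1 ^ (mA n - 1) := mul_nonneg hm.le (Real.rpow_nonneg hp.1.le _)
      rw [norm_mul, Real.norm_eq_abs, Real.norm_eq_abs, abs_of_nonneg h6,
        abs_of_nonneg (Real.rpow_nonneg h5.le _)]
      refine mul_le_mul_of_nonneg_left ?_ h6
      exact rpow_le_one' (by have := mul_nonneg hp.1.le (hz p.2); linarith)

/-- Bernoulli for negative powers. -/
lemma rpow_neg_ge {x s : ℝ} (hx : 0 < x) (hs : 0 ≤ s) : 1 + s * (1 - x) ≤ x ^ (-s) := by
  rw [Real.rpow_def_of_pos hx]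
  have h1 := Real.add_one_le_exp (Real.log x * -s)
  have h2 := Real.log_le_sub_one_of_pos hx
  nlinarith

/-- integrability of `z_x^{-m}` from `T_int`. -/
lemma integrable_neg_pow (P : PreData n 0 K) (hn : 3 ≤ n) (hint : T_int P) (x : K) :
    Integrable (fun y => zd 0 x y ^ (-(mA n))) P.τ := by
  have hm := mA_pos hn
  have hnn := n_eq n
  obtain ⟨C, hC, h⟩ := hint (mA n) hm.le (by linarith)
  refine ⟨?_, ?_⟩
  · have : Measurable (zd 0 x) := (continuous_zd 0 x).measurable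
    exact (this.pow_const _).aestronglyMeasurable
  · rw [hasFiniteIntegral_iff_ofReal (ae_of_all _ fun y => Real.rpow_nonneg (zd_nonneg _ _ _) _)]
    exact (h x).1.trans_lt ENNReal.ofReal_lt_top

lemma ae_zd_pos (P : PreData n 0 K) (hn : 3 ≤ n) (hint : T_int P) (x : K) :
    ∀ᵐ y ∂P.τ, 0 < zd 0 x y := by
  have hm := mA_pos hn
  have hnn := n_eq n
  obtain ⟨C, hC, h⟩ := hint (mA n) hm.le (by linarith)
  have h0 := (h x).2
  have h1 : ∀ᵐ y ∂P.τ, y ≠ x := by
    rw [ae_iff]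
    have : {a | ¬a ≠ x} = {x} := by ext y; simp
    rw [this]; exact h0
  filter_upwards [h1] with y hy
  exact zd_pos (Ne.symm hy)

/-- The pole bound for `u = 1`. -/
lemma pole_one (P : PreData n 0 K) {h : ℝ} (hn : 3 ≤ n) (hh : 0 < h) (hint : T_int P)
    (hpole : T_pole P) (hsuper : T_super P h) :
    ∀ᵐ x ∂P.τ, cP n ≤ bA n 0 h * ∫ y, zd 0 x y ^ (-(mA n)) ∂P.τ := by
  have hm := mA_pos hn
  have hb := bA_pos (h := h) hn le_rfl hh
  filter_upwards [hpole] with x hx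
  have hi := integrable_neg_pow P hn hint x
  have key : ∀ θ : ℝ, θ < 1 → θ * cP n ≤ bA n 0 h * ∫ y, zd 0 x y ^ (-(mA n)) ∂P.τ := by
    intro θ hθ
    have h1 := hx (fun _ => 1) continuous_const (fun _ => zero_le_one) θ hθ
    obtain ⟨a, ha1, ha2⟩ := (h1.and self_mem_nhdsWithin).exists
    have ha : 0 < a := ha2
    have h2 := hsuper x a ha (fun _ => 1) (Lip.const 1) (fun _ => zero_le_one)
    have h3 : P.form (bA n 0 h) (phiA n 0 x a) (fun _ => 1)
        = bA n 0 h * ∫ y, (zd 0 x y + a) ^ (-(mA n)) ∂P.τ := by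
      unfold PreData.form
      rw [← integral_const_mul]
      refine integral_congr_ae ?_
      filter_upwards [P.G_const_right 1 (lip_zd_rpow 0 x ha (-(mA n)))] with y hy
      have hy' : P.G (phiA n 0 x a) (fun _ => 1) y = 0 := hy
      rw [hy']
      unfold phiA
      ring
    have h4 : ∫ y, (zd 0 x y + a) ^ (-(mA n)) ∂P.τ ≤ ∫ y, zd 0 x y ^ (-(mA n)) ∂P.τ := by
      refine integral_mono_ae (P.integrable_lip (lip_zd_rpow 0 x ha _)) hi ?_
      filter_upwards [ae_zd_pos P hn hint x] with y hy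
      exact Real.rpow_le_rpow_of_nonpos hy (by linarith) (by linarith)
    have h5 : θ * cP n * 1 ≤ _ := ha1
    rw [mul_one] at h5
    refine h5.trans (h2.trans ?_)
    rw [h3]
    exact mul_le_mul_of_nonneg_left h4 hb.le
  have hlim : Tendsto (fun θ : ℝ => θ * cP n) (𝓝[<] 1) (𝓝 (cP n)) := by
    have : Tendsto (fun θ : ℝ => θ * cP n) (𝓝 1) (𝓝 (1 * cP n)) :=
      (continuous_id.mul continuous_const).tendsto 1
    rw [one_mul] at this
    exact this.mono_left nhdsWithin_le_nhds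
  exact le_of_tendsto hlim (by
    filter_upwards [self_mem_nhdsWithin] with θ hθ
    exact key θ hθ)

/-- Step 1: `N(t)^{2m/n} ≤ M⁻¹ ∫ H(t z)`. -/
lemma key_one (P : PreData n 0 K) {h : ℝ} (hn : 3 ≤ n) (hh : 0 < h) (hM : 0 < P.τ.real univ)
    (hkey : T_key P h) (hsharp : T_sharp P h)
    (heq : (h ^ 2) ^ ((n : ℝ) / 2) * P.τ.real univ = sphArea n) (x : K) {t : ℝ} (ht : 0 < t) :
    Nf n P.τ (zd 0 x) t ^ (2 * mA n / n)
      ≤ (P.τ.real univ)⁻¹ * ∫ y, HA n (t * zd 0 x y) ∂P.τ := by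
  have hm := mA_pos hn
  have hb := bA_pos (h := h) hn le_rfl hh
  have hn0 : (0 : ℝ) < n := by positivity
  have hnn := n_eq n
  set M := P.τ.real univ with hMdef
  have hz := zd_nonneg (K := K) 0 x
  have hw : wA n 0 x (fun _ : K => (1 : ℝ)) = zd 0 x := by
    ext y; simp [wA]
  obtain ⟨h1, h2, h3⟩ := hkey.1 x t (fun _ => 1) ht (Lip.const 1) (fun _ => one_pos)
  simp only [hw, one_mul] at h1 h2 h3
  have h4 : P.form (bA n 0 h) (fun _ => 1) (fun y => HA n (t * zd 0 x y))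
      = bA n 0 h * ∫ y, HA n (t * zd 0 x y) ∂P.τ := by
    unfold PreData.form
    rw [← integral_const_mul]
    refine integral_congr_ae ?_
    filter_upwards [P.G_const_left 1 h2] with y hy
    rw [hy]; ring
  rw [h4] at h3
  have h5 := hsharp _ h1
  have h6 : ∫ y, |(1 + t * zd 0 x y) ^ (-(mA n))| ^ ((n : ℝ) / mA n) ∂P.τ
      = M * Nf n P.τ (zd 0 x) t := by
    unfold Nf
    rw [abs_of_pos ht, mul_inv_cancel_left₀ hM.ne']
    refine integral_congr_ae (ae_of_all _ fun y => ?_)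
    have hp := base_pos hz ht.le y
    simp only
    rw [abs_of_nonneg (Real.rpow_nonneg hp.le _), ← Real.rpow_mul hp.le]
    congr 1
    field_simp
  rw [h6] at h5
  have hN := Nf_pos n P.τ hM (continuous_zd 0 x) hz (s := t)
  have h7 := h5.trans h3
  -- constants
  have h8 : sphArea n ^ (2 / (n : ℝ)) = h ^ 2 * M ^ (2 / (n : ℝ)) := by
    rw [← heq, Real.mul_rpow (Real.rpow_nonneg (sq_nonneg h) _) hM.le,
      ← Real.rpow_mul (sq_nonneg h)]
    have : (n : ℝ) / 2 * (2 / n) = 1 := by field_simp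
    rw [this, Real.rpow_one]
  have h9 : bA n 0 h = mA n * n / 2 * h ^ 2 := by unfold bA; ring
  rw [h8, h9, Real.mul_rpow hM.le hN.le] at h7
  have h10 : M ^ (2 / (n : ℝ)) * M ^ (2 * mA n / n) = M := by
    rw [← Real.rpow_add hM]
    have : 2 / (n : ℝ) + 2 * mA n / n = 1 := by
      rw [← add_div, hnn]
      rw [div_eq_one_iff_eq (by linarith)]; ring
    rw [this, Real.rpow_one]
  have hc : 0 < mA n * n / 2 * h ^ 2 := by positivity
  have h11 : (mA n * n / 2 * h ^ 2) * (M * Nf n P.τ (zd 0 x) t ^ (2 * mA n / n))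
      ≤ (mA n * n / 2 * h ^ 2) * ∫ y, HA n (t * zd 0 x y) ∂P.τ := by
    calc (mA n * n / 2 * h ^ 2) * (M * Nf n P.τ (zd 0 x) t ^ (2 * mA n / n))
        = mA n * n / 2 * (h ^ 2 * M ^ (2 / (n : ℝ))) *
          (M ^ (2 * mA n / n) * Nf n P.τ (zd 0 x) t ^ (2 * mA n / n)) := by
          nth_rewrite 1 [← h10]; ring
      _ ≤ _ := h7
  have h12 := le_of_mul_le_mul_left h11 hc
  rw [← div_eq_inv_mul, le_div_iff₀ hM]
  linarith

/-- `W(t)` -/
noncomputable def Wf (n : ℕ) (τ : Measure K) (z : K → ℝ) (t : ℝ) : ℝ :=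
  ∫ s in (0 : ℝ)..t, mA n * s ^ (mA n - 1) * Nf n τ z s

lemma Wf_eq (hn : 3 ≤ n) (τ : Measure K) [IsFiniteMeasure τ] {z : K → ℝ}
    (hzc : Continuous z) (hz : ∀ y, 0 ≤ z y) {t : ℝ} (ht : 0 < t) :
    Wf n τ z t = t ^ mA n * ((τ.real univ)⁻¹ * ∫ y, HA n (t * z y) ∂τ) := by
  unfold Wf
  rw [integral_Nf n hn τ hzc hz ht, integral_const_mul]; ring

lemma ode_step (P : PreData n 0 K) {h : ℝ} (hn : 3 ≤ n) (hh : 0 < h) (hM : 0 < P.τ.real univ)
    (hode : T_ode) (hkey : T_key P h) (hsharp : T_sharp P h)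
    (heq : (h ^ 2) ^ ((n : ℝ) / 2) * P.τ.real univ = sphArea n) (x : K) {t0 T : ℝ}
    (ht0 : 0 < t0) (hT : t0 ≤ T) :
    Wf n P.τ (zd 0 x) t0 ^ (-(1 / mA n)) - t0⁻¹ ≤ Wf n P.τ (zd 0 x) T ^ (-(1 / mA n)) := by
  have hm := mA_pos hn
  have hnn := n_eq n
  have hn0 : (0 : ℝ) < n := by positivity
  have hz := zd_nonneg (K := K) 0 x
  have hq : 2 < (n : ℝ) / mA n := by
    rw [lt_div_iff₀ hm]; linarith
  have h1 := hode (mA n) ((n : ℝ) / mA n) 0 t0 T (Nf n P.τ (zd 0 x)) hm hq le_rfl ht0 hT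
    (continuous_Nf n P.τ (continuous_zd 0 x) hz)
    (fun s _ => Nf_pos n P.τ hM (continuous_zd 0 x) hz) ?_
  · have e1 : ((n : ℝ) / mA n - 2) / 2 = 1 / mA n := by
      field_simp; linarith
    have e2 : mA n * ((n : ℝ) / mA n - 2) / 2 = 1 := by
      field_simp; linarith
    rw [e1, e2, zero_mul, add_zero, Real.rpow_neg_one] at h1
    exact h1
  · intro t ht
    have htp : 0 < t := ht0.trans_le ht.1
    have h2 := key_one P hn hh hM hkey hsharp heq x htp
    have e3 : 2 / ((n : ℝ) / mA n) = 2 * mA n / n := by field_simp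
    rw [e3, add_zero]
    have h3 := Wf_eq hn P.τ (continuous_zd 0 x) hz htp
    unfold Wf at h3
    rw [h3, ← mul_assoc, ← Real.rpow_add htp, neg_add_cancel, Real.rpow_zero, one_mul]
    exact h2

lemma continuous_HA (hH : T_H n) {z : K → ℝ} (hzc : Continuous z) (hz : ∀ y, 0 ≤ z y) {t : ℝ}
    (ht : 0 ≤ t) : Continuous fun y => HA n (t * z y) :=
  hH.cont.comp_continuous (continuous_const.mul hzc) fun y => mul_nonneg ht (hz y)

/-- lower bound as `t → 0`. -/
lemma lower_t0 (hH : T_H n) (hn : 3 ≤ n) (τ : Measure K) [IsFiniteMeasure τ]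
    (hM : 0 < τ.real univ) {z : K → ℝ} (hzc : Continuous z) (hz : ∀ y, 0 ≤ z y) :
    ∃ C : ℝ, ∀ t : ℝ, 0 < t → 2 * ((τ.real univ)⁻¹ * ∫ y, z y ∂τ) - C * t
      ≤ Wf n τ z t ^ (-(1 / mA n)) - t⁻¹ := by
  have hm := mA_pos hn
  obtain ⟨C, hC, hCb⟩ := hH.one_sub_ge
  set M := τ.real univ with hMdef
  refine ⟨C * (M⁻¹ * ∫ y, z y ^ 2 ∂τ) / mA n, fun t ht => ?_⟩
  have hint : ∀ f : K → ℝ, Continuous f → Integrable f τ := fun f hf => by
    obtain ⟨B, _, hB⟩ := exists_bound_of_continuous hf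
    exact Integrable.of_bound hf.aestronglyMeasurable B (ae_of_all _ fun y => by simpa using hB y)
  set A := M⁻¹ * ∫ y, HA n (t * z y) ∂τ with hA
  have hcH := continuous_HA hH hzc hz ht.le
  have hApos : 0 < A := by
    refine mul_pos (inv_pos.2 hM) ?_
    rw [integral_pos_iff_support_of_nonneg _ (hint _ hcH)]
    · have : Function.support (fun y => HA n (t * z y)) = univ := by
        ext y
        simp only [Function.mem_support, mem_univ, iff_true]
        exact (hH.pos _ (mul_nonneg ht.le (hz y))).ne'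
      rw [this]
      exact (ENNReal.toReal_pos_iff.1 hM).1
    · intro y
      exact (hH.pos _ (mul_nonneg ht.le (hz y))).le
  have h1 : A ≤ 1 - 2 * mA n * t * (M⁻¹ * ∫ y, z y ∂τ) + C * t ^ 2 * (M⁻¹ * ∫ y, z y ^ 2 ∂τ) := by
    have h2 : ∫ y, HA n (t * z y) ∂τ ≤ ∫ y, (1 - (2 * mA n * t) * z y + (C * t ^ 2) * z y ^ 2) ∂τ := by
      refine integral_mono (hint _ hcH) (hint _ (by fun_prop)) fun y => ?_
      have := hCb (t * z y) (mul_nonneg ht.le (hz y))
      simp only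
      nlinarith [this]
    have h3 : ∫ y, (1 - (2 * mA n * t) * z y + (C * t ^ 2) * z y ^ 2) ∂τ
        = M - (2 * mA n * t) * ∫ y, z y ∂τ + (C * t ^ 2) * ∫ y, z y ^ 2 ∂τ := by
      have i1 : Integrable (fun _ : K => (1 : ℝ)) τ := integrable_const _
      have i2 : Integrable (fun y => (2 * mA n * t) * z y) τ := (hint _ hzc).const_mul _
      have i3 : Integrable (fun y => (C * t ^ 2) * z y ^ 2) τ :=
        (hint _ (hzc.pow 2)).const_mul _
      have i12 : Integrable (fun y => 1 - (2 * mA n * t) * z y) τ := i1.sub i2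
      rw [integral_add i12 i3, integral_sub i1 i2, integral_const_mul, integral_const_mul,
        integral_const, smul_eq_mul, mul_one]
    rw [h3] at h2
    have h4 : A ≤ M⁻¹ * (M - (2 * mA n * t) * ∫ y, z y ∂τ + (C * t ^ 2) * ∫ y, z y ^ 2 ∂τ) :=
      mul_le_mul_of_nonneg_left h2 (inv_nonneg.2 hM.le)
    refine h4.trans (le_of_eq ?_)
    have : M⁻¹ * M = 1 := inv_mul_cancel₀ hM.ne'
    linear_combination this
  rw [Wf_eq hn τ hzc hz ht, Real.mul_rpow (Real.rpow_nonneg ht.le _) hApos.le,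
    ← Real.rpow_mul ht.le]
  have e1 : mA n * -(1 / mA n) = -1 := by field_simp
  rw [e1, Real.rpow_neg_one]
  have h5 := rpow_neg_ge hApos (s := 1 / mA n) (by positivity)
  have h6 : t⁻¹ * (1 + 1 / mA n * (1 - A)) ≤ t⁻¹ * A ^ (-(1 / mA n)) :=
    mul_le_mul_of_nonneg_left h5 (inv_nonneg.2 ht.le)
  have h7 : 2 * (M⁻¹ * ∫ y, z y ∂τ) - C * (M⁻¹ * ∫ y, z y ^ 2 ∂τ) / mA n * t
      = t⁻¹ * (1 / mA n * (2 * mA n * t * (M⁻¹ * ∫ y, z y ∂τ)
        - C * t ^ 2 * (M⁻¹ * ∫ y, z y ^ 2 ∂τ))) := by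
    field_simp
  rw [h7]
  have h8 : t⁻¹ * (1 / mA n * (2 * mA n * t * (M⁻¹ * ∫ y, z y ∂τ)
        - C * t ^ 2 * (M⁻¹ * ∫ y, z y ^ 2 ∂τ))) ≤ t⁻¹ * (1 / mA n * (1 - A)) := by
    refine mul_le_mul_of_nonneg_left ?_ (inv_nonneg.2 ht.le)
    refine mul_le_mul_of_nonneg_left ?_ (by positivity)
    linarith
  have h9 : t⁻¹ * (1 + 1 / mA n * (1 - A)) = t⁻¹ + t⁻¹ * (1 / mA n * (1 - A)) := by ring
  rw [h9] at h6
  linarith

lemma tendsto_gA (hH : T_H n) (hn : 3 ≤ n) : Tendsto (gA n) atTop (𝓝 (CnA n)) := by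
  have hm := mA_pos hn
  have h1 : Tendsto (fun r : ℝ => CnA n - mA n / (mA n + 2) * r ^ (-(mA n) - 2)) atTop
      (𝓝 (CnA n - mA n / (mA n + 2) * 0)) := by
    refine Tendsto.sub tendsto_const_nhds (Tendsto.const_mul _ ?_)
    have e : -(mA n) - 2 = -(mA n + 2) := by ring
    rw [e]
    exact tendsto_rpow_neg_atTop (by linarith)
  rw [mul_zero, sub_zero] at h1
  refine tendsto_of_tendsto_of_tendsto_of_le_of_le' h1 tendsto_const_nhds ?_ ?_
  · filter_upwards [eventually_gt_atTop (0 : ℝ)] with r hr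
    have := hH.g_tail r hr
    linarith
  · filter_upwards [eventually_ge_atTop (0 : ℝ)] with r hr
    exact hH.g_le r hr

/-- the limit of `W` at infinity. -/
lemma tendsto_Wf (hH : T_H n) (hn : 3 ≤ n) (τ : Measure K) [IsFiniteMeasure τ]
    {z : K → ℝ} (hzc : Continuous z) (hz : ∀ y, 0 ≤ z y) (hpos : ∀ᵐ y ∂τ, 0 < z y)
    (hi : Integrable (fun y => z y ^ (-(mA n))) τ) :
    Tendsto (Wf n τ z) atTop (𝓝 ((τ.real univ)⁻¹ * (CnA n * ∫ y, z y ^ (-(mA n)) ∂τ))) := by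
  have hm := mA_pos hn
  have h1 : Tendsto (fun t : ℝ => (τ.real univ)⁻¹ * ∫ y, z y ^ (-(mA n)) * gA n (t * z y) ∂τ) atTop
      (𝓝 ((τ.real univ)⁻¹ * ∫ y, z y ^ (-(mA n)) * CnA n ∂τ)) := by
    refine Tendsto.const_mul _ ?_
    refine tendsto_integral_filter_of_dominated_convergence
      (fun y => z y ^ (-(mA n)) * CnA n) ?_ ?_ ?_ ?_
    · filter_upwards [eventually_gt_atTop (0 : ℝ)] with t ht
      have hcH := continuous_HA hH hzc hz ht.le
      have h2 : AEStronglyMeasurable (fun y => t ^ mA n * HA n (t * z y)) τ :=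
        (continuous_const.mul hcH).aestronglyMeasurable
      refine h2.congr ?_
      filter_upwards [hpos] with y hy
      rw [hH.g_eq _ (mul_pos ht hy), Real.mul_rpow ht.le hy.le, Real.rpow_neg hy.le]
      have := (Real.rpow_pos_of_pos hy (mA n)).ne'
      field_simp
    · filter_upwards [eventually_gt_atTop (0 : ℝ)] with t ht
      refine ae_of_all _ fun y => ?_
      have h3 : 0 ≤ z y ^ (-(mA n)) := Real.rpow_nonneg (hz y) _
      have h4 : 0 ≤ gA n (t * z y) := by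
        have := hH.g_mono (mem_Ici.2 le_rfl) (mem_Ici.2 (mul_nonneg ht.le (hz y)))
          (mul_nonneg ht.le (hz y))
        have h0 : gA n 0 = 0 := by simp [gA]
        linarith
      rw [Real.norm_eq_abs, abs_of_nonneg (mul_nonneg h3 h4)]
      exact mul_le_mul_of_nonneg_left (hH.g_le _ (mul_nonneg ht.le (hz y))) h3
    · exact hi.mul_const _
    · filter_upwards [hpos] with y hy
      refine Tendsto.const_mul _ ?_
      exact (tendsto_gA hH hn).comp (tendsto_id.atTop_mul_const hy)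
  have h2 : ∫ y, z y ^ (-(mA n)) * CnA n ∂τ = CnA n * ∫ y, z y ^ (-(mA n)) ∂τ := by
    rw [integral_mul_const]; ring
  rw [h2] at h1
  refine h1.congr' ?_
  filter_upwards [eventually_gt_atTop (0 : ℝ)] with t ht
  have h5 : ∫ y, z y ^ (-(mA n)) * gA n (t * z y) ∂τ = t ^ mA n * ∫ y, HA n (t * z y) ∂τ := by
    rw [← integral_const_mul]
    refine integral_congr_ae ?_
    filter_upwards [hpos] with y hy
    rw [hH.g_eq _ (mul_pos ht hy), Real.mul_rpow ht.le hy.le, Real.rpow_neg hy.le]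
    have := (Real.rpow_pos_of_pos hy (mA n)).ne'
    field_simp
  rw [Wf_eq hn τ hzc hz ht, h5]
  ring

/-- pointwise bound. -/
lemma V_upper (P : PreData n 0 K) {h : ℝ} (hn : 3 ≤ n) (hh : 0 < h) (hM : 0 < P.τ.real univ)
    (hH : T_H n) (hode : T_ode) (hkey : T_key P h) (hsharp : T_sharp P h) (hint : T_int P)
    (hpole : T_pole P) (hsuper : T_super P h)
    (heq : (h ^ 2) ^ ((n : ℝ) / 2) * P.τ.real univ = sphArea n) :
    ∀ᵐ x ∂P.τ, ∫ y, zd 0 x y ∂P.τ ≤ P.τ.real univ / h ^ 2 := by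
  have hm := mA_pos hn
  have hb := bA_pos (h := h) hn le_rfl hh
  have hn0 : (0 : ℝ) < n := by positivity
  have hnn := n_eq n
  set M := P.τ.real univ with hMdef
  filter_upwards [pole_one P hn hh hint hpole hsuper] with x hx
  have hz := zd_nonneg (K := K) 0 x
  have hzc := continuous_zd (K := K) 0 x
  set I := ∫ y, zd 0 x y ^ (-(mA n)) ∂P.τ with hI
  -- `2 Z ≤ W(T)^{-1/m}`
  obtain ⟨C, hC⟩ := lower_t0 hH hn P.τ hM hzc hz
  have h1 : ∀ T : ℝ, 0 < T → 2 * (M⁻¹ * ∫ y, zd 0 x y ∂P.τ)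
      ≤ Wf n P.τ (zd 0 x) T ^ (-(1 / mA n)) := by
    intro T hT
    have h2 : ∀ t ∈ Ioo (0 : ℝ) T, 2 * (M⁻¹ * ∫ y, zd 0 x y ∂P.τ) - C * t
        ≤ Wf n P.τ (zd 0 x) T ^ (-(1 / mA n)) := fun t ht =>
      (hC t ht.1).trans (ode_step P hn hh hM hode hkey hsharp heq x ht.1 ht.2.le)
    have hlim : Tendsto (fun t : ℝ => 2 * (M⁻¹ * ∫ y, zd 0 x y ∂P.τ) - C * t) (𝓝[>] 0)
        (𝓝 (2 * (M⁻¹ * ∫ y, zd 0 x y ∂P.τ))) := by
      have : Tendsto (fun t : ℝ => 2 * (M⁻¹ * ∫ y, zd 0 x y ∂P.τ) - C * t) (𝓝 0)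
          (𝓝 (2 * (M⁻¹ * ∫ y, zd 0 x y ∂P.τ) - C * 0)) :=
        (continuous_const.sub (continuous_const.mul continuous_id)).tendsto 0
      rw [mul_zero, sub_zero] at this
      exact this.mono_left nhdsWithin_le_nhds
    exact le_of_tendsto hlim (by
      filter_upwards [Ioo_mem_nhdsGT hT] with t ht
      exact h2 t ht)
  have hpos := ae_zd_pos P hn hint x
  have hi := integrable_neg_pow P hn hint x
  have h3 := tendsto_Wf hH hn P.τ hzc hz hpos hi
  -- the constant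
  have hω : 0 < omegaBall n := by
    have h4 := hH.const
    have h5 : 0 ≤ omegaBall n := ENNReal.toReal_nonneg
    rcases h5.lt_or_eq with h6 | h6
    · exact h6
    · exfalso
      rw [← h6] at h4
      have h7 : (h ^ 2) ^ ((n : ℝ) / 2) * M = 0 := by rw [heq, ← h4]; ring
      have h8 : 0 < (h ^ 2) ^ ((n : ℝ) / 2) * M := mul_pos (Real.rpow_pos_of_pos (by positivity) _) hM
      linarith
  have hconst : CnA n * cP n = (h ^ 2 / 2) ^ mA n * (bA n 0 h * M) := by
    have e1 : (h ^ 2 / 2) ^ mA n = (h ^ 2) ^ mA n * (2 ^ mA n)⁻¹ := by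
      rw [Real.div_rpow (sq_nonneg h) (by norm_num)]; rfl
    have e2 : (h ^ 2) ^ mA n * h ^ 2 = (h ^ 2) ^ ((n : ℝ) / 2) := by
      have : (h ^ 2) ^ mA n * h ^ 2 = (h ^ 2) ^ mA n * (h ^ 2) ^ (1 : ℝ) := by rw [Real.rpow_one]
      rw [this, ← Real.rpow_add (by positivity)]
      congr 1; linarith
    have e3 : (2 : ℝ) ^ n = 2 ^ mA n * 2 ^ (mA n + 1) * 2 := by
      have : (2 : ℝ) ^ n = (2 : ℝ) ^ (n : ℝ) := (Real.rpow_natCast 2 n).symm
      rw [this]
      have h9 : (2 : ℝ) ^ mA n * 2 ^ (mA n + 1) * 2 = 2 ^ mA n * 2 ^ (mA n + 1) * 2 ^ (1 : ℝ) := by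
        rw [Real.rpow_one]
      rw [h9, ← Real.rpow_add (by norm_num), ← Real.rpow_add (by norm_num)]
      congr 1; linarith
    have h4 := hH.const
    rw [← heq, ← e2, e3] at h4
    rw [e1]
    unfold cP bA
    have hinv : (2 : ℝ) ^ mA n * (2 ^ mA n)⁻¹ = 1 :=
      mul_inv_cancel₀ (Real.rpow_pos_of_pos (by norm_num) _).ne'
    linear_combination (mA n * n / 2) * (2 ^ mA n)⁻¹ * h4
      - (CnA n * (mA n * n * 2 ^ (mA n + 1) * omegaBall n)) * hinv
  have h4 : (h ^ 2 / 2) ^ mA n ≤ M⁻¹ * (CnA n * I) := by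
    rw [← div_eq_inv_mul, le_div_iff₀ hM]
    have h5 : CnA n * cP n ≤ CnA n * (bA n 0 h * I) :=
      mul_le_mul_of_nonneg_left hx hH.Cn_pos.le
    rw [hconst] at h5
    have h6 : bA n 0 h * ((h ^ 2 / 2) ^ mA n * M) ≤ bA n 0 h * (CnA n * I) := by
      linarith
    exact le_of_mul_le_mul_left h6 hb
  have h5 : 0 < (h ^ 2 / 2) ^ mA n := Real.rpow_pos_of_pos (by positivity) _
  have h6 : 2 * (M⁻¹ * ∫ y, zd 0 x y ∂P.τ) ≤ (M⁻¹ * (CnA n * I)) ^ (-(1 / mA n)) := by
    have h7 : Tendsto (fun T => Wf n P.τ (zd 0 x) T ^ (-(1 / mA n))) atTop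
        (𝓝 ((M⁻¹ * (CnA n * I)) ^ (-(1 / mA n)))) :=
      h3.rpow_const (Or.inl (h5.trans_le h4).ne')
    exact ge_of_tendsto h7 (by
      filter_upwards [eventually_gt_atTop (0 : ℝ)] with T hT
      exact h1 T hT)
  have h7 : (M⁻¹ * (CnA n * I)) ^ (-(1 / mA n)) ≤ ((h ^ 2 / 2) ^ mA n) ^ (-(1 / mA n)) :=
    Real.rpow_le_rpow_of_nonpos h5 h4 (by
      have : 0 < 1 / mA n := by positivity
      linarith)
  have h8 : ((h ^ 2 / 2) ^ mA n) ^ (-(1 / mA n)) = 2 / h ^ 2 := by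
    rw [← Real.rpow_mul (by positivity)]
    have : mA n * -(1 / mA n) = -1 := by field_simp
    rw [this, Real.rpow_neg_one]
    field_simp
  rw [h8] at h7
  have h9 := h6.trans h7
  have h10 : M⁻¹ * ∫ y, zd 0 x y ∂P.τ ≤ 1 / h ^ 2 := by
    have : 2 / h ^ 2 = 2 * (1 / h ^ 2) := by ring
    rw [this] at h9
    linarith
  rw [← div_eq_inv_mul, div_le_iff₀ hM] at h10
  calc ∫ y, zd 0 x y ∂P.τ ≤ 1 / h ^ 2 * M := h10
    _ = M / h ^ 2 := by ring

/-- **Equality case for `n ≥ 3`.** -/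
theorem equality_case (P : PreData n 0 K) {h : ℝ} (hn : 3 ≤ n) (hh : 0 < h) (hcat : CatD 0 K)
    (h0 : P.τ ≠ 0) (hFV : P.FV h) (hH : T_H n) (hode : T_ode) (hkey : T_key P h)
    (hint : T_int P) (hpole : T_pole P) (hsuper : T_super P h) (hsharp : T_sharp P h)
    (heq : (h ^ 2) ^ ((n : ℝ) / 2) * P.τ.real univ = sphArea n) :
    ∃ x : K, ∀ᵐ y ∂P.τ, zd 0 x y = 1 / (2 * h ^ 2) := by
  have hM : 0 < P.τ.real univ := by
    rw [Measure.real, ENNReal.toReal_pos_iff]
    exact ⟨Measure.measure_univ_pos.2 h0, measure_lt_top _ _⟩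
  refine A9Bary.exists_centre P (by omega) hh hcat h0 hFV ?_
  have h1 := V_upper P hn hh hM hH hode hkey hsharp hint hpole hsuper heq
  have h2 : ∫ x, ∫ y, zd 0 x y ∂P.τ ∂P.τ ≤ ∫ _x, P.τ.real univ / h ^ 2 ∂P.τ :=
    integral_mono_ae (P.integrable_of_continuous (A9Bary.continuous_V P)) (integrable_const _) h1
  rw [integral_const, smul_eq_mul] at h2
  refine h2.trans (le_of_eq ?_)
  ring

end

end Crest.Agent.R241.A9
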