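import Crest.Agent.R241.A8
import Crest.Agent.R241.A9

/-!
R241, block A: Theorem A for `n ≥ 3` from the sharp Sobolev inequality (test function `1`).
-/

set_option autoImplicit false

namespace Crest.Agent.R241.ASharp

open MeasureTheory Set Filter Topology Crest.Agent.R241.A
open scoped NNReal ENNReal

variable {n : ℕ} {k : ℝ} {K : Type*} [MetricSpace K] [CompactSpace K]
  [MeasurableSpace K] [BorelSpace K]

lemma omegaBall_nonneg (n : ℕ) : 0 ≤ omegaBall n := ENNReal.toReal_nonneg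

lemma sphArea_nonneg (n : ℕ) : 0 ≤ sphArea n :=
  mul_nonneg (by positivity) (omegaBall_nonneg _)

lemma energy_one (P : PreData n k K) (b : ℝ) :
    P.energy b (fun _ => 1) = b * P.τ.real univ := by
  rw [PreData.energy_eq]
  have h1 : ∫ y, (P.G (fun _ => (1 : ℝ)) (fun _ => (1 : ℝ)) y + b * (1 : ℝ) ^ 2) ∂P.τ
      = ∫ _, b ∂P.τ := by
    refine integral_congr_ae ?_
    filter_upwards [P.G_const_left 1 (Lip.const (1 : ℝ))] with y hy
    rw [hy]; ring
  rw [h1, integral_const, smul_eq_mul, mul_comm]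

theorem ineq_of_sharp {h : ℝ} (hn : 3 ≤ n) (hk : 0 ≤ k) (hkh : k < h) (P : PreData n k K)
    (h0 : P.τ ≠ 0) (hs : A9.T_sharp P h) :
    sphArea n ≤ (h ^ 2 - k ^ 2) ^ ((n : ℝ) / 2) * P.τ.real univ := by
  have hm := mA_pos hn
  have hnn := n_eq n
  have hn0 : (0 : ℝ) < n := by positivity
  have hM : 0 < P.τ.real univ := by
    rw [Measure.real, ENNReal.toReal_pos_iff]
    exact ⟨Measure.measure_univ_pos.2 h0, measure_lt_top _ _⟩
  have hc0 : 0 < h ^ 2 - k ^ 2 := by nlinarith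
  have h1 := hs (fun _ => 1) (Lip.const 1)
  rw [energy_one] at h1
  have e1 : ∫ _, |(1 : ℝ)| ^ ((n : ℝ) / mA n) ∂P.τ = P.τ.real univ := by
    simp
  rw [e1] at h1
  set V := P.τ.real univ with hV
  set S := sphArea n with hS
  have hS0 : 0 ≤ S := sphArea_nonneg n
  have h2 : S ^ (2 / (n : ℝ)) ≤ (h ^ 2 - k ^ 2) * V ^ (2 / (n : ℝ)) := by
    have e2 : V = V ^ (2 / (n : ℝ)) * V ^ (2 * mA n / n) := by
      rw [← Real.rpow_add hM]
      have : 2 / (n : ℝ) + 2 * mA n / n = 1 := by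
        field_simp; linarith
      rw [this, Real.rpow_one]
    have hVa : 0 < V ^ (2 * mA n / n) := Real.rpow_pos_of_pos hM _
    have h3 : (mA n * n / 2 * V ^ (2 * mA n / n)) * S ^ (2 / (n : ℝ))
        ≤ (mA n * n / 2 * V ^ (2 * mA n / n)) * ((h ^ 2 - k ^ 2) * V ^ (2 / (n : ℝ))) := by
      calc (mA n * n / 2 * V ^ (2 * mA n / n)) * S ^ (2 / (n : ℝ))
          = mA n * n / 2 * S ^ (2 / (n : ℝ)) * V ^ (2 * mA n / n) := by ring
        _ ≤ bA n k h * V := h1
        _ = bA n k h * (V ^ (2 / (n : ℝ)) * V ^ (2 * mA n / n)) := by rw [← e2]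
        _ = _ := by unfold bA; ring
    exact le_of_mul_le_mul_left h3 (by positivity)
  have h3 : (S ^ (2 / (n : ℝ))) ^ ((n : ℝ) / 2)
      ≤ ((h ^ 2 - k ^ 2) * V ^ (2 / (n : ℝ))) ^ ((n : ℝ) / 2) :=
    Real.rpow_le_rpow (Real.rpow_nonneg hS0 _) h2 (by positivity)
  rw [Real.mul_rpow hc0.le (Real.rpow_nonneg hM.le _), ← Real.rpow_mul hS0,
    ← Real.rpow_mul hM.le] at h3
  have e3 : 2 / (n : ℝ) * (n / 2) = 1 := by field_simp
  rw [e3, Real.rpow_one, Real.rpow_one] at h3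
  exact h3

end Crest.Agent.R241.ASharp
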