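import Crest.Agent.R241.A7Sharp
import Crest.Agent.R241.A1
import Crest.Agent.R241.A2
import Crest.Agent.R241.A3
import Crest.Agent.R241.A4Ode
import Crest.Agent.R241.A4H
import Crest.Agent.R241.A5
import Crest.Agent.R241.ASharp

/-!
R241, Theorem A: the sharp Sobolev inequality and the inequality of Theorem A for `n ≥ 3`, with
all inputs discharged.
-/

set_option autoImplicit false

namespace Crest.Agent.R241.A7

open Crest.Agent.R241.A Crest.Agent.R241.A6
open MeasureTheory Set Filter Topology
open scoped NNReal ENNReal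

variable {n : ℕ} {k : ℝ} {K : Type*} [MetricSpace K] [CompactSpace K]
  [MeasurableSpace K] [BorelSpace K]

theorem t_sharp_final (hn : 3 ≤ n) {h : ℝ} (hk : 0 ≤ k) (hkh : k < h) (hcat : CatD k K)
    (P : PreData n k K) (h0 : P.τ ≠ 0) (hFV : P.FV h) : A9.T_sharp P h := by
  have hm := mA_pos hn
  have hsup := A1.t_super P hm.le hFV
  obtain ⟨hint, hpole, -, hsob⟩ := A2.a2 hn hk hkh P hFV hsup
  exact t_sharp P hn hk hkh h0 (A4H.t_H hn) A4Ode.t_ode
    (A3.t_key hn hk hkh P (A1.t_fv' P hFV)) (A5.centre k hk hcat) (A5.t_two k hk) hint hsup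
    (A1.t_barta P hsup) hpole hsob

end Crest.Agent.R241.A7
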