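import Crest.Agent.R241.A7Good

/-!
R241, Theorem A, block A7c: the inequality for fixed parameters.
-/

set_option autoImplicit false

namespace Crest.Agent.R241.A7

open Crest.Agent.R241.A Crest.Agent.R241.A6
open MeasureTheory Set Filter Topology
open scoped NNReal ENNReal

variable {n : ℕ} {k : ℝ} {K : Type*} [MetricSpace K] [CompactSpace K]
  [MeasurableSpace K] [BorelSpace K] (P : PreData n k K)

/-- `Φ = ψ² u^{-2/m}` -/
noncomputable def PhiA (n : ℕ) (k : ℝ) (x : K) (a : ℝ) (u : K → ℝ) (y : K) : ℝ :=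
  s0 k a * ((zd k x y + a) ^ 2)⁻¹ * u y ^ (-(2 / mA n))

theorem rho_cont (x : K) {a : ℝ} (ha : 0 < a) :
    Continuous fun y => s0 k a * ((zd k x y + a) ^ 2)⁻¹ := by
  refine continuous_const.mul ((((continuous_zd k x).add continuous_const).pow 2).inv₀ fun y => ?_)
  have := zd_add_pos k x ha y
  exact (pow_pos this 2).ne'

theorem PhiA_cont (x : K) {a : ℝ} (ha : 0 < a) {u : K → ℝ} (hu : Continuous u)
    (hpos : ∀ y, 0 < u y) : Continuous (PhiA n k x a u) := by
  unfold PhiA
  exact (rho_cont x ha).mul (cont_rpow hu hpos _)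

theorem PhiA_nonneg (x : K) {a : ℝ} (hs : 0 < s0 k a) {u : K → ℝ}
    (hpos : ∀ y, 0 < u y) (y : K) : 0 ≤ PhiA n k x a u y := by
  unfold PhiA
  have := Real.rpow_pos_of_pos (hpos y) (-(2 / mA n))
  positivity

theorem energy_one (b : ℝ) : P.energy b (fun _ => 1) = b * P.τ.real univ := by
  rw [P.energy_eq]
  have : ∀ᵐ y ∂P.τ, P.G (fun _ => (1 : ℝ)) (fun _ => 1) y + b * (1 : ℝ) ^ 2 = b := by
    filter_upwards [P.G_const_left 1 (Lip.const 1)] with y hy
    rw [hy]; ring
  rw [integral_congr_ae this, integral_const, smul_eq_mul]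
  ring

/-- Hölder bound -/
theorem X_bound (hn : 3 ≤ n) {h q Q ε : ℝ} (hbarta : T_barta P h)
    (hb : 0 < bA n k h) (hqn : mA n * q < n) (hv : (n : ℝ) / mA n - q < 2)
    {u : K → ℝ} (hu : Near P (bA n k h) q Q ε u)
    (x : K) {a : ℝ} (ha : 0 < a) (hs : 0 < s0 k a) :
    ∫ y, PhiA n k x a u y ∂(nuA P q u) ≤
      (2 * (Q + ε) / (mA n * n)) ^ (1 - ((n : ℝ) / mA n - q) / 2) *
        (2 * (bA n k h * P.τ.real univ) / (mA n * n)) ^ (((n : ℝ) / mA n - q) / 2) := by
  have hm := mA_pos hn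
  have hn0 : (0 : ℝ) < n := by
    have : (3 : ℝ) ≤ n := by exact_mod_cast hn
    linarith
  have hnn := n_eq n
  set v : ℝ := (n : ℝ) / mA n - q with hvdef
  have hv0 : 0 < v := by
    rw [hvdef, sub_pos, lt_div_iff₀ hm]; linarith
  have hv1 : 0 < 1 - v / 2 := by linarith
  have huc := hu.lip.continuous
  have hpos := hu.pos
  set ρ : K → ℝ := fun y => s0 k a * ((zd k x y + a) ^ 2)⁻¹ with hρ
  have hρc : Continuous ρ := rho_cont x ha
  have hρ0 : ∀ y, 0 < ρ y := fun y => by
    have := zd_add_pos k x ha y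
    show 0 < s0 k a * ((zd k x y + a) ^ 2)⁻¹
    positivity
  have hconj : (1 / (1 - v / 2)).HolderConjugate (2 / v) := by
    rw [Real.holderConjugate_iff]
    constructor
    · rw [lt_div_iff₀ hv1]; linarith
    · field_simp; ring
  have hc1 : Continuous fun y => ρ y ^ (1 - v / 2) * u y ^ (2 - v) :=
    (hρc.rpow_const fun y => Or.inl (hρ0 y).ne').mul (cont_rpow huc hpos _)
  have hc2 : Continuous fun y => ρ y ^ (v / 2) := hρc.rpow_const fun y => Or.inl (hρ0 y).ne'
  have hH := integral_mul_le_Lp_mul_Lq_of_nonneg (μ := P.τ) hconj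
    (f := fun y => ρ y ^ (1 - v / 2) * u y ^ (2 - v)) (g := fun y => ρ y ^ (v / 2))
    (Eventually.of_forall fun y => mul_nonneg (Real.rpow_pos_of_pos (hρ0 y) _).le
      (Real.rpow_pos_of_pos (hpos y) _).le)
    (Eventually.of_forall fun y => (Real.rpow_pos_of_pos (hρ0 y) _).le)
    (hc1.memLp_of_hasCompactSupport (HasCompactSupport.of_compactSpace _))
    (hc2.memLp_of_hasCompactSupport (HasCompactSupport.of_compactSpace _))
  have e0 : ∫ y, PhiA n k x a u y ∂(nuA P q u) =
      ∫ y, ρ y ^ (1 - v / 2) * u y ^ (2 - v) * ρ y ^ (v / 2) ∂P.τ := by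
    rw [integral_nu P huc hpos]
    refine integral_congr_ae (Eventually.of_forall fun y => ?_)
    simp only
    have e1 : ρ y ^ (1 - v / 2) * ρ y ^ (v / 2) = ρ y := by
      rw [← Real.rpow_add (hρ0 y)]
      have : 1 - v / 2 + v / 2 = 1 := by ring
      rw [this, Real.rpow_one]
    have e2 : u y ^ q * u y ^ (-(2 / mA n)) = u y ^ (2 - v) := by
      rw [← Real.rpow_add (hpos y)]
      congr 1
      rw [hvdef]
      field_simp
      linarith
    calc u y ^ q * PhiA n k x a u y = ρ y * (u y ^ q * u y ^ (-(2 / mA n))) := by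
          unfold PhiA; rw [hρ]; ring
      _ = (ρ y ^ (1 - v / 2) * ρ y ^ (v / 2)) * u y ^ (2 - v) := by rw [e1, e2]
      _ = _ := by ring
  have e3 : ∫ y, (ρ y ^ (1 - v / 2) * u y ^ (2 - v)) ^ (1 / (1 - v / 2)) ∂P.τ =
      ∫ y, ρ y * u y ^ 2 ∂P.τ := by
    refine integral_congr_ae (Eventually.of_forall fun y => ?_)
    simp only
    rw [Real.mul_rpow (Real.rpow_pos_of_pos (hρ0 y) _).le (Real.rpow_pos_of_pos (hpos y) _).le,
      ← Real.rpow_mul (hρ0 y).le, ← Real.rpow_mul (hpos y).le]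
    have h1 : (1 - v / 2) * (1 / (1 - v / 2)) = 1 := mul_one_div_cancel hv1.ne'
    have h2 : (2 - v) * (1 / (1 - v / 2)) = 2 := by
      have : (2 : ℝ) - v = 2 * (1 - v / 2) := by ring
      rw [this, mul_assoc, h1, mul_one]
    rw [h1, h2, Real.rpow_one]
    norm_cast
  have e4 : ∫ y, (ρ y ^ (v / 2)) ^ (2 / v) ∂P.τ = ∫ y, ρ y ∂P.τ := by
    refine integral_congr_ae (Eventually.of_forall fun y => ?_)
    simp only
    rw [← Real.rpow_mul (hρ0 y).le]
    have : v / 2 * (2 / v) = 1 := by field_simp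
    rw [this, Real.rpow_one]
  rw [e0]
  refine hH.trans ?_
  rw [e3, e4]
  have hexp1 : 1 / (1 / (1 - v / 2)) = 1 - v / 2 := by rw [one_div_one_div]
  have hexp2 : 1 / (2 / v) = v / 2 := by rw [one_div_div]
  rw [hexp1, hexp2]
  have hmn : 0 < mA n * n := by positivity
  have b1 : ∫ y, ρ y * u y ^ 2 ∂P.τ ≤ 2 * (Q + ε) / (mA n * n) := by
    have h1 := (hbarta x a ha u hu.lip).trans hu.en
    have h2 : ∫ y, ρ y * u y ^ 2 ∂P.τ = s0 k a * ∫ y, ((zd k x y + a) ^ 2)⁻¹ * u y ^ 2 ∂P.τ := by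
      rw [← integral_const_mul]
      refine integral_congr_ae (Eventually.of_forall fun y => ?_)
      simp only [hρ]; ring
    rw [le_div_iff₀ hmn, h2]
    linarith
  have b2 : ∫ y, ρ y ∂P.τ ≤ 2 * (bA n k h * P.τ.real univ) / (mA n * n) := by
    have h1 := hbarta x a ha (fun _ => 1) (Lip.const 1)
    rw [energy_one] at h1
    have h2 : ∫ y, ρ y ∂P.τ = s0 k a * ∫ y, ((zd k x y + a) ^ 2)⁻¹ * (1 : ℝ) ^ 2 ∂P.τ := by
      rw [← integral_const_mul]
      refine integral_congr_ae (Eventually.of_forall fun y => ?_)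
      simp only [hρ]; ring
    rw [le_div_iff₀ hmn, h2]
    linarith
  have p1 : 0 ≤ ∫ y, ρ y * u y ^ 2 ∂P.τ :=
    integral_nonneg fun y => mul_nonneg (hρ0 y).le (sq_nonneg _)
  have p2 : 0 ≤ ∫ y, ρ y ∂P.τ := integral_nonneg fun y => (hρ0 y).le
  have p3 : 0 ≤ (2 * (Q + ε) / (mA n * n)) ^ (1 - v / 2) := Real.rpow_nonneg (p1.trans b1) _
  exact mul_le_mul (Real.rpow_le_rpow p1 b1 hv1.le) (Real.rpow_le_rpow p2 b2 (by positivity))
    (Real.rpow_nonneg p2 _) p3

theorem HA_lt_one (hn : 3 ≤ n) (hH : T_H n) {r : ℝ} (hr : 0 < r) : HA n r < 1 := by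
  have hm := mA_pos hn
  obtain ⟨C, hC, hC'⟩ := hH.one_sub_ge
  set r' : ℝ := min r (mA n / C) with hr'
  have h0 : 0 < r' := lt_min hr (by positivity)
  have h1 := hC' r' h0.le
  have h2 : r' ≤ mA n / C := min_le_right _ _
  have h3 : C * r' ≤ mA n := by
    rw [le_div_iff₀ hC] at h2; linarith
  have h4 : C * r' ^ 2 ≤ mA n * r' := by nlinarith
  have h5 : HA n r ≤ HA n r' := hH.anti (mem_Ici.2 h0.le) (mem_Ici.2 hr.le) (min_le_left _ _)
  nlinarith

omit [CompactSpace K] [MeasurableSpace K] [BorelSpace K] in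
theorem Fk_symm (u : K → ℝ) (x y : K) : Fk n k u x y = Fk n k u y x := by
  unfold Fk
  rw [zd_comm, mul_comm (u x)]

theorem kappa_le (hn : 3 ≤ n) (hH : T_H n) (htwo : T_two k K) {u : K → ℝ}
    (hpos : ∀ y, 0 < u y) {x : K} {a : ℝ} (ha : 0 < a) (hs : 0 < s0 k a)
    {lam R : ℝ} (hlam : 0 < lam) (hR : 0 < R) (y p : K) :
    zd k y p * (s0 k a / ((zd k x y + a) * (zd k x p + a))) ≤
      (1 - HA n (lam * Fk n k u y p)) / (1 - HA n (lam * R)) *
        (2 + R / 2 * (PhiA n k x a u y + PhiA n k x a u p)) := by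
  have hm := mA_pos hn
  have hDR : 0 < 1 - HA n (lam * R) := by
    have := HA_lt_one hn hH (mul_pos hlam hR); linarith
  have hy := hpos y
  have hp := hpos p
  have hza := zd_add_pos k x ha y
  have hzp := zd_add_pos k x ha p
  have hF0 := Fk_nonneg (n := n) (k := k) hpos y p
  set F := Fk n k u y p with hF
  have hD0 : 0 ≤ 1 - HA n (lam * F) := by
    have := hH.le_one (lam * F) (by positivity); linarith
  have hΦy := PhiA_nonneg (n := n) (k := k) x hs hpos y
  have hΦp := PhiA_nonneg (n := n) (k := k) x hs hpos p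
  rcases le_or_gt F R with hFR | hFR
  · -- small F
    have hκ : zd k y p * (s0 k a / ((zd k x y + a) * (zd k x p + a))) ≤
        F * ((PhiA n k x a u y + PhiA n k x a u p) / 2) := by
      have e1 : zd k y p = F * (u y ^ (-(1 / mA n)) * u p ^ (-(1 / mA n))) := by
        rw [hF]
        unfold Fk
        rw [Real.mul_rpow hy.le hp.le, Real.rpow_neg hy.le, Real.rpow_neg hp.le]
        have h1 : 0 < u y ^ (1 / mA n) := Real.rpow_pos_of_pos hy _
        have h2 : 0 < u p ^ (1 / mA n) := Real.rpow_pos_of_pos hp _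
        field_simp
      rw [e1]
      have e2 : u y ^ (-(2 / mA n)) = (u y ^ (-(1 / mA n))) ^ 2 := by
        rw [← Real.rpow_natCast, ← Real.rpow_mul hy.le]
        congr 1; push_cast; ring
      have e3 : u p ^ (-(2 / mA n)) = (u p ^ (-(1 / mA n))) ^ 2 := by
        rw [← Real.rpow_natCast, ← Real.rpow_mul hp.le]
        congr 1; push_cast; ring
      unfold PhiA
      rw [e2, e3]
      set A := (zd k x y + a)⁻¹ * u y ^ (-(1 / mA n)) with hA
      set B := (zd k x p + a)⁻¹ * u p ^ (-(1 / mA n)) with hB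
      have e4 : F * (u y ^ (-(1 / mA n)) * u p ^ (-(1 / mA n))) *
          (s0 k a / ((zd k x y + a) * (zd k x p + a))) = F * s0 k a * (A * B) := by
        rw [hA, hB]; field_simp
      have e5 : F * ((s0 k a * ((zd k x y + a) ^ 2)⁻¹ * (u y ^ (-(1 / mA n))) ^ 2 +
          s0 k a * ((zd k x p + a) ^ 2)⁻¹ * (u p ^ (-(1 / mA n))) ^ 2) / 2) =
          F * s0 k a * ((A ^ 2 + B ^ 2) / 2) := by
        rw [hA, hB]; field_simp
      rw [e4, e5]
      refine mul_le_mul_of_nonneg_left ?_ (by positivity)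
      nlinarith [sq_nonneg (A - B)]
    have hFD : F ≤ R * ((1 - HA n (lam * F)) / (1 - HA n (lam * R))) := by
      rcases hF0.eq_or_lt with h0 | h0
      · rw [← h0]; rw [← h0] at hD0; positivity
      · have h1 := hH.slope_anti (lam * F) (lam * R) (by positivity)
          (mul_le_mul_of_nonneg_left hFR hlam.le)
        rw [div_le_div_iff₀ (by positivity) (by positivity)] at h1
        rw [mul_div_assoc', le_div_iff₀ hDR]
        have h2 : lam * (F * (1 - HA n (lam * R))) ≤ lam * (R * (1 - HA n (lam * F))) := by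
          nlinarith
        exact le_of_mul_le_mul_left h2 hlam
    refine hκ.trans ?_
    have h3 : F * ((PhiA n k x a u y + PhiA n k x a u p) / 2) ≤
        R * ((1 - HA n (lam * F)) / (1 - HA n (lam * R))) *
          ((PhiA n k x a u y + PhiA n k x a u p) / 2) :=
      mul_le_mul_of_nonneg_right hFD (by positivity)
    refine h3.trans ?_
    have h4 : 0 ≤ (1 - HA n (lam * F)) / (1 - HA n (lam * R)) := by positivity
    nlinarith
  · -- large F
    have h1 := htwo x y p a ha hs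
    have h2 : HA n (lam * F) ≤ HA n (lam * R) :=
      hH.anti (mem_Ici.2 (by positivity)) (mem_Ici.2 (by positivity))
        (mul_le_mul_of_nonneg_left hFR.le hlam.le)
    have h3 : 1 ≤ (1 - HA n (lam * F)) / (1 - HA n (lam * R)) := by
      rw [le_div_iff₀ hDR]; linarith
    have h4 : 2 ≤ 2 + R / 2 * (PhiA n k x a u y + PhiA n k x a u p) := by
      have : 0 ≤ R / 2 * (PhiA n k x a u y + PhiA n k x a u p) := by positivity
      linarith
    nlinarith

end Crest.Agent.R241.A7
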