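import Crest.Agent.R241.A7Pole

/-!
R241, Theorem A, block A7b (POLE-B), second part.
-/

set_option autoImplicit false

namespace Crest.Agent.R241.A7

open Crest.Agent.R241.A Crest.Agent.R241.A6
open MeasureTheory Set Filter Topology
open scoped NNReal ENNReal

variable {n : ℕ} {k : ℝ} {K : Type*} [MetricSpace K] [CompactSpace K]
  [MeasurableSpace K] [BorelSpace K] (P : PreData n k K)

theorem Fa_cont {q Q a : ℝ} (ha : 0 < a) {u : K → ℝ} (hu : Continuous u)
    (hpos : ∀ y, 0 < u y) : Continuous (Fa P q Q a u) := by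
  unfold Fa
  have h1 := cont_int (k := k) ha (-(mA n) - 2) hu P.τ
  have h2 := cont_int (k := k) ha (-(mA n)) (v := fun y => u y ^ (q - 1))
    (hu.rpow_const fun y => Or.inl (hpos y).ne') P.τ
  exact (continuous_const.mul h1).sub (continuous_const.mul h2)

theorem pole_a {h q : ℝ} (hn : 3 ≤ n) (hk : 0 ≤ k) (hkh : k < h) (hq : 2 < q)
    (hqn : mA n * q < n) (hint : T_int P) (hsup : T_super P h) :
    ∃ C : ℝ, 0 < C ∧ ∀ (Q ε : ℝ), 0 ≤ ε → ∀ u : K → ℝ, Lip u → (∀ y, 0 < u y) →
      ∫ y, u y ^ q ∂P.τ = 1 →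
      (∀ η : K → ℝ, Lip η →
        (P.form (bA n k h) u η - Q * ∫ y, u y ^ (q - 1) * η y ∂P.τ) ^ 2 ≤
          ε * P.energy (bA n k h) η) →
      ∀ a, 0 < a → a ≤ 1 → ∀ B : Set K, MeasurableSet B →
        ∫ x in B, u x ^ (q - 1) * Fa P q Q a u x ∂P.τ ≤ C * √ε := by
  have hm := mA_pos hn
  have hb := bA_pos hn hk hkh
  obtain ⟨C4, hC4, hC4'⟩ := form_phi_le P hb.le
  obtain ⟨C5, hC5, hC5'⟩ := young_kap P hm hq hqn hint
  refine ⟨√C4 * C5, by positivity, ?_⟩
  intro Q ε hε u hu hpos hu1 hEK a ha ha1 B hB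
  have hq1 : 0 < q - 1 := by linarith
  haveI : Nonempty K := by
    by_contra hne
    rw [not_nonempty_iff] at hne
    have : ∫ y, u y ^ q ∂P.τ = 0 := by
      rw [Measure.eq_zero_of_isEmpty P.τ, integral_zero_measure]
    rw [this] at hu1
    exact zero_ne_one hu1
  have huq : Continuous fun y => u y ^ (q - 1) :=
    hu.continuous.rpow_const fun y => Or.inl (hpos y).ne'
  obtain ⟨Bd, hBd0, hBd⟩ := exists_bound_of_continuous huq
  set d : K → ℝ≥0∞ := fun x => ENNReal.ofReal (u x ^ (q - 1)) with hd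
  have hdm : Measurable d := huq.measurable.ennreal_ofReal
  set μ : Measure K := (P.τ.restrict B).withDensity d with hμ
  haveI : IsFiniteMeasure μ := by
    refine isFiniteMeasure_withDensity ?_
    have : ∫⁻ x in B, d x ∂P.τ ≤ ∫⁻ x in B, ENNReal.ofReal Bd ∂P.τ :=
      lintegral_mono fun x => ENNReal.ofReal_le_ofReal ((le_abs_self _).trans (hBd x))
    refine (this.trans_lt ?_).ne
    rw [lintegral_const]
    exact ENNReal.mul_lt_top ENNReal.ofReal_lt_top (measure_lt_top _ _)
  have hdens : ∀ g : K → ℝ, ∫ x, g x ∂μ = ∫ x in B, u x ^ (q - 1) * g x ∂P.τ := by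
    intro g
    rw [hμ, integral_withDensity_eq_integral_toReal_smul hdm
      (Eventually.of_forall fun x => ENNReal.ofReal_lt_top)]
    refine integral_congr_ae (Eventually.of_forall fun x => ?_)
    simp only [hd, smul_eq_mul]
    rw [ENNReal.toReal_ofReal (Real.rpow_pos_of_pos (hpos x) _).le]
  have hGc : Continuous (Function.uncurry fun x x' : K =>
      ε * C4 * ∫ y, kap n k a x y * kap n k a x' y ∂P.τ) :=
    continuous_const.mul (cont_G0 ha P.τ)
  have hD := disc_ineq (Fa P q Q a u) (Fa_cont P ha hu.continuous hpos)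
    (fun x x' => ε * C4 * ∫ y, kap n k a x y * kap n k a x' y ∂P.τ) hGc
    (finite_sum_ineq P rfl hε hsup hu hpos hEK ha (fun x x' => hC4' a ha ha1 x x')) μ
  rw [hdens] at hD
  refine hD.trans ?_
  have h1 : ∫ x, ∫ x', (ε * C4 * ∫ y, kap n k a x y * kap n k a x' y ∂P.τ) ∂μ ∂μ =
      ε * C4 * ∫ y, (∫ x, kap n k a x y ∂μ) ^ 2 ∂P.τ := by
    rw [← fubini_kap ha P.τ μ]
    simp_rw [integral_const_mul]
  rw [h1, Real.sqrt_mul (by positivity), Real.sqrt_mul hε]
  set v : K → ℝ := B.indicator fun x => u x ^ (q - 1) with hv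
  have h2 : ∀ y, ∫ x, kap n k a x y ∂μ = ∫ x, kap n k a x y * v x ∂P.τ := by
    intro y
    rw [hdens, ← integral_indicator hB]
    refine integral_congr_ae (Eventually.of_forall fun x => ?_)
    simp only [hv, Set.indicator]
    split_ifs <;> ring
  simp_rw [h2]
  have h3 := hC5' a ha v (huq.measurable.indicator hB) (fun y => by
      simp only [hv, Set.indicator]
      split_ifs
      · exact (Real.rpow_pos_of_pos (hpos y) _).le
      · exact le_rfl) ⟨Bd, fun y => by
      simp only [hv, Set.indicator]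
      split_ifs
      · exact (le_abs_self _).trans (hBd y)
      · exact hBd0.le⟩ (by
      have hle : ∀ y, ENNReal.ofReal (v y) ^ (q / (q - 1)) ≤ ENNReal.ofReal (u y ^ q) := by
        intro y
        simp only [hv, Set.indicator]
        split_ifs
        · rw [ENNReal.ofReal_rpow_of_pos (Real.rpow_pos_of_pos (hpos y) _),
            ← Real.rpow_mul (hpos y).le]
          apply ENNReal.ofReal_le_ofReal
          apply le_of_eq
          congr 1
          field_simp
        · rw [ENNReal.ofReal_zero, ENNReal.zero_rpow_of_pos (by positivity)]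
          exact bot_le
      refine (lintegral_mono hle).trans ?_
      rw [← ofReal_integral_eq_lintegral_ofReal (P.integrable_of_continuous
        (hu.continuous.rpow_const fun y => Or.inl (hpos y).ne'))
        (Eventually.of_forall fun y => (Real.rpow_pos_of_pos (hpos y) _).le), hu1,
        ENNReal.ofReal_one])
  calc √ε * √C4 * √(∫ y, (∫ x, kap n k a x y * v x ∂P.τ) ^ 2 ∂P.τ)
      ≤ √ε * √C4 * C5 := by gcongr
    _ = √C4 * C5 * √ε := by ring

/-- `P(x) = ∫ z_x^{-m} u^{q-1}`. -/
noncomputable def Pq (P : PreData n k K) (q : ℝ) (u : K → ℝ) (x : K) : ℝ :=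
  ∫ y, zd k x y ^ (-(mA n)) * u y ^ (q - 1) ∂P.τ

theorem ae_ne_of_int (hm : 0 < mA n) (hint : T_int P) (x : K) : ∀ᵐ y ∂P.τ, y ≠ x := by
  obtain ⟨C, hC, hC'⟩ := hint 0 le_rfl (by rw [n_eq n]; linarith)
  rw [ae_iff]
  simpa using (hC' x).2

theorem integrable_zd_rpow (hint : T_int P) {s : ℝ} (hs : 0 ≤ s) (hsn : s < (n : ℝ) / 2)
    (x : K) : Integrable (fun y => zd k x y ^ (-s)) P.τ := by
  obtain ⟨C, hC, hC'⟩ := hint s hs hsn
  have hmeas : Measurable fun y => zd k x y ^ (-s) :=
    (continuous_zd k x).measurable.pow_const _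
  refine ⟨hmeas.aestronglyMeasurable, ?_⟩
  rw [hasFiniteIntegral_iff_ofReal (Eventually.of_forall fun y =>
    Real.rpow_nonneg (zd_nonneg k x y) _)]
  exact (hC' x).1.trans_lt ENNReal.ofReal_lt_top

theorem integrable_Pq (hm : 0 < mA n) (hint : T_int P) {v : K → ℝ} (hv : Continuous v)
    (x : K) : Integrable (fun y => zd k x y ^ (-(mA n)) * v y) P.τ := by
  obtain ⟨Bd, hBd0, hBd⟩ := exists_bound_of_continuous hv
  refine Integrable.mul_bdd (c := Bd) (integrable_zd_rpow P hint hm.le
    (by rw [n_eq n]; linarith) x) hv.aestronglyMeasurable ?_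
  exact Eventually.of_forall fun y => by rw [Real.norm_eq_abs]; exact hBd y

theorem Pa_le_Pq {q a : ℝ} (hm : 0 < mA n) (hint : T_int P) (ha : 0 < a) {u : K → ℝ}
    (hu : Continuous u) (hpos : ∀ y, 0 < u y) (x : K) :
    ∫ y, (zd k x y + a) ^ (-(mA n)) * u y ^ (q - 1) ∂P.τ ≤ Pq P q u x := by
  have huq : Continuous fun y => u y ^ (q - 1) :=
    hu.rpow_const fun y => Or.inl (hpos y).ne'
  unfold Pq
  refine integral_mono_ae
    (P.integrable_of_continuous ((lip_zd_rpow k x ha _).continuous.mul huq))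
    (integrable_Pq P hm hint huq x) ?_
  filter_upwards [ae_ne_of_int P hm hint x] with y hy
  have hz : 0 < zd k x y := zd_pos (Ne.symm hy)
  refine mul_le_mul_of_nonneg_right ?_ (Real.rpow_pos_of_pos (hpos y) _).le
  exact Real.rpow_le_rpow_of_nonpos hz (by linarith) (by linarith)

theorem pole_B {h q : ℝ} (hn : 3 ≤ n) (hk : 0 ≤ k) (hkh : k < h) (hq : 2 < q)
    (hqn : mA n * q < n) (hint : T_int P) (hsup : T_super P h) (hpole : T_pole P) :
    ∃ C : ℝ, 0 < C ∧ ∀ (Q ε : ℝ), 0 ≤ Q → 0 ≤ ε → ∀ u : K → ℝ, Lip u → (∀ y, 0 < u y) →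
      ∫ y, u y ^ q ∂P.τ = 1 →
      (∀ η : K → ℝ, Lip η →
        (P.form (bA n k h) u η - Q * ∫ y, u y ^ (q - 1) * η y ∂P.τ) ^ 2 ≤
          ε * P.energy (bA n k h) η) →
      ∀ δ : ℝ, ∀ B : Set K, MeasurableSet B →
        (∀ x ∈ B, Q * Pq P q u x ≤ (1 - δ) * (cP n * u x)) →
        δ * cP n * ∫ x in B, u x ^ q ∂P.τ ≤ C * √ε := by
  have hm := mA_pos hn
  obtain ⟨C, hC, hC'⟩ := pole_a P hn hk hkh hq hqn hint hsup
  refine ⟨C, hC, ?_⟩
  intro Q ε hQ hε u hu hpos hu1 hEK δ B hB hBP
  have huc := hu.continuous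
  have huq : Continuous fun y => u y ^ (q - 1) :=
    huc.rpow_const fun y => Or.inl (hpos y).ne'
  have huq' : Continuous fun y => u y ^ q :=
    huc.rpow_const fun y => Or.inl (hpos y).ne'
  have hcP : 0 < cP n := by
    unfold cP omegaBall
    have hn0 : (0 : ℝ) < n := by
      have : (3 : ℝ) ≤ n := by exact_mod_cast hn
      linarith
    have hball : 0 < (volume (Metric.ball (0 : EuclideanSpace ℝ (Fin n)) 1)).toReal :=
      ENNReal.toReal_pos (Metric.measure_ball_pos volume _ one_pos).ne' measure_ball_lt_top.ne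
    positivity
  set X : ℝ := ∫ x in B, u x ^ q ∂P.τ with hX
  have hX0 : 0 ≤ X := integral_nonneg fun x => (Real.rpow_pos_of_pos (hpos x) _).le
  set R : ℝ := C * √ε + (1 - δ) * cP n * X with hR
  -- it suffices to show `cP n * X ≤ R`
  suffices hmain : cP n * X ≤ R by rw [hR] at hmain; linarith
  rcases hX0.eq_or_lt with h0 | hXpos
  · rw [hR, ← h0]
    have : 0 ≤ C * √ε := by positivity
    linarith
  set Ψ : ℝ → K → ℝ := fun a x =>
    mA n * n / 2 * s0 k a * (∫ y, (zd k x y + a) ^ (-(mA n) - 2) * u y ∂P.τ) with hΨ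
  have hΨc : ∀ a, 0 < a → Continuous (Ψ a) := fun a ha =>
    continuous_const.mul (cont_int (k := k) ha (-(mA n) - 2) huc P.τ)
  have hu_eq : ∀ x, u x ^ (q - 1) * u x = u x ^ q := fun x => by
    rw [← Real.rpow_add_one (hpos x).ne']; congr 1; ring
  -- upper bound
  have hup : ∀ a, 0 < a → a ≤ 1 → ∫ x in B, u x ^ (q - 1) * Ψ a x ∂P.τ ≤ R := by
    intro a ha ha1
    have h1 := hC' Q ε hε u hu hpos hu1 hEK a ha ha1 B hB
    have hPac : Continuous fun x : K => ∫ y, (zd k x y + a) ^ (-(mA n)) * u y ^ (q - 1) ∂P.τ :=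
      cont_int (k := k) ha (-(mA n)) huq P.τ
    have i1 : Integrable (fun x => u x ^ (q - 1) * Ψ a x) (P.τ.restrict B) :=
      (P.integrable_of_continuous (huq.mul (hΨc a ha))).restrict
    have i2 : Integrable (fun x => u x ^ (q - 1) * Fa P q Q a u x) (P.τ.restrict B) :=
      (P.integrable_of_continuous (huq.mul (Fa_cont P ha huc hpos))).restrict
    have i3 : Integrable (fun x => (1 - δ) * cP n * u x ^ q) (P.τ.restrict B) :=
      (P.integrable_of_continuous (continuous_const.mul huq')).restrict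
    have h2 : ∫ x in B, u x ^ (q - 1) * Ψ a x ∂P.τ ≤
        ∫ x in B, (u x ^ (q - 1) * Fa P q Q a u x + (1 - δ) * cP n * u x ^ q) ∂P.τ := by
      refine integral_mono_ae i1 (i2.add i3) ?_
      rw [EventuallyLE, ae_restrict_iff' hB]
      refine Eventually.of_forall fun x hx => ?_
      have h3 := Pa_le_Pq P (q := q) hm hint ha huc hpos x
      have h4 := hBP x hx
      have h5 : Q * ∫ y, (zd k x y + a) ^ (-(mA n)) * u y ^ (q - 1) ∂P.τ ≤
          (1 - δ) * (cP n * u x) := (mul_le_mul_of_nonneg_left h3 hQ).trans h4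
      have h6 : 0 < u x ^ (q - 1) := Real.rpow_pos_of_pos (hpos x) _
      have h7 : u x ^ (q - 1) * (Q * ∫ y, (zd k x y + a) ^ (-(mA n)) * u y ^ (q - 1) ∂P.τ) ≤
          u x ^ (q - 1) * ((1 - δ) * (cP n * u x)) := mul_le_mul_of_nonneg_left h5 h6.le
      have h8 : u x ^ (q - 1) * ((1 - δ) * (cP n * u x)) = (1 - δ) * cP n * u x ^ q := by
        rw [← hu_eq x]; ring
      show u x ^ (q - 1) * Ψ a x ≤ u x ^ (q - 1) * Fa P q Q a u x + (1 - δ) * cP n * u x ^ q
      rw [← h8]
      have h9 : Fa P q Q a u x = Ψ a x -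
          Q * ∫ y, (zd k x y + a) ^ (-(mA n)) * u y ^ (q - 1) ∂P.τ := rfl
      rw [h9]
      nlinarith
    rw [integral_add i2 i3, integral_const_mul] at h2
    rw [hR]
    linarith
  -- lower bound by Fatou
  have hlow : ∀ θ : ℝ, 0 < θ → θ < 1 → θ * cP n * X ≤ R := by
    intro θ hθ0 hθ1
    have hev : ∀ᶠ a in 𝓝[>] (0 : ℝ), 0 < a ∧ a ≤ 1 ∧ 0 ≤ s0 k a := by
      have e1 : ∀ᶠ a in 𝓝[>] (0 : ℝ), 0 < a := self_mem_nhdsWithin
      have e2 : ∀ᶠ a in 𝓝[>] (0 : ℝ), a < 1 :=
        nhdsWithin_le_nhds (gt_mem_nhds one_pos)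
      have e3 : ∀ᶠ a in 𝓝[>] (0 : ℝ), k ^ 2 * a < 2 := by
        have : Tendsto (fun a : ℝ => k ^ 2 * a) (𝓝[>] 0) (𝓝 (k ^ 2 * 0)) :=
          (tendsto_const_nhds.mul tendsto_id).mono_left nhdsWithin_le_nhds
        rw [mul_zero] at this
        exact this.eventually (gt_mem_nhds two_pos)
      filter_upwards [e1, e2, e3] with a h1 h2 h3
      refine ⟨h1, h2.le, ?_⟩
      unfold s0
      nlinarith
    have hΨ0 : ∀ a, 0 < a → 0 ≤ s0 k a → ∀ x, 0 ≤ Ψ a x := by
      intro a ha hs x
      have : 0 ≤ ∫ y, (zd k x y + a) ^ (-(mA n) - 2) * u y ∂P.τ :=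
        integral_nonneg fun y => mul_nonneg
          (Real.rpow_pos_of_pos (zd_add_pos k x ha y) _).le (hpos y).le
      have hn0 : (0 : ℝ) ≤ n := by positivity
      show 0 ≤ mA n * n / 2 * s0 k a * (∫ y, (zd k x y + a) ^ (-(mA n) - 2) * u y ∂P.τ)
      positivity
    have hfat : ENNReal.ofReal (θ * cP n * X) ≤ ENNReal.ofReal R := by
      calc ENNReal.ofReal (θ * cP n * X)
          = ∫⁻ x in B, ENNReal.ofReal (θ * cP n * u x ^ q) ∂P.τ := by
            rw [hX, ← integral_const_mul, ofReal_integral_eq_lintegral_ofReal]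
            · exact (P.integrable_of_continuous (continuous_const.mul huq')).restrict
            · refine Eventually.of_forall fun x => ?_
              have := Real.rpow_pos_of_pos (hpos x) q
              show 0 ≤ θ * cP n * u x ^ q
              positivity
        _ ≤ ∫⁻ x in B, liminf (fun a => ENNReal.ofReal (u x ^ (q - 1) * Ψ (max a 0) x))
              (𝓝[>] (0 : ℝ)) ∂P.τ := by
            refine lintegral_mono_ae ?_
            refine ae_restrict_of_ae ?_
            filter_upwards [hpole] with x hx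
            refine le_liminf_of_le (by isBoundedDefault) ?_
            filter_upwards [hx u huc (fun y => (hpos y).le) θ hθ1, hev] with a h1 h2
            apply ENNReal.ofReal_le_ofReal
            rw [max_eq_left h2.1.le]
            have h3 : θ * cP n * u x ≤ Ψ a x := h1
            have h4 : 0 < u x ^ (q - 1) := Real.rpow_pos_of_pos (hpos x) _
            calc θ * cP n * u x ^ q = u x ^ (q - 1) * (θ * cP n * u x) := by
                  rw [← hu_eq x]; ring
              _ ≤ _ := mul_le_mul_of_nonneg_left h3 h4.le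
        _ ≤ liminf (fun a => ∫⁻ x in B, ENNReal.ofReal (u x ^ (q - 1) * Ψ (max a 0) x) ∂P.τ)
              (𝓝[>] (0 : ℝ)) := by
            refine lintegral_liminf_le fun a => ?_
            rcases lt_or_ge 0 a with h0 | h0
            · rw [max_eq_left h0.le]
              exact (huq.mul (hΨc a h0)).measurable.ennreal_ofReal
            · rw [max_eq_right h0]
              have e : (fun x => ENNReal.ofReal (u x ^ (q - 1) * Ψ 0 x)) = fun _ => 0 := by
                funext x
                simp [hΨ, s0]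
              rw [e]
              exact measurable_const
        _ ≤ ENNReal.ofReal R := by
            refine (liminf_le_liminf (v := fun _ => ENNReal.ofReal R) ?_).trans
              (by rw [liminf_const])
            filter_upwards [hev] with a h2
            rw [max_eq_left h2.1.le]
            rw [← ofReal_integral_eq_lintegral_ofReal]
            · exact ENNReal.ofReal_le_ofReal (hup a h2.1 h2.2.1)
            · exact (P.integrable_of_continuous (huq.mul (hΨc a h2.1))).restrict
            · refine Eventually.of_forall fun x => ?_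
              exact mul_nonneg (Real.rpow_pos_of_pos (hpos x) _).le (hΨ0 a h2.1 h2.2.2 x)
    rcases (ENNReal.ofReal_le_ofReal_iff').1 hfat with h1 | h1
    · exact h1
    · exfalso
      have : 0 < θ * cP n * X := by positivity
      linarith
  -- conclusion
  have hlim : Tendsto (fun θ : ℝ => θ * cP n * X) (𝓝[<] 1) (𝓝 (1 * cP n * X)) := by
    have : Continuous fun θ : ℝ => θ * cP n * X := by fun_prop
    exact (this.tendsto 1).mono_left nhdsWithin_le_nhds
  rw [one_mul] at hlim
  refine le_of_tendsto hlim ?_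
  have e1 : ∀ᶠ θ in 𝓝[<] (1 : ℝ), 0 < θ := nhdsWithin_le_nhds (lt_mem_nhds one_pos)
  have e2 : ∀ᶠ θ in 𝓝[<] (1 : ℝ), θ < 1 := self_mem_nhdsWithin
  filter_upwards [e1, e2] with θ h1 h2
  exact hlow θ h1 h2

end Crest.Agent.R241.A7
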