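import Crest.Agent.R241.A7Young

/-!
R241, Theorem A, block A7a (TAIL): the small-scale tail is uniformly small.
-/

set_option autoImplicit false

open MeasureTheory ENNReal Filter Topology

namespace Crest.Agent.R241.A7

variable {K : Type*} [MeasurableSpace K]

/-- pointwise splitting of the tail integrand -/
theorem tail_pointwise {m q r0 κ Λ C : ℝ} (hm : 0 < m) (hq : 1 < q) (_hr0 : 0 < r0) (hκ : 0 < κ)
    (hΛ : 0 < Λ) {g : ℝ → ℝ} (hg : Monotone g) (hg0 : 0 ≤ g 0)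
    {z a b : ℝ} (hz : 0 ≤ z) (ha : 0 < a) (hb : 0 < b) :
    ENNReal.ofReal z ^ (-m) * ENNReal.ofReal (a ^ (q - 1)) * ENNReal.ofReal (b ^ (q - 1)) *
        ENNReal.ofReal (C - g (Λ * (z * (a * b) ^ (1 / m)))) ≤
      ENNReal.ofReal C * ((if z < r0 then ENNReal.ofReal z ^ (-m) else 0) *
          ENNReal.ofReal (a ^ (q - 1)) * ENNReal.ofReal (b ^ (q - 1)))
      + ENNReal.ofReal (C - g (Λ * (r0 * (κ * κ) ^ (1 / m)))) * (ENNReal.ofReal z ^ (-m) *
          ENNReal.ofReal (a ^ (q - 1)) * ENNReal.ofReal (b ^ (q - 1)))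
      + ENNReal.ofReal C * (ENNReal.ofReal r0 ^ (-m) * ENNReal.ofReal (κ ^ (q - 1))) *
          (ENNReal.ofReal (a ^ (q - 1)) + ENNReal.ofReal (b ^ (q - 1))) := by
  have hgC : ENNReal.ofReal (C - g (Λ * (z * (a * b) ^ (1 / m)))) ≤ ENNReal.ofReal C := by
    apply ENNReal.ofReal_le_ofReal
    have : g 0 ≤ g (Λ * (z * (a * b) ^ (1 / m))) := hg (by positivity)
    linarith
  by_cases h1 : z < r0
  · simp only [h1, if_true]
    refine le_trans ?_ (le_trans (le_add_right le_rfl) (le_add_right le_rfl))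
    rw [mul_comm (ENNReal.ofReal C)]
    gcongr
  · have hz' : r0 ≤ z := not_lt.1 h1
    have hk : ENNReal.ofReal z ^ (-m) ≤ ENNReal.ofReal r0 ^ (-m) := by
      rw [ENNReal.rpow_neg, ENNReal.rpow_neg]
      exact ENNReal.inv_le_inv.2 (ENNReal.rpow_le_rpow (ENNReal.ofReal_le_ofReal hz') hm.le)
    by_cases h2 : κ ≤ a
    · by_cases h3 : κ ≤ b
      · refine le_trans ?_ (le_trans (le_add_left le_rfl) (le_add_right le_rfl))
        have : ENNReal.ofReal (C - g (Λ * (z * (a * b) ^ (1 / m)))) ≤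
            ENNReal.ofReal (C - g (Λ * (r0 * (κ * κ) ^ (1 / m)))) := by
          apply ENNReal.ofReal_le_ofReal
          have hmon : g (Λ * (r0 * (κ * κ) ^ (1 / m))) ≤ g (Λ * (z * (a * b) ^ (1 / m))) := by
            apply hg
            gcongr
          linarith
        rw [mul_comm (ENNReal.ofReal (C - g (Λ * (r0 * (κ * κ) ^ (1 / m)))))]
        gcongr
      · have hb' : b ^ (q - 1) ≤ κ ^ (q - 1) :=
          Real.rpow_le_rpow hb.le (not_le.1 h3).le (by linarith)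
        refine le_trans ?_ (le_add_left le_rfl)
        calc ENNReal.ofReal z ^ (-m) * ENNReal.ofReal (a ^ (q - 1)) *
              ENNReal.ofReal (b ^ (q - 1)) * ENNReal.ofReal (C - g (Λ * (z * (a * b) ^ (1 / m))))
            ≤ ENNReal.ofReal r0 ^ (-m) * ENNReal.ofReal (a ^ (q - 1)) *
              ENNReal.ofReal (κ ^ (q - 1)) * ENNReal.ofReal C := by gcongr
          _ = ENNReal.ofReal C * (ENNReal.ofReal r0 ^ (-m) * ENNReal.ofReal (κ ^ (q - 1))) *
              ENNReal.ofReal (a ^ (q - 1)) := by ring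
          _ ≤ _ := by gcongr; exact le_add_right le_rfl
    · have ha' : a ^ (q - 1) ≤ κ ^ (q - 1) :=
        Real.rpow_le_rpow ha.le (not_le.1 h2).le (by linarith)
      refine le_trans ?_ (le_add_left le_rfl)
      calc ENNReal.ofReal z ^ (-m) * ENNReal.ofReal (a ^ (q - 1)) *
            ENNReal.ofReal (b ^ (q - 1)) * ENNReal.ofReal (C - g (Λ * (z * (a * b) ^ (1 / m))))
          ≤ ENNReal.ofReal r0 ^ (-m) * ENNReal.ofReal (κ ^ (q - 1)) *
            ENNReal.ofReal (b ^ (q - 1)) * ENNReal.ofReal C := by gcongr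
        _ = ENNReal.ofReal C * (ENNReal.ofReal r0 ^ (-m) * ENNReal.ofReal (κ ^ (q - 1))) *
            ENNReal.ofReal (b ^ (q - 1)) := by ring
        _ ≤ _ := by gcongr; exact le_add_left le_rfl

/-- near-diagonal part of the kernel -/
theorem near_kernel {m σ' s r0 : ℝ} (hm : 0 < m) (hs : 0 < s) (hσ : s < σ') (hr0 : 0 < r0)
    {z : ℝ} :
    (if z < r0 then ENNReal.ofReal z ^ (-m) else 0) ^ s ≤
      ENNReal.ofReal (r0 ^ (m * (σ' - s))) * ENNReal.ofReal z ^ (-(m * σ')) := by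
  by_cases h1 : z < r0
  · simp only [h1, if_true]
    rw [← ENNReal.rpow_mul]
    by_cases hz : z ≤ 0
    · rw [ENNReal.ofReal_of_nonpos hz, ENNReal.zero_rpow_of_neg (by nlinarith),
        ENNReal.zero_rpow_of_neg (by nlinarith)]
      rw [ENNReal.mul_top]
      simpa using Real.rpow_pos_of_pos hr0 _
    · have hz0 : 0 < z := not_le.1 hz
      rw [ENNReal.ofReal_rpow_of_pos hz0, ENNReal.ofReal_rpow_of_pos hz0,
        ← ENNReal.ofReal_mul (by positivity)]
      apply ENNReal.ofReal_le_ofReal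
      have e : z ^ (-m * s) = z ^ (m * (σ' - s)) * z ^ (-(m * σ')) := by
        rw [← Real.rpow_add hz0]; congr 1; ring
      rw [e]
      gcongr
  · simp only [h1, if_false]
    rw [ENNReal.zero_rpow_of_pos hs]
    exact bot_le

theorem kernel_le_one_add {m σ' s z : ℝ} (hm : 0 < m) (hs : 0 < s) (hσ : s < σ') :
    (ENNReal.ofReal z ^ (-m)) ^ s ≤ 1 + ENNReal.ofReal z ^ (-(m * σ')) := by
  rw [← ENNReal.rpow_mul]
  by_cases hz : z ≤ 0
  · rw [ENNReal.ofReal_of_nonpos hz, ENNReal.zero_rpow_of_neg (by nlinarith),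
        ENNReal.zero_rpow_of_neg (by nlinarith)]
    simp
  · have hz0 : 0 < z := not_le.1 hz
    by_cases h1 : z ≤ 1
    · refine le_trans ?_ (le_add_left le_rfl)
      rw [ENNReal.ofReal_rpow_of_pos hz0, ENNReal.ofReal_rpow_of_pos hz0]
      apply ENNReal.ofReal_le_ofReal
      exact Real.rpow_le_rpow_of_exponent_ge hz0 h1 (by nlinarith)
    · refine le_trans ?_ (le_add_right le_rfl)
      rw [ENNReal.ofReal_rpow_of_pos hz0, ← ENNReal.ofReal_one]
      apply ENNReal.ofReal_le_ofReal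
      exact Real.rpow_le_one_of_one_le_of_nonpos (not_le.1 h1).le (by nlinarith)

/-- (TAIL): uniform smallness. -/
theorem tail_small (τ : Measure K) [IsFiniteMeasure τ] (z : K → K → ℝ)
    (hzm : Measurable (Function.uncurry z)) (hz0 : ∀ x y, 0 ≤ z x y)
    {m q σ' : ℝ} (hm : 0 < m) (hq : 2 < q) (hσ : q / 2 < σ')
    (A : ℝ≥0∞) (hAt : A ≠ ∞)
    (hA : ∀ y, ∫⁻ x, ENNReal.ofReal (z x y) ^ (-(m * σ')) ∂τ ≤ A)
    (hA' : ∀ x, ∫⁻ y, ENNReal.ofReal (z x y) ^ (-(m * σ')) ∂τ ≤ A)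
    (g : ℝ → ℝ) (C : ℝ) (hg : Monotone g) (hg0 : 0 ≤ g 0) (hgC : Tendsto g atTop (𝓝 C))
    (ρ : ℝ≥0∞) (hρ : 0 < ρ) :
    ∃ Λ0 : ℝ, 0 < Λ0 ∧ ∀ Λ, Λ0 ≤ Λ → ∀ u : K → ℝ, Measurable u → (∀ x, 0 < u x) →
      ∫⁻ x, ENNReal.ofReal (u x ^ q) ∂τ ≤ 1 →
      ∫⁻ x, ∫⁻ y, ENNReal.ofReal (z x y) ^ (-m) * ENNReal.ofReal (u x ^ (q - 1)) *
        ENNReal.ofReal (u y ^ (q - 1)) *
        ENNReal.ofReal (C - g (Λ * (z x y * (u x * u y) ^ (1 / m)))) ∂τ ∂τ ≤ ρ := by
  have hq0 : 0 < q := by linarith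
  -- constants
  set s : ℝ := q / 2 with hsdef
  have hs1 : 1 < s := by rw [hsdef]; linarith
  have hs0 : 0 < s := by linarith
  set p : ℝ := q / (q - 1) with hpdef
  have hq1 : 0 < q - 1 := by linarith
  have hp1 : 1 ≤ p := by
    rw [hpdef, le_div_iff₀ hq1]; linarith
  have hpps : 1 / p + 1 / p + 1 / s = 2 := by
    rw [hpdef, hsdef]
    field_simp
    ring
  set A2 : ℝ≥0∞ := τ Set.univ + A with hA2
  have hA2t : A2 ≠ ∞ := ENNReal.add_ne_top.2 ⟨measure_ne_top _ _, hAt⟩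
  set M : ℝ≥0∞ := τ Set.univ with hM
  have hMt : M ≠ ∞ := measure_ne_top _ _
  have hC0 : ∀ x, g x ≤ C := fun x => hg.ge_of_tendsto hgC x
  -- the three error functions
  have hT1 : Tendsto (fun r0 : ℝ => ENNReal.ofReal C *
      (ENNReal.ofReal (r0 ^ (m * (σ' - s))) * A) ^ (1 / s)) (𝓝[>] 0) (𝓝 0) := by
    have h1 : Tendsto (fun r0 : ℝ => r0 ^ (m * (σ' - s))) (𝓝[>] 0) (𝓝 0) := by
      have hpos : 0 < m * (σ' - s) := mul_pos hm (by linarith)
      have := (Real.continuousAt_rpow_const 0 (m * (σ' - s)) (Or.inr hpos.le)).tendsto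
      rw [Real.zero_rpow hpos.ne'] at this
      exact this.mono_left nhdsWithin_le_nhds
    have h2 : Tendsto (fun r0 : ℝ => ENNReal.ofReal (r0 ^ (m * (σ' - s))) * A) (𝓝[>] 0) (𝓝 0) := by
      have := ENNReal.Tendsto.mul_const (b := A) (ENNReal.tendsto_ofReal h1) (Or.inr hAt)
      simpa using this
    have h3 := (ENNReal.continuous_rpow_const (y := 1 / s)).tendsto 0 |>.comp h2
    rw [ENNReal.zero_rpow_of_pos (by positivity)] at h3
    have h4 := ENNReal.Tendsto.const_mul (a := ENNReal.ofReal C) h3 (Or.inr ENNReal.ofReal_ne_top)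
    simpa using h4
  have hρ3 : 0 < ρ / 3 := ENNReal.div_pos hρ.ne' (by norm_num)
  obtain ⟨r0, hr0, hr0ρ⟩ : ∃ r0 : ℝ, 0 < r0 ∧ ENNReal.ofReal C *
      (ENNReal.ofReal (r0 ^ (m * (σ' - s))) * A) ^ (1 / s) ≤ ρ / 3 := by
    have := (hT1.eventually (gt_mem_nhds hρ3)).and self_mem_nhdsWithin
    obtain ⟨r, h1, h2⟩ := this.exists
    exact ⟨r, h2, h1.le⟩
  have hT2 : Tendsto (fun κ : ℝ => ENNReal.ofReal C * (ENNReal.ofReal r0 ^ (-m) *
      ENNReal.ofReal (κ ^ (q - 1))) * (M * (M + 1) + M * (M + 1))) (𝓝[>] 0) (𝓝 0) := by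
    have h1 : Tendsto (fun κ : ℝ => κ ^ (q - 1)) (𝓝[>] 0) (𝓝 0) := by
      have := (Real.continuousAt_rpow_const 0 (q - 1) (Or.inr hq1.le)).tendsto
      rw [Real.zero_rpow hq1.ne'] at this
      exact this.mono_left nhdsWithin_le_nhds
    have h0 : ENNReal.ofReal r0 ^ (-m) ≠ ∞ := by
      rw [ENNReal.ofReal_rpow_of_pos hr0]; exact ENNReal.ofReal_ne_top
    have h2 := ENNReal.Tendsto.const_mul (a := ENNReal.ofReal r0 ^ (-m))
      (ENNReal.tendsto_ofReal h1) (Or.inr h0)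
    have h3 := ENNReal.Tendsto.const_mul (a := ENNReal.ofReal C) h2 (Or.inr ENNReal.ofReal_ne_top)
    have hMM : M * (M + 1) + M * (M + 1) ≠ ∞ := by
      have : M + 1 ≠ ∞ := ENNReal.add_ne_top.2 ⟨hMt, ENNReal.one_ne_top⟩
      exact ENNReal.add_ne_top.2 ⟨ENNReal.mul_ne_top hMt this, ENNReal.mul_ne_top hMt this⟩
    have h4 := ENNReal.Tendsto.mul_const (b := M * (M + 1) + M * (M + 1)) h3 (Or.inr hMM)
    simpa using h4
  obtain ⟨κ, hκ, hκρ⟩ : ∃ κ : ℝ, 0 < κ ∧ ENNReal.ofReal C * (ENNReal.ofReal r0 ^ (-m) *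
      ENNReal.ofReal (κ ^ (q - 1))) * (M * (M + 1) + M * (M + 1)) ≤ ρ / 3 := by
    have := (hT2.eventually (gt_mem_nhds hρ3)).and self_mem_nhdsWithin
    obtain ⟨r, h1, h2⟩ := this.exists
    exact ⟨r, h2, h1.le⟩
  have hT3 : Tendsto (fun Λ : ℝ => ENNReal.ofReal (C - g (Λ * (r0 * (κ * κ) ^ (1 / m)))) *
      A2 ^ (1 / s)) atTop (𝓝 0) := by
    have h0 : 0 < r0 * (κ * κ) ^ (1 / m) := by positivity
    have h1 : Tendsto (fun Λ : ℝ => C - g (Λ * (r0 * (κ * κ) ^ (1 / m)))) atTop (𝓝 0) := by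
      have := (hgC.comp (tendsto_id.atTop_mul_const h0)).const_sub C
      simpa using this
    have h2 := ENNReal.tendsto_ofReal h1
    rw [ENNReal.ofReal_zero] at h2
    have hA3 : A2 ^ (1 / s) ≠ ∞ := ENNReal.rpow_ne_top_of_nonneg (by positivity) hA2t
    have h4 := ENNReal.Tendsto.mul_const (b := A2 ^ (1 / s)) h2 (Or.inr hA3)
    simpa using h4
  obtain ⟨Λ1, hΛ1⟩ := ((hT3.eventually (gt_mem_nhds hρ3)).and (eventually_gt_atTop 0)).exists
  refine ⟨Λ1, hΛ1.2, ?_⟩
  intro Λ hΛ u hu hupos hu1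
  have hΛ0 : 0 < Λ := lt_of_lt_of_le hΛ1.2 hΛ
  -- abbreviations
  set f : K → ℝ≥0∞ := fun x => ENNReal.ofReal (u x ^ (q - 1)) with hf
  have hfm : Measurable f := (hu.pow_const (q - 1)).ennreal_ofReal
  have hfp : ∫⁻ x, f x ^ p ∂τ ≤ 1 := by
    refine le_trans (le_of_eq ?_) hu1
    refine lintegral_congr fun x => ?_
    have hux := hupos x
    rw [hf]
    simp only
    rw [ENNReal.ofReal_rpow_of_pos (Real.rpow_pos_of_pos hux _), ← Real.rpow_mul hux.le]
    congr 2
    rw [hpdef]; field_simp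
  have hf1 : ∫⁻ x, f x ∂τ ≤ M + 1 := by
    calc ∫⁻ x, f x ∂τ ≤ ∫⁻ x, (1 + ENNReal.ofReal (u x ^ q)) ∂τ := by
          refine lintegral_mono fun x => ?_
          have hux := hupos x
          rw [hf]
          simp only
          rw [← ENNReal.ofReal_one, ← ENNReal.ofReal_add zero_le_one (by positivity)]
          apply ENNReal.ofReal_le_ofReal
          rcases le_total (u x) 1 with h | h
          · have : u x ^ (q - 1) ≤ 1 := Real.rpow_le_one hux.le h hq1.le
            have h2 : 0 ≤ u x ^ q := by positivity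
            linarith
          · have : u x ^ (q - 1) ≤ u x ^ q := Real.rpow_le_rpow_of_exponent_le h (by linarith)
            linarith
      _ = M + ∫⁻ x, ENNReal.ofReal (u x ^ q) ∂τ := by
          rw [lintegral_add_left measurable_const]; simp [hM]
      _ ≤ M + 1 := by gcongr
  have hzx : Measurable fun w : K × K => z w.1 w.2 := hzm
  -- kernels
  set k1 : K → K → ℝ≥0∞ := fun x y =>
    (if z x y < r0 then ENNReal.ofReal (z x y) ^ (-m) else 0) with hk1
  have hk1m : Measurable (Function.uncurry k1) := by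
    have : Function.uncurry k1 = fun w : K × K =>
        (if z w.1 w.2 < r0 then ENNReal.ofReal (z w.1 w.2) ^ (-m) else 0) := rfl
    rw [this]
    exact Measurable.ite (measurableSet_lt hzx measurable_const)
      (hzx.ennreal_ofReal.pow_const _) measurable_const
  set k2 : K → K → ℝ≥0∞ := fun x y => ENNReal.ofReal (z x y) ^ (-m) with hk2
  have hk2m : Measurable (Function.uncurry k2) := hzx.ennreal_ofReal.pow_const _
  have hY1 : ∫⁻ x, ∫⁻ y, k1 x y * f x * f y ∂τ ∂τ ≤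
      (ENNReal.ofReal (r0 ^ (m * (σ' - s))) * A) ^ (1 / s) := by
    have := young3 τ τ hp1 hp1 hs1.le hpps k1 hk1m
      (ENNReal.ofReal (r0 ^ (m * (σ' - s))) * A)
      (fun y => by
        calc ∫⁻ x, k1 x y ^ s ∂τ ≤ ∫⁻ x, ENNReal.ofReal (r0 ^ (m * (σ' - s))) *
              ENNReal.ofReal (z x y) ^ (-(m * σ')) ∂τ :=
              lintegral_mono fun x => near_kernel hm hs0 hσ hr0
          _ = ENNReal.ofReal (r0 ^ (m * (σ' - s))) *
              ∫⁻ x, ENNReal.ofReal (z x y) ^ (-(m * σ')) ∂τ := by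
              rw [lintegral_const_mul]
              exact ((hzx.comp measurable_prodMk_right).ennreal_ofReal).pow_const _
          _ ≤ _ := by gcongr; exact hA y)
      (fun x => by
        calc ∫⁻ y, k1 x y ^ s ∂τ ≤ ∫⁻ y, ENNReal.ofReal (r0 ^ (m * (σ' - s))) *
              ENNReal.ofReal (z x y) ^ (-(m * σ')) ∂τ :=
              lintegral_mono fun y => near_kernel hm hs0 hσ hr0
          _ = ENNReal.ofReal (r0 ^ (m * (σ' - s))) *
              ∫⁻ y, ENNReal.ofReal (z x y) ^ (-(m * σ')) ∂τ := by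
              rw [lintegral_const_mul]
              exact ((hzx.comp measurable_prodMk_left).ennreal_ofReal).pow_const _
          _ ≤ _ := by gcongr; exact hA' x)
      f hfm f hfm
    refine this.trans ?_
    have h1 : (∫⁻ x, f x ^ p ∂τ) ^ (1 / p) ≤ 1 := by
      have := ENNReal.rpow_le_rpow hfp (show 0 ≤ 1 / p by positivity)
      simpa using this
    calc _ ≤ (ENNReal.ofReal (r0 ^ (m * (σ' - s))) * A) ^ (1 / s) * 1 * 1 := by gcongr
      _ = _ := by ring
  have hY2 : ∫⁻ x, ∫⁻ y, k2 x y * f x * f y ∂τ ∂τ ≤ A2 ^ (1 / s) := by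
    have := young3 τ τ hp1 hp1 hs1.le hpps k2 hk2m A2
      (fun y => by
        calc ∫⁻ x, k2 x y ^ s ∂τ ≤ ∫⁻ x, (1 + ENNReal.ofReal (z x y) ^ (-(m * σ'))) ∂τ :=
              lintegral_mono fun x => kernel_le_one_add hm hs0 hσ
          _ = M + ∫⁻ x, ENNReal.ofReal (z x y) ^ (-(m * σ')) ∂τ := by
              rw [lintegral_add_left measurable_const]; simp [hM]
          _ ≤ _ := by rw [hA2]; gcongr; exact hA y)
      (fun x => by
        calc ∫⁻ y, k2 x y ^ s ∂τ ≤ ∫⁻ y, (1 + ENNReal.ofReal (z x y) ^ (-(m * σ'))) ∂τ :=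
              lintegral_mono fun y => kernel_le_one_add hm hs0 hσ
          _ = M + ∫⁻ y, ENNReal.ofReal (z x y) ^ (-(m * σ')) ∂τ := by
              rw [lintegral_add_left measurable_const]; simp [hM]
          _ ≤ _ := by rw [hA2]; gcongr; exact hA' x)
      f hfm f hfm
    refine this.trans ?_
    have h1 : (∫⁻ x, f x ^ p ∂τ) ^ (1 / p) ≤ 1 := by
      have := ENNReal.rpow_le_rpow hfp (show 0 ≤ 1 / p by positivity)
      simpa using this
    calc _ ≤ A2 ^ (1 / s) * 1 * 1 := by gcongr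
      _ = _ := by ring
  -- the total bound
  set c1 : ℝ≥0∞ := ENNReal.ofReal C with hc1
  set c2 : ℝ≥0∞ := ENNReal.ofReal (C - g (Λ * (r0 * (κ * κ) ^ (1 / m)))) with hc2
  set c3 : ℝ≥0∞ := ENNReal.ofReal C * (ENNReal.ofReal r0 ^ (-m) *
    ENNReal.ofReal (κ ^ (q - 1))) with hc3
  have hc2le : c2 * A2 ^ (1 / s) ≤ ρ / 3 := by
    refine le_trans ?_ hΛ1.1.le
    gcongr
    rw [hc2]
    apply ENNReal.ofReal_le_ofReal
    have : g (Λ1 * (r0 * (κ * κ) ^ (1 / m))) ≤ g (Λ * (r0 * (κ * κ) ^ (1 / m))) := by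
      apply hg; gcongr
    linarith
  calc ∫⁻ x, ∫⁻ y, ENNReal.ofReal (z x y) ^ (-m) * ENNReal.ofReal (u x ^ (q - 1)) *
        ENNReal.ofReal (u y ^ (q - 1)) *
        ENNReal.ofReal (C - g (Λ * (z x y * (u x * u y) ^ (1 / m)))) ∂τ ∂τ
      ≤ ∫⁻ x, ∫⁻ y, (c1 * (k1 x y * f x * f y) + c2 * (k2 x y * f x * f y)
          + c3 * (f x + f y)) ∂τ ∂τ := by
        refine lintegral_mono fun x => lintegral_mono fun y => ?_
        exact tail_pointwise hm (by linarith) hr0 hκ hΛ0 hg hg0 (hz0 x y) (hupos x) (hupos y)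
    _ = c1 * ∫⁻ x, ∫⁻ y, k1 x y * f x * f y ∂τ ∂τ + c2 * ∫⁻ x, ∫⁻ y, k2 x y * f x * f y ∂τ ∂τ
          + c3 * (∫⁻ x, ∫⁻ y, (f x + f y) ∂τ ∂τ) := by
        have hm1 : Measurable fun w : K × K => k1 w.1 w.2 * f w.1 * f w.2 :=
          (hk1m.mul (hfm.comp measurable_fst)).mul (hfm.comp measurable_snd)
        have hm2 : Measurable fun w : K × K => k2 w.1 w.2 * f w.1 * f w.2 :=
          (hk2m.mul (hfm.comp measurable_fst)).mul (hfm.comp measurable_snd)
        have hm3 : Measurable fun w : K × K => f w.1 + f w.2 :=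
          (hfm.comp measurable_fst).add (hfm.comp measurable_snd)
        have e1 : ∀ x, ∫⁻ y, (c1 * (k1 x y * f x * f y) + c2 * (k2 x y * f x * f y)
            + c3 * (f x + f y)) ∂τ = c1 * ∫⁻ y, k1 x y * f x * f y ∂τ +
            c2 * ∫⁻ y, k2 x y * f x * f y ∂τ + c3 * ∫⁻ y, (f x + f y) ∂τ := by
          intro x
          have a1 : Measurable fun y => k1 x y * f x * f y := hm1.comp measurable_prodMk_left
          have a2 : Measurable fun y => k2 x y * f x * f y := hm2.comp measurable_prodMk_left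
          have a3 : Measurable fun y => f x + f y := hm3.comp measurable_prodMk_left
          have a4 : Measurable fun y => c1 * (k1 x y * f x * f y) + c2 * (k2 x y * f x * f y) :=
            (a1.const_mul c1).add (a2.const_mul c2)
          rw [lintegral_add_left a4,
            lintegral_add_left (a1.const_mul c1), lintegral_const_mul _ a1,
            lintegral_const_mul _ a2, lintegral_const_mul _ a3]
        rw [lintegral_congr e1]
        have b1 : Measurable fun x => ∫⁻ y, k1 x y * f x * f y ∂τ := hm1.lintegral_prod_right'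
        have b2 : Measurable fun x => ∫⁻ y, k2 x y * f x * f y ∂τ := hm2.lintegral_prod_right'
        have b3 : Measurable fun x => ∫⁻ y, (f x + f y) ∂τ := hm3.lintegral_prod_right'
        have b4 : Measurable fun x => c1 * ∫⁻ y, k1 x y * f x * f y ∂τ +
            c2 * ∫⁻ y, k2 x y * f x * f y ∂τ := (b1.const_mul c1).add (b2.const_mul c2)
        rw [lintegral_add_left b4,
          lintegral_add_left (b1.const_mul c1), lintegral_const_mul _ b1,
          lintegral_const_mul _ b2, lintegral_const_mul _ b3]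
    _ ≤ c1 * (ENNReal.ofReal (r0 ^ (m * (σ' - s))) * A) ^ (1 / s) + c2 * A2 ^ (1 / s)
          + c3 * (M * (M + 1) + M * (M + 1)) := by
        have hsum : ∫⁻ x, ∫⁻ y, (f x + f y) ∂τ ∂τ ≤ M * (M + 1) + M * (M + 1) := by
          have e2 : ∀ x, ∫⁻ y, (f x + f y) ∂τ = f x * M + ∫⁻ y, f y ∂τ := by
            intro x
            rw [lintegral_add_left measurable_const, lintegral_const]
          rw [lintegral_congr e2, lintegral_add_left (hfm.mul_const M),
            lintegral_mul_const _ hfm, lintegral_const]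
          calc (∫⁻ x, f x ∂τ) * M + (∫⁻ x, f x ∂τ) * τ Set.univ
              ≤ (M + 1) * M + (M + 1) * M := by gcongr
            _ = _ := by ring
        gcongr
    _ ≤ ρ / 3 + ρ / 3 + ρ / 3 := by gcongr
    _ = ρ := ENNReal.add_thirds ρ

end Crest.Agent.R241.A7
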