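import Crest.Agent.R241.A7Step
import Crest.Agent.R241.A7Abs
import Crest.Agent.R241.A7PoleB
import Crest.Agent.R241.A7Tail

/-!
R241, Theorem A, block A7c, step 2: the good set.
-/

set_option autoImplicit false

namespace Crest.Agent.R241.A7

open Crest.Agent.R241.A Crest.Agent.R241.A6
open MeasureTheory Set Filter Topology
open scoped NNReal ENNReal

variable {n : ℕ} {k : ℝ} {K : Type*} [MetricSpace K] [CompactSpace K]
  [MeasurableSpace K] [BorelSpace K] (P : PreData n k K)

/-- monotone extension of `gA` -/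
noncomputable def gE (n : ℕ) (r : ℝ) : ℝ := gA n (max r 0)

theorem gE_mono (hH : T_H n) : Monotone (gE n) := fun a b hab =>
  hH.g_mono (mem_Ici.2 (le_max_right a 0)) (mem_Ici.2 (le_max_right b 0))
    (max_le_max hab le_rfl)

theorem gE_zero : gE n 0 = 0 := by simp [gE, gA]

theorem gE_nonneg (hH : T_H n) (r : ℝ) : 0 ≤ gE n r := by
  have h1 : gA n 0 ≤ gE n r := hH.g_mono (mem_Ici.2 le_rfl) (mem_Ici.2 (le_max_right r 0))
    (le_max_right r 0)
  have h2 : gA n 0 = 0 := by simp [gA]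
  linarith

theorem gE_le (hH : T_H n) (r : ℝ) : gE n r ≤ CnA n := hH.g_le _ (le_max_right r 0)

theorem gE_tendsto (hn : 3 ≤ n) (hH : T_H n) : Tendsto (gE n) atTop (𝓝 (CnA n)) := by
  have hm := mA_pos hn
  have h1 : Tendsto (fun r : ℝ => CnA n - mA n / (mA n + 2) * r ^ (-(mA n) - 2)) atTop
      (𝓝 (CnA n - mA n / (mA n + 2) * 0)) := by
    refine tendsto_const_nhds.sub (tendsto_const_nhds.mul ?_)
    have := tendsto_rpow_neg_atTop (y := mA n + 2) (by linarith)
    refine this.congr fun r => ?_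
    congr 1; ring
  rw [mul_zero, sub_zero] at h1
  refine tendsto_of_tendsto_of_tendsto_of_le_of_le' h1 tendsto_const_nhds ?_ ?_
  · filter_upwards [eventually_gt_atTop 0] with r hr
    have := hH.g_tail r hr
    unfold gE
    rw [max_eq_left hr.le]
    linarith
  · exact Eventually.of_forall fun r => gE_le hH r

/-- `F(x,y) = z_x(y) (u(x) u(y))^{1/m}` -/
noncomputable def Fk (n : ℕ) (k : ℝ) (u : K → ℝ) (x y : K) : ℝ :=
  zd k x y * (u x * u y) ^ (1 / mA n)

omit [MeasurableSpace K] [BorelSpace K] [CompactSpace K] in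
theorem Fk_nonneg {u : K → ℝ} (hpos : ∀ y, 0 < u y) (x y : K) : 0 ≤ Fk n k u x y :=
  mul_nonneg (zd_nonneg k x y) (Real.rpow_nonneg (mul_pos (hpos x) (hpos y)).le _)

omit [MeasurableSpace K] [BorelSpace K] [CompactSpace K] in
theorem Fk_cont {u : K → ℝ} (hu : Continuous u) (hpos : ∀ y, 0 < u y) :
    Continuous fun z : K × K => Fk n k u z.1 z.2 := by
  unfold Fk
  refine (continuous_zd₂ k).mul (((hu.comp continuous_fst).mul
    (hu.comp continuous_snd)).rpow_const fun z => Or.inl ?_)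
  exact (mul_pos (hpos z.1) (hpos z.2)).ne'

/-- the tail function -/
noncomputable def Rl (P : PreData n k K) (q Lam : ℝ) (u : K → ℝ) (x : K) : ℝ≥0∞ :=
  ∫⁻ y, ENNReal.ofReal (zd k x y) ^ (-(mA n)) * ENNReal.ofReal (u y ^ (q - 1)) *
    ENNReal.ofReal (CnA n - gE n (Lam * Fk n k u x y)) ∂P.τ

theorem Rl_integrand_meas (hH : T_H n) {q Lam : ℝ} {u : K → ℝ} (hu : Continuous u)
    (hpos : ∀ y, 0 < u y) : Measurable fun z : K × K =>
      ENNReal.ofReal (zd k z.1 z.2) ^ (-(mA n)) * ENNReal.ofReal (u z.2 ^ (q - 1)) *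
        ENNReal.ofReal (CnA n - gE n (Lam * Fk n k u z.1 z.2)) := by
  have h1 : Measurable fun z : K × K => ENNReal.ofReal (zd k z.1 z.2) :=
    (continuous_zd₂ k).measurable.ennreal_ofReal
  have h2 : Measurable fun z : K × K => ENNReal.ofReal (u z.2 ^ (q - 1)) :=
    ((cont_rpow hu hpos (q - 1)).comp continuous_snd).measurable.ennreal_ofReal
  have h3 : Measurable fun z : K × K => Lam * Fk n k u z.1 z.2 :=
    (continuous_const.mul (Fk_cont hu hpos)).measurable
  have h4 : Measurable fun z : K × K => gE n (Lam * Fk n k u z.1 z.2) :=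
    (gE_mono hH).measurable.comp h3
  exact ((h1.pow_const _).mul h2).mul (measurable_const.sub h4).ennreal_ofReal

theorem Rl_integrand_meas_right (hH : T_H n) {q Lam : ℝ} {u : K → ℝ} (hu : Continuous u)
    (hpos : ∀ y, 0 < u y) (x : K) : Measurable fun y : K =>
      ENNReal.ofReal (zd k x y) ^ (-(mA n)) * ENNReal.ofReal (u y ^ (q - 1)) *
        ENNReal.ofReal (CnA n - gE n (Lam * Fk n k u x y)) := by
  have h1 : Measurable fun y : K => ENNReal.ofReal (zd k x y) :=
    (continuous_zd k x).measurable.ennreal_ofReal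
  have h2 : Measurable fun y : K => ENNReal.ofReal (u y ^ (q - 1)) :=
    (cont_rpow hu hpos (q - 1)).measurable.ennreal_ofReal
  have h0 : Continuous fun y : K => Fk n k u x y := by
    unfold Fk
    refine (continuous_zd k x).mul ((continuous_const.mul hu).rpow_const fun z => Or.inl ?_)
    exact (mul_pos (hpos x) (hpos z)).ne'
  have h3 : Measurable fun y : K => Lam * Fk n k u x y := (continuous_const.mul h0).measurable
  have h4 : Measurable fun y : K => gE n (Lam * Fk n k u x y) :=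
    (gE_mono hH).measurable.comp h3
  exact ((h1.pow_const _).mul h2).mul (measurable_const.sub h4).ennreal_ofReal

theorem Rl_meas (hH : T_H n) {q Lam : ℝ} {u : K → ℝ} (hu : Continuous u)
    (hpos : ∀ y, 0 < u y) : Measurable (Rl P q Lam u) :=
  (Rl_integrand_meas hH hu hpos).lintegral_prod_right'

theorem Pq_meas {q : ℝ} {u : K → ℝ} (hu : Continuous u) (hpos : ∀ y, 0 < u y) :
    Measurable (Pq P q u) := by
  have h1 : Measurable fun z : K × K => zd k z.1 z.2 ^ (-(mA n)) * u z.2 ^ (q - 1) :=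
    ((continuous_zd₂ k).measurable.pow_const _).mul
      ((cont_rpow hu hpos (q - 1)).comp continuous_snd).measurable
  exact (h1.stronglyMeasurable.integral_prod_right' (ν := P.τ)).measurable

/-- real version of the tail integral -/
theorem Rl_eq (hn : 3 ≤ n) (hH : T_H n) (hint : T_int P) {q Lam : ℝ} {u : K → ℝ}
    (hu : Continuous u) (hpos : ∀ y, 0 < u y) (x : K) :
    Integrable (fun y => zd k x y ^ (-(mA n)) * u y ^ (q - 1) *
      (CnA n - gE n (Lam * Fk n k u x y))) P.τ ∧
    Rl P q Lam u x = ENNReal.ofReal (∫ y, zd k x y ^ (-(mA n)) * u y ^ (q - 1) *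
      (CnA n - gE n (Lam * Fk n k u x y)) ∂P.τ) := by
  have hm := mA_pos hn
  have huq := cont_rpow hu hpos (q - 1)
  have hgm : Measurable fun y => gE n (Lam * Fk n k u x y) := by
    have h3 : Measurable fun y : K => Lam * Fk n k u x y :=
      (continuous_const.mul ((Fk_cont (n := n) (k := k) hu hpos).comp
        (Continuous.prodMk_right x))).measurable
    exact (gE_mono hH).measurable.comp h3
  have hi : Integrable (fun y => zd k x y ^ (-(mA n)) * u y ^ (q - 1) *
      (CnA n - gE n (Lam * Fk n k u x y))) P.τ := by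
    refine Integrable.mul_bdd (c := CnA n) (integrable_Pq P hm hint huq x)
      (measurable_const.sub hgm).aestronglyMeasurable ?_
    refine Eventually.of_forall fun y => ?_
    have h1 := gE_nonneg hH (Lam * Fk n k u x y)
    have h2 := gE_le hH (Lam * Fk n k u x y)
    rw [Real.norm_eq_abs, abs_of_nonneg (by linarith)]
    linarith
  refine ⟨hi, ?_⟩
  rw [ofReal_integral_eq_lintegral_ofReal hi]
  · unfold Rl
    refine lintegral_congr_ae ?_
    filter_upwards [ae_ne_of_int P hm hint x] with y hy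
    have hz : 0 < zd k x y := zd_pos (Ne.symm hy)
    have h2 := gE_le hH (Lam * Fk n k u x y)
    rw [ENNReal.ofReal_rpow_of_pos hz, ENNReal.ofReal_mul (by
        exact mul_nonneg (Real.rpow_nonneg hz.le _) (Real.rpow_pos_of_pos (hpos y) _).le),
      ENNReal.ofReal_mul (Real.rpow_nonneg hz.le _)]
  · refine Eventually.of_forall fun y => ?_
    have h2 := gE_le hH (Lam * Fk n k u x y)
    have h3 : 0 ≤ CnA n - gE n (Lam * Fk n k u x y) := by linarith
    exact mul_nonneg (mul_nonneg (Real.rpow_nonneg (zd_nonneg k x y) _)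
      (Real.rpow_pos_of_pos (hpos y) _).le) h3

theorem W_eq (hn : 3 ≤ n) (hH : T_H n) (hint : T_int P) {q Lam : ℝ} (hLam : 0 < Lam)
    {u : K → ℝ} (hu : Continuous u) (hpos : ∀ y, 0 < u y) (x : K) :
    Lam ^ mA n * u x * ∫ y, HA n (Lam * u x ^ (1 / mA n) * wA n k x u y) ∂(nuA P q u) =
      ∫ y, zd k x y ^ (-(mA n)) * u y ^ (q - 1) * gE n (Lam * Fk n k u x y) ∂P.τ := by
  have hm := mA_pos hn
  rw [integral_nu P hu hpos, ← integral_const_mul]
  refine integral_congr_ae ?_
  filter_upwards [ae_ne_of_int P hm hint x] with y hy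
  have hz : 0 < zd k x y := zd_pos (Ne.symm hy)
  have hux := hpos x
  have huy := hpos y
  set m := mA n with hmdef
  have hU : 0 < u x ^ (1 / m) := Real.rpow_pos_of_pos hux _
  have hV : 0 < u y ^ (1 / m) := Real.rpow_pos_of_pos huy _
  have hF : Fk n k u x y = zd k x y * (u x ^ (1 / m) * u y ^ (1 / m)) := by
    unfold Fk
    rw [← hmdef, Real.mul_rpow hux.le huy.le]
  have e1 : Lam * u x ^ (1 / m) * wA n k x u y = Lam * Fk n k u x y := by
    rw [hF]; unfold wA; rw [← hmdef]; ring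
  have hr : 0 < Lam * Fk n k u x y := by rw [hF]; positivity
  rw [e1]
  unfold gE
  rw [max_eq_left hr.le, hH.g_eq _ hr, ← hmdef]
  have hUm : (u x ^ (1 / m)) ^ m = u x := by
    rw [← Real.rpow_mul hux.le, one_div, inv_mul_cancel₀ hm.ne', Real.rpow_one]
  have hVm : (u y ^ (1 / m)) ^ m = u y := by
    rw [← Real.rpow_mul huy.le, one_div, inv_mul_cancel₀ hm.ne', Real.rpow_one]
  have e2 : (Lam * Fk n k u x y) ^ m = Lam ^ m * (zd k x y ^ m * (u x * u y)) := by
    rw [hF, Real.mul_rpow hLam.le (by positivity), Real.mul_rpow hz.le (by positivity),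
      Real.mul_rpow hU.le hV.le, hUm, hVm]
  have e3 : u y ^ q = u y ^ (q - 1) * u y := by
    rw [← Real.rpow_add_one huy.ne']; congr 1; ring
  have e4 : zd k x y ^ (-m) * zd k x y ^ m = 1 := by
    rw [← Real.rpow_add hz]; simp
  rw [e2, e3]
  calc Lam ^ m * u x * (u y ^ (q - 1) * u y * HA n (Lam * Fk n k u x y))
      = 1 * (Lam ^ m * u x * (u y ^ (q - 1) * u y * HA n (Lam * Fk n k u x y))) := by ring
    _ = (zd k x y ^ (-m) * zd k x y ^ m) *
        (Lam ^ m * u x * (u y ^ (q - 1) * u y * HA n (Lam * Fk n k u x y))) := by rw [e4]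
    _ = _ := by ring

/-- lower bound for `W(T)` at a good point -/
theorem W_lower (hn : 3 ≤ n) (hH : T_H n) (hint : T_int P) {q Lam Q δ : ℝ} (hLam : 0 < Lam)
    (hQ : 0 < Q) (hδ : 0 ≤ δ)
    {u : K → ℝ} (hu : Continuous u) (hpos : ∀ y, 0 < u y) {x : K}
    (hB : (1 - δ) * (cP n * u x) ≤ Q * Pq P q u x)
    (hB2 : Rl P q Lam u x ≤ ENNReal.ofReal (δ * u x)) :
    (CnA n * cP n * (1 - δ) / Q - δ) * u x ≤
      Lam ^ mA n * u x * ∫ y, HA n (Lam * u x ^ (1 / mA n) * wA n k x u y) ∂(nuA P q u) := by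
  have hm := mA_pos hn
  rw [W_eq P hn hH hint hLam hu hpos x]
  obtain ⟨hi, hR⟩ := Rl_eq P hn hH hint (q := q) (Lam := Lam) hu hpos x
  have huq := cont_rpow hu hpos (q - 1)
  have hiP := integrable_Pq P hm hint huq x
  rw [hR] at hB2
  have hRle : ∫ y, zd k x y ^ (-(mA n)) * u y ^ (q - 1) *
      (CnA n - gE n (Lam * Fk n k u x y)) ∂P.τ ≤ δ * u x :=
    (ENNReal.ofReal_le_ofReal_iff (mul_nonneg hδ (hpos x).le)).1 hB2
  have e : ∫ y, zd k x y ^ (-(mA n)) * u y ^ (q - 1) * gE n (Lam * Fk n k u x y) ∂P.τ =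
      CnA n * Pq P q u x - ∫ y, zd k x y ^ (-(mA n)) * u y ^ (q - 1) *
      (CnA n - gE n (Lam * Fk n k u x y)) ∂P.τ := by
    unfold Pq
    rw [← integral_const_mul, ← integral_sub (hiP.const_mul _) hi]
    refine integral_congr_ae (Eventually.of_forall fun y => ?_)
    simp only
    ring
  rw [e]
  have h1 : (1 - δ) * (cP n * u x) / Q ≤ Pq P q u x := by
    rw [div_le_iff₀ hQ]; linarith
  have h2 : CnA n * ((1 - δ) * (cP n * u x) / Q) ≤ CnA n * Pq P q u x :=
    mul_le_mul_of_nonneg_left h1 hH.Cn_pos.le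
  have h3 : (CnA n * cP n * (1 - δ) / Q - δ) * u x =
      CnA n * ((1 - δ) * (cP n * u x) / Q) - δ * u x := by ring
  rw [h3]
  linarith

/-- the second bad set is small -/
theorem nu_B2_le (hH : T_H n) {q Lam δ ρ : ℝ} (hδ : 0 < δ) (hρ : 0 ≤ ρ)
    {u : K → ℝ} (hu : Continuous u) (hpos : ∀ y, 0 < u y)
    (h1 : ∫ y, u y ^ q ∂P.τ = 1)
    (htail : ∫⁻ x, ∫⁻ y, ENNReal.ofReal (zd k x y) ^ (-(mA n)) *
        ENNReal.ofReal (u x ^ (q - 1)) * ENNReal.ofReal (u y ^ (q - 1)) *
        ENNReal.ofReal (CnA n - gE n (Lam * (zd k x y * (u x * u y) ^ (1 / mA n)))) ∂P.τ ∂P.τ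
      ≤ ENNReal.ofReal ρ) :
    (nuA P q u).real {x | ENNReal.ofReal (δ * u x) < Rl P q Lam u x} ≤ ρ / δ := by
  haveI := prob_nu P hu hpos h1
  have hRm := Rl_meas P hH (q := q) (Lam := Lam) hu hpos
  set B2 : Set K := {x | ENNReal.ofReal (δ * u x) < Rl P q Lam u x} with hB2
  have hB2m : MeasurableSet B2 :=
    measurableSet_lt (continuous_const.mul hu).measurable.ennreal_ofReal hRm
  have h2 : ∫⁻ x, ENNReal.ofReal (u x ^ (q - 1)) * Rl P q Lam u x ∂P.τ ≤ ENNReal.ofReal ρ := by
    refine le_trans (le_of_eq ?_) htail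
    refine lintegral_congr fun x => ?_
    unfold Rl
    rw [← lintegral_const_mul]
    · refine lintegral_congr fun y => ?_
      unfold Fk
      ring
    · exact Rl_integrand_meas_right hH hu hpos x
  have h3 : ENNReal.ofReal δ * nuA P q u B2 ≤ ENNReal.ofReal ρ := by
    refine le_trans ?_ h2
    unfold nuA
    rw [withDensity_apply _ hB2m, ← lintegral_const_mul _
      (cont_rpow hu hpos q).measurable.ennreal_ofReal]
    refine le_trans (lintegral_mono_ae ?_) (setLIntegral_le_lintegral B2 _)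
    rw [ae_restrict_iff' hB2m]
    refine Eventually.of_forall fun x hx => ?_
    have hx' : ENNReal.ofReal (δ * u x) < Rl P q Lam u x := hx
    calc ENNReal.ofReal δ * ENNReal.ofReal (u x ^ q)
        = ENNReal.ofReal (u x ^ (q - 1)) * ENNReal.ofReal (δ * u x) := by
          rw [← ENNReal.ofReal_mul hδ.le, ← ENNReal.ofReal_mul
            (Real.rpow_pos_of_pos (hpos x) _).le]
          congr 1
          have : u x ^ q = u x ^ (q - 1) * u x := by
            rw [← Real.rpow_add_one (hpos x).ne']; congr 1; ring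
          rw [this]; ring
      _ ≤ ENNReal.ofReal (u x ^ (q - 1)) * Rl P q Lam u x := by gcongr
  rw [le_div_iff₀ hδ]
  have h4 : ENNReal.ofReal (δ * (nuA P q u).real B2) ≤ ENNReal.ofReal ρ := by
    rw [ENNReal.ofReal_mul hδ.le, ofReal_measureReal]
    exact h3
  have := (ENNReal.ofReal_le_ofReal_iff hρ).1 h4
  linarith

end Crest.Agent.R241.A7
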