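import Crest.Agent.R241.A7Fix

/-!
R241, Theorem A, block A7c: the inequality for fixed parameters, assembled.
-/

set_option autoImplicit false

namespace Crest.Agent.R241.A7

open Crest.Agent.R241.A Crest.Agent.R241.A6
open MeasureTheory Set Filter Topology
open scoped NNReal ENNReal

variable {n : ℕ} {k : ℝ} {K : Type*} [MetricSpace K] [CompactSpace K]
  [MeasurableSpace K] [BorelSpace K] (P : PreData n k K)

theorem cP_pos (hn : 3 ≤ n) : 0 < cP n := by
  have hm := mA_pos hn
  unfold cP omegaBall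
  have hn0 : (0 : ℝ) < n := by
    have : (3 : ℝ) ≤ n := by exact_mod_cast hn
    linarith
  have hball : 0 < (volume (Metric.ball (0 : EuclideanSpace ℝ (Fin n)) 1)).toReal :=
    ENNReal.toReal_pos (Metric.measure_ball_pos volume _ one_pos).ne' measure_ball_lt_top.ne
  positivity

/-- admissibility of `ν` for the centre theorem -/
theorem nu_adm (hn : 3 ≤ n) (hint : T_int P) {q : ℝ} {u : K → ℝ} (hu : Continuous u)
    (hpos : ∀ y, 0 < u y) :
    ∃ s : ℝ, 0 < s ∧ ∃ C : ℝ, ∀ x : K, nuA P q u {x} = 0 ∧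
      ∫⁻ y, ENNReal.ofReal (zd k x y ^ (-s)) ∂(nuA P q u) ≤ ENNReal.ofReal C := by
  have hm := mA_pos hn
  obtain ⟨C, hC, hC'⟩ := hint (mA n) hm.le (by rw [n_eq n]; linarith)
  obtain ⟨Bd, hBd0, hBd⟩ := exists_bound_of_continuous (cont_rpow hu hpos q)
  have hdm : Measurable fun y => ENNReal.ofReal (u y ^ q) :=
    (cont_rpow hu hpos q).measurable.ennreal_ofReal
  refine ⟨mA n, hm, Bd * C, fun x => ⟨?_, ?_⟩⟩
  · exact withDensity_absolutelyContinuous P.τ _ (hC' x).2
  · unfold nuA
    have hfm : Measurable fun y => ENNReal.ofReal (zd k x y ^ (-(mA n))) :=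
      ((continuous_zd k x).measurable.pow_const _).ennreal_ofReal
    rw [lintegral_withDensity_eq_lintegral_mul _ hdm hfm]
    calc ∫⁻ y, ((fun y => ENNReal.ofReal (u y ^ q)) *
          fun y => ENNReal.ofReal (zd k x y ^ (-(mA n)))) y ∂P.τ
        ≤ ∫⁻ y, ENNReal.ofReal Bd * ENNReal.ofReal (zd k x y ^ (-(mA n))) ∂P.τ := by
          refine lintegral_mono fun y => ?_
          simp only [Pi.mul_apply]
          gcongr
          exact (le_abs_self _).trans (hBd y)
      _ = ENNReal.ofReal Bd * ∫⁻ y, ENNReal.ofReal (zd k x y ^ (-(mA n))) ∂P.τ :=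
          lintegral_const_mul _ hfm
      _ ≤ ENNReal.ofReal Bd * ENNReal.ofReal C := by gcongr; exact (hC' x).1
      _ = ENNReal.ofReal (Bd * C) := (ENNReal.ofReal_mul hBd0.le).symm

theorem HA_comp_cont (hH : T_H n) {X : Type*} [TopologicalSpace X] {f : X → ℝ}
    (hf : Continuous f) (hf0 : ∀ x, 0 ≤ f x) : Continuous fun x => HA n (f x) :=
  hH.cont.comp_continuous hf fun x => mem_Ici.2 (hf0 x)

theorem fixed_ineq (hn : 3 ≤ n) {h q : ℝ} (hk : 0 ≤ k) (hkh : k < h)
    (hH : T_H n) (hode : T_ode) (hkey : T_key P h) (hcentre : T_centre k K) (htwo : T_two k K)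
    (hint : T_int P) (hsup : T_super P h) (hbarta : T_barta P h) (hpole : T_pole P)
    (hq : 2 < q) (hqn : mA n * q < n) (hv : (n : ℝ) / mA n - q < 2) :
    ∃ CB C2 : ℝ, 0 < CB ∧ 0 < C2 ∧ ∀ (Q ε : ℝ) (u : K → ℝ) (δ lam Lam R ρ : ℝ),
      0 < Q → 0 ≤ ε → Near P (bA n k h) q Q ε u → 0 < δ → 0 < lam → lam ≤ Lam → 0 < R → 0 ≤ ρ →
      ∫⁻ x, ∫⁻ y, ENNReal.ofReal (zd k x y) ^ (-(mA n)) *
        ENNReal.ofReal (u x ^ (q - 1)) * ENNReal.ofReal (u y ^ (q - 1)) *
        ENNReal.ofReal (CnA n - gE n (Lam * (zd k x y * (u x * u y) ^ (1 / mA n)))) ∂P.τ ∂P.τ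
        ≤ ENNReal.ofReal ρ →
      0 < CnA n * cP n * (1 - δ) / Q - δ →
      1 - 3 * (CB * √ε / (δ * cP n) + ρ / δ) ≤
        (√(ε * (C2 * (Q + ε))) / Q * (Lam / lam) ^ mA n +
          (lam ^ mA n / (CnA n * cP n * (1 - δ) / Q - δ)) ^ ((q - 2) / 2) / ((q - 2) / 2)) /
          (1 - HA n (lam * R)) *
        (2 + R * ((2 * (Q + ε) / (mA n * n)) ^ (1 - ((n : ℝ) / mA n - q) / 2) *
          (2 * (bA n k h * P.τ.real univ) / (mA n * n)) ^ (((n : ℝ) / mA n - q) / 2))) := by
  have hm := mA_pos hn
  have hb := bA_pos hn hk hkh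
  have hcP := cP_pos hn
  obtain ⟨CB, hCB, hCB'⟩ := pole_B P hn hk hkh hq hqn hint hsup hpole
  obtain ⟨hkey1, C2, hC2, hkey2⟩ := hkey
  refine ⟨CB, C2, hCB, hC2, ?_⟩
  intro Q ε u δ lam Lam R ρ hQ hε hu hδ hlam hLam hR hρ htail hA
  have huc := hu.lip.continuous
  have hpos := hu.pos
  haveI := prob_nu P huc hpos hu.norm
  set ν := nuA P q u with hν
  set A : ℝ := CnA n * cP n * (1 - δ) / Q - δ with hAdef
  set e : ℝ := √(ε * (C2 * (Q + ε))) / Q with he
  have he0 : 0 ≤ e := by positivity
  have hLam0 : 0 < Lam := hlam.trans_le hLam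
  set Y : ℝ := e * (Lam / lam) ^ mA n + (lam ^ mA n / A) ^ ((q - 2) / 2) / ((q - 2) / 2) with hY
  have hq2 : 0 < (q - 2) / 2 := by linarith
  have hlm : 0 < lam ^ mA n := Real.rpow_pos_of_pos hlam _
  have hY0 : 0 ≤ Y := by
    rw [hY]
    have : 0 ≤ (Lam / lam) ^ mA n := Real.rpow_nonneg (by positivity) _
    positivity
  have hDR : 0 < 1 - HA n (lam * R) := by
    have := HA_lt_one hn hH (mul_pos hlam hR); linarith
  -- bad sets
  set B1 : Set K := {x | Q * Pq P q u x ≤ (1 - δ) * (cP n * u x)} with hB1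
  set B2 : Set K := {x | ENNReal.ofReal (δ * u x) < Rl P q Lam u x} with hB2
  have hB1m : MeasurableSet B1 :=
    measurableSet_le ((Pq_meas P huc hpos).const_mul Q)
      (continuous_const.mul (continuous_const.mul huc)).measurable
  have hB2m : MeasurableSet B2 :=
    measurableSet_lt (continuous_const.mul huc).measurable.ennreal_ofReal
      (Rl_meas P hH huc hpos)
  set G : Set K := (B1 ∪ B2)ᶜ with hG
  have hGm : MeasurableSet G := (hB1m.union hB2m).compl
  have hνB1 : ν.real B1 ≤ CB * √ε / (δ * cP n) := by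
    have h1 := hCB' Q ε hQ.le hε u hu.lip hpos hu.norm hu.ek δ B1 hB1m (fun x hx => hx)
    have h2 : ν.real B1 = ∫ x in B1, u x ^ q ∂P.τ := by
      rw [← integral_indicator_one hB1m, hν, integral_nu P huc hpos, ← integral_indicator hB1m]
      refine integral_congr_ae (Eventually.of_forall fun x => ?_)
      simp only [Set.indicator]
      split_ifs <;> simp
    rw [le_div_iff₀ (by positivity), h2]
    linarith
  have hνB2 : ν.real B2 ≤ ρ / δ := nu_B2_le P hH hδ hρ huc hpos hu.norm htail
  have hνG : ν.real Gᶜ ≤ CB * √ε / (δ * cP n) + ρ / δ := by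
    rw [hG, compl_compl]
    exact (measureReal_union_le B1 B2).trans (add_le_add hνB1 hνB2)
  -- centre
  obtain ⟨x, a, ha, hs, hc⟩ := hcentre ν this (nu_adm P hn hint huc hpos)
  -- continuity facts
  have hFc : Continuous fun z : K × K => Fk n k u z.1 z.2 := Fk_cont huc hpos
  have hDc : Continuous (Function.uncurry fun y p : K => 1 - HA n (lam * Fk n k u y p)) := by
    refine continuous_const.sub ?_
    refine HA_comp_cont hH (f := fun z : K × K => lam * Fk n k u z.1 z.2)
      (continuous_const.mul hFc) fun z => ?_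
    exact mul_nonneg hlam.le (Fk_nonneg hpos _ _)
  have hκc : Continuous (Function.uncurry fun y p : K =>
      zd k y p * (s0 k a / ((zd k x y + a) * (zd k x p + a)))) := by
    refine (continuous_zd₂ k).mul (continuous_const.div ?_ fun z => ?_)
    · exact (((continuous_zd k x).comp continuous_fst).add continuous_const).mul
        (((continuous_zd k x).comp continuous_snd).add continuous_const)
    · exact (mul_pos (zd_add_pos k x ha z.1) (zd_add_pos k x ha z.2)).ne'
  have hstep := step3 ν (D := fun y p => 1 - HA n (lam * Fk n k u y p))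
    (κ := fun y p => zd k y p * (s0 k a / ((zd k x y + a) * (zd k x p + a))))
    hDc hκc (Φ := PhiA n k x a u) (PhiA_cont x ha huc hpos)
    (fun y p => by
      have := hH.le_one (lam * Fk n k u y p) (mul_nonneg hlam.le (Fk_nonneg hpos _ _))
      show 0 ≤ 1 - HA n (lam * Fk n k u y p)
      linarith)
    (fun y p => by
      show 1 - HA n (lam * Fk n k u y p) = 1 - HA n (lam * Fk n k u p y)
      rw [Fk_symm])
    (PhiA_nonneg x hs hpos)
    (fun y p => htwo x y p a ha hs)
    hc (DR := 1 - HA n (lam * R)) (R := R) (Y := Y) hDR hR.le hY0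
    (fun y p => kappa_le hn hH htwo hpos ha hs hlam hR y p)
    (G := G) hGm (by
      intro p hp
      have hp1 : p ∉ B1 := fun hh => hp (Or.inl hh)
      have hp2 : p ∉ B2 := fun hh => hp (Or.inr hh)
      have hp1' : (1 - δ) * (cP n * u p) ≤ Q * Pq P q u p := (not_le.1 hp1).le
      have hp2' : Rl P q Lam u p ≤ ENNReal.ofReal (δ * u p) := not_lt.1 hp2
      have hW := W_lower P hn hH hint hLam0 hQ hδ.le huc hpos hp1' hp2'
      have hwc := wA_cont (n := n) (k := k) huc hpos p
      have hw0 := wA_nonneg (n := n) (k := k) hpos p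
      have hU := hpos p
      have hU' : 0 < u p ^ (1 / mA n) := Real.rpow_pos_of_pos hU _
      have hHc : Continuous fun y => HA n (lam * u p ^ (1 / mA n) * wA n k p u y) :=
        HA_comp_cont hH (continuous_const.mul hwc) fun y =>
          mul_nonneg (mul_pos hlam hU').le (hw0 y)
      have hHpos : 0 < ∫ y, HA n (lam * u p ^ (1 / mA n) * wA n k p u y) ∂ν := by
        rw [integral_pos_iff_support_of_nonneg]
        · have : Function.support (fun y => HA n (lam * u p ^ (1 / mA n) * wA n k p u y)) =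
              univ := by
            ext y
            simp only [Function.mem_support, mem_univ, iff_true]
            exact (hH.pos _ (mul_nonneg (mul_pos hlam hU').le (hw0 y))).ne'
          rw [this]
          simp
        · exact fun y => (hH.pos _ (mul_nonneg (mul_pos hlam hU').le (hw0 y))).le
        · exact hHc.integrable_of_hasCompactSupport (HasCompactSupport.of_compactSpace _)
      have h1 := step1c hn hode hq he0 ν hwc hw0 (fun t ht =>
        step1a P rfl hm hq hqn.le hQ hε hC2.le hu hkey1 hkey2 p ht) hU hlam hLam hA hW hHpos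
      have h2 : ∫ y, (1 - HA n (lam * Fk n k u y p)) ∂ν =
          1 - ∫ y, HA n (lam * u p ^ (1 / mA n) * wA n k p u y) ∂ν := by
        have e1 : ∀ y, lam * Fk n k u y p = lam * u p ^ (1 / mA n) * wA n k p u y := by
          intro y
          unfold Fk wA
          rw [zd_comm, Real.mul_rpow (hpos y).le hU.le]
          ring
        simp_rw [e1]
        rw [integral_sub (integrable_const _)
          (hHc.integrable_of_hasCompactSupport (HasCompactSupport.of_compactSpace _)),
          integral_const]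
        simp
      rw [h2]
      exact h1)
  have hX := X_bound P hn hbarta hb hqn hv hu x ha hs
  have h1 : 1 - 3 * (CB * √ε / (δ * cP n) + ρ / δ) ≤ 1 - 3 * ν.real Gᶜ := by linarith
  refine h1.trans (hstep.trans ?_)
  have h2 : 0 ≤ Y / (1 - HA n (lam * R)) := by positivity
  refine mul_le_mul_of_nonneg_left ?_ h2
  have h3 := mul_le_mul_of_nonneg_left hX hR.le
  linarith

end Crest.Agent.R241.A7
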