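import Mathlib

/-!
R241, Theorem A, block A7: Young's inequality in trilinear form for kernels with uniformly
bounded `s`-integrals.
-/

set_option autoImplicit false

open MeasureTheory ENNReal

namespace Crest.Agent.R241.A7

/-- Trilinear Young inequality. -/
theorem young3 {K L : Type*} [MeasurableSpace K] [MeasurableSpace L]
    (τ : Measure K) [SFinite τ] (σ : Measure L) [SFinite σ]
    {p r s : ℝ} (hp : 1 ≤ p) (hr : 1 ≤ r) (hs : 1 ≤ s) (hprs : 1 / p + 1 / r + 1 / s = 2)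
    (k : K → L → ℝ≥0∞) (hk : Measurable (Function.uncurry k)) (A : ℝ≥0∞)
    (hA : ∀ y, ∫⁻ x, k x y ^ s ∂τ ≤ A) (hA' : ∀ x, ∫⁻ y, k x y ^ s ∂σ ≤ A)
    (f : K → ℝ≥0∞) (hf : Measurable f) (g : L → ℝ≥0∞) (hg : Measurable g) :
    ∫⁻ x, ∫⁻ y, k x y * f x * g y ∂σ ∂τ ≤
      A ^ (1 / s) * (∫⁻ x, f x ^ p ∂τ) ^ (1 / p) * (∫⁻ y, g y ^ r ∂σ) ^ (1 / r) := by
  have hp0 : 0 < p := by linarith
  have hr0 : 0 < r := by linarith
  have hs0 : 0 < s := by linarith
  set a : ℝ := 1 - 1 / r with ha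
  set b : ℝ := 1 - 1 / p with hb
  set c : ℝ := 1 - 1 / s with hc
  have ha0 : 0 ≤ a := by
    rw [ha, sub_nonneg, div_le_one hr0]; exact hr
  have hb0 : 0 ≤ b := by
    rw [hb, sub_nonneg, div_le_one hp0]; exact hp
  have hc0 : 0 ≤ c := by
    rw [hc, sub_nonneg, div_le_one hs0]; exact hs
  have habc : a + b + c = 1 := by rw [ha, hb, hc]; linarith
  -- the three functions on the product
  let F : Fin 3 → K × L → ℝ≥0∞ := ![fun z => k z.1 z.2 ^ s * f z.1 ^ p,
    fun z => k z.1 z.2 ^ s * g z.2 ^ r, fun z => f z.1 ^ p * g z.2 ^ r]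
  let w : Fin 3 → ℝ := ![a, b, c]
  have hkm : Measurable fun z : K × L => k z.1 z.2 := hk
  have hF : ∀ i ∈ (Finset.univ : Finset (Fin 3)), AEMeasurable (F i) (τ.prod σ) := by
    intro i _
    fin_cases i
    · exact ((hkm.pow_const s).mul ((hf.comp measurable_fst).pow_const p)).aemeasurable
    · exact ((hkm.pow_const s).mul ((hg.comp measurable_snd).pow_const r)).aemeasurable
    · exact (((hf.comp measurable_fst).pow_const p).mul
        ((hg.comp measurable_snd).pow_const r)).aemeasurable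
  have hw1 : ∑ i ∈ (Finset.univ : Finset (Fin 3)), w i = 1 := by
    simp [w, Fin.sum_univ_three, habc]
  have hw0 : ∀ i ∈ (Finset.univ : Finset (Fin 3)), 0 ≤ w i := by
    intro i _
    fin_cases i <;> simp [w, ha0, hb0, hc0]
  have hH := ENNReal.lintegral_prod_norm_pow_le (μ := τ.prod σ) Finset.univ hF hw1 hw0
  -- the product of the powers is the integrand
  have hexp : ∀ z : K × L, ∏ i ∈ (Finset.univ : Finset (Fin 3)), F i z ^ w i
      = k z.1 z.2 * f z.1 * g z.2 := by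
    intro z
    have e1 : s * a + s * b = 1 := by
      have : a + b = 1 / s := by rw [ha, hb]; linarith
      rw [← mul_add, this, mul_one_div_cancel hs0.ne']
    have e2 : p * a + p * c = 1 := by
      have : a + c = 1 / p := by rw [ha, hc]; linarith
      rw [← mul_add, this, mul_one_div_cancel hp0.ne']
    have e3 : r * b + r * c = 1 := by
      have : b + c = 1 / r := by rw [hb, hc]; linarith
      rw [← mul_add, this, mul_one_div_cancel hr0.ne']
    rw [Fin.prod_univ_three]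
    simp only [F, w, Matrix.cons_val_zero, Matrix.cons_val_one, Matrix.cons_val]
    rw [ENNReal.mul_rpow_of_nonneg _ _ ha0, ENNReal.mul_rpow_of_nonneg _ _ hb0,
      ENNReal.mul_rpow_of_nonneg _ _ hc0, ← ENNReal.rpow_mul, ← ENNReal.rpow_mul,
      ← ENNReal.rpow_mul, ← ENNReal.rpow_mul, ← ENNReal.rpow_mul, ← ENNReal.rpow_mul]
    have hk1 : k z.1 z.2 ^ (s * a) * k z.1 z.2 ^ (s * b) = k z.1 z.2 := by
      rw [← ENNReal.rpow_add_of_nonneg _ _ (mul_nonneg hs0.le ha0) (mul_nonneg hs0.le hb0), e1,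
        ENNReal.rpow_one]
    have hf1 : f z.1 ^ (p * a) * f z.1 ^ (p * c) = f z.1 := by
      rw [← ENNReal.rpow_add_of_nonneg _ _ (mul_nonneg hp0.le ha0) (mul_nonneg hp0.le hc0), e2,
        ENNReal.rpow_one]
    have hg1 : g z.2 ^ (r * b) * g z.2 ^ (r * c) = g z.2 := by
      rw [← ENNReal.rpow_add_of_nonneg _ _ (mul_nonneg hr0.le hb0) (mul_nonneg hr0.le hc0), e3,
        ENNReal.rpow_one]
    calc k z.1 z.2 ^ (s * a) * f z.1 ^ (p * a) * (k z.1 z.2 ^ (s * b) * g z.2 ^ (r * b)) *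
          (f z.1 ^ (p * c) * g z.2 ^ (r * c))
        = (k z.1 z.2 ^ (s * a) * k z.1 z.2 ^ (s * b)) * (f z.1 ^ (p * a) * f z.1 ^ (p * c)) *
          (g z.2 ^ (r * b) * g z.2 ^ (r * c)) := by ring
      _ = _ := by rw [hk1, hf1, hg1]
  have hL : ∫⁻ x, ∫⁻ y, k x y * f x * g y ∂σ ∂τ
      = ∫⁻ z, ∏ i ∈ (Finset.univ : Finset (Fin 3)), F i z ^ w i ∂(τ.prod σ) := by
    rw [lintegral_congr hexp, lintegral_prod]
    exact ((hkm.mul (hf.comp measurable_fst)).mul (hg.comp measurable_snd)).aemeasurable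
  rw [hL]
  refine hH.trans ?_
  rw [Fin.prod_univ_three]
  simp only [F, w, Matrix.cons_val_zero, Matrix.cons_val_one, Matrix.cons_val]
  set If : ℝ≥0∞ := ∫⁻ x, f x ^ p ∂τ with hIf
  set Ig : ℝ≥0∞ := ∫⁻ y, g y ^ r ∂σ with hIg
  have h1 : ∫⁻ z : K × L, k z.1 z.2 ^ s * f z.1 ^ p ∂(τ.prod σ) ≤ A * If := by
    have hm : Measurable fun z : K × L => k z.1 z.2 ^ s * f z.1 ^ p :=
      (hkm.pow_const s).mul ((hf.comp measurable_fst).pow_const p)
    rw [lintegral_prod _ hm.aemeasurable]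
    calc ∫⁻ x, ∫⁻ y, k x y ^ s * f x ^ p ∂σ ∂τ
        = ∫⁻ x, (∫⁻ y, k x y ^ s ∂σ) * f x ^ p ∂τ := by
          refine lintegral_congr fun x => ?_
          rw [lintegral_mul_const]
          exact (hkm.comp measurable_prodMk_left).pow_const s
      _ ≤ ∫⁻ x, A * f x ^ p ∂τ := lintegral_mono fun x => mul_le_mul_left (hA' x) _
      _ = A * If := by rw [lintegral_const_mul _ (hf.pow_const p)]
  have h2 : ∫⁻ z : K × L, k z.1 z.2 ^ s * g z.2 ^ r ∂(τ.prod σ) ≤ A * Ig := by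
    have hm : Measurable fun z : K × L => k z.1 z.2 ^ s * g z.2 ^ r :=
      (hkm.pow_const s).mul ((hg.comp measurable_snd).pow_const r)
    rw [lintegral_prod_symm _ hm.aemeasurable]
    calc ∫⁻ y, ∫⁻ x, k x y ^ s * g y ^ r ∂τ ∂σ
        = ∫⁻ y, (∫⁻ x, k x y ^ s ∂τ) * g y ^ r ∂σ := by
          refine lintegral_congr fun y => ?_
          rw [lintegral_mul_const]
          exact (hkm.comp measurable_prodMk_right).pow_const s
      _ ≤ ∫⁻ y, A * g y ^ r ∂σ := lintegral_mono fun y => mul_le_mul_left (hA y) _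
      _ = A * Ig := by rw [lintegral_const_mul _ (hg.pow_const r)]
  have h3 : ∫⁻ z : K × L, f z.1 ^ p * g z.2 ^ r ∂(τ.prod σ) = If * Ig := by
    rw [lintegral_prod_mul (hf.pow_const p).aemeasurable (hg.pow_const r).aemeasurable]
  rw [h3]
  calc (∫⁻ z : K × L, k z.1 z.2 ^ s * f z.1 ^ p ∂(τ.prod σ)) ^ a *
        (∫⁻ z : K × L, k z.1 z.2 ^ s * g z.2 ^ r ∂(τ.prod σ)) ^ b * (If * Ig) ^ c
      ≤ (A * If) ^ a * (A * Ig) ^ b * (If * Ig) ^ c := by
        gcongr
    _ = (A ^ a * A ^ b) * (If ^ a * If ^ c) * (Ig ^ b * Ig ^ c) := by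
        rw [ENNReal.mul_rpow_of_nonneg _ _ ha0, ENNReal.mul_rpow_of_nonneg _ _ hb0,
          ENNReal.mul_rpow_of_nonneg _ _ hc0]
        ring
    _ = A ^ (1 / s) * If ^ (1 / p) * Ig ^ (1 / r) := by
        rw [← ENNReal.rpow_add_of_nonneg _ _ ha0 hb0, ← ENNReal.rpow_add_of_nonneg _ _ ha0 hc0,
          ← ENNReal.rpow_add_of_nonneg _ _ hb0 hc0]
        have e1 : a + b = 1 / s := by rw [ha, hb]; linarith
        have e2 : a + c = 1 / p := by rw [ha, hc]; linarith
        have e3 : b + c = 1 / r := by rw [hb, hc]; linarith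
        rw [e1, e2, e3]

end Crest.Agent.R241.A7
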