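import Crest.Agent.R241.A6Min
import Crest.Agent.R241.A7Young
import Crest.Agent.R241.A7Disc

/-!
R241, Theorem A, block A7b (POLE-B): testing the near-Euler-Lagrange equation with superpositions
of `phi_{y,a}`.
-/

set_option autoImplicit false

namespace Crest.Agent.R241.A7

open Crest.Agent.R241.A Crest.Agent.R241.A6
open MeasureTheory Set Filter Topology
open scoped NNReal ENNReal

variable {n : ℕ} {k : ℝ} {K : Type*} [MetricSpace K] [CompactSpace K]
  [MeasurableSpace K] [BorelSpace K] (P : PreData n k K)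

/-- the kernel `κ_a(x,y) = (z_x(y)+a)^{-m-1/2}` -/
noncomputable def kap (n : ℕ) (k a : ℝ) (x y : K) : ℝ := (zd k x y + a) ^ (-(mA n) - 1 / 2)

omit [CompactSpace K] [MeasurableSpace K] [BorelSpace K] in
theorem kap_pos {a : ℝ} (ha : 0 < a) (x y : K) : 0 < kap n k a x y :=
  Real.rpow_pos_of_pos (zd_add_pos k x ha y) _

omit [CompactSpace K] [MeasurableSpace K] [BorelSpace K] in
theorem continuous_zd_rpow {a : ℝ} (ha : 0 < a) (s : ℝ) :
    Continuous fun p : K × K => (zd k p.1 p.2 + a) ^ s :=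
  ((continuous_zd₂ k).add continuous_const).rpow_const fun p => Or.inl (zd_add_pos k p.1 ha p.2).ne'

omit [CompactSpace K] [MeasurableSpace K] [BorelSpace K] in
theorem kap_cont {a : ℝ} (ha : 0 < a) : Continuous fun p : K × K => kap n k a p.1 p.2 :=
  continuous_zd_rpow ha _

omit [CompactSpace K] [MeasurableSpace K] [BorelSpace K] in
theorem kap_cont_right {a : ℝ} (ha : 0 < a) (x : K) : Continuous (kap n k a x) := by
  unfold kap
  exact ((continuous_zd k x).add continuous_const).rpow_const fun y =>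
    Or.inl (zd_add_pos k x ha y).ne'

theorem sqrt_G_phi_le {Z a : ℝ} (hZ0 : 0 < Z) (ha : 0 < a) (x : K) (hZ : ∀ y, zd k x y ≤ Z) :
    ∀ᵐ y ∂P.τ, √(P.G (phiA n k x a) (phiA n k x a) y) ≤
      √(mA n ^ 2 * (2 + k ^ 2 * Z)) * kap n k a x y := by
  have hL : Lip (phiA n k x a) := lip_zd_rpow k x ha _
  filter_upwards [P.G_zd_rpow_left x ha (-(mA n)) hL,
    P.G_zd_rpow_right x ha (-(mA n)) (lip_zd k x), P.G_z x] with y h1 h2 h3
  have hp := zd_add_pos k x ha y
  have e : phiA n k x a = fun y => (zd k x y + a) ^ (-(mA n)) := rfl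
  have h1' : P.G (phiA n k x a) (phiA n k x a) y =
      (-(mA n) * (zd k x y + a) ^ (-(mA n) - 1)) ^ 2 * P.G (zd k x) (zd k x) y := by
    rw [← e] at h1 h2
    rw [h1, h2]; ring
  rw [h1']
  rw [← Real.sqrt_sq (kap_pos (n := n) (k := k) ha x y).le, ← Real.sqrt_mul (by positivity)]
  apply Real.sqrt_le_sqrt
  have hz0 := zd_nonneg k x y
  have hzZ := hZ y
  have h4 : P.G (zd k x) (zd k x) y ≤ (2 + k ^ 2 * Z) * (zd k x y + a) := by
    refine h3.trans ?_
    have h5 : k ^ 2 * zd k x y ^ 2 ≤ k ^ 2 * Z * (zd k x y + a) := by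
      have : zd k x y ^ 2 ≤ Z * (zd k x y + a) := by nlinarith
      nlinarith [sq_nonneg k]
    nlinarith
  have h6 : ((zd k x y + a) ^ (-(mA n) - 1)) ^ 2 * (zd k x y + a) = kap n k a x y ^ 2 := by
    unfold kap
    rw [← Real.rpow_natCast, ← Real.rpow_natCast, ← Real.rpow_mul hp.le, ← Real.rpow_mul hp.le,
      ← Real.rpow_add_one hp.ne']
    congr 1
    push_cast
    ring
  calc (-(mA n) * (zd k x y + a) ^ (-(mA n) - 1)) ^ 2 * P.G (zd k x) (zd k x) y
      ≤ (-(mA n) * (zd k x y + a) ^ (-(mA n) - 1)) ^ 2 * ((2 + k ^ 2 * Z) * (zd k x y + a)) := by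
        gcongr
    _ = mA n ^ 2 * (2 + k ^ 2 * Z) *
        (((zd k x y + a) ^ (-(mA n) - 1)) ^ 2 * (zd k x y + a)) := by ring
    _ = _ := by rw [h6]

omit [CompactSpace K] [MeasurableSpace K] [BorelSpace K] in
theorem phi_le_kap {Z a : ℝ} (ha : 0 < a) (ha1 : a ≤ 1) (x y : K) (hZ : zd k x y ≤ Z) :
    phiA n k x a y ≤ √(Z + 1) * kap n k a x y := by
  have hp := zd_add_pos k x ha y
  have h1 : phiA n k x a y = √(zd k x y + a) * kap n k a x y := by
    unfold kap phiA
    rw [Real.sqrt_eq_rpow, ← Real.rpow_add hp]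
    congr 1; ring
  rw [h1]
  have h2 : √(zd k x y + a) ≤ √(Z + 1) := Real.sqrt_le_sqrt (by linarith)
  exact mul_le_mul_of_nonneg_right h2 (kap_pos ha x y).le

/-- the form of two poles -/
theorem form_phi_le {b : ℝ} (hb : 0 ≤ b) :
    ∃ C : ℝ, 0 < C ∧ ∀ a : ℝ, 0 < a → a ≤ 1 → ∀ x x' : K,
      P.form b (phiA n k x a) (phiA n k x' a) ≤
        C * ∫ y, kap n k a x y * kap n k a x' y ∂P.τ := by
  obtain ⟨Z, hZ0, hZ⟩ := exists_zd_le (K := K) k
  refine ⟨mA n ^ 2 * (2 + k ^ 2 * Z) + b * (Z + 1) + 1, by positivity, ?_⟩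
  intro a ha ha1 x x'
  have hL : ∀ x : K, Lip (phiA n k x a) := fun x => lip_zd_rpow k x ha _
  have hφ0 : ∀ x y : K, 0 < phiA n k x a y := fun x y =>
    Real.rpow_pos_of_pos (zd_add_pos k x ha y) _
  rw [← integral_const_mul]
  unfold PreData.form
  have hcκ : ∀ x : K, Continuous (kap n k a x) := fun x => kap_cont_right ha x
  refine integral_mono_ae (P.integrable_form b (hL x) (hL x'))
    ((P.integrable_of_continuous ((hcκ x).mul (hcκ x'))).const_mul _) ?_
  filter_upwards [sqrt_G_phi_le P hZ0 ha x (hZ x), sqrt_G_phi_le P hZ0 ha x' (hZ x'),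
    P.abs_G_le (hL x) (hL x')] with y h1 h2 h3
  have k1 := (kap_pos (n := n) (k := k) ha x y).le
  have k2 := (kap_pos (n := n) (k := k) ha x' y).le
  have h4 : P.G (phiA n k x a) (phiA n k x' a) y ≤
      (mA n ^ 2 * (2 + k ^ 2 * Z)) * (kap n k a x y * kap n k a x' y) := by
    refine (le_abs_self _).trans (h3.trans ?_)
    calc √(P.G (phiA n k x a) (phiA n k x a) y) * √(P.G (phiA n k x' a) (phiA n k x' a) y)
        ≤ (√(mA n ^ 2 * (2 + k ^ 2 * Z)) * kap n k a x y) *
          (√(mA n ^ 2 * (2 + k ^ 2 * Z)) * kap n k a x' y) :=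
          mul_le_mul h1 h2 (Real.sqrt_nonneg _) (mul_nonneg (Real.sqrt_nonneg _) k1)
      _ = (√(mA n ^ 2 * (2 + k ^ 2 * Z)) * √(mA n ^ 2 * (2 + k ^ 2 * Z))) *
          (kap n k a x y * kap n k a x' y) := by ring
      _ = _ := by rw [Real.mul_self_sqrt (by positivity)]
  have h5 : phiA n k x a y * phiA n k x' a y ≤ (Z + 1) * (kap n k a x y * kap n k a x' y) := by
    calc phiA n k x a y * phiA n k x' a y
        ≤ (√(Z + 1) * kap n k a x y) * (√(Z + 1) * kap n k a x' y) :=
          mul_le_mul (phi_le_kap ha ha1 x y (hZ x y)) (phi_le_kap ha ha1 x' y (hZ x' y))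
            (hφ0 x' y).le (mul_nonneg (Real.sqrt_nonneg _) k1)
      _ = (√(Z + 1) * √(Z + 1)) * (kap n k a x y * kap n k a x' y) := by ring
      _ = _ := by rw [Real.mul_self_sqrt (by positivity)]
  have h6 : b * (phiA n k x a y * phiA n k x' a y) ≤
      b * ((Z + 1) * (kap n k a x y * kap n k a x' y)) := mul_le_mul_of_nonneg_left h5 hb
  have h7 : 0 ≤ kap n k a x y * kap n k a x' y := mul_nonneg k1 k2
  show _ ≤ (mA n ^ 2 * (2 + k ^ 2 * Z) + b * (Z + 1) + 1) * (kap n k a x y * kap n k a x' y)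
  nlinarith

theorem cont_int {a : ℝ} (ha : 0 < a) (s : ℝ) {v : K → ℝ} (hv : Continuous v) (μ : Measure K)
    [IsFiniteMeasure μ] : Continuous fun x : K => ∫ y, (zd k x y + a) ^ s * v y ∂μ := by
  have h := continuous_parametric_integral_of_continuous (X := K) (μ := μ)
    (f := fun x y => (zd k x y + a) ^ s * v y)
    ((continuous_zd_rpow ha s).mul (hv.comp continuous_snd)) isCompact_univ
  simpa only [Measure.restrict_univ] using h

theorem cont_G0 {a : ℝ} (ha : 0 < a) (μ : Measure K) [IsFiniteMeasure μ] :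
    Continuous fun p : K × K => ∫ y, kap n k a p.1 y * kap n k a p.2 y ∂μ := by
  have h1 : Continuous fun q : (K × K) × K => kap n k a q.1.1 q.2 := by
    have : Continuous fun q : (K × K) × K => zd k q.1.1 q.2 := by
      unfold zd
      exact (continuous_zk k).comp
        (Continuous.dist (continuous_fst.comp continuous_fst) continuous_snd)
    unfold kap
    exact (this.add continuous_const).rpow_const fun q =>
      Or.inl (zd_add_pos k q.1.1 ha q.2).ne'
  have h2 : Continuous fun q : (K × K) × K => kap n k a q.1.2 q.2 := by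
    have : Continuous fun q : (K × K) × K => zd k q.1.2 q.2 := by
      unfold zd
      exact (continuous_zk k).comp
        (Continuous.dist (continuous_snd.comp continuous_fst) continuous_snd)
    unfold kap
    exact (this.add continuous_const).rpow_const fun q =>
      Or.inl (zd_add_pos k q.1.2 ha q.2).ne'
  have h := continuous_parametric_integral_of_continuous (X := K × K) (μ := μ)
    (f := fun (p : K × K) y => kap n k a p.1 y * kap n k a p.2 y) (h1.mul h2) isCompact_univ
  simpa only [Measure.restrict_univ] using h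

/-- the defect function `Ψ_a - Q P_a` -/
noncomputable def Fa (P : PreData n k K) (q Q a : ℝ) (u : K → ℝ) (x : K) : ℝ :=
  mA n * n / 2 * s0 k a * (∫ y, (zd k x y + a) ^ (-(mA n) - 2) * u y ∂P.τ)
    - Q * ∫ y, (zd k x y + a) ^ (-(mA n)) * u y ^ (q - 1) ∂P.τ

theorem finite_sum_ineq {h b q Q ε a C : ℝ} (hb : b = bA n k h) (hε : 0 ≤ ε)
    (hsup : T_super P h) {u : K → ℝ} (hu : Lip u) (hpos : ∀ y, 0 < u y)
    (hEK : ∀ η : K → ℝ, Lip η →
      (P.form b u η - Q * ∫ y, u y ^ (q - 1) * η y ∂P.τ) ^ 2 ≤ ε * P.energy b η)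
    (ha : 0 < a)
    (hC : ∀ x x' : K, P.form b (phiA n k x a) (phiA n k x' a) ≤
        C * ∫ y, kap n k a x y * kap n k a x' y ∂P.τ)
    (s : Finset K) (w : K → ℝ) (hw : ∀ p, 0 ≤ w p) :
    ∑ p ∈ s, w p * Fa P q Q a u p ≤
      √(∑ p ∈ s, ∑ r ∈ s, w p * w r *
        (ε * C * ∫ y, kap n k a p y * kap n k a r y ∂P.τ)) := by
  have hL : ∀ x : K, Lip (phiA n k x a) := fun x => lip_zd_rpow k x ha _
  have hLw : ∀ i ∈ s, Lip (fun y => w i * phiA n k i a y) := fun i _ => (hL i).const_mul _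
  set η : K → ℝ := fun y => ∑ i ∈ s, w i * phiA n k i a y with hη
  have hηL : Lip η := lip_sum s hLw
  have hu1 : Continuous fun y => u y ^ (q - 1) :=
    hu.continuous.rpow_const fun y => Or.inl (hpos y).ne'
  have h1 : P.form b u η = ∑ p ∈ s, w p * P.form b (phiA n k p a) u := by
    rw [hη, form_sum_right P b s hLw hu]
    refine Finset.sum_congr rfl fun i _ => ?_
    rw [P.form_smul_right b _ (hL i) hu, P.form_comm b hu (hL i)]
  have h2 : ∫ y, u y ^ (q - 1) * η y ∂P.τ =
      ∑ p ∈ s, w p * ∫ y, (zd k p y + a) ^ (-(mA n)) * u y ^ (q - 1) ∂P.τ := by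
    have e : ∀ y, u y ^ (q - 1) * η y =
        ∑ p ∈ s, w p * ((zd k p y + a) ^ (-(mA n)) * u y ^ (q - 1)) := by
      intro y
      rw [hη]
      simp only
      rw [Finset.mul_sum]
      refine Finset.sum_congr rfl fun i _ => ?_
      unfold phiA
      ring
    simp_rw [e]
    rw [integral_finsetSum]
    · exact Finset.sum_congr rfl fun i _ => integral_const_mul _ _
    · intro i _
      refine Integrable.const_mul ?_ _
      exact P.integrable_of_continuous ((lip_zd_rpow k i ha _).continuous.mul hu1)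
  have h3 : ∑ p ∈ s, w p * Fa P q Q a u p ≤ P.form b u η - Q * ∫ y, u y ^ (q - 1) * η y ∂P.τ := by
    rw [h1, h2, Finset.mul_sum, ← Finset.sum_sub_distrib]
    refine Finset.sum_le_sum fun i _ => ?_
    have := hsup i a ha u hu (fun y => (hpos y).le)
    rw [← hb] at this
    unfold Fa
    nlinarith [hw i]
  have h4 : P.energy b η ≤ ∑ p ∈ s, ∑ r ∈ s, w p * w r *
        (C * ∫ y, kap n k a p y * kap n k a r y ∂P.τ) := by
    unfold PreData.energy
    rw [hη, form_sum_left P b s hLw hηL]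
    refine Finset.sum_le_sum fun i _ => ?_
    rw [form_sum_right P b s hLw ((hL i).const_mul _)]
    refine Finset.sum_le_sum fun j _ => ?_
    rw [P.form_smul_left b _ (hL i) ((hL j).const_mul _), P.form_smul_right b _ (hL j) (hL i)]
    have := hC i j
    calc w i * (w j * P.form b (phiA n k i a) (phiA n k j a))
        = (w i * w j) * P.form b (phiA n k i a) (phiA n k j a) := by ring
      _ ≤ _ := mul_le_mul_of_nonneg_left this (mul_nonneg (hw i) (hw j))
  refine h3.trans ?_
  refine (le_abs_self _).trans ?_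
  apply Real.abs_le_sqrt
  refine (hEK η hηL).trans ?_
  refine (mul_le_mul_of_nonneg_left h4 hε).trans ?_
  rw [Finset.mul_sum]
  refine Finset.sum_le_sum fun i _ => ?_
  rw [Finset.mul_sum]
  refine Finset.sum_le_sum fun j _ => ?_
  apply le_of_eq
  ring

theorem integrable_cont2 (μ ν : Measure K) [IsFiniteMeasure μ] [IsFiniteMeasure ν]
    {f : K × K → ℝ} (hf : Continuous f) : Integrable f (μ.prod ν) :=
  hf.integrable_of_hasCompactSupport (HasCompactSupport.of_compactSpace _)

theorem cont_I {a : ℝ} (ha : 0 < a) (μ : Measure K) [IsFiniteMeasure μ] :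
    Continuous fun y : K => ∫ x, kap n k a x y ∂μ := by
  have h := cont_int (k := k) ha (-(mA n) - 1 / 2) (v := fun _ => (1 : ℝ)) continuous_const μ
  have e : (fun y : K => ∫ x, kap n k a x y ∂μ) =
      fun x : K => ∫ y, (zd k x y + a) ^ (-(mA n) - 1 / 2) * 1 ∂μ := by
    funext y
    refine integral_congr_ae (Eventually.of_forall fun x => ?_)
    simp only [kap, mul_one]
    rw [zd_comm]
  rw [e]; exact h

theorem fubini_kap {a : ℝ} (ha : 0 < a) (τ μ : Measure K) [IsFiniteMeasure τ]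
    [IsFiniteMeasure μ] :
    ∫ x, ∫ x', (∫ y, kap n k a x y * kap n k a x' y ∂τ) ∂μ ∂μ =
      ∫ y, (∫ x, kap n k a x y ∂μ) ^ 2 ∂τ := by
  have hκ := kap_cont (n := n) (k := k) (K := K) ha
  have hI := cont_I (n := n) (k := k) (K := K) ha μ
  have h1 : ∀ x : K, ∫ x', (∫ y, kap n k a x y * kap n k a x' y ∂τ) ∂μ =
      ∫ y, kap n k a x y * (∫ x', kap n k a x' y ∂μ) ∂τ := by
    intro x
    rw [integral_integral_swap]
    · refine integral_congr_ae (Eventually.of_forall fun y => ?_)
      exact integral_const_mul _ _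
    · refine integrable_cont2 μ τ ?_
      have h2 : Continuous fun p : K × K => kap n k a x p.2 :=
        (kap_cont_right ha x).comp continuous_snd
      exact h2.mul hκ
  simp_rw [h1]
  rw [integral_integral_swap]
  · refine integral_congr_ae (Eventually.of_forall fun y => ?_)
    simp only
    rw [integral_mul_const]
    ring
  · refine integrable_cont2 μ τ ?_
    exact hκ.mul (hI.comp continuous_snd)

/-- the kernel `κ_a` is bounded from `L^{q'}` to `L²`, uniformly in `a` -/
theorem young_kap {q : ℝ} (hm : 0 < mA n) (hq : 2 < q) (hqn : mA n * q < n) (hint : T_int P) :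
    ∃ C : ℝ, 0 < C ∧ ∀ a : ℝ, 0 < a → ∀ v : K → ℝ, Measurable v → (∀ y, 0 ≤ v y) →
      (∃ B : ℝ, ∀ y, v y ≤ B) →
      ∫⁻ y, ENNReal.ofReal (v y) ^ (q / (q - 1)) ∂P.τ ≤ 1 →
      √(∫ y, (∫ x, kap n k a x y * v x ∂P.τ) ^ 2 ∂P.τ) ≤ C := by
  have hn : (n : ℝ) = 2 * mA n + 2 := n_eq n
  set s : ℝ := 2 * q / (q + 2) with hs
  have hq0 : 0 < q := by linarith
  have hq1 : 0 < q - 1 := by linarith
  have hq2 : 0 < q + 2 := by linarith
  have hs1 : 1 ≤ s := by rw [hs, le_div_iff₀ hq2]; linarith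
  have hs0 : 0 < s := by linarith
  set s' : ℝ := (mA n + 1 / 2) * s with hs'
  have hs'0 : 0 ≤ s' := by positivity
  have hs'n : s' < (n : ℝ) / 2 := by
    rw [hs', hs, mul_div_assoc', div_lt_iff₀ hq2, hn]
    rw [hn] at hqn
    nlinarith
  obtain ⟨A0, hA0, hA⟩ := hint s' hs'0 hs'n
  refine ⟨A0 ^ (1 / s), by positivity, ?_⟩
  intro a ha v hvm hv0 ⟨B, hB⟩ hv
  set Ir : K → ℝ := fun y => ∫ x, kap n k a x y * v x ∂P.τ with hIr
  have hκ := kap_cont (n := n) (k := k) (K := K) ha
  have hsymm : ∀ x y : K, kap n k a x y = kap n k a y x := by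
    intro x y; unfold kap; rw [zd_comm]
  have hvint : Integrable v P.τ :=
    Integrable.of_bound hvm.aestronglyMeasurable B
      (Eventually.of_forall fun y => by
        rw [Real.norm_eq_abs, abs_of_nonneg (hv0 y)]; exact hB y)
  -- bound of kap
  have hκb : ∀ x y : K, kap n k a x y ≤ a ^ (-(mA n) - 1 / 2) := by
    intro x y
    unfold kap
    apply Real.rpow_le_rpow_of_nonpos ha
    · have := zd_nonneg k x y; linarith
    · linarith
  have hκint : ∀ y : K, Integrable (fun x => kap n k a x y * v x) P.τ := by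
    intro y
    refine Integrable.bdd_mul (c := a ^ (-(mA n) - 1 / 2)) hvint ?_ ?_
    · have : (fun x => kap n k a x y) = kap n k a y := by funext x; exact hsymm x y
      rw [this]
      exact (kap_cont_right ha y).aestronglyMeasurable
    · exact Eventually.of_forall fun x => by
        rw [Real.norm_eq_abs, abs_of_nonneg (kap_pos ha x y).le]; exact hκb x y
  have hIr0 : ∀ y, 0 ≤ Ir y := fun y =>
    integral_nonneg fun x => mul_nonneg (kap_pos ha x y).le (hv0 x)
  have hIe : ∀ y, ENNReal.ofReal (Ir y) =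
      ∫⁻ x, ENNReal.ofReal (kap n k a x y) * ENNReal.ofReal (v x) ∂P.τ := by
    intro y
    rw [hIr]
    simp only
    rw [ofReal_integral_eq_lintegral_ofReal (hκint y)
      (Eventually.of_forall fun x => mul_nonneg (kap_pos ha x y).le (hv0 x))]
    refine lintegral_congr fun x => ?_
    rw [ENNReal.ofReal_mul (kap_pos ha x y).le]
  have hκm : Measurable fun p : K × K => ENNReal.ofReal (kap n k a p.1 p.2) :=
    hκ.measurable.ennreal_ofReal
  have hIm' : Measurable fun y => ENNReal.ofReal (Ir y) := by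
    simp_rw [hIe]
    exact Measurable.lintegral_prod_left'
      (f := fun p : K × K => ENNReal.ofReal (kap n k a p.1 p.2) * ENNReal.ofReal (v p.1))
      (hκm.mul (hvm.comp measurable_fst).ennreal_ofReal)
  have hIm : Measurable Ir := by
    have : Ir = fun y => (ENNReal.ofReal (Ir y)).toReal := by
      funext y; rw [ENNReal.toReal_ofReal (hIr0 y)]
    rw [this]; exact hIm'.ennreal_toReal
  have hIb : ∀ y, Ir y ≤ a ^ (-(mA n) - 1 / 2) * ∫ x, v x ∂P.τ := by
    intro y
    rw [hIr, ← integral_const_mul]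
    refine integral_mono (hκint y) (hvint.const_mul _) fun x => ?_
    exact mul_le_mul_of_nonneg_right (hκb x y) (hv0 x)
  have hI2 : Integrable (fun y => Ir y ^ 2) P.τ := by
    refine Integrable.of_bound (hIm.pow_const 2).aestronglyMeasurable
      ((a ^ (-(mA n) - 1 / 2) * ∫ x, v x ∂P.τ) ^ 2) (Eventually.of_forall fun y => ?_)
    rw [Real.norm_eq_abs, abs_of_nonneg (sq_nonneg _)]
    exact pow_le_pow_left₀ (hIr0 y) (hIb y) 2
  set X : ℝ := ∫ y, Ir y ^ 2 ∂P.τ with hX
  have hX0 : 0 ≤ X := integral_nonneg fun y => sq_nonneg _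
  have hXe : ENNReal.ofReal X = ∫⁻ y, ENNReal.ofReal (Ir y) ^ (2 : ℝ) ∂P.τ := by
    rw [hX, ofReal_integral_eq_lintegral_ofReal hI2 (Eventually.of_forall fun y => sq_nonneg _)]
    refine lintegral_congr fun y => ?_
    rw [ENNReal.ofReal_rpow_of_nonneg (hIr0 y) (by norm_num)]
    norm_cast
  have hkA : ∀ x : K, ∫⁻ y, ENNReal.ofReal (kap n k a x y) ^ s ∂P.τ ≤ ENNReal.ofReal A0 := by
    intro x
    refine le_trans (lintegral_mono_ae ?_) (hA x).1
    have hx : ∀ᵐ y ∂P.τ, y ≠ x := by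
      rw [ae_iff]
      simpa using (hA x).2
    filter_upwards [hx] with y hy
    have hz : 0 < zd k x y := zd_pos (Ne.symm hy)
    rw [ENNReal.ofReal_rpow_of_pos (kap_pos ha x y)]
    apply ENNReal.ofReal_le_ofReal
    unfold kap
    rw [← Real.rpow_mul (by positivity)]
    have e : (-(mA n) - 1 / 2) * s = -s' := by rw [hs']; ring
    rw [e]
    exact Real.rpow_le_rpow_of_nonpos hz (by linarith) (by linarith)
  have hkA' : ∀ x : K, ∫⁻ y, ENNReal.ofReal (kap n k a y x) ^ s ∂P.τ ≤ ENNReal.ofReal A0 := by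
    intro x
    have e : ∀ y, kap n k a y x = kap n k a x y := fun y => hsymm y x
    simp_rw [e]
    exact hkA x
  have hκm' : Measurable (Function.uncurry fun x y : K => ENNReal.ofReal (kap n k a y x)) := by
    have e : (Function.uncurry fun x y : K => ENNReal.ofReal (kap n k a y x)) =
        fun p : K × K => ENNReal.ofReal (kap n k a p.1 p.2) := by
      funext p
      rw [Function.uncurry, hsymm]
    rw [e]; exact hκm
  have hκx : ∀ x : K, Measurable fun y => ENNReal.ofReal (kap n k a y x) := by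
    intro x
    have e : (fun y => ENNReal.ofReal (kap n k a y x)) =
        fun y => ENNReal.ofReal (kap n k a x y) := by
      funext y; rw [hsymm]
    rw [e]
    exact (kap_cont_right ha x).measurable.ennreal_ofReal
  have hs3 : 1 / (2 : ℝ) + 1 / (q / (q - 1)) + 1 / s = 2 := by rw [hs]; field_simp; ring
  have hY := young3 P.τ P.τ (p := 2) (r := q / (q - 1)) (s := s) (by norm_num)
    (by rw [le_div_iff₀ hq1]; linarith) hs1 hs3
    (fun x y => ENNReal.ofReal (kap n k a y x)) hκm' (ENNReal.ofReal A0) hkA hkA'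
    (fun y => ENNReal.ofReal (Ir y)) hIm' (fun x => ENNReal.ofReal (v x)) hvm.ennreal_ofReal
  have hLHS : ∫⁻ x, ∫⁻ y, ENNReal.ofReal (kap n k a y x) * ENNReal.ofReal (Ir x) *
      ENNReal.ofReal (v y) ∂P.τ ∂P.τ = ENNReal.ofReal X := by
    rw [hXe]
    refine lintegral_congr fun x => ?_
    have e : ENNReal.ofReal (Ir x) ^ (2 : ℝ) = ENNReal.ofReal (Ir x) * ENNReal.ofReal (Ir x) := by
      norm_cast
      rw [pow_two]
    rw [e]
    nth_rw 3 [hIe x]
    have hmm : Measurable fun y => ENNReal.ofReal (kap n k a y x) * ENNReal.ofReal (v y) :=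
      (hκx x).mul hvm.ennreal_ofReal
    rw [← lintegral_const_mul _ hmm]
    refine lintegral_congr fun y => ?_
    ring
  rw [hLHS, ← hXe] at hY
  have hY2 : ENNReal.ofReal X ≤ ENNReal.ofReal (A0 ^ (1 / s) * X ^ (1 / 2 : ℝ)) := by
    refine hY.trans ?_
    have h1 : (∫⁻ y, ENNReal.ofReal (v y) ^ (q / (q - 1)) ∂P.τ) ^ (1 / (q / (q - 1))) ≤ 1 :=
      (ENNReal.rpow_le_rpow hv (by positivity)).trans (by rw [ENNReal.one_rpow])
    rw [ENNReal.ofReal_rpow_of_pos hA0, ENNReal.ofReal_rpow_of_nonneg hX0 (by norm_num),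
      ← ENNReal.ofReal_mul (by positivity)]
    calc _ ≤ ENNReal.ofReal (A0 ^ (1 / s) * X ^ (1 / 2 : ℝ)) * 1 := by gcongr
      _ = _ := mul_one _
  have hY3 : X ≤ A0 ^ (1 / s) * X ^ (1 / 2 : ℝ) :=
    (ENNReal.ofReal_le_ofReal_iff (by positivity)).1 hY2
  rw [← Real.sqrt_eq_rpow] at hY3
  rcases (Real.sqrt_nonneg X).eq_or_lt with h0 | h0
  · rw [← h0]; positivity
  · have h1 : √X * √X ≤ A0 ^ (1 / s) * √X := by rwa [Real.mul_self_sqrt hX0]
    exact le_of_mul_le_mul_right h1 h0

end Crest.Agent.R241.A7
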