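import Crest.Agent.R241.A7Claim

/-!
R241, Theorem A, block A7c: `q → 2*`, the sharp Sobolev inequality, and Theorem A for `n ≥ 3`.
-/

set_option autoImplicit false

namespace Crest.Agent.R241.A7

open Crest.Agent.R241.A Crest.Agent.R241.A6
open MeasureTheory Set Filter Topology
open scoped NNReal ENNReal

variable {n : ℕ} {k : ℝ} {K : Type*} [MetricSpace K] [CompactSpace K]
  [MeasurableSpace K] [BorelSpace K] (P : PreData n k K)

theorem tendsto_I {v : K → ℝ} (hv : Continuous v) {p : ℝ} (hp : 2 < p) :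
    Tendsto (fun q : ℝ => ∫ y, |v y| ^ q ∂P.τ) (𝓝[<] p) (𝓝 (∫ y, |v y| ^ p ∂P.τ)) := by
  obtain ⟨M, hM0, hM⟩ := exists_bound_of_continuous hv
  refine tendsto_integral_filter_of_dominated_convergence (fun _ => (max 1 M) ^ p) ?_ ?_
    (integrable_const _) ?_
  · filter_upwards [nhdsWithin_le_nhds (lt_mem_nhds hp)] with q hq
    exact (cont_rpow_abs (by linarith [show (2 : ℝ) < q from hq]) hv).aestronglyMeasurable
  · filter_upwards [nhdsWithin_le_nhds (lt_mem_nhds hp), self_mem_nhdsWithin] with q hq1 hq2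
    refine Eventually.of_forall fun y => ?_
    have hq0 : (2 : ℝ) < q := hq1
    have hq2' : q < p := hq2
    rw [Real.norm_eq_abs, abs_of_nonneg (Real.rpow_nonneg (abs_nonneg _) _)]
    calc |v y| ^ q ≤ (max 1 M) ^ q :=
          Real.rpow_le_rpow (abs_nonneg _) ((hM y).trans (le_max_right _ _)) (by linarith)
      _ ≤ (max 1 M) ^ p := Real.rpow_le_rpow_of_exponent_le (le_max_left _ _) hq2'.le
  · refine Eventually.of_forall fun y => ?_
    exact ((Real.continuousAt_const_rpow' (by linarith : p ≠ 0)).tendsto).mono_left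
      nhdsWithin_le_nhds

/-- elementary end of the argument -/
theorem end_ineq {m c C q1 q2 : ℝ} (hm : 0 < m) (hC : 0 < C) (hq1 : 0 ≤ q1) (H : ℝ → ℝ)
    (hH : ∀ r, 0 ≤ r → 2 * m * r - C * r ^ 2 ≤ 1 - H r)
    (h : ∀ lam R : ℝ, 0 < lam → 0 < R → 1 - H (lam * R) ≤ m * lam * q1 * (2 + 2 * R * q2)) :
    1 ≤ q1 * q2 := by
  have h1 : ∀ R : ℝ, 0 < R → R ≤ q1 * (1 + R * q2) := by
    intro R hR
    by_contra hcon
    push Not at hcon
    set g := R - q1 * (1 + R * q2) with hg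
    have hg0 : 0 < g := by rw [hg]; linarith
    set lam := m * g / (C * R ^ 2) with hlam
    have hl0 : 0 < lam := by positivity
    have h2 := h lam R hl0 hR
    have h3 := hH (lam * R) (by positivity)
    have h4 : 2 * m * (lam * R) - C * (lam * R) ^ 2 ≤ m * lam * q1 * (2 + 2 * R * q2) :=
      h3.trans h2
    have h5 : C * (lam * R) ^ 2 = lam * (m * g) := by
      rw [hlam]; field_simp
    rw [h5] at h4
    have h6 : lam * (m * (2 * R - g)) ≤ lam * (m * (q1 * (2 + 2 * R * q2))) := by nlinarith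
    have h7 := le_of_mul_le_mul_left (le_of_mul_le_mul_left h6 hl0) hm
    nlinarith
  by_contra hcon
  push Not at hcon
  have h2 : 0 < 1 - q1 * q2 := by linarith
  have h3 := h1 ((q1 + 1) / (1 - q1 * q2)) (by positivity)
  have h4 : (q1 + 1) / (1 - q1 * q2) * (1 - q1 * q2) = q1 + 1 := by field_simp
  nlinarith

/-- the constants -/
theorem const_alg (hn : 3 ≤ n) (hH : T_H n) {Qs : ℝ} (hQs : 0 < Qs)
    (h : 1 ≤ (Qs / (CnA n * cP n)) ^ (1 / mA n) * (Qs / (mA n * n))) :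
    mA n * n / 2 * sphArea n ^ (2 / (n : ℝ)) ≤ Qs := by
  have hm := mA_pos hn
  have hnn := n_eq n
  have hn0 : (0 : ℝ) < n := by
    have : (3 : ℝ) ≤ n := by exact_mod_cast hn
    linarith
  have hcP := cP_pos hn
  have hCn := hH.Cn_pos
  have hmn : 0 < mA n * n := by positivity
  have hω : 0 < omegaBall n := by
    unfold omegaBall
    exact ENNReal.toReal_pos (Metric.measure_ball_pos volume _ one_pos).ne'
      measure_ball_lt_top.ne
  set m := mA n with hmdef
  set y : ℝ := Qs / (m * n) with hy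
  have hy0 : 0 < y := by positivity
  set x : ℝ := Qs / (CnA n * cP n) with hx
  have hx0 : 0 < x := by positivity
  -- raise to the power `m`
  have h1 : 1 ≤ x * y ^ m := by
    have h2 : (1 : ℝ) ^ m ≤ (x ^ (1 / m) * y) ^ m := Real.rpow_le_rpow zero_le_one h hm.le
    rw [Real.one_rpow, Real.mul_rpow (Real.rpow_pos_of_pos hx0 _).le hy0.le,
      ← Real.rpow_mul hx0.le, one_div, inv_mul_cancel₀ hm.ne', Real.rpow_one] at h2
    exact h2
  have e1 : cP n = m * n * 2 ^ (m + 1) * omegaBall n := rfl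
  have h3 : CnA n * 2 ^ (m + 1) * omegaBall n ≤ y ^ (m + 1) := by
    have h4 : x = y / (CnA n * 2 ^ (m + 1) * omegaBall n) := by
      rw [hx, hy, e1]; field_simp
    have hd : 0 < CnA n * 2 ^ (m + 1) * omegaBall n := by positivity
    rw [h4, div_mul_eq_mul_div, le_div_iff₀ hd, one_mul] at h1
    refine h1.trans (le_of_eq ?_)
    rw [Real.rpow_add_one hy0.ne']; ring
  have h5 : sphArea n ≤ (2 * y) ^ (m + 1) := by
    rw [← hH.const, Real.mul_rpow (by norm_num) hy0.le]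
    have e2 : (2 : ℝ) ^ n = 2 ^ (m + 1) * 2 ^ (m + 1) := by
      rw [← Real.rpow_add (by norm_num), ← Real.rpow_natCast]
      congr 1
      rw [hnn]; ring
    rw [e2]
    have h6 : (0 : ℝ) < 2 ^ (m + 1) := by positivity
    calc (2 : ℝ) ^ (m + 1) * 2 ^ (m + 1) * omegaBall n * CnA n
        = 2 ^ (m + 1) * (CnA n * 2 ^ (m + 1) * omegaBall n) := by ring
      _ ≤ 2 ^ (m + 1) * y ^ (m + 1) := mul_le_mul_of_nonneg_left h3 h6.le
  have hs0 : 0 < sphArea n := by rw [← hH.const]; positivity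
  have h7 : sphArea n ^ (2 / (n : ℝ)) ≤ 2 * y := by
    have h8 := Real.rpow_le_rpow hs0.le h5 (show 0 ≤ 2 / (n : ℝ) by positivity)
    rw [← Real.rpow_mul (by positivity)] at h8
    have e3 : (m + 1) * (2 / (n : ℝ)) = 1 := by rw [hnn]; field_simp
    rwa [e3, Real.rpow_one] at h8
  calc m * n / 2 * sphArea n ^ (2 / (n : ℝ)) ≤ m * n / 2 * (2 * y) := by gcongr
    _ = Qs := by rw [hy]; field_simp

theorem t_sharp (hn : 3 ≤ n) {h : ℝ} (hk : 0 ≤ k) (hkh : k < h) (hτ : P.τ ≠ 0)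
    (hH : T_H n) (hode : T_ode) (hkey : T_key P h) (hcentre : T_centre k K) (htwo : T_two k K)
    (hint : T_int P) (hsup : T_super P h) (hbarta : T_barta P h) (hpole : T_pole P)
    (hsob : T_sob P h) : A9.T_sharp P h := by
  intro v hv
  have hm := mA_pos hn
  have hnn := n_eq n
  have hb := bA_pos hn hk hkh
  have hn0 : (0 : ℝ) < n := by
    have : (3 : ℝ) ≤ n := by exact_mod_cast hn
    linarith
  have hcP := cP_pos hn
  have hCn := hH.Cn_pos
  have hmn : 0 < mA n * n := by positivity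
  have hτ0 : 0 < P.τ.real univ :=
    ENNReal.toReal_pos (Measure.measure_univ_ne_zero.2 hτ) (measure_ne_top _ _)
  set p : ℝ := (n : ℝ) / mA n with hp
  have hp2 : p = 2 + 2 / mA n := by rw [hp]; rw [hnn]; field_simp
  have hp2' : 2 < p := by rw [hp2]; have : 0 < 2 / mA n := by positivity
                          linarith
  set I : ℝ := ∫ y, |v y| ^ p ∂P.τ with hI
  have hI0 : 0 ≤ I := integral_nonneg fun y => Real.rpow_nonneg (abs_nonneg _) _
  rcases hI0.eq_or_lt with h0 | hIpos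
  · rw [← h0, Real.zero_rpow (by positivity), mul_zero]
    exact P.energy_nonneg hb.le hv
  set E : ℝ := P.energy (bA n k h) v with hE
  have htI := tendsto_I P hv.continuous hp2'
  set Iq : ℝ → ℝ := fun q => ∫ y, |v y| ^ q ∂P.τ with hIq
  have htI' : Tendsto Iq (𝓝[<] p) (𝓝 I) := htI
  set c : ℝ := CnA n * cP n with hc
  have hc0 : 0 < c := by positivity
  set X : ℝ := 2 * (bA n k h * P.τ.real univ) / (mA n * n) with hX
  have hX0 : 0 < X := by positivity
  -- events
  have ev : ∀ᶠ q in 𝓝[<] p, (2 < q ∧ p - 2 < q ∧ q < p) ∧ 0 < Iq q := by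
    have e1 : ∀ᶠ q in 𝓝[<] p, 2 < q := nhdsWithin_le_nhds (lt_mem_nhds hp2')
    have e2 : ∀ᶠ q in 𝓝[<] p, p - 2 < q := nhdsWithin_le_nhds (lt_mem_nhds (by linarith))
    have e3 : ∀ᶠ q in 𝓝[<] p, q < p := self_mem_nhdsWithin
    have e4 : ∀ᶠ q in 𝓝[<] p, 0 < Iq q := htI'.eventually (lt_mem_nhds hIpos)
    filter_upwards [e1, e2, e3, e4] with q h1 h2 h3 h4
    exact ⟨⟨h1, h2, h3⟩, h4⟩
  have hq_main : ∀ q, 2 < q → p - 2 < q → q < p → 0 < Iq q →
      0 < E ∧ ∀ lam R : ℝ, 0 < lam → 0 < R →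
        1 - HA n (lam * R) ≤
          (lam ^ mA n / (c / (E / Iq q ^ (2 / q)))) ^ ((q - 2) / 2) / ((q - 2) / 2) *
          (2 + R * ((2 * (E / Iq q ^ (2 / q)) / (mA n * n)) ^ (1 - (p - q) / 2) *
          X ^ ((p - q) / 2))) := by
    intro q h1 h2 h3 h4
    have hqn : mA n * q < n := by
      rw [hp, lt_div_iff₀ hm] at h3; linarith
    obtain ⟨Q, hQ, hmin, hcl⟩ := claim_q P hn hk hkh hτ hH hode hkey hcentre htwo hint hsup
      hbarta hpole hsob h1 hqn (by linarith)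
    have h5 := hmin v hv
    have h6 : 0 < Iq q ^ (2 / q) := Real.rpow_pos_of_pos h4 _
    have h7 : Q ≤ E / Iq q ^ (2 / q) := by rw [le_div_iff₀ h6]; exact h5
    have hE0 : 0 < E := lt_of_lt_of_le (mul_pos hQ h6) h5
    refine ⟨hE0, fun lam R hlam hR => ?_⟩
    refine (hcl lam R hlam hR).trans ?_
    have hq2 : 0 < (q - 2) / 2 := by linarith
    have hlm : 0 < lam ^ mA n := Real.rpow_pos_of_pos hlam _
    have m1 : lam ^ mA n / (c / Q) ≤ lam ^ mA n / (c / (E / Iq q ^ (2 / q))) := by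
      have a1 : 0 < c / (E / Iq q ^ (2 / q)) := by positivity
      have a2 : c / (E / Iq q ^ (2 / q)) ≤ c / Q := by gcongr
      gcongr
    have m2 : (lam ^ mA n / (c / Q)) ^ ((q - 2) / 2) ≤
        (lam ^ mA n / (c / (E / Iq q ^ (2 / q)))) ^ ((q - 2) / 2) :=
      Real.rpow_le_rpow (by positivity) m1 hq2.le
    have m3 : (2 * Q / (mA n * n)) ^ (1 - (p - q) / 2) ≤
        (2 * (E / Iq q ^ (2 / q)) / (mA n * n)) ^ (1 - (p - q) / 2) := by
      refine Real.rpow_le_rpow (by positivity) (by gcongr) (by linarith)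
    have m4 : 0 ≤ X ^ ((p - q) / 2) := Real.rpow_nonneg hX0.le _
    have m5 : 0 ≤ (2 * Q / (mA n * n)) ^ (1 - (p - q) / 2) := Real.rpow_nonneg (by positivity) _
    have m6 : 0 ≤ (lam ^ mA n / (c / Q)) ^ ((q - 2) / 2) := Real.rpow_nonneg (by positivity) _
    refine mul_le_mul ?_ ?_ (by positivity) (div_nonneg (m6.trans m2) hq2.le)
    · gcongr
    · gcongr
  obtain ⟨q0, ⟨hq01, hq02, hq03⟩, hq04⟩ := ev.exists
  have hE0 : 0 < E := (hq_main q0 hq01 hq02 hq03 hq04).1
  -- the limit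
  set Qs : ℝ := E / I ^ (2 / p) with hQs
  have hIp : 0 < I ^ (2 / p) := Real.rpow_pos_of_pos hIpos _
  have hQs0 : 0 < Qs := by positivity
  have hp0 : 0 < p := by linarith
  have hid : Tendsto (fun q : ℝ => q) (𝓝[<] p) (𝓝 p) := tendsto_id.mono_left nhdsWithin_le_nhds
  have tQ : Tendsto (fun q => E / Iq q ^ (2 / q)) (𝓝[<] p) (𝓝 Qs) := by
    have t1 : Tendsto (fun q : ℝ => 2 / q) (𝓝[<] p) (𝓝 (2 / p)) :=
      tendsto_const_nhds.div hid hp0.ne'
    exact tendsto_const_nhds.div (htI'.rpow t1 (Or.inl hIpos.ne')) hIp.ne'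
  have key : ∀ lam R : ℝ, 0 < lam → 0 < R →
      1 - HA n (lam * R) ≤ mA n * lam * (Qs / c) ^ (1 / mA n) * (2 + 2 * R * (Qs / (mA n * n))) := by
    intro lam R hlam hR
    have hlm : 0 < lam ^ mA n := Real.rpow_pos_of_pos hlam _
    have tα : Tendsto (fun q : ℝ => (q - 2) / 2) (𝓝[<] p) (𝓝 (1 / mA n)) := by
      have : Tendsto (fun q : ℝ => (q - 2) / 2) (𝓝[<] p) (𝓝 ((p - 2) / 2)) :=
        (hid.sub tendsto_const_nhds).div_const 2
      have e : (p - 2) / 2 = 1 / mA n := by rw [hp2]; field_simp; ring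
      rwa [e] at this
    have tv : Tendsto (fun q : ℝ => (p - q) / 2) (𝓝[<] p) (𝓝 0) := by
      have : Tendsto (fun q : ℝ => (p - q) / 2) (𝓝[<] p) (𝓝 ((p - p) / 2)) :=
        (tendsto_const_nhds.sub hid).div_const 2
      rwa [sub_self, zero_div] at this
    have t1 : Tendsto (fun q => lam ^ mA n / (c / (E / Iq q ^ (2 / q)))) (𝓝[<] p)
        (𝓝 (lam ^ mA n / (c / Qs))) :=
      tendsto_const_nhds.div (tendsto_const_nhds.div tQ hQs0.ne') (by positivity)
    have t2 := (t1.rpow tα (Or.inl (by positivity))).div tα (by positivity)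
    have t3 : Tendsto (fun q => 2 * (E / Iq q ^ (2 / q)) / (mA n * n)) (𝓝[<] p)
        (𝓝 (2 * Qs / (mA n * n))) := (tendsto_const_nhds.mul tQ).div_const _
    have t4 : Tendsto (fun q : ℝ => 1 - (p - q) / 2) (𝓝[<] p) (𝓝 (1 - 0)) :=
      tendsto_const_nhds.sub tv
    have t5 := t3.rpow t4 (Or.inl (by positivity))
    have t6 : Tendsto (fun q : ℝ => X ^ ((p - q) / 2)) (𝓝[<] p) (𝓝 (X ^ (0 : ℝ))) :=
      (tendsto_const_nhds (x := X)).rpow tv (Or.inl hX0.ne')
    have t7 := t2.mul ((tendsto_const_nhds (x := (2 : ℝ))).add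
      ((tendsto_const_nhds (x := R)).mul (t5.mul t6)))
    have h1 := ge_of_tendsto t7 (b := 1 - HA n (lam * R)) (by
      filter_upwards [ev] with q hq
      exact (hq_main q hq.1.1 hq.1.2.1 hq.1.2.2 hq.2).2 lam R hlam hR)
    refine h1.trans (le_of_eq ?_)
    rw [Real.rpow_zero, sub_zero, Real.rpow_one, mul_one]
    have e1 : (lam ^ mA n / (c / Qs)) ^ (1 / mA n) = lam * (Qs / c) ^ (1 / mA n) := by
      have : lam ^ mA n / (c / Qs) = lam ^ mA n * (Qs / c) := by field_simp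
      rw [this, Real.mul_rpow hlm.le (by positivity), ← Real.rpow_mul hlam.le,
        mul_one_div_cancel hm.ne', Real.rpow_one]
    rw [e1]
    field_simp
  obtain ⟨C, hC, hC'⟩ := hH.one_sub_ge
  have hend := end_ineq (c := c) hm hC (Real.rpow_nonneg (by positivity) _) (HA n) hC' key
  have hfin := const_alg hn hH hQs0 hend
  rw [hQs, le_div_iff₀ hIp] at hfin
  have e : 2 * mA n / (n : ℝ) = 2 / p := by rw [hp]; field_simp
  rw [e]
  exact hfin

end Crest.Agent.R241.A7
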