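import Crest.Agent.R241.A6Min
import Crest.Agent.R241.A9

/-!
R241, Theorem A, block A7c, step 1: the ODE comparison for a near-minimiser, pole `x`.
-/

set_option autoImplicit false

namespace Crest.Agent.R241.A7

open Crest.Agent.R241.A Crest.Agent.R241.A6
open MeasureTheory Set Filter Topology
open scoped NNReal ENNReal

variable {n : ℕ} {k : ℝ} {K : Type*} [MetricSpace K] [CompactSpace K]
  [MeasurableSpace K] [BorelSpace K]

/-- near-minimisers -/
structure Near (P : PreData n k K) (b q Q ε : ℝ) (u : K → ℝ) : Prop where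
  lip : Lip u
  pos : ∀ y, 0 < u y
  norm : ∫ y, u y ^ q ∂P.τ = 1
  en : P.energy b u ≤ Q + ε
  min : ∀ v : K → ℝ, Lip v → Q * (∫ y, |v y| ^ q ∂P.τ) ^ (2 / q) ≤ P.energy b v
  ek : ∀ η : K → ℝ, Lip η →
    (P.form b u η - Q * ∫ y, u y ^ (q - 1) * η y ∂P.τ) ^ 2 ≤ ε * P.energy b η

/-- `ν = u^q τ` -/
noncomputable def nuA (P : PreData n k K) (q : ℝ) (u : K → ℝ) : Measure K :=
  P.τ.withDensity fun y => ENNReal.ofReal (u y ^ q)

variable (P : PreData n k K)

theorem cont_rpow {u : K → ℝ} (hu : Continuous u) (hpos : ∀ y, 0 < u y) (s : ℝ) :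
    Continuous fun y => u y ^ s :=
  hu.rpow_const fun y => Or.inl (hpos y).ne'

theorem integral_nu {q : ℝ} {u : K → ℝ} (hu : Continuous u) (hpos : ∀ y, 0 < u y)
    (f : K → ℝ) : ∫ y, f y ∂(nuA P q u) = ∫ y, u y ^ q * f y ∂P.τ := by
  unfold nuA
  rw [integral_withDensity_eq_integral_toReal_smul
    (cont_rpow hu hpos q).measurable.ennreal_ofReal
    (Eventually.of_forall fun x => ENNReal.ofReal_lt_top)]
  refine integral_congr_ae (Eventually.of_forall fun x => ?_)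
  simp only [smul_eq_mul]
  rw [ENNReal.toReal_ofReal (Real.rpow_pos_of_pos (hpos x) _).le]

theorem prob_nu {q : ℝ} {u : K → ℝ} (hu : Continuous u) (hpos : ∀ y, 0 < u y)
    (h1 : ∫ y, u y ^ q ∂P.τ = 1) : IsProbabilityMeasure (nuA P q u) := by
  constructor
  unfold nuA
  rw [withDensity_apply _ MeasurableSet.univ, Measure.restrict_univ,
    ← ofReal_integral_eq_lintegral_ofReal (P.integrable_of_continuous (cont_rpow hu hpos q))
    (Eventually.of_forall fun y => (Real.rpow_pos_of_pos (hpos y) _).le), h1, ENNReal.ofReal_one]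

theorem wA_cont {u : K → ℝ} (hu : Continuous u) (hpos : ∀ y, 0 < u y) (x : K) :
    Continuous (wA n k x u) := by
  unfold wA
  exact (continuous_zd k x).mul (cont_rpow hu hpos _)

theorem wA_nonneg {u : K → ℝ} (hpos : ∀ y, 0 < u y) (x y : K) : 0 ≤ wA n k x u y :=
  mul_nonneg (zd_nonneg k x y) (Real.rpow_pos_of_pos (hpos y) _).le

/-- the inequality `N(t)^{2/q} ≤ ∫ H(t w) dν + e` -/
theorem step1a {b q Q ε C2 : ℝ} {h : ℝ} (hb : b = bA n k h) (hm : 0 < mA n) (hq : 2 < q)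
    (hqn : mA n * q ≤ n) (hQ : 0 < Q) (hε : 0 ≤ ε) (hC2 : 0 ≤ C2)
    {u : K → ℝ} (hu : Near P b q Q ε u)
    (hkey : ∀ (x : K) (t : ℝ) (u : K → ℝ), 0 < t → Lip u → (∀ y, 0 < u y) →
      Lip (fun y => u y * (1 + t * wA n k x u y) ^ (-(mA n))) ∧
      Lip (fun y => u y * HA n (t * wA n k x u y)) ∧
      P.energy (bA n k h) (fun y => u y * (1 + t * wA n k x u y) ^ (-(mA n)))
        ≤ P.form (bA n k h) u (fun y => u y * HA n (t * wA n k x u y)))
    (hE : ∀ (x : K) (t : ℝ) (u : K → ℝ), 0 < t → Lip u → (∀ y, 0 < u y) →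
      P.energy (bA n k h) (fun y => u y * HA n (t * wA n k x u y))
        ≤ C2 * P.energy (bA n k h) u) (x : K) {t : ℝ} (ht : 0 < t) :
    (∫ y, (1 + t * wA n k x u y) ^ (-(n : ℝ)) ∂(nuA P q u)) ^ (2 / q) ≤
      ∫ y, HA n (t * wA n k x u y) ∂(nuA P q u) + √(ε * (C2 * (Q + ε))) / Q := by
  subst hb
  have huc := hu.lip.continuous
  obtain ⟨hL1, hL2, hK⟩ := hkey x t u ht hu.lip hu.pos
  have hE' := hE x t u ht hu.lip hu.pos
  set ζ : K → ℝ := fun y => u y * (1 + t * wA n k x u y) ^ (-(mA n)) with hζ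
  set η : K → ℝ := fun y => u y * HA n (t * wA n k x u y) with hη
  have hw0 : ∀ y, 0 ≤ wA n k x u y := wA_nonneg hu.pos x
  have hwc := wA_cont (n := n) (k := k) huc hu.pos x
  have hbase : ∀ y, 1 ≤ 1 + t * wA n k x u y := fun y => by
    have := mul_nonneg ht.le (hw0 y); linarith
  have h1 := hu.min ζ hL1
  have h2 := hu.ek η hL2
  have h3 : P.form (bA n k h) u η - Q * ∫ y, u y ^ (q - 1) * η y ∂P.τ ≤
      √(ε * (C2 * (Q + ε))) := by
    refine (le_abs_self _).trans ?_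
    apply Real.abs_le_sqrt
    refine h2.trans ?_
    have : C2 * P.energy (bA n k h) u ≤ C2 * (Q + ε) := mul_le_mul_of_nonneg_left hu.en hC2
    exact mul_le_mul_of_nonneg_left (hE'.trans this) hε
  have h4 : ∫ y, u y ^ (q - 1) * η y ∂P.τ = ∫ y, HA n (t * wA n k x u y) ∂(nuA P q u) := by
    rw [integral_nu P huc hu.pos]
    refine integral_congr_ae (Eventually.of_forall fun y => ?_)
    simp only [hη]
    have : u y ^ q = u y ^ (q - 1) * u y := by
      rw [← Real.rpow_add_one (hu.pos y).ne']; congr 1; ring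
    rw [this]; ring
  have h5 : ∫ y, (1 + t * wA n k x u y) ^ (-(n : ℝ)) ∂(nuA P q u) ≤ ∫ y, |ζ y| ^ q ∂P.τ := by
    rw [integral_nu P huc hu.pos]
    have hc1 : Continuous fun y => (1 + t * wA n k x u y) ^ (-(n : ℝ)) :=
      (continuous_const.add (continuous_const.mul hwc)).rpow_const fun y =>
        Or.inl (lt_of_lt_of_le one_pos (hbase y)).ne'
    refine integral_mono
      (P.integrable_of_continuous ((cont_rpow huc hu.pos q).mul hc1))
      (P.integrable_of_continuous (cont_rpow_abs (by linarith) hL1.continuous)) fun y => ?_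
    have hb0 : 0 < 1 + t * wA n k x u y := by linarith [hbase y]
    have e1 : |ζ y| ^ q = u y ^ q * (1 + t * wA n k x u y) ^ (-(mA n * q)) := by
      simp only [hζ]
      rw [abs_of_pos (mul_pos (hu.pos y) (Real.rpow_pos_of_pos hb0 _)),
        Real.mul_rpow (hu.pos y).le (Real.rpow_pos_of_pos hb0 _).le, ← Real.rpow_mul hb0.le]
      congr 2
      ring
    show u y ^ q * (1 + t * wA n k x u y) ^ (-(n : ℝ)) ≤ |ζ y| ^ q
    rw [e1]
    refine mul_le_mul_of_nonneg_left ?_ (Real.rpow_pos_of_pos (hu.pos y) _).le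
    exact Real.rpow_le_rpow_of_exponent_le (hbase y) (by linarith)
  have h6 : (∫ y, (1 + t * wA n k x u y) ^ (-(n : ℝ)) ∂(nuA P q u)) ^ (2 / q) ≤
      (∫ y, |ζ y| ^ q ∂P.τ) ^ (2 / q) := by
    refine Real.rpow_le_rpow (integral_nonneg fun y => ?_) h5 (by positivity)
    exact Real.rpow_nonneg (by linarith [hbase y]) _
  have h7 : Q * (∫ y, |ζ y| ^ q ∂P.τ) ^ (2 / q) ≤
      Q * ∫ y, HA n (t * wA n k x u y) ∂(nuA P q u) + √(ε * (C2 * (Q + ε))) := by
    rw [← h4]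
    linarith
  refine h6.trans ?_
  have h8 : (∫ y, |ζ y| ^ q ∂P.τ) ^ (2 / q) ≤
      (Q * ∫ y, HA n (t * wA n k x u y) ∂(nuA P q u) + √(ε * (C2 * (Q + ε)))) / Q := by
    rw [le_div_iff₀ hQ]; linarith
  refine h8.trans (le_of_eq ?_)
  field_simp

/-- the ODE comparison, in the form: a lower bound of `W(T)` bounds `1 - ∫ H(t₀ w) dν`. -/
theorem step1c (hn : 3 ≤ n) (hode : T_ode) {q e : ℝ} (hq : 2 < q) (he : 0 ≤ e)
    (ν : Measure K) [IsProbabilityMeasure ν] {w : K → ℝ} (hwc : Continuous w)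
    (hw0 : ∀ y, 0 ≤ w y)
    (h1 : ∀ t : ℝ, 0 < t → (∫ y, (1 + t * w y) ^ (-(n : ℝ)) ∂ν) ^ (2 / q) ≤
      ∫ y, HA n (t * w y) ∂ν + e)
    {U lam Lam A : ℝ} (hU : 0 < U) (hlam : 0 < lam) (hLam : lam ≤ Lam) (hA : 0 < A)
    (hW : A * U ≤ Lam ^ mA n * U * ∫ y, HA n (Lam * U ^ (1 / mA n) * w y) ∂ν)
    (hH0 : 0 < ∫ y, HA n (lam * U ^ (1 / mA n) * w y) ∂ν) :
    1 - ∫ y, HA n (lam * U ^ (1 / mA n) * w y) ∂ν ≤
      e * (Lam / lam) ^ mA n + (lam ^ mA n / A) ^ ((q - 2) / 2) / ((q - 2) / 2) := by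
  have hm := mA_pos hn
  set m := mA n with hmdef
  set α : ℝ := (q - 2) / 2 with hα
  have hα0 : 0 < α := by rw [hα]; linarith
  have hLam0 : 0 < Lam := hlam.trans_le hLam
  have hU' : 0 < U ^ (1 / m) := Real.rpow_pos_of_pos hU _
  set t0 : ℝ := lam * U ^ (1 / m) with ht0
  set T : ℝ := Lam * U ^ (1 / m) with hT
  have ht0p : 0 < t0 := by positivity
  have hTp : 0 < T := by positivity
  have ht0T : t0 ≤ T := by rw [ht0, hT]; gcongr
  have hM : (0 : ℝ) < ν.real univ := by simp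
  have hfub : ∀ t : ℝ, 0 < t → ∫ s in (0 : ℝ)..t, m * s ^ (m - 1) * A9.Nf n ν w s =
      t ^ m * ∫ y, HA n (t * w y) ∂ν := by
    intro t ht
    rw [hmdef, A9.integral_Nf n hn ν hwc hw0 ht, integral_const_mul]
    simp
  have hNe : ∀ t : ℝ, 0 ≤ t → A9.Nf n ν w t = ∫ y, (1 + t * w y) ^ (-(n : ℝ)) ∂ν := by
    intro t ht
    unfold A9.Nf
    rw [abs_of_nonneg ht]
    simp
  have hO := hode m q e t0 T (A9.Nf n ν w) hm hq he ht0p ht0T
    (A9.continuous_Nf n ν hwc hw0) (fun s _ => A9.Nf_pos n ν hM hwc hw0) (by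
      intro t ht
      have htp : 0 < t := ht0p.trans_le ht.1
      rw [hNe t htp.le, hfub t htp]
      refine (h1 t htp).trans (le_of_eq ?_)
      rw [← mul_assoc, ← Real.rpow_add htp]
      simp)
  rw [hfub t0 ht0p, hfub T hTp] at hO
  set H : ℝ := ∫ y, HA n (t0 * w y) ∂ν with hH
  have hUm : (U ^ (1 / m)) ^ m = U := by
    rw [← Real.rpow_mul hU.le, one_div, inv_mul_cancel₀ hm.ne', Real.rpow_one]
  have ht0m : t0 ^ m = lam ^ m * U := by rw [ht0, Real.mul_rpow hlam.le hU'.le, hUm]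
  have hTm : T ^ m = Lam ^ m * U := by rw [hT, Real.mul_rpow hLam0.le hU'.le, hUm]
  rw [ht0m, hTm] at hO
  have hlm : 0 < lam ^ m := Real.rpow_pos_of_pos hlam _
  have hLm : 0 < Lam ^ m := Real.rpow_pos_of_pos hLam0 _
  have e1 : t0 ^ (-(m * (q - 2) / 2)) = (lam ^ m * U) ^ (-α) := by
    rw [← ht0m, ← Real.rpow_mul ht0p.le]
    congr 1
    rw [hα]; ring
  rw [e1] at hO
  have hAU : 0 < A * U := by positivity
  have h2 : (Lam ^ m * U * ∫ y, HA n (T * w y) ∂ν) ^ (-α) ≤ (A * U) ^ (-α) :=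
    Real.rpow_le_rpow_of_nonpos hAU hW (by linarith)
  have h3 : (lam ^ m * U * H + e * (Lam ^ m * U)) ^ (-α) ≤
      (lam ^ m * U) ^ (-α) + (A * U) ^ (-α) := by linarith
  set e' : ℝ := e * (Lam / lam) ^ m with he'
  have he'0 : 0 ≤ e' := by positivity
  have e2 : lam ^ m * U * H + e * (Lam ^ m * U) = (lam ^ m * U) * (H + e') := by
    rw [he', Real.div_rpow hLam0.le hlam.le]
    field_simp
  have hHe : 0 < H + e' := by linarith
  rw [e2, Real.mul_rpow (by positivity) hHe.le] at h3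
  have hp : 0 < (lam ^ m * U) ^ (-α) := Real.rpow_pos_of_pos (by positivity) _
  have h4 : (H + e') ^ (-α) ≤ 1 + (lam ^ m / A) ^ α := by
    have h5 : (A * U) ^ (-α) = (lam ^ m * U) ^ (-α) * (lam ^ m / A) ^ α := by
      have : A * U = (lam ^ m * U) * (lam ^ m / A)⁻¹ := by field_simp
      rw [this, Real.mul_rpow (by positivity) (by positivity), Real.inv_rpow (by positivity),
        ← Real.rpow_neg (by positivity), neg_neg]
    rw [h5] at h3
    have h6 : (lam ^ m * U) ^ (-α) * (H + e') ^ (-α) ≤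
        (lam ^ m * U) ^ (-α) * (1 + (lam ^ m / A) ^ α) := by
      rw [mul_add, mul_one]; exact h3
    exact le_of_mul_le_mul_left h6 hp
  have h7 := A9.rpow_neg_ge hHe hα0.le
  have h8 : α * (1 - (H + e')) ≤ (lam ^ m / A) ^ α := by linarith
  have h9 : 1 - (H + e') ≤ (lam ^ m / A) ^ α / α := by
    rw [le_div_iff₀ hα0]; linarith
  linarith

end Crest.Agent.R241.A7
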