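import Crest.Agent.R241.ABasic

/-!
R241, block A9 (equality case, `k = 0`): the barycentre argument (helper904's (A3)).
`FV` with `f = 1` and `∫∫ z dτ dτ ≤ τ(K)² / h²` imply that `τ` lives on a sphere of radius `1/h`.
-/

set_option autoImplicit false

namespace Crest.Agent.R241.A9Bary

open MeasureTheory Set Filter Topology
open scoped NNReal ENNReal
open Crest.Agent.R241.A

variable {n : ℕ} {K : Type*} [MetricSpace K] [CompactSpace K]
  [MeasurableSpace K] [BorelSpace K]

/-- The (unnormalised) variance function. -/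
noncomputable def V (P : PreData n 0 K) (x : K) : ℝ := ∫ y, zd 0 x y ∂P.τ

/-- `FV` with `f = 1`. -/
lemma fv_one (P : PreData n 0 K) {h : ℝ} (hn : 0 < n) (hFV : P.FV h) (x : K) :
    P.τ.real univ ≤ h * ∫ y, P.q x y ∂P.τ := by
  have h1 := hFV x (fun _ => 1) (Lip.const 1) (fun _ => zero_le_one)
  have h2 : ∫ y, ((n : ℝ) * (1 + (0 : ℝ) ^ 2 * zd 0 x y) * 1 + P.G (fun _ => 1) (zd 0 x) y) ∂P.τ
      = ∫ _y, (n : ℝ) ∂P.τ := by
    refine integral_congr_ae ?_
    filter_upwards [P.G_const_left 1 (lip_zd 0 x)] with y hy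
    rw [hy]; ring
  rw [h2, integral_const, smul_eq_mul] at h1
  have hn' : (0 : ℝ) < n := by exact_mod_cast hn
  have h3 : ∫ y, (1 : ℝ) * P.q x y ∂P.τ = ∫ y, P.q x y ∂P.τ := by simp
  rw [h3] at h1
  have h4 : (n : ℝ) * P.τ.real univ ≤ (n : ℝ) * (h * ∫ y, P.q x y ∂P.τ) := by
    calc (n : ℝ) * P.τ.real univ = P.τ.real univ * n := by ring
      _ ≤ _ := h1
      _ = _ := by ring
  exact le_of_mul_le_mul_left h4 hn'

lemma integrable_q (P : PreData n 0 K) (x : K) : Integrable (P.q x) P.τ := by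
  have := P.integrable_mul_q (f := fun _ => (1 : ℝ)) continuous_const x
  simpa using this

lemma q_sq_le (P : PreData n 0 K) (x : K) : ∀ᵐ y ∂P.τ, P.q x y ^ 2 ≤ 2 * zd 0 x y := by
  filter_upwards [P.q_sq x, P.G_nonneg _ (lip_zd 0 x)] with y h1 h2
  rw [h1]; nlinarith

lemma integrable_zd (P : PreData n 0 K) (x : K) : Integrable (fun y => zd 0 x y) P.τ :=
  P.integrable_lip (lip_zd 0 x)

lemma integrable_q_sq (P : PreData n 0 K) (x : K) :
    Integrable (fun y => P.q x y ^ 2) P.τ := by
  refine Integrable.mono' ((integrable_zd P x).const_mul 2) ((P.q_meas x).pow 2) ?_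
  filter_upwards [q_sq_le P x] with y hy
  rw [Real.norm_eq_abs, abs_of_nonneg (sq_nonneg _)]
  exact hy

/-- For every constant `R`: `∫ (q - R)² ≤ 2 V - 2 R ∫ q + R² M`. -/
lemma sq_dev (P : PreData n 0 K) (x : K) (R : ℝ) :
    ∫ y, (P.q x y - R) ^ 2 ∂P.τ ≤ 2 * V P x - 2 * R * ∫ y, P.q x y ∂P.τ
      + R ^ 2 * P.τ.real univ := by
  have e : ∀ y, (P.q x y - R) ^ 2 = P.q x y ^ 2 - 2 * R * P.q x y + R ^ 2 := fun y => by ring
  simp only [e]
  have i1 := integrable_q_sq P x
  have i2 := (integrable_q P x).const_mul (2 * R)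
  have i3 : Integrable (fun _ : K => R ^ 2) P.τ := integrable_const _
  have i12 : Integrable (fun y => P.q x y ^ 2 - 2 * R * P.q x y) P.τ := i1.sub i2
  rw [integral_add i12 i3, integral_sub i1 i2, integral_const_mul, integral_const,
    smul_eq_mul]
  have h1 : ∫ y, P.q x y ^ 2 ∂P.τ ≤ 2 * V P x := by
    unfold V
    rw [← integral_const_mul]
    exact integral_mono_ae i1 ((integrable_zd P x).const_mul 2) (q_sq_le P x)
  nlinarith

/-- Lower bound for the variance: `M / (2 h²) ≤ V x` for every `x`. -/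
lemma V_lower (P : PreData n 0 K) {h : ℝ} (hn : 0 < n) (hh : 0 < h) (hFV : P.FV h) (x : K) :
    P.τ.real univ / (2 * h ^ 2) ≤ V P x := by
  have h1 := fv_one P hn hFV x
  have h2 := sq_dev P x (1 / h)
  have h3 : 0 ≤ ∫ y, (P.q x y - 1 / h) ^ 2 ∂P.τ := integral_nonneg fun y => sq_nonneg _
  have h4 : P.τ.real univ / h ≤ ∫ y, P.q x y ∂P.τ := by
    rw [div_le_iff₀ hh]; linarith
  have h5 : 2 * (1 / h) * (P.τ.real univ / h) ≤ 2 * (1 / h) * ∫ y, P.q x y ∂P.τ :=
    mul_le_mul_of_nonneg_left h4 (by positivity)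
  have h6 : 2 * (1 / h) * (P.τ.real univ / h) = 2 * ((1 / h) ^ 2 * P.τ.real univ) := by
    field_simp
  have h7 : P.τ.real univ / (2 * h ^ 2) = (1 / h) ^ 2 * P.τ.real univ / 2 := by
    field_simp
  rw [h7]
  linarith

lemma continuous_V (P : PreData n 0 K) : Continuous (V P) := by
  obtain ⟨C, hC, hb⟩ := exists_zd_le (K := K) 0
  refine continuous_of_dominated (F := fun x y => zd 0 x y) (bound := fun _ => C) ?_ ?_ ?_ ?_
  · exact fun x => (continuous_zd 0 x).aestronglyMeasurable
  · exact fun x => ae_of_all _ fun y => by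
      rw [Real.norm_eq_abs, abs_of_nonneg (zd_nonneg _ _ _)]; exact hb x y
  · exact integrable_const _
  · refine ae_of_all _ fun y => ?_
    have : (fun x => zd 0 x y) = fun x => zd 0 y x := by ext x; exact zd_comm _ _ _
    rw [this]; exact continuous_zd 0 y

/-- Existence of the barycentre and the variance inequality. -/
lemma exists_bary [Nonempty K] (P : PreData n 0 K) (hcat : CatD 0 K) :
    ∃ b : K, (∀ x, V P b ≤ V P x) ∧
      ∀ p, V P b + zd 0 b p * P.τ.real univ ≤ V P p := by
  obtain ⟨b, -, hb⟩ := (isCompact_univ (X := K)).exists_isMinOn univ_nonempty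
    (continuous_V P).continuousOn
  have hmin : ∀ x, V P b ≤ V P x := fun x => hb (mem_univ x)
  refine ⟨b, hmin, fun p => ?_⟩
  obtain ⟨C, hC⟩ := hcat b p
  have key : ∀ s ∈ Ioo (0 : ℝ) 1, V P b + zd 0 b p * P.τ.real univ - V P p
      ≤ s * (C * P.τ.real univ) := by
    intro s hs
    obtain ⟨x', hx'⟩ := hC s hs
    have i1 := integrable_zd P b
    have i2 := integrable_zd P p
    have h1 : V P x' ≤ V P b + s * (V P p - V P b - zd 0 b p * P.τ.real univ)
        + C * s ^ 2 * P.τ.real univ := by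
      have h2 : V P x' ≤ ∫ y, (zd 0 b y + s * (zd 0 p y - zd 0 b y - zd 0 b p) + C * s ^ 2) ∂P.τ := by
        refine integral_mono (integrable_zd P x') ?_ ?_
        · exact (i1.add (((i2.sub i1).sub (integrable_const _)).const_mul s)).add
            (integrable_const _)
        · intro y
          have := hx' y
          simp only at this ⊢
          nlinarith [this]
      have h3 : ∫ y, (zd 0 b y + s * (zd 0 p y - zd 0 b y - zd 0 b p) + C * s ^ 2) ∂P.τ
          = V P b + s * (V P p - V P b - zd 0 b p * P.τ.real univ)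
            + C * s ^ 2 * P.τ.real univ := by
        have j1 : Integrable (fun y => zd 0 p y - zd 0 b y) P.τ := i2.sub i1
        have j2 : Integrable (fun y => zd 0 p y - zd 0 b y - zd 0 b p) P.τ :=
          j1.sub (integrable_const _)
        have j3 : Integrable (fun y => s * (zd 0 p y - zd 0 b y - zd 0 b p)) P.τ := j2.const_mul s
        have j4 : Integrable (fun y => zd 0 b y + s * (zd 0 p y - zd 0 b y - zd 0 b p)) P.τ :=
          i1.add j3
        rw [integral_add j4 (integrable_const _), integral_add i1 j3, integral_const_mul,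
          integral_sub j1 (integrable_const _), integral_sub i2 i1, integral_const, integral_const,
          smul_eq_mul, smul_eq_mul]
        unfold V
        ring
      rw [h3] at h2
      exact h2
    have h4 := hmin x'
    have h5 : s * (V P b + zd 0 b p * P.τ.real univ - V P p)
        ≤ s * (s * (C * P.τ.real univ)) := by nlinarith
    exact le_of_mul_le_mul_left h5 hs.1
  have hlim : Tendsto (fun s : ℝ => s * (C * P.τ.real univ)) (𝓝[>] 0) (𝓝 0) := by
    have : Tendsto (fun s : ℝ => s * (C * P.τ.real univ)) (𝓝 0) (𝓝 (0 * (C * P.τ.real univ))) :=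
      (continuous_id.mul continuous_const).tendsto 0
    rw [zero_mul] at this
    exact this.mono_left nhdsWithin_le_nhds
  have := ge_of_tendsto hlim (by
    filter_upwards [Ioo_mem_nhdsGT (zero_lt_one' ℝ)] with s hs
    exact key s hs)
  linarith

/-- **Barycentre lemma.** -/
theorem exists_centre (P : PreData n 0 K) {h : ℝ} (hn : 0 < n) (hh : 0 < h)
    (hcat : CatD 0 K) (h0 : P.τ ≠ 0) (hFV : P.FV h)
    (hM : ∫ x, ∫ y, zd 0 x y ∂P.τ ∂P.τ ≤ P.τ.real univ ^ 2 / h ^ 2) :
    ∃ x : K, ∀ᵐ y ∂P.τ, zd 0 x y = 1 / (2 * h ^ 2) := by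
  have hne : Nonempty K := by
    by_contra hne
    rw [not_nonempty_iff] at hne
    exact h0 (Measure.eq_zero_of_isEmpty _)
  have hMpos : 0 < P.τ.real univ := by
    rw [Measure.real, ENNReal.toReal_pos_iff]
    exact ⟨Measure.measure_univ_pos.2 h0, measure_lt_top _ _⟩
  set M := P.τ.real univ with hMdef
  obtain ⟨b, hmin, hvar⟩ := exists_bary P hcat
  have h1 := V_lower P hn hh hFV b
  -- integrate the variance inequality
  have h2 : 2 * V P b * M ≤ M ^ 2 / h ^ 2 := by
    have h3 : ∫ p, (V P b + zd 0 b p * M) ∂P.τ ≤ ∫ p, V P p ∂P.τ := by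
      refine integral_mono ((integrable_const _).add ((integrable_zd P b).mul_const M))
        (P.integrable_of_continuous (continuous_V P)) hvar
    have h4 : ∫ p, (V P b + zd 0 b p * M) ∂P.τ = 2 * V P b * M := by
      rw [integral_add (integrable_const _) ((integrable_zd P b).mul_const M), integral_const,
        integral_mul_const, smul_eq_mul]
      show M * V P b + V P b * M = _
      ring
    rw [h4] at h3
    exact h3.trans hM
  have h3 : V P b ≤ M / (2 * h ^ 2) := by
    have : 2 * V P b * M ≤ 2 * (M / (2 * h ^ 2)) * M := by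
      refine h2.trans (le_of_eq ?_)
      field_simp
    have h5 := le_of_mul_le_mul_right this hMpos
    linarith
  -- equality everywhere
  have h4 := fv_one P hn hFV b
  have h5 := sq_dev P b (1 / h)
  have h6 : M / h ≤ ∫ y, P.q b y ∂P.τ := by
    rw [div_le_iff₀ hh]; linarith
  have h7 : ∫ y, (P.q b y - 1 / h) ^ 2 ∂P.τ ≤ 0 := by
    have h8 : 2 * (1 / h) * (M / h) ≤ 2 * (1 / h) * ∫ y, P.q b y ∂P.τ :=
      mul_le_mul_of_nonneg_left h6 (by positivity)
    have h9 : 2 * (1 / h) * (M / h) = 2 * ((1 / h) ^ 2 * M) := by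
      field_simp
    have h10 : M / (2 * h ^ 2) = (1 / h) ^ 2 * M / 2 := by
      field_simp
    rw [h10] at h3
    linarith
  have hint : Integrable (fun y => (P.q b y - 1 / h) ^ 2) P.τ := by
    have e : (fun y => (P.q b y - 1 / h) ^ 2)
        = fun y => P.q b y ^ 2 - 2 * (1 / h) * P.q b y + (1 / h) ^ 2 := by ext y; ring
    rw [e]
    exact ((integrable_q_sq P b).sub ((integrable_q P b).const_mul _)).add (integrable_const _)
  have h8 : ∫ y, (P.q b y - 1 / h) ^ 2 ∂P.τ = 0 :=
    le_antisymm h7 (integral_nonneg fun y => sq_nonneg _)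
  rw [integral_eq_zero_iff_of_nonneg (fun y => sq_nonneg _) hint] at h8
  have h9 : ∀ᵐ y ∂P.τ, 0 ≤ zd 0 b y - 1 / (2 * h ^ 2) := by
    filter_upwards [h8, q_sq_le P b] with y hy1 hy2
    have hq : P.q b y = 1 / h := by
      have : (P.q b y - 1 / h) ^ 2 = 0 := hy1
      have := pow_eq_zero_iff (two_ne_zero) |>.1 this
      linarith
    rw [hq] at hy2
    have : (1 / h) ^ 2 = 2 * (1 / (2 * h ^ 2)) := by field_simp
    linarith
  have hint2 : Integrable (fun y => zd 0 b y - 1 / (2 * h ^ 2)) P.τ :=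
    (integrable_zd P b).sub (integrable_const _)
  have h10 : ∫ y, (zd 0 b y - 1 / (2 * h ^ 2)) ∂P.τ = 0 := by
    refine le_antisymm ?_ (integral_nonneg_of_ae h9)
    rw [integral_sub (integrable_zd P b) (integrable_const _), integral_const, smul_eq_mul]
    have : V P b - M * (1 / (2 * h ^ 2)) ≤ 0 := by
      have e : M * (1 / (2 * h ^ 2)) = M / (2 * h ^ 2) := by ring
      rw [e]; linarith
    exact this
  rw [integral_eq_zero_iff_of_nonneg_ae h9 hint2] at h10
  refine ⟨b, ?_⟩
  filter_upwards [h10] with y hy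
  have : zd 0 b y - 1 / (2 * h ^ 2) = 0 := hy
  linarith

end Crest.Agent.R241.A9Bary
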