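import Crest.Agent.R241.G1m

/-!
R241, block G1o: operations on metric currents (sum, multiples, restriction, push-forward).
-/

set_option autoImplicit false
set_option linter.unusedSectionVars false

open MeasureTheory Filter Topology
open scoped ENNReal NNReal

namespace Crest.Agent.R241.G1

open Crest.GeometryTopology.MetricCurrent

universe u v

variable {X : Type u} [MetricSpace X] [MeasurableSpace X] [BorelSpace X]
variable {k : ℕ} {T S : Functional X k}

/-- characterisation of `ext` -/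
theorem ext_unique (hT : IsCurrent T) {π : Fin k → X → ℝ} (hπ : LipT π) {μ : Measure X}
    [IsFiniteMeasure μ] {F : (X → ℝ) → ℝ} {C : ℝ} (h1 : ∀ f, BL f → F f = T f π)
    (h2 : ∀ f g, BM f → BM g → |F f - F g| ≤ C * ∫ x, |f x - g x| ∂μ) {f : X → ℝ} (hf : BM f) :
    ext T f π = F f := by
  obtain ⟨D, hD⟩ := hf.2
  obtain ⟨g, hg1, hg2, hg3⟩ := exists_seq_BL (μ + ctrl T) hf.1 hD
  have hgm : ∀ n, BM (g n) := fun n => (hg1 n).bm
  have hint : ∀ n (ν : Measure X) [IsFiniteMeasure ν], Integrable (fun x => |f x - g n x|) ν :=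
    fun n ν _ => (hf.sub (hgm n)).abs.integrable ν
  have t1 : Tendsto (fun n => ∫ x, |f x - g n x| ∂(ctrl T)) atTop (𝓝 0) := by
    refine squeeze_zero (fun n => integral_nonneg fun x => abs_nonneg _) (fun n => ?_) hg3
    rw [integral_add_measure (hint n μ) (hint n (ctrl T))]
    exact le_add_of_nonneg_left (integral_nonneg fun x => abs_nonneg _)
  have t2 : Tendsto (fun n => ∫ x, |f x - g n x| ∂μ) atTop (𝓝 0) := by
    refine squeeze_zero (fun n => integral_nonneg fun x => abs_nonneg _) (fun n => ?_) hg3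
    rw [integral_add_measure (hint n μ) (hint n (ctrl T))]
    exact le_add_of_nonneg_right (integral_nonneg fun x => abs_nonneg _)
  have t3 : Tendsto (fun n => ext T (g n) π) atTop (𝓝 (ext T f π)) :=
    ext_tendsto_L1 hf hgm t1 π
  have t4 : Tendsto (fun n => F (g n)) atTop (𝓝 (F f)) := by
    rw [tendsto_iff_norm_sub_tendsto_zero]
    refine squeeze_zero (fun n => norm_nonneg _) (fun n => ?_)
      (show Tendsto (fun n => |C| * ∫ x, |f x - g n x| ∂μ) atTop (𝓝 0) by
        simpa using t2.const_mul |C|)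
    rw [Real.norm_eq_abs, abs_sub_comm]
    refine (h2 f (g n) hf (hgm n)).trans ?_
    exact mul_le_mul_of_nonneg_right (le_abs_self C) (integral_nonneg fun x => abs_nonneg _)
  have t5 : ∀ n, ext T (g n) π = F (g n) := fun n => by
    rw [ext_eq hT hπ (hg1 n), h1 _ (hg1 n)]
  simp only [t5] at t3
  exact tendsto_nhds_unique t3 t4

/-- Lipschitz bound of `ext T · π` in `L¹(ctrl T)` -/
theorem abs_ext_sub_le (hT : IsCurrent T) {μ : Measure X} [IsFiniteMeasure μ]
    (hμ : Controls T μ) {f g : X → ℝ} (hf : BM f) (hg : BM g) {π : Fin k → X → ℝ}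
    {K : Fin k → ℝ≥0} (hK : ∀ i, LipschitzWith (K i) (π i)) :
    |ext T f π - ext T g π| ≤ (∏ i, (K i : ℝ)) * ∫ x, |f x - g x| ∂μ := by
  rw [← ext_sub hf hg]
  exact abs_ext_le hT hμ (hf.sub hg) hK

/-- limits of Lipschitz tuples -/
theorem lipschitz_of_tendsto {C : ℝ≥0} {πs : ℕ → X → ℝ} {p : X → ℝ}
    (h : ∀ j, LipschitzWith C (πs j)) (hlim : ∀ x, Tendsto (fun j => πs j x) atTop (𝓝 (p x))) :
    LipschitzWith C p := by
  apply LipschitzWith.of_dist_le_mul
  intro x y
  exact le_of_tendsto' ((hlim x).dist (hlim y)) fun j => (h j).dist_le_mul x y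

/-- continuity with a common constant -/
theorem ext_continuity' (hT : IsCurrent T) {f : X → ℝ} (hf : BM f) {π : Fin k → X → ℝ}
    {πs : ℕ → Fin k → X → ℝ} {C : ℝ≥0} (hKs : ∀ j i, LipschitzWith C (πs j i))
    (h : ∀ i x, Tendsto (fun j => πs j i x) atTop (𝓝 (π i x))) :
    Tendsto (fun j => ext T f (πs j)) atTop (𝓝 (ext T f π)) :=
  ext_continuity hT hf (K := fun _ => C)
    (fun i => lipschitz_of_tendsto (fun j => hKs j i) (h i)) hKs h

theorem update_add_eq (π : Fin k → X → ℝ) (i : Fin k) (g : X → ℝ) (hT : IsCurrent T) {f : X → ℝ}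
    (hf : BM f) (hπ : LipT π) (hg : ∃ K : ℝ≥0, LipschitzWith K g) :
    ext T f (Function.update π i (π i + g)) = ext T f π + ext T f (Function.update π i g) := by
  have := ext_add_coord hT hf hπ i (hπ i) hg
  rwa [Function.update_eq_self] at this

theorem update_smul_eq (π : Fin k → X → ℝ) (i : Fin k) (c : ℝ) (hT : IsCurrent T) {f : X → ℝ}
    (hf : BM f) (hπ : LipT π) :
    ext T f (Function.update π i (c • π i)) = c * ext T f π := by
  have := ext_smul_coord hT hf hπ i c (hπ i)
  rwa [Function.update_eq_self] at this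

theorem testPair_update {f : X → ℝ} {π : Fin k → X → ℝ} (h : IsTestPair f π) (i : Fin k)
    {g : X → ℝ} (hg : ∃ K : ℝ≥0, LipschitzWith K g) : IsTestPair f (Function.update π i g) := by
  obtain ⟨hf, hπ⟩ := isTestPair_iff.1 h
  exact hf.isTestPair (hπ.update i hg)

theorem lip_add {g h : X → ℝ} (hg : ∃ K : ℝ≥0, LipschitzWith K g)
    (hh : ∃ K : ℝ≥0, LipschitzWith K h) : ∃ K : ℝ≥0, LipschitzWith K (g + h) := by
  obtain ⟨K, hK⟩ := hg
  obtain ⟨K', hK'⟩ := hh
  exact ⟨_, hK.add hK'⟩

theorem lip_smul {g : X → ℝ} (c : ℝ) (hg : ∃ K : ℝ≥0, LipschitzWith K g) :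
    ∃ K : ℝ≥0, LipschitzWith K (c • g) := by
  obtain ⟨K, hK⟩ := hg
  exact ⟨_, lipschitzWith_smul hK c⟩

/-- Constructor for currents: a functional given on test pairs by a family `F f π` which is
linear in `f`, multilinear, continuous, local and bounded. -/
theorem isCurrent_of (F : Functional X k) (h0 : ∀ f π, ¬ IsTestPair f π → F f π = 0)
    (hadd : ∀ f g π, BL f → BL g → LipT π → F (f + g) π = F f π + F g π)
    (hsmul : ∀ (c : ℝ) f π, BL f → LipT π → F (c • f) π = c * F f π)
    (hadd' : ∀ f π (i : Fin k) (g : X → ℝ), BL f → LipT π → (∃ K : ℝ≥0, LipschitzWith K g) →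
      F f (Function.update π i (π i + g)) = F f π + F f (Function.update π i g))
    (hsmul' : ∀ f π (i : Fin k) (c : ℝ), BL f → LipT π →
      F f (Function.update π i (c • π i)) = c * F f π)
    (hcont : ∀ f π (πs : ℕ → Fin k → X → ℝ), BL f → LipT π →
      (∃ C : ℝ≥0, ∀ j i, LipschitzWith C (πs j i)) →
      (∀ i x, Tendsto (fun j => πs j i x) atTop (𝓝 (π i x))) →
      Tendsto (fun j => F f (πs j)) atTop (𝓝 (F f π)))
    (hloc : ∀ f π, BL f → LipT π → ∀ (i : Fin k) (c : ℝ),
      (∀ x, f x ≠ 0 → π i x = c) → F f π = 0)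
    (hmass : ∃ μ : Measure X, IsFiniteMeasure μ ∧ Controls F μ) : IsCurrent F where
  eq_zero_of_not_test := h0
  add_left f g π hf hg := hadd f g π (isTestPair_iff.1 hf).1 (isTestPair_iff.1 hg).1
    (isTestPair_iff.1 hf).2
  smul_left c f π hf := hsmul c f π (isTestPair_iff.1 hf).1 (isTestPair_iff.1 hf).2
  add_coord f π i g hf hg := hadd' f π i g (isTestPair_iff.1 hf).1 (isTestPair_iff.1 hf).2 hg
  smul_coord f π i c hf := hsmul' f π i c (isTestPair_iff.1 hf).1 (isTestPair_iff.1 hf).2
  continuity f π πs hf hC hlim := hcont f π πs (isTestPair_iff.1 hf).1 (isTestPair_iff.1 hf).2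
    hC hlim
  locality f π hf h := by
    obtain ⟨i, U, c, -, hU, hc⟩ := h
    exact hloc f π (isTestPair_iff.1 hf).1 (isTestPair_iff.1 hf).2 i c
      fun x hx => hc x (hU hx)
  finite_mass := hmass

/-- strong locality for the current itself -/
theorem locality' (hT : IsCurrent T) {f : X → ℝ} (hf : BL f) {π : Fin k → X → ℝ} (hπ : LipT π)
    {i : Fin k} {c : ℝ} (h : ∀ x, f x ≠ 0 → π i x = c) : T f π = 0 := by
  rw [← ext_eq hT hπ hf]
  exact ext_strong_locality hT hf.bm hπ i c h

/-! ### zero, sums and multiples -/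

theorem isCurrent_zero : IsCurrent (0 : Functional X k) := by
  refine isCurrent_of _ (fun _ _ _ => rfl) ?_ ?_ ?_ ?_ ?_ ?_ ?_
  · intros; simp
  · intros; simp
  · intros; simp
  · intros; simp
  · intros; exact tendsto_const_nhds
  · intros; rfl
  · exact ⟨0, inferInstance, fun f π _ _ => by simp⟩

theorem controls_add {μ ν : Measure X} [IsFiniteMeasure μ] [IsFiniteMeasure ν]
    (h1 : Controls T μ) (h2 : Controls S ν) : Controls (T + S) (μ + ν) := by
  intro f π hfπ hπ
  have hf : BL f := (isTestPair_iff.1 hfπ).1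
  rw [integral_add_measure (hf.abs.integrable μ) (hf.abs.integrable ν)]
  exact (abs_add_le _ _).trans (add_le_add (h1 f π hfπ hπ) (h2 f π hfπ hπ))

theorem isCurrent_add (hT : IsCurrent T) (hS : IsCurrent S) : IsCurrent (T + S) := by
  refine isCurrent_of _ (fun f π h => ?_) ?_ ?_ ?_ ?_ ?_ ?_ ?_
  · simp only [Pi.add_apply]
    rw [hT.eq_zero_of_not_test f π h, hS.eq_zero_of_not_test f π h, add_zero]
  · intro f g π hf hg hπ
    simp only [Pi.add_apply]
    rw [hT.add_left f g π (hf.isTestPair hπ) (hg.isTestPair hπ),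
      hS.add_left f g π (hf.isTestPair hπ) (hg.isTestPair hπ)]
    ring
  · intro c f π hf hπ
    simp only [Pi.add_apply]
    rw [hT.smul_left c f π (hf.isTestPair hπ), hS.smul_left c f π (hf.isTestPair hπ)]
    ring
  · intro f π i g hf hπ hg
    simp only [Pi.add_apply]
    rw [hT.add_coord f π i g (hf.isTestPair hπ) hg, hS.add_coord f π i g (hf.isTestPair hπ) hg]
    ring
  · intro f π i c hf hπ
    simp only [Pi.add_apply]
    rw [hT.smul_coord f π i c (hf.isTestPair hπ), hS.smul_coord f π i c (hf.isTestPair hπ)]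
    ring
  · intro f π πs hf hπ hC hlim
    exact (hT.continuity f π πs (hf.isTestPair hπ) hC hlim).add
      (hS.continuity f π πs (hf.isTestPair hπ) hC hlim)
  · intro f π hf hπ i c h
    simp only [Pi.add_apply]
    rw [locality' hT hf hπ h, locality' hS hf hπ h, add_zero]
  · exact ⟨ctrl T + ctrl S, inferInstance, controls_add (controls_ctrl hT) (controls_ctrl hS)⟩

theorem ext_add_current (hT : IsCurrent T) (hS : IsCurrent S) {f : X → ℝ} (hf : BM f)
    {π : Fin k → X → ℝ} (hπ : LipT π) : ext (T + S) f π = ext T f π + ext S f π := by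
  have hπ' := hπ
  choose K hK using hπ
  apply ext_unique (isCurrent_add hT hS) hπ' (μ := ctrl T + ctrl S)
    (F := fun f => ext T f π + ext S f π) (C := ∏ i, (K i : ℝ)) _ _ hf
  · intro f hf
    simp only [Pi.add_apply]
    rw [ext_eq hT hπ' hf, ext_eq hS hπ' hf]
  · intro f g hf hg
    have hi : ∀ (ν : Measure X) [IsFiniteMeasure ν], Integrable (fun x => |f x - g x|) ν :=
      fun ν _ => (hf.sub hg).abs.integrable ν
    rw [integral_add_measure (hi (ctrl T)) (hi (ctrl S)), mul_add]
    have e : ext T f π + ext S f π - (ext T g π + ext S g π) =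
        (ext T f π - ext T g π) + (ext S f π - ext S g π) := by ring
    rw [e]
    exact (abs_add_le _ _).trans (add_le_add (abs_ext_sub_le hT (controls_ctrl hT) hf hg hK)
      (abs_ext_sub_le hS (controls_ctrl hS) hf hg hK))

theorem controls_smul (c : ℝ) {μ : Measure X} (h : Controls T μ) :
    Controls (c • T) (ENNReal.ofReal |c| • μ) := by
  intro f π hfπ hπ
  rw [integral_smul_measure, ENNReal.toReal_ofReal (abs_nonneg c)]
  simp only [Pi.smul_apply, smul_eq_mul, abs_mul]
  exact mul_le_mul_of_nonneg_left (h f π hfπ hπ) (abs_nonneg c)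

theorem isCurrent_smul (c : ℝ) (hT : IsCurrent T) : IsCurrent (c • T) := by
  refine isCurrent_of _ (fun f π h => ?_) ?_ ?_ ?_ ?_ ?_ ?_ ?_
  · simp only [Pi.smul_apply]
    rw [hT.eq_zero_of_not_test f π h, smul_zero]
  · intro f g π hf hg hπ
    simp only [Pi.smul_apply, smul_eq_mul]
    rw [hT.add_left f g π (hf.isTestPair hπ) (hg.isTestPair hπ)]
    ring
  · intro a f π hf hπ
    simp only [Pi.smul_apply, smul_eq_mul]
    rw [hT.smul_left a f π (hf.isTestPair hπ)]
    ring
  · intro f π i g hf hπ hg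
    simp only [Pi.smul_apply, smul_eq_mul]
    rw [hT.add_coord f π i g (hf.isTestPair hπ) hg]
    ring
  · intro f π i a hf hπ
    simp only [Pi.smul_apply, smul_eq_mul]
    rw [hT.smul_coord f π i a (hf.isTestPair hπ)]
    ring
  · intro f π πs hf hπ hC hlim
    exact (hT.continuity f π πs (hf.isTestPair hπ) hC hlim).const_mul c
  · intro f π hf hπ i a h
    simp only [Pi.smul_apply, smul_eq_mul]
    rw [locality' hT hf hπ h, mul_zero]
  · exact ⟨ENNReal.ofReal |c| • ctrl T, (ctrl T).smul_finite (by finiteness),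
      controls_smul c (controls_ctrl hT)⟩

theorem ext_smul_current (c : ℝ) (hT : IsCurrent T) {f : X → ℝ} (hf : BM f)
    {π : Fin k → X → ℝ} (hπ : LipT π) : ext (c • T) f π = c * ext T f π := by
  have hπ' := hπ
  choose K hK using hπ
  apply ext_unique (isCurrent_smul c hT) hπ' (μ := ctrl T)
    (F := fun f => c * ext T f π) (C := |c| * ∏ i, (K i : ℝ)) _ _ hf
  · intro f hf
    simp only [Pi.smul_apply, smul_eq_mul]
    rw [ext_eq hT hπ' hf]
  · intro f g hf hg
    rw [← mul_sub, abs_mul, mul_assoc]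
    exact mul_le_mul_of_nonneg_left (abs_ext_sub_le hT (controls_ctrl hT) hf hg hK) (abs_nonneg c)

theorem isCurrent_neg (hT : IsCurrent T) : IsCurrent (-T) := by
  have := isCurrent_smul (-1) hT
  rwa [neg_one_smul] at this

theorem isCurrent_sub (hT : IsCurrent T) (hS : IsCurrent S) : IsCurrent (T - S) := by
  rw [sub_eq_add_neg]
  exact isCurrent_add hT (isCurrent_neg hS)

theorem ext_neg_current (hT : IsCurrent T) {f : X → ℝ} (hf : BM f)
    {π : Fin k → X → ℝ} (hπ : LipT π) : ext (-T) f π = - ext T f π := by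
  have := ext_smul_current (-1) hT hf hπ
  rw [neg_one_smul] at this
  rw [this]; ring

theorem ext_sub_current (hT : IsCurrent T) (hS : IsCurrent S) {f : X → ℝ} (hf : BM f)
    {π : Fin k → X → ℝ} (hπ : LipT π) : ext (T - S) f π = ext T f π - ext S f π := by
  rw [sub_eq_add_neg, ext_add_current hT (isCurrent_neg hS) hf hπ, ext_neg_current hS hf hπ]
  ring

/-! ### restriction -/

/-- restriction `T ⌞ h` of a current to a bounded Borel function -/
noncomputable def rest (T : Functional X k) (h : X → ℝ) : Functional X k := fun f π => by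
  classical
  exact if IsTestPair f π then ext T (f * h) π else 0

theorem rest_apply {f h : X → ℝ} {π : Fin k → X → ℝ} (hfπ : IsTestPair f π) :
    rest T h f π = ext T (f * h) π := by
  unfold rest
  rw [if_pos hfπ]

theorem controls_rest (hT : IsCurrent T) {h : X → ℝ} (hh : BM h) {μ : Measure X}
    [IsFiniteMeasure μ] (hμ : Controls T μ) :
    Controls (rest T h) (μ.withDensity fun x => ENNReal.ofReal |h x|) := by
  intro f π hfπ hπ
  have hf : BL f := (isTestPair_iff.1 hfπ).1
  rw [rest_apply hfπ]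
  have h1 := abs_ext_le hT hμ (hf.bm.mul hh) (K := fun _ => 1) hπ
  refine h1.trans (le_of_eq ?_)
  simp only [NNReal.coe_one, Finset.prod_const_one, one_mul]
  have h2 := integral_withDensity_eq_integral_toReal_smul₀ (μ := μ)
    (f := fun x => ENNReal.ofReal |h x|) hh.1.abs.ennreal_ofReal.aemeasurable
    (Eventually.of_forall fun x => ENNReal.ofReal_lt_top) (fun x => |f x|)
  rw [h2]
  congr 1
  funext x
  rw [ENNReal.toReal_ofReal (abs_nonneg _), smul_eq_mul, Pi.mul_apply, abs_mul, mul_comm]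

theorem isFiniteMeasure_withDensity_abs {h : X → ℝ} (hh : BM h) (μ : Measure X)
    [IsFiniteMeasure μ] : IsFiniteMeasure (μ.withDensity fun x => ENNReal.ofReal |h x|) :=
  isFiniteMeasure_withDensity_ofReal (hh.abs.integrable μ).2

theorem isCurrent_rest (hT : IsCurrent T) {h : X → ℝ} (hh : BM h) : IsCurrent (rest T h) := by
  refine isCurrent_of _ (fun f π hn => ?_) ?_ ?_ ?_ ?_ ?_ ?_ ?_
  · unfold rest
    rw [if_neg hn]
  · intro f g π hf hg hπ
    rw [rest_apply ((hf.add hg).isTestPair hπ), rest_apply (hf.isTestPair hπ),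
      rest_apply (hg.isTestPair hπ), add_mul, ext_add (hf.bm.mul hh) (hg.bm.mul hh)]
  · intro c f π hf hπ
    rw [rest_apply ((hf.smul c).isTestPair hπ), rest_apply (hf.isTestPair hπ), smul_mul_assoc,
      ext_smul]
  · intro f π i g hf hπ hg
    rw [rest_apply (hf.isTestPair (hπ.update i (lip_add (hπ i) hg))),
      rest_apply (hf.isTestPair hπ), rest_apply (hf.isTestPair (hπ.update i hg))]
    exact update_add_eq π i g hT (hf.bm.mul hh) hπ hg
  · intro f π i c hf hπ
    rw [rest_apply (hf.isTestPair (hπ.update i (lip_smul c (hπ i)))),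
      rest_apply (hf.isTestPair hπ)]
    exact update_smul_eq π i c hT (hf.bm.mul hh) hπ
  · intro f π πs hf hπ hC hlim
    obtain ⟨C, hC⟩ := hC
    rw [rest_apply (hf.isTestPair hπ)]
    refine Tendsto.congr (fun j => ?_) (ext_continuity' hT (hf.bm.mul hh) hC hlim)
    rw [rest_apply (hf.isTestPair fun i => ⟨C, hC j i⟩)]
  · intro f π hf hπ i c hc
    rw [rest_apply (hf.isTestPair hπ)]
    apply ext_strong_locality hT (hf.bm.mul hh) hπ i c
    intro x hx
    apply hc x
    intro h0
    apply hx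
    simp [h0]
  · have := isFiniteMeasure_withDensity_abs hh (ctrl T)
    exact ⟨_, this, controls_rest hT hh (controls_ctrl hT)⟩

theorem ext_rest (hT : IsCurrent T) {h : X → ℝ} (hh : BM h) {f : X → ℝ} (hf : BM f)
    {π : Fin k → X → ℝ} (hπ : LipT π) : ext (rest T h) f π = ext T (f * h) π := by
  have hπ' := hπ
  choose K hK using hπ
  obtain ⟨C, hC⟩ := hh.2
  apply ext_unique (isCurrent_rest hT hh) hπ' (μ := ctrl T)
    (F := fun f => ext T (f * h) π) (C := (∏ i, (K i : ℝ)) * |C|) _ _ hf
  · intro f hf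
    rw [rest_apply (hf.isTestPair hπ')]
  · intro f g hf hg
    refine (abs_ext_sub_le hT (controls_ctrl hT) (hf.mul hh) (hg.mul hh) hK).trans ?_
    rw [mul_assoc]
    apply mul_le_mul_of_nonneg_left _ (Finset.prod_nonneg fun i _ => (K i).coe_nonneg)
    rw [← integral_const_mul]
    apply integral_mono_of_nonneg (Eventually.of_forall fun x => abs_nonneg _)
      (((hf.sub hg).abs.integrable _).const_mul _)
    refine Eventually.of_forall fun x => ?_
    simp only [Pi.mul_apply]
    rw [← sub_mul, abs_mul, mul_comm]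
    exact mul_le_mul_of_nonneg_right ((hC x).trans (le_abs_self C)) (abs_nonneg _)

theorem rest_one (hT : IsCurrent T) : rest T (fun _ => 1) = T := by
  funext f π
  by_cases h : IsTestPair f π
  · rw [rest_apply h]
    have : f * (fun _ => (1 : ℝ)) = f := by funext x; simp
    rw [this]
    exact ext_eq hT (isTestPair_iff.1 h).2 (isTestPair_iff.1 h).1
  · rw [hT.eq_zero_of_not_test f π h]
    unfold rest
    rw [if_neg h]

theorem rest_add (T : Functional X k) {h h' : X → ℝ} (hh : BM h) (hh' : BM h') :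
    rest T (h + h') = rest T h + rest T h' := by
  funext f π
  by_cases hf : IsTestPair f π
  · simp only [Pi.add_apply]
    rw [rest_apply hf, rest_apply hf, rest_apply hf, mul_add,
      ext_add ((isTestPair_iff.1 hf).1.bm.mul hh) ((isTestPair_iff.1 hf).1.bm.mul hh')]
  · simp only [Pi.add_apply]
    unfold rest
    rw [if_neg hf, if_neg hf, if_neg hf, add_zero]

theorem rest_rest (hT : IsCurrent T) {h h' : X → ℝ} (hh : BM h) (hh' : BM h') :
    rest (rest T h) h' = rest T (h * h') := by
  funext f π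
  by_cases hf : IsTestPair f π
  · rw [rest_apply hf, rest_apply hf, ext_rest hT hh
      ((isTestPair_iff.1 hf).1.bm.mul hh') (isTestPair_iff.1 hf).2]
    congr 1
    funext x
    simp only [Pi.mul_apply]
    ring
  · unfold rest
    rw [if_neg hf, if_neg hf]

/-! ### push-forward -/

section push

variable {Y : Type v} [MetricSpace Y] [MeasurableSpace Y] [BorelSpace Y]

/-- push-forward of a functional under a map -/
noncomputable def push (φ : X → Y) (T : Functional X k) : Functional Y k := fun f π => by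
  classical
  exact if IsTestPair f π then T (f ∘ φ) (fun i => π i ∘ φ) else 0

theorem push_apply {φ : X → Y} {f : Y → ℝ} {π : Fin k → Y → ℝ} (h : IsTestPair f π) :
    push φ T f π = T (f ∘ φ) (fun i => π i ∘ φ) := by
  unfold push
  rw [if_pos h]

theorem BL.comp {φ : X → Y} {L : ℝ≥0} (hφ : LipschitzWith L φ) {f : Y → ℝ} (hf : BL f) :
    BL (f ∘ φ) := by
  obtain ⟨⟨K, hK⟩, C, hC⟩ := hf
  exact ⟨⟨_, hK.comp hφ⟩, C, fun x => hC _⟩

theorem BM.comp {φ : X → Y} {L : ℝ≥0} (hφ : LipschitzWith L φ) {f : Y → ℝ} (hf : BM f) :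
    BM (f ∘ φ) := by
  obtain ⟨hm, C, hC⟩ := hf
  exact ⟨hm.comp hφ.continuous.measurable, C, fun x => hC _⟩

theorem LipT.comp {φ : X → Y} {L : ℝ≥0} (hφ : LipschitzWith L φ) {π : Fin k → Y → ℝ}
    (hπ : LipT π) : LipT (fun i => π i ∘ φ) := by
  intro i
  obtain ⟨K, hK⟩ := hπ i
  exact ⟨_, hK.comp hφ⟩

theorem comp_update {φ : X → Y} {π : Fin k → Y → ℝ} (i : Fin k) (g : Y → ℝ) :
    (fun j => (Function.update π i g j) ∘ φ) =
      Function.update (fun j => π j ∘ φ) i (g ∘ φ) := by
  funext j
  by_cases h : j = i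
  · subst h; simp
  · simp [h]

theorem controls_push (hT : IsCurrent T) {φ : X → Y} {L : ℝ≥0} (hφ : LipschitzWith L φ)
    {μ : Measure X} [IsFiniteMeasure μ] (hμ : Controls T μ) :
    Controls (push φ T) ((L : ℝ≥0∞) ^ k • μ.map φ) := by
  intro f π hfπ hπ
  have hf : BL f := (isTestPair_iff.1 hfπ).1
  rw [push_apply hfπ]
  have h1 := abs_le_of_controls hT hμ (hf.comp hφ) (π := fun i => π i ∘ φ) (K := fun _ => L)
    (fun i => by simpa using (hπ i).comp hφ)
  refine h1.trans (le_of_eq ?_)
  rw [integral_smul_measure, integral_map hφ.continuous.measurable.aemeasurable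
    hf.abs.measurable.aestronglyMeasurable]
  simp

theorem isCurrent_push (hT : IsCurrent T) {φ : X → Y} {L : ℝ≥0} (hφ : LipschitzWith L φ) :
    IsCurrent (push φ T) := by
  refine isCurrent_of _ (fun f π hn => ?_) ?_ ?_ ?_ ?_ ?_ ?_ ?_
  · unfold push
    rw [if_neg hn]
  · intro f g π hf hg hπ
    rw [push_apply ((hf.add hg).isTestPair hπ), push_apply (hf.isTestPair hπ),
      push_apply (hg.isTestPair hπ)]
    exact hT.add_left _ _ _ ((hf.comp hφ).isTestPair (hπ.comp hφ))
      ((hg.comp hφ).isTestPair (hπ.comp hφ))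
  · intro c f π hf hπ
    rw [push_apply ((hf.smul c).isTestPair hπ), push_apply (hf.isTestPair hπ)]
    exact hT.smul_left _ _ _ ((hf.comp hφ).isTestPair (hπ.comp hφ))
  · intro f π i g hf hπ hg
    rw [push_apply (hf.isTestPair (hπ.update i (lip_add (hπ i) hg))),
      push_apply (hf.isTestPair hπ), push_apply (hf.isTestPair (hπ.update i hg)),
      comp_update, comp_update]
    obtain ⟨K, hK⟩ := hg
    exact hT.add_coord _ _ _ _ ((hf.comp hφ).isTestPair (hπ.comp hφ)) ⟨_, hK.comp hφ⟩
  · intro f π i c hf hπ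
    rw [push_apply (hf.isTestPair (hπ.update i (lip_smul c (hπ i)))),
      push_apply (hf.isTestPair hπ), comp_update]
    exact hT.smul_coord _ _ _ _ ((hf.comp hφ).isTestPair (hπ.comp hφ))
  · intro f π πs hf hπ hC hlim
    obtain ⟨C, hC⟩ := hC
    rw [push_apply (hf.isTestPair hπ)]
    have h1 := hT.continuity (f ∘ φ) (fun i => π i ∘ φ) (fun j i => πs j i ∘ φ)
      ((hf.comp hφ).isTestPair (hπ.comp hφ)) ⟨C * L, fun j i => (hC j i).comp hφ⟩
      (fun i x => hlim i (φ x))
    refine Tendsto.congr (fun j => ?_) h1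
    rw [push_apply (hf.isTestPair fun i => ⟨C, hC j i⟩)]
  · intro f π hf hπ i c hc
    rw [push_apply (hf.isTestPair hπ)]
    exact locality' hT (hf.comp hφ) (hπ.comp hφ) (i := i) (c := c) fun x hx => hc (φ x) hx
  · refine ⟨(L : ℝ≥0∞) ^ k • (ctrl T).map φ, ?_, controls_push hT hφ (controls_ctrl hT)⟩
    have : IsFiniteMeasure ((ctrl T).map φ) := inferInstance
    exact (ctrl T).map φ |>.smul_finite (by finiteness)

theorem ext_push (hT : IsCurrent T) {φ : X → Y} {L : ℝ≥0} (hφ : LipschitzWith L φ)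
    {f : Y → ℝ} (hf : BM f) {π : Fin k → Y → ℝ} (hπ : LipT π) :
    ext (push φ T) f π = ext T (f ∘ φ) (fun i => π i ∘ φ) := by
  have hπ' := hπ
  choose K hK using hπ
  apply ext_unique (isCurrent_push hT hφ) hπ' (μ := (ctrl T).map φ)
    (F := fun f => ext T (f ∘ φ) (fun i => π i ∘ φ)) (C := ∏ i, ((K i * L : ℝ≥0) : ℝ)) _ _ hf
  · intro f hf
    rw [push_apply (hf.isTestPair hπ'), ext_eq hT (hπ'.comp hφ) (hf.comp hφ)]
  · intro f g hf hg
    refine (abs_ext_sub_le hT (controls_ctrl hT) (hf.comp hφ) (hg.comp hφ)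
      (K := fun i => K i * L) (fun i => (hK i).comp hφ)).trans (le_of_eq ?_)
    have hm : AEStronglyMeasurable (fun y => |f y - g y|) ((ctrl T).map φ) :=
      (hf.sub hg).abs.1.aestronglyMeasurable
    rw [integral_map hφ.continuous.measurable.aemeasurable hm]
    rfl

end push

end Crest.Agent.R241.G1
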