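import Crest.Agent.R241.G1o

/-!
R241, block G1p: mass measures of sums, restrictions and push-forwards; supports; boundary of a
push-forward.
-/

set_option autoImplicit false
set_option linter.unusedSectionVars false

open MeasureTheory Filter Topology
open scoped ENNReal NNReal

namespace Crest.Agent.R241.G1

open Crest.GeometryTopology.MetricCurrent

universe u v

variable {X : Type u} [MetricSpace X] [MeasurableSpace X] [BorelSpace X]
variable [TopologicalSpace.SeparableSpace X]
variable {k : ℕ} {T S : Functional X k}

theorem massM_add_le (hT : IsCurrent T) (hS : IsCurrent S) :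
    massM (T + S) ≤ massM T + massM S := by
  have := isFiniteMeasure_massM hT
  have := isFiniteMeasure_massM hS
  exact massM_le (isCurrent_add hT hS) (controls_add (controls_massM hT) (controls_massM hS))

theorem massM_zero : massM (0 : Functional X k) = 0 := by
  have h := massM_le (T := (0 : Functional X k)) isCurrent_zero (μ := 0)
    (fun f π _ _ => by simp)
  exact le_antisymm h (Measure.zero_le _)

theorem massM_neg_le (hT : IsCurrent T) : massM (-T) ≤ massM T := by
  have := isFiniteMeasure_massM hT
  refine massM_le (isCurrent_neg hT) ?_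
  intro f π hf hπ
  have := controls_massM hT f π hf hπ
  simpa using this

theorem massM_neg (hT : IsCurrent T) : massM (-T) = massM T := by
  apply le_antisymm (massM_neg_le hT)
  have := massM_neg_le (isCurrent_neg hT)
  simpa using this

/-- the mass measure of a restriction -/
theorem massM_rest_le (hT : IsCurrent T) {h : X → ℝ} (hh : BM h) :
    massM (rest T h) ≤ (massM T).withDensity fun x => ENNReal.ofReal |h x| := by
  have := isFiniteMeasure_massM hT
  have := isFiniteMeasure_withDensity_abs hh (massM T)
  exact massM_le (isCurrent_rest hT hh) (controls_rest hT hh (controls_massM hT))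

theorem withDensity_abs_indicator (μ : Measure X) {A : Set X} (hA : MeasurableSet A) :
    (μ.withDensity fun x => ENNReal.ofReal |A.indicator (fun _ => (1 : ℝ)) x|) = μ.restrict A := by
  have : (fun x => ENNReal.ofReal |A.indicator (fun _ => (1 : ℝ)) x|) =
      A.indicator (fun _ => (1 : ℝ≥0∞)) := by
    funext x
    by_cases hx : x ∈ A
    · simp [hx]
    · simp [hx]
  rw [this, withDensity_indicator hA]
  have : (μ.restrict A).withDensity (fun _ => (1 : ℝ≥0∞)) = μ.restrict A := withDensity_one
  exact this

theorem massM_rest_indicator (hT : IsCurrent T) {A : Set X} (hA : MeasurableSet A) :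
    massM (rest T (A.indicator fun _ => 1)) = (massM T).restrict A := by
  have hfin := isFiniteMeasure_massM hT
  have hbA : BM (A.indicator fun _ : X => (1 : ℝ)) := (BM.const 1).indicator hA
  have hbA' : BM (Aᶜ.indicator fun _ : X => (1 : ℝ)) := (BM.const 1).indicator hA.compl
  have h1 : massM (rest T (A.indicator fun _ => 1)) ≤ (massM T).restrict A := by
    rw [← withDensity_abs_indicator _ hA]
    exact massM_rest_le hT hbA
  have h2 : massM (rest T (Aᶜ.indicator fun _ => 1)) ≤ (massM T).restrict Aᶜ := by
    rw [← withDensity_abs_indicator _ hA.compl]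
    exact massM_rest_le hT hbA'
  have hsum : rest T (A.indicator fun _ => 1) + rest T (Aᶜ.indicator fun _ => 1) = T := by
    rw [← rest_add T hbA hbA']
    have : (A.indicator fun _ : X => (1 : ℝ)) + (Aᶜ.indicator fun _ : X => (1 : ℝ)) =
        fun _ => 1 := by
      funext x
      by_cases hx : x ∈ A <;> simp [hx]
    rw [this, rest_one hT]
  have h3 : massM T ≤ massM (rest T (A.indicator fun _ => 1)) +
      massM (rest T (Aᶜ.indicator fun _ => 1)) := by
    have := massM_add_le (isCurrent_rest hT hbA) (isCurrent_rest hT hbA')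
    rwa [hsum] at this
  apply le_antisymm h1
  rw [Measure.le_iff]
  intro B hB
  rw [Measure.restrict_apply hB]
  have h4 := h3 (B ∩ A)
  rw [Measure.add_apply] at h4
  have h5 : massM (rest T (Aᶜ.indicator fun _ => 1)) (B ∩ A) = 0 := by
    refine le_antisymm ((h2 (B ∩ A)).trans ?_) zero_le
    rw [Measure.restrict_apply (hB.inter hA), Set.inter_assoc, Set.inter_compl_self,
      Set.inter_empty, measure_empty]
  rw [h5, add_zero] at h4
  exact h4.trans (measure_mono Set.inter_subset_left)

/-- `K` closed: `T` is supported in `K` iff `‖T‖(Kᶜ) = 0` -/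
theorem isSupportedIn_iff_massM (hT : IsCurrent T) {K : Set X} (hK : IsClosed K) :
    IsSupportedIn K T ↔ massM T Kᶜ = 0 := by
  constructor
  · intro h
    apply massM_eq_zero_of hT hK.measurableSet.compl
    intro c f hf
    obtain ⟨C, hC⟩ := hf.2
    obtain ⟨g, hg1, hg2, hg3⟩ := exists_seq_BL (ctrl T) hf.1 hC
    -- cutoff functions
    have hδ : ∀ n : ℕ, (0 : ℝ) < 1 / ((n : ℝ) + 1) := fun n => by positivity
    let χ : ℕ → X → ℝ := fun n x => 1 - ((thickenedIndicator (hδ n) K x : ℝ≥0) : ℝ)
    have hχBL : ∀ n, BL (χ n) := fun n => BL.one.sub (BL.thickened (hδ n) K)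
    have hχ01 : ∀ n x, 0 ≤ χ n x ∧ χ n x ≤ 1 := by
      intro n x
      have h1 : ((thickenedIndicator (hδ n) K x : ℝ≥0) : ℝ) ≤ 1 := by
        exact_mod_cast thickenedIndicator_le_one (hδ n) K x
      have h2 : (0 : ℝ) ≤ ((thickenedIndicator (hδ n) K x : ℝ≥0) : ℝ) := NNReal.coe_nonneg _
      constructor <;> simp only [χ] <;> linarith
    have hχK : ∀ n x, x ∈ K → χ n x = 0 := by
      intro n x hx
      simp only [χ]
      have := thickenedIndicator_one (hδ n) K hx
      rw [this]
      simp
    have hχlim : ∀ x, Tendsto (fun n => χ n x) atTop (𝓝 (Kᶜ.indicator (fun _ => (1 : ℝ)) x)) := by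
      intro x
      by_cases hx : x ∈ K
      · have h1 : ∀ n, χ n x = 0 := fun n => hχK n x hx
        simp [h1, hx]
      · have h2 : Kᶜ.indicator (fun _ => (1 : ℝ)) x = 1 := by simp [hx]
        rw [h2]
        obtain ⟨δ, hδ0, hδ1⟩ := Metric.isOpen_iff.1 hK.isOpen_compl x hx
        have h3 : ∀ᶠ n : ℕ in atTop, 1 / ((n : ℝ) + 1) < δ :=
          tendsto_one_div_add_atTop_nhds_zero_nat.eventually_lt_const hδ0
        refine tendsto_const_nhds.congr' ?_
        filter_upwards [h3] with n hn
        have h4 : x ∉ Metric.thickening (1 / ((n : ℝ) + 1)) K := by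
          intro hmem
          rw [Metric.mem_thickening_iff] at hmem
          obtain ⟨z, hz, hzx⟩ := hmem
          have : z ∈ Kᶜ := hδ1 (by rw [Metric.mem_ball, dist_comm]; linarith)
          exact this hz
        simp only [χ]
        rw [thickenedIndicator_zero (hδ n) K h4]
        simp
    have step : ∀ n, ext T (f * χ n) (htup c) = 0 := by
      intro n
      have h1 : Tendsto (fun l => ext T (g l * χ n) (htup c)) atTop
          (𝓝 (ext T (f * χ n) (htup c))) := by
        apply ext_tendsto_L1 (hf.mul (hχBL n).bm) (fun l => ((hg1 l).mul (hχBL n)).bm)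
        refine squeeze_zero (fun l => integral_nonneg fun x => abs_nonneg _) (fun l => ?_) hg3
        apply integral_mono_of_nonneg (Eventually.of_forall fun x => abs_nonneg _)
          ((hf.sub (hg1 l).bm).abs.integrable _)
        refine Eventually.of_forall fun x => ?_
        simp only [Pi.mul_apply, Pi.sub_apply]
        rw [← sub_mul, abs_mul, abs_of_nonneg (hχ01 n x).1]
        exact mul_le_of_le_one_right (abs_nonneg _) (hχ01 n x).2
      have h2 : ∀ l, ext T (g l * χ n) (htup c) = 0 := by
        intro l
        rw [ext_eq hT (lipT_htup c) ((hg1 l).mul (hχBL n))]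
        apply h _ _ (((hg1 l).mul (hχBL n)).isTestPair (lipT_htup c))
        intro x hx
        simp [hχK n x hx]
      simp only [h2] at h1
      exact (tendsto_nhds_unique h1 tendsto_const_nhds)
    have hlim : Tendsto (fun n => ext T (f * χ n) (htup c)) atTop
        (𝓝 (ext T (Kᶜ.indicator f) (htup c))) := by
      apply ext_tendsto (hf.1.indicator hK.measurableSet.compl)
        (fun n => (hf.mul (hχBL n).bm).1) (C := |C|)
      · intro n x
        simp only [Pi.mul_apply]
        rw [abs_mul, abs_of_nonneg (hχ01 n x).1]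
        exact (mul_le_of_le_one_right (abs_nonneg _) (hχ01 n x).2).trans
          ((hC x).trans (le_abs_self C))
      · intro x
        have h1 := (hχlim x).const_mul (f x)
        have h2 : f x * Kᶜ.indicator (fun _ => (1 : ℝ)) x = Kᶜ.indicator f x := by
          by_cases hx : x ∈ K <;> simp [hx]
        rw [h2] at h1
        exact h1
    simp only [step] at hlim
    exact (tendsto_nhds_unique hlim tendsto_const_nhds)
  · intro h f π hfπ hfK
    obtain ⟨hf, hπ⟩ := isTestPair_iff.1 hfπ
    have h1 : f = Kᶜ.indicator f := by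
      funext x
      by_cases hx : x ∈ K
      · simp [hx, hfK x hx]
      · simp [hx]
    rw [← ext_eq hT hπ hf, h1]
    exact ext_indicator_eq_zero_of_massM hT h hf.bm hK.measurableSet.compl hπ

section push

variable {Y : Type v} [MetricSpace Y] [MeasurableSpace Y] [BorelSpace Y]
variable [TopologicalSpace.SeparableSpace Y]

theorem massM_push_le (hT : IsCurrent T) {φ : X → Y} {L : ℝ≥0} (hφ : LipschitzWith L φ) :
    massM (push φ T) ≤ (L : ℝ≥0∞) ^ k • (massM T).map φ := by
  have := isFiniteMeasure_massM hT
  have : IsFiniteMeasure ((L : ℝ≥0∞) ^ k • (massM T).map φ) :=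
    ((massM T).map φ).smul_finite (by finiteness)
  exact massM_le (isCurrent_push hT hφ) (controls_push hT hφ (controls_massM hT))

theorem mass_push_le (hT : IsCurrent T) {φ : X → Y} {L : ℝ≥0} (hφ : LipschitzWith L φ) :
    mass (push φ T) ≤ (L : ℝ) ^ k * mass T := by
  have := isFiniteMeasure_massM hT
  rw [mass_eq (isCurrent_push hT hφ), mass_eq hT]
  have h1 := massM_push_le hT hφ Set.univ
  have h2 : ((L : ℝ≥0∞) ^ k • (massM T).map φ) Set.univ = (L : ℝ≥0∞) ^ k * massM T Set.univ := by
    rw [Measure.smul_apply, smul_eq_mul, Measure.map_apply hφ.continuous.measurable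
      MeasurableSet.univ, Set.preimage_univ]
  rw [h2] at h1
  have h3 := ENNReal.toReal_mono (by finiteness) h1
  simpa [ENNReal.toReal_mul, ENNReal.toReal_pow] using h3

theorem isTestPair_cons {f : X → ℝ} {π : Fin k → X → ℝ} (h : IsTestPair f π) :
    IsTestPair (fun _ => 1) (Fin.cons f π : Fin (k + 1) → X → ℝ) := by
  obtain ⟨hf, hπ⟩ := isTestPair_iff.1 h
  apply BL.one.isTestPair
  intro i
  refine Fin.cases ?_ (fun j => ?_) i
  · simpa using hf.1
  · simpa using hπ j

theorem bd_push {T : Functional X (k + 1)} {φ : X → Y} {L : ℝ≥0} (hφ : LipschitzWith L φ) :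
    bd (push φ T) = push φ (bd T) := by
  funext f π
  by_cases h : IsTestPair f π
  · obtain ⟨hf, hπ⟩ := isTestPair_iff.1 h
    have h' : IsTestPair (f ∘ φ) (fun i => π i ∘ φ) := (hf.comp hφ).isTestPair (hπ.comp hφ)
    rw [push_apply h]
    unfold bd
    rw [if_pos h, if_pos h', push_apply (isTestPair_cons h)]
    congr 1
    funext i
    refine Fin.cases ?_ (fun j => ?_) i
    · simp
    · simp
  · unfold push bd
    rw [if_neg h, if_neg h]

end push

end Crest.Agent.R241.G1
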