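import Crest.Agent.R241.B4Norm
import Crest.Agent.R241.G1o
import Crest.Agent.R241.G1p

/-!
R241 / B4: closure properties of the class of integer rectifiable currents:
zero, sums, differences, Borel restrictions, Lipschitz push-forwards.
-/

set_option autoImplicit false
set_option linter.unusedSectionVars false

open MeasureTheory Filter Topology Metric Set Module
open scoped NNReal ENNReal

namespace Crest.Agent.R241.B4Ops

open Crest.GeometryTopology.Submanifold (Euc)
open Crest.GeometryTopology.MetricCurrent
open Crest.Agent.R241.G1 (BL BM LipT ext ctrl rest push)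
open Crest.Agent.R241.B1c1 (jac chartR)
open Crest.Agent.R241.B4Ext Crest.Agent.R241.B4Disj Crest.Agent.R241.B4Norm

noncomputable section

universe u v

variable {X : Type u} [MetricSpace X] {k : ℕ} [MeasurableSpace X] [BorelSpace X]

theorem mass_zero : mass (0 : Functional X k) = 0 :=
  le_antisymm (by simpa using B10.mass_le (T := (0 : Functional X k)) (μ := 0) (B10.controls_zero 0))
    (B10.mass_nonneg _)

theorem rect_zero [Nonempty X] : IsIntegerRectifiable (0 : Functional X k) := by
  have x0 : X := Classical.arbitrary X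
  have h0 : chartAction (∅ : Set (Euc k)) (fun _ => x0) (fun _ => 0) = 0 := by
    rw [B1c1.chartAction_eq]
    exact B1c1.chartR_null measure_empty _ _
  refine ⟨fun _ => ∅, fun _ _ => x0, fun _ _ => 0, fun _ => ⟨MeasurableSet.empty,
    Bornology.isBounded_empty⟩, fun _ => ⟨0, by simp [LipschitzOnWith]⟩, fun _ => ⟨0, by simp⟩,
    fun _ => by simp, fun _ _ _ => by simp, fun _ => ?_, ?_, fun f π _ => ?_⟩
  · rw [h0]; exact G1.isCurrent_zero
  · simp_rw [h0, mass_zero]
    exact summable_zero
  · simp_rw [h0]
    simp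

theorem nonempty_of_rect {T : Functional X k} (hr : IsIntegerRectifiable T) : Nonempty X := by
  obtain ⟨E, φ, -⟩ := hr
  exact ⟨φ 0 0⟩

/-- Finite sums via `rect_of_hasSum`. -/
theorem rect_add {T S : Functional X k} (hT : IsCurrent T) (hS : IsCurrent S)
    (hrT : IsIntegerRectifiable T) (hrS : IsIntegerRectifiable S) :
    IsIntegerRectifiable (T + S) := by
  have := nonempty_of_rect hrT
  set F : ℕ → Functional X k := fun n => if n = 0 then T else if n = 1 then S else 0 with hF
  have hz : ∀ n, n ∉ ({0, 1} : Finset ℕ) → F n = 0 := by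
    intro n hn
    simp only [Finset.mem_insert, Finset.mem_singleton, not_or] at hn
    simp [hF, hn.1, hn.2]
  refine rect_of_hasSum (T := F) (fun n => ?_) (fun n => ?_) ?_ fun f π h => ?_
  · simp only [hF]
    split_ifs
    exacts [hT, hS, G1.isCurrent_zero]
  · simp only [hF]
    split_ifs
    exacts [hrT, hrS, rect_zero]
  · refine summable_of_hasFiniteSupport ?_
    refine (Finset.finite_toSet ({0, 1} : Finset ℕ)).subset fun n hn => ?_
    by_contra h
    refine hn ?_
    show mass (F n) = 0
    rw [hz n (fun h' => h h'), mass_zero]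
  · have h1 : ∀ n, n ∉ ({0, 1} : Finset ℕ) → F n f π = 0 := fun n hn => by rw [hz n hn]; rfl
    have h2 : HasSum (fun n => F n f π) (∑ b ∈ ({0, 1} : Finset ℕ), F b f π) :=
      hasSum_sum_of_ne_finset_zero h1
    have h3 : ∑ b ∈ ({0, 1} : Finset ℕ), F b f π = (T + S) f π := by
      rw [Finset.sum_pair (by norm_num)]
      simp [hF]
    rw [h3] at h2
    exact h2

theorem chartAction_neg (E : Set (Euc k)) (φ : Euc k → X) (θ : Euc k → ℤ) :
    chartAction E φ (fun z => - θ z) = - chartAction E φ θ := by
  rw [B1c1.chartAction_eq, B1c1.chartAction_eq]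
  have h := B1c1.chartR_smul (-1) E φ (fun z => (θ z : ℝ))
  have h1 : (fun z => ((- θ z : ℤ) : ℝ)) = fun z => (-1) * (θ z : ℝ) := by
    funext z; push_cast; ring
  rw [h1, h, neg_one_smul]

theorem mass_neg_le {T : Functional X k} (hT : IsCurrent T) : mass (-T) ≤ mass T :=
  B10.le_mass hT fun _ _ hc => B10.mass_le fun f π hf hπ => by simpa using hc f π hf hπ

theorem rect_neg {T : Functional X k} (hr : IsIntegerRectifiable T) :
    IsIntegerRectifiable (-T) := by
  obtain ⟨E, φ, θ, h1, h2, h3, h4, h5, h6, h7, h8⟩ := hr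
  refine ⟨E, φ, fun i z => - θ i z, h1, h2, h3, fun i => ?_, h5, fun i => ?_, ?_, fun f π hf => ?_⟩
  · have := (h4 i).neg
    refine this.congr (Eventually.of_forall fun z => ?_)
    simp
  · rw [chartAction_neg]
    exact G1.isCurrent_neg (h6 i)
  · refine Summable.of_nonneg_of_le (fun i => B10.mass_nonneg _) (fun i => ?_) h7
    rw [chartAction_neg]
    exact mass_neg_le (h6 i)
  · simp_rw [chartAction_neg]
    show - T f π = _
    rw [h8 f π hf, ← tsum_neg]
    rfl

theorem rect_sub {T S : Functional X k} (hT : IsCurrent T) (hS : IsCurrent S)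
    (hrT : IsIntegerRectifiable T) (hrS : IsIntegerRectifiable S) :
    IsIntegerRectifiable (T - S) := by
  rw [sub_eq_add_neg]
  exact rect_add hT (G1.isCurrent_neg hS) hrT (rect_neg hrS)

/-- Integer multiples -/
theorem rect_zsmul {T : Functional X k} (hT : IsCurrent T) (hr : IsIntegerRectifiable T) (n : ℕ) :
    IsIntegerRectifiable ((n : ℝ) • T) := by
  induction n with
  | zero =>
    have := nonempty_of_rect hr
    simpa using rect_zero (X := X) (k := k)
  | succ n ih =>
    have : ((n + 1 : ℕ) : ℝ) • T = (n : ℝ) • T + T := by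
      push_cast
      rw [add_smul, one_smul]
    rw [this]
    exact rect_add (G1.isCurrent_smul _ hT) hT ih hr

/-- A functional equal to an integer rectifiable one on test pairs is integer rectifiable. -/
theorem rect_congr {T S : Functional X k} (h : ∀ f π, IsTestPair f π → T f π = S f π)
    (hr : IsIntegerRectifiable T) : IsIntegerRectifiable S := by
  obtain ⟨E, φ, θ, h1, h2, h3, h4, h5, h6, h7, h8⟩ := hr
  exact ⟨E, φ, θ, h1, h2, h3, h4, h5, h6, h7, fun f π hf => by rw [← h f π hf, h8 f π hf]⟩

/-- Normal form of the restriction to a Borel set. -/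
theorem NF.restrict {T : Functional X k} (hT : IsCurrent T) {ν : Measure X} [IsFiniteMeasure ν]
    {r : ℕ → Pc X k} (h : NF T ν r) {B : Set X} (hB : MeasurableSet B) :
    NF (rest T (B.indicator fun _ => 1)) (ν.restrict B) (fun i => (r i).restr hB) := by
  have hBM : BM (B.indicator fun _ : X => (1 : ℝ)) := (BM.const 1).indicator hB
  refine ⟨fun i j hij => ?_, fun i => ?_, fun f π hf => ?_⟩
  · rw [Pc.restr_im, Pc.restr_im]
    exact (h.1 i j hij).mono inter_subset_left inter_subset_left
  · have h1 := (r i).controls_restr hB (h.2.1 i)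
    have h2 : (ν.restrict B).restrict ((r i).restr hB).im = (ν.restrict (r i).im).restrict B := by
      rw [Pc.restr_im, Measure.restrict_restrict ((r i).measurableSet_im.inter hB),
        Measure.restrict_restrict hB]
      congr 1
      ext x
      simp only [mem_inter_iff]
      tauto
    rw [h2]
    exact h1
  · obtain ⟨hfb, hπ⟩ := G1.isTestPair_iff.1 hf
    rw [G1.rest_apply hf]
    have h1 := hasSum_ext hT (fun i => (r i).isCurrent) (σ := fun i => ν.restrict (r i).im)
      h.2.1 h.summable_restrict h.2.2 (hfb.bm.mul hBM) hπ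
    refine h1.congr_fun fun i => ?_
    have h2 := (r i).ext_restr hB hfb.bm hπ
    rw [← G1.ext_eq ((r i).restr hB).isCurrent hπ hfb, h2]
    congr 1
    funext x
    by_cases hx : x ∈ B
    · simp [hx]
    · simp [hx]

theorem rect_restrict {T : Functional X k} (hT : IsCurrent T) (hr : IsIntegerRectifiable T)
    {B : Set X} (hB : MeasurableSet B) :
    IsIntegerRectifiable (rest T (B.indicator fun _ => 1)) := by
  obtain ⟨μ, hμ, hc⟩ := hT.finite_mass
  obtain ⟨r, hr⟩ := exists_NF_of_rect hT hr hc
  exact (NF.restrict hT hr hB).rect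

section Push

variable {Y : Type v} [MetricSpace Y] [MeasurableSpace Y] [BorelSpace Y]

theorem push_chartAction {F : X → Y} {L : ℝ≥0} (hF : LipschitzWith L F) (E : Set (Euc k))
    (φ : Euc k → X) (θ : Euc k → ℤ) :
    push F (chartAction E φ θ) = chartAction E (fun z => F (φ z)) θ := by
  have := B1c1.push_chartR hF E φ (fun z => (θ z : ℝ))
  rw [← B1c1.chartAction_eq, ← B1c1.chartAction_eq] at this
  exact this

theorem mass_push_le {T : Functional X k} (hT : IsCurrent T) {F : X → Y} {L : ℝ≥0}
    (hF : LipschitzWith L F) : mass (push F T) ≤ (L : ℝ) ^ k * mass T := by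
  refine le_of_forall_pos_le_add fun ε hε => ?_
  have hL : (0 : ℝ) ≤ (L : ℝ) ^ k := by positivity
  obtain ⟨μ, hμ, hc, hle⟩ := exists_controls_le hT (ε := ε / ((L : ℝ) ^ k + 1)) (by positivity)
  have hfin : IsFiniteMeasure ((L : ℝ≥0∞) ^ k • μ.map F) :=
    (μ.map F).smul_finite (by finiteness)
  refine (B10.mass_le (G1.controls_push hT hF hc)).trans ?_
  have h1 : (((L : ℝ≥0∞) ^ k • μ.map F) univ).toReal = (L : ℝ) ^ k * (μ univ).toReal := by
    rw [Measure.smul_apply, smul_eq_mul, Measure.map_apply hF.continuous.measurable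
      MeasurableSet.univ, preimage_univ, ENNReal.toReal_mul, ENNReal.toReal_pow]
    rfl
  rw [h1]
  calc (L : ℝ) ^ k * (μ univ).toReal
      ≤ (L : ℝ) ^ k * (mass T + ε / ((L : ℝ) ^ k + 1)) := by gcongr
    _ = (L : ℝ) ^ k * mass T + (L : ℝ) ^ k * (ε / ((L : ℝ) ^ k + 1)) := by ring
    _ ≤ (L : ℝ) ^ k * mass T + ε := by
      gcongr
      rw [mul_div_assoc', div_le_iff₀ (by positivity)]
      nlinarith

/-- **Lipschitz push-forwards** of integer rectifiable currents are integer rectifiable. -/
theorem rect_push [TopologicalSpace.SeparableSpace Y] {T : Functional X k}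
    (hr : IsIntegerRectifiable T) {F : X → Y} {L : ℝ≥0} (hF : LipschitzWith L F) :
    IsIntegerRectifiable (push F T) := by
  obtain ⟨E, φ, θ, h1, h2, h3, h4, h5, h6, h7, h8⟩ := hr
  choose K hK using h2
  refine rect_of_charts (X := Y) (E := E) (fun i => (h1 i).1) (φ := fun i z => F (φ i z))
    (fun i => ⟨L * K i, hF.comp_lipschitzOnWith (hK i)⟩) h4 ?_ fun f π hf => ?_
  · simp_rw [← push_chartAction hF]
    exact Summable.of_nonneg_of_le (fun i => B10.mass_nonneg _)
      (fun i => mass_push_le (h6 i) hF) (h7.mul_left _)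
  · have hf' : IsTestPair (f ∘ F) (fun i => π i ∘ F) := by
      obtain ⟨a, b⟩ := G1.isTestPair_iff.1 hf
      exact (G1.BL.comp hF a).isTestPair (G1.LipT.comp hF b)
    rw [G1.push_apply hf, h8 _ _ hf']
    have h9 := (B10.summable_apply h6 h7 hf').hasSum
    refine h9.congr_fun fun i => ?_
    rw [← push_chartAction hF, G1.push_apply hf]

end Push

end

end Crest.Agent.R241.B4Ops
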