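import Mathlib

/-!
# R241, block B8: linear algebra for Jacobian bounds (owner: helper971)

* `abs_det_le_prod`: Hadamard's inequality for real matrices (rows).
* `abs_det_le_sqrt_det`: if every row `r` of `R` satisfies `(r·v)² ≤ vᵀ Q v`, then
  `|det R| ≤ √(det Q)`.
* `bordered`, `det_bordered`: determinant of a bordered matrix (Schur complement), and the
  cone form `s² g + 2 s σ ℓ + r² σ²`.
-/

set_option autoImplicit false

namespace Crest.Agent.R241.B8LinAlg

open Matrix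
open scoped MatrixOrder

/-- Hadamard's inequality. -/
theorem abs_det_le_prod {n : ℕ} (R : Matrix (Fin n) (Fin n) ℝ) :
    |R.det| ≤ ∏ i, √(∑ j, R i j ^ 2) := by
  have : Fact (Module.finrank ℝ (EuclideanSpace ℝ (Fin n)) = n) := ⟨finrank_euclideanSpace_fin⟩
  set b := EuclideanSpace.basisFun (Fin n) ℝ with hb
  set o := b.toBasis.orientation with ho
  have h1 := o.abs_volumeForm_apply_le (fun i => (WithLp.toLp 2 (R i) : EuclideanSpace ℝ (Fin n)))
  rw [o.volumeForm_robust b rfl] at h1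
  have h2 : b.toBasis.det (fun i => (WithLp.toLp 2 (R i) : EuclideanSpace ℝ (Fin n)))
      = R.det := by
    rw [Module.Basis.det_apply, ← Matrix.det_transpose]
    congr 1
  rw [h2] at h1
  refine h1.trans_eq ?_
  refine Finset.prod_congr rfl fun i _ => ?_
  rw [EuclideanSpace.norm_eq]
  simp

/-- Rows bounded by a quadratic form. -/
theorem abs_det_le_sqrt_det {n : ℕ} (R Q : Matrix (Fin n) (Fin n) ℝ) (hQ : Q.PosSemidef)
    (h : ∀ (i : Fin n) (v : Fin n → ℝ), (R i ⬝ᵥ v) ^ 2 ≤ v ⬝ᵥ (Q *ᵥ v)) :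
    |R.det| ≤ √Q.det := by
  by_cases hdet : Q.det = 0
  · obtain ⟨v, hv0, hv⟩ := Matrix.exists_mulVec_eq_zero_iff.2 hdet
    have hR : R *ᵥ v = 0 := by
      funext i
      have := h i v
      rw [hv] at this
      simp only [dotProduct_zero] at this
      have h0 : (R i ⬝ᵥ v) = 0 := by nlinarith [sq_nonneg (R i ⬝ᵥ v)]
      simpa [Matrix.mulVec] using h0
    have : R.det = 0 := Matrix.exists_mulVec_eq_zero_iff.1 ⟨v, hv0, hR⟩
    rw [this]
    simp
  · obtain ⟨B, hB⟩ := CStarAlgebra.nonneg_iff_eq_star_mul_self.mp hQ.nonneg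
    have hB' : Q = Bᵀ * B := by
      rw [hB, Matrix.star_eq_conjTranspose, Matrix.conjTranspose_eq_transpose_of_trivial]
    have hdetQ : Q.det = B.det ^ 2 := by
      rw [hB', Matrix.det_mul, Matrix.det_transpose]; ring
    have hBdet : B.det ≠ 0 := by
      intro h0
      apply hdet
      rw [hdetQ, h0]; ring
    have hBu : IsUnit B.det := isUnit_iff_ne_zero.2 hBdet
    set R' := R * B⁻¹ with hR'
    have hrow : ∀ i, ∑ j, R' i j ^ 2 ≤ 1 := by
      intro i
      set w : Fin n → ℝ := R' i with hw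
      set v : Fin n → ℝ := B⁻¹ *ᵥ w with hv
      have h1 : R i ⬝ᵥ v = ∑ j, w j ^ 2 := by
        have : R i ⬝ᵥ v = (R' i) ⬝ᵥ w := by
          rw [hv, Matrix.dotProduct_mulVec, hR']
          congr 1
        rw [this, ← hw]
        simp [dotProduct, sq]
      have hBv : B *ᵥ v = w := by
        rw [hv, Matrix.mulVec_mulVec, Matrix.mul_nonsing_inv _ hBu, Matrix.one_mulVec]
      have h2 : v ⬝ᵥ (Q *ᵥ v) = ∑ j, w j ^ 2 := by
        rw [hB', ← Matrix.mulVec_mulVec, Matrix.dotProduct_mulVec, Matrix.vecMul_transpose, hBv]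
        simp [dotProduct, sq]
      have h3 := h i v
      rw [h1, h2] at h3
      have h4 : 0 ≤ ∑ j, w j ^ 2 := Finset.sum_nonneg fun j _ => sq_nonneg _
      nlinarith
    have hdet1 : |R'.det| ≤ 1 := by
      refine (abs_det_le_prod R').trans ?_
      refine Finset.prod_le_one (fun i _ => Real.sqrt_nonneg _) fun i _ => ?_
      exact Real.sqrt_le_iff.2 ⟨zero_le_one, by simpa using hrow i⟩
    have hRR : R = R' * B := by
      rw [hR', Matrix.mul_assoc, Matrix.nonsing_inv_mul _ hBu, Matrix.mul_one]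
    rw [hRR, Matrix.det_mul, abs_mul, hdetQ, Real.sqrt_sq_eq_abs]
    calc |R'.det| * |B.det| ≤ 1 * |B.det| := mul_le_mul_of_nonneg_right hdet1 (abs_nonneg _)
      _ = |B.det| := one_mul _

/-- The bordered matrix `[a, bᵀ; b, G]`. -/
def bordered {n : ℕ} (a : ℝ) (b : Fin n → ℝ) (G : Matrix (Fin n) (Fin n) ℝ) :
    Matrix (Fin (n + 1)) (Fin (n + 1)) ℝ :=
  Matrix.of fun i j => Fin.cases (Fin.cases a b j) (fun i' => Fin.cases (b i') (G i') j) i

@[simp] theorem bordered_zero_zero {n : ℕ} (a : ℝ) (b : Fin n → ℝ)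
    (G : Matrix (Fin n) (Fin n) ℝ) : bordered a b G 0 0 = a := rfl

@[simp] theorem bordered_zero_succ {n : ℕ} (a : ℝ) (b : Fin n → ℝ)
    (G : Matrix (Fin n) (Fin n) ℝ) (j : Fin n) : bordered a b G 0 j.succ = b j := rfl

@[simp] theorem bordered_succ_zero {n : ℕ} (a : ℝ) (b : Fin n → ℝ)
    (G : Matrix (Fin n) (Fin n) ℝ) (i : Fin n) : bordered a b G i.succ 0 = b i := rfl

@[simp] theorem bordered_succ_succ {n : ℕ} (a : ℝ) (b : Fin n → ℝ)
    (G : Matrix (Fin n) (Fin n) ℝ) (i j : Fin n) : bordered a b G i.succ j.succ = G i j := rfl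

/-- The quadratic form of a bordered matrix. -/
theorem bordered_quad {n : ℕ} (a : ℝ) (b : Fin n → ℝ) (G : Matrix (Fin n) (Fin n) ℝ)
    (w : Fin (n + 1) → ℝ) :
    w ⬝ᵥ (bordered a b G *ᵥ w) = a * w 0 ^ 2 + 2 * w 0 * (b ⬝ᵥ Fin.tail w)
      + Fin.tail w ⬝ᵥ (G *ᵥ Fin.tail w) := by
  simp only [dotProduct, Matrix.mulVec, Fin.sum_univ_succ, bordered_zero_zero,
    bordered_zero_succ, bordered_succ_zero, bordered_succ_succ, Fin.tail]
  have h1 : ∑ x : Fin n, w x.succ * (b x * w 0 + ∑ x_1 : Fin n, G x x_1 * w x_1.succ)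
      = w 0 * ∑ x, b x * w x.succ + ∑ x : Fin n, w x.succ * ∑ x_1 : Fin n, G x x_1 * w x_1.succ := by
    rw [Finset.mul_sum, ← Finset.sum_add_distrib]
    exact Finset.sum_congr rfl fun x _ => by ring
  rw [h1]
  ring

/-- Schur complement formula for the determinant of a bordered matrix. -/
theorem det_bordered {n : ℕ} (a : ℝ) (b : Fin n → ℝ) (G : Matrix (Fin n) (Fin n) ℝ)
    (hG : IsUnit G.det) :
    (bordered a b G).det = G.det * (a - b ⬝ᵥ (G⁻¹ *ᵥ b)) := by
  classical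
  let e : Fin (n + 1) ≃ Fin n ⊕ PUnit.{1} := (finSuccEquiv n).trans (Equiv.optionEquivSumPUnit _)
  have he : bordered a b G = (Matrix.fromBlocks G (Matrix.of fun i _ => b i)
      (Matrix.of fun _ j => b j) (Matrix.of fun _ _ => a)).submatrix e e := by
    ext i j
    refine Fin.cases ?_ (fun i' => ?_) i <;> refine Fin.cases ?_ (fun j' => ?_) j <;>
      simp [e]
  rw [he, Matrix.det_submatrix_equiv_self]
  have : Invertible G := Matrix.invertibleOfIsUnitDet G hG
  rw [Matrix.det_fromBlocks₁₁, Matrix.invOf_eq_nonsing_inv]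
  congr 1
  rw [Matrix.det_unique]
  simp only [Matrix.sub_apply, Matrix.of_apply, Matrix.mul_apply]
  congr 1
  simp only [dotProduct, Matrix.mulVec, Finset.mul_sum, Finset.sum_mul]
  rw [Finset.sum_comm]
  refine Finset.sum_congr rfl fun x _ => Finset.sum_congr rfl fun y _ => ?_
  ring

/-- A symmetric bordered matrix with `G` positive definite and nonnegative Schur complement is
positive semidefinite. -/
theorem bordered_posSemidef {n : ℕ} (a : ℝ) (b : Fin n → ℝ) (G : Matrix (Fin n) (Fin n) ℝ)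
    (hG : G.IsSymm)
    (h : ∀ (σ : ℝ) (v : Fin n → ℝ), 0 ≤ a * σ ^ 2 + 2 * σ * (b ⬝ᵥ v) + v ⬝ᵥ (G *ᵥ v)) :
    (bordered a b G).PosSemidef := by
  rw [Matrix.posSemidef_iff_dotProduct_mulVec]
  refine ⟨?_, fun w => ?_⟩
  · ext i j
    refine Fin.cases ?_ (fun i' => ?_) i <;> refine Fin.cases ?_ (fun j' => ?_) j <;>
      simp [Matrix.conjTranspose_apply]
    exact hG.apply _ _
  · have := h (w 0) (Fin.tail w)
    rw [← bordered_quad] at this
    simpa using this

/-- **Cone/homotopy Jacobian bound.** If the rows `(α i, ρ i)` of an `(n+1) × (n+1)` matrix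
satisfy `(α σ + ρ·v)² ≤ a σ² + 2 σ (b·v) + vᵀ G v` with `G` symmetric positive definite, then
the determinant is at most `√(det G) · √(a - bᵀ G⁻¹ b)`. -/
theorem abs_det_le_of_bordered {n : ℕ} (R : Matrix (Fin (n + 1)) (Fin (n + 1)) ℝ)
    (a : ℝ) (b : Fin n → ℝ) (G : Matrix (Fin n) (Fin n) ℝ) (hG : G.PosSemidef)
    (hdet : G.det ≠ 0)
    (h : ∀ (i : Fin (n + 1)) (w : Fin (n + 1) → ℝ),
      (R i ⬝ᵥ w) ^ 2 ≤ a * w 0 ^ 2 + 2 * w 0 * (b ⬝ᵥ Fin.tail w)
        + Fin.tail w ⬝ᵥ (G *ᵥ Fin.tail w)) :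
    |R.det| ≤ √G.det * √(a - b ⬝ᵥ (G⁻¹ *ᵥ b)) := by
  have hsymm : G.IsSymm := by
    have := hG.1
    rwa [Matrix.IsHermitian, Matrix.conjTranspose_eq_transpose_of_trivial] at this
  have hQ : (bordered a b G).PosSemidef := by
    refine bordered_posSemidef a b G hsymm fun σ v => ?_
    have := h 0 (Fin.cons σ v)
    simp only [Fin.cons_zero, Fin.tail_cons] at this
    exact (sq_nonneg _).trans this
  have h1 := abs_det_le_sqrt_det R (bordered a b G) hQ fun i w => by
    rw [bordered_quad]; exact h i w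
  rw [det_bordered a b G (isUnit_iff_ne_zero.2 hdet), Real.sqrt_mul hG.det_nonneg] at h1
  exact h1

end Crest.Agent.R241.B8LinAlg
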