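import Mathlib

/-!
# R241, block B6: area formula with multiplicity, pure `V → V` (helper212)

For `ψ : V → V` differentiable within the measurable set `E` at almost every point of `E`, with
derivative `ψ'`, and an integer weight `w` with `w |det ψ'|` integrable on `E`, the push-forward
of `w |det ψ'| dz` under `ψ` has an integer-valued integrable density.
-/

set_option autoImplicit false

open MeasureTheory Measure Set Filter Topology
open scoped ENNReal NNReal

namespace Crest.Agent.R241.B6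

variable {V : Type*} [NormedAddCommGroup V] [NormedSpace ℝ V] [FiniteDimensional ℝ V]
  [MeasurableSpace V] [BorelSpace V]

/-- A measurable subset of full measure on which everything is genuinely measurable and
differentiable. -/
lemma exists_good_set (μ : Measure V) [μ.IsAddHaarMeasure] {E : Set V} (hE : MeasurableSet E)
    {ψ : V → V} {ψ' : V → V →L[ℝ] V}
    (hd : ∀ᵐ z ∂(μ.restrict E), HasFDerivWithinAt ψ (ψ' z) E z) :
    ∃ E₁ ⊆ E, MeasurableSet E₁ ∧ μ (E \ E₁) = 0 ∧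
      (∀ z ∈ E₁, HasFDerivWithinAt ψ (ψ' z) E₁ z) ∧
      ∃ g : V → ℝ, Measurable g ∧ ∀ z ∈ E₁, (ψ' z).det = g z := by
  rw [ae_restrict_iff' hE] at hd
  set N : Set V := toMeasurable μ {z | ¬ (z ∈ E → HasFDerivWithinAt ψ (ψ' z) E z)} with hN
  have hN0 : μ N = 0 := by rw [hN, measure_toMeasurable]; exact hd
  have hNm : MeasurableSet N := measurableSet_toMeasurable _ _
  have hE₀ : MeasurableSet (E \ N) := hE.diff hNm
  have hder₀ : ∀ z ∈ E \ N, HasFDerivWithinAt ψ (ψ' z) (E \ N) z := by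
    intro z hz
    have h1 : z ∉ {z | ¬ (z ∈ E → HasFDerivWithinAt ψ (ψ' z) E z)} := fun h =>
      hz.2 (subset_toMeasurable _ _ h)
    simp only [mem_ofPred_eq, not_not] at h1
    exact (h1 hz.1).mono sdiff_subset
  have hm : AEMeasurable ψ' (μ.restrict (E \ N)) := aemeasurable_fderivWithin μ hE₀ hder₀
  have hm2 : AEMeasurable (fun z => (ψ' z).det) (μ.restrict (E \ N)) :=
    ContinuousLinearMap.continuous_det.measurable.comp_aemeasurable hm
  obtain ⟨g, hg, hge⟩ := hm2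
  rw [Filter.EventuallyEq, ae_restrict_iff' hE₀] at hge
  set N' : Set V := toMeasurable μ {z | ¬ (z ∈ E \ N → (ψ' z).det = g z)} with hN'
  have hN'0 : μ N' = 0 := by rw [hN', measure_toMeasurable]; exact hge
  have hN'm : MeasurableSet N' := measurableSet_toMeasurable _ _
  refine ⟨(E \ N) \ N', fun z hz => hz.1.1, hE₀.diff hN'm, ?_, fun z hz =>
    (hder₀ z hz.1).mono sdiff_subset, g, hg, ?_⟩
  · refine measure_mono_null (t := N ∪ N') ?_ (measure_union_null hN0 hN'0)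
    intro z hz
    by_cases h1 : z ∈ N
    · exact Or.inl h1
    · by_cases h2 : z ∈ N'
      · exact Or.inr h2
      · exact absurd ⟨⟨hz.1, h1⟩, h2⟩ hz.2
  · intro z hz
    have h1 : z ∉ {z | ¬ (z ∈ E \ N → (ψ' z).det = g z)} := fun h =>
      hz.2 (subset_toMeasurable _ _ h)
    simp only [mem_ofPred_eq, not_not] at h1
    exact h1 hz.1

/-- Countable measurable partition into pieces on which `ψ` is injective. -/
lemma exists_partition {E : Set V} (hE : MeasurableSet E) {ψ : V → V} {ψ' : V → V →L[ℝ] V}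
    (hder : ∀ z ∈ E, HasFDerivWithinAt ψ (ψ' z) E z) (hdet : ∀ z ∈ E, (ψ' z).det ≠ 0) :
    ∃ t : ℕ → Set V, Pairwise (Function.onFun Disjoint t) ∧ (∀ n, MeasurableSet (t n)) ∧
      (⋃ n, t n) = E ∧ ∀ n, InjOn ψ (t n) := by
  classical
  rcases E.eq_empty_or_nonempty with rfl | hne
  · exact ⟨fun _ => ∅, fun i j _ => by simp [Function.onFun], fun _ => MeasurableSet.empty,
      by simp, fun _ => by simp⟩
  -- the approximation quality
  let r : (V →L[ℝ] V) → ℝ≥0 := fun A =>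
    if h : A.det ≠ 0 then
      (if ‖((A.toContinuousLinearEquivOfDetNeZero h).symm : V →L[ℝ] V)‖₊ = 0 then 1
        else ‖((A.toContinuousLinearEquivOfDetNeZero h).symm : V →L[ℝ] V)‖₊⁻¹ / 2)
    else 1
  have rpos : ∀ A, r A ≠ 0 := by
    intro A
    simp only [r]
    split_ifs with h1 h2
    · exact one_ne_zero
    · positivity
    · exact one_ne_zero
  obtain ⟨t, A, hdis, hmeas, hcov, happ, hA⟩ :=
    exists_partition_approximatesLinearOn_of_hasFDerivWithinAt ψ E ψ' hder r rpos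
  refine ⟨fun n => E ∩ t n, ?_, fun n => hE.inter (hmeas n), ?_, ?_⟩
  · intro i j hij
    exact (hdis hij).mono inter_subset_right inter_subset_right
  · rw [← inter_iUnion]; exact inter_eq_left.2 hcov
  · intro n
    obtain ⟨y, hy, hAy⟩ := hA hne n
    have hdetn : (A n).det ≠ 0 := by rw [hAy]; exact hdet y hy
    set B := (A n).toContinuousLinearEquivOfDetNeZero hdetn with hB
    have hBA : (B : V →L[ℝ] V) = A n := by
      rw [hB]; exact ContinuousLinearMap.coe_toContinuousLinearEquivOfDetNeZero _ _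
    have happn : ApproximatesLinearOn ψ (B : V →L[ℝ] V) (E ∩ t n) (r (A n)) := by
      rw [hBA]; exact happ n
    apply happn.injOn
    by_cases h0 : ‖(B.symm : V →L[ℝ] V)‖₊ = 0
    · left
      have h1 : (B.symm : V →L[ℝ] V) = 0 := by simpa using h0
      refine ⟨fun a b => ?_⟩
      have ha : B.symm (B a) = 0 := by
        have := congrArg (fun L : V →L[ℝ] V => L (B a)) h1
        simpa using this
      have hb : B.symm (B b) = 0 := by
        have := congrArg (fun L : V →L[ℝ] V => L (B b)) h1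
        simpa using this
      simp only [ContinuousLinearEquiv.symm_apply_apply] at ha hb
      rw [ha, hb]
    · right
      have : r (A n) = ‖(B.symm : V →L[ℝ] V)‖₊⁻¹ / 2 := by
        simp only [r]
        rw [dif_pos hdetn, if_neg h0]
      rw [this]
      exact NNReal.half_lt_self (by positivity)

/-- The density on one injective piece. -/
lemma piece {P : Set V} (hP : MeasurableSet P) {ψ : V → V} {ψ' : V → V →L[ℝ] V}
    (hder : ∀ z ∈ P, HasFDerivWithinAt ψ (ψ' z) P z) (hinj : InjOn ψ P)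
    {w : V → ℤ} (hw : Measurable w) :
    ∃ Θ : V → ℤ, Measurable Θ ∧ (∀ z ∈ P, Θ (ψ z) = w z) ∧ (∀ x, x ∉ ψ '' P → Θ x = 0) := by
  classical
  have hemb := measurableEmbedding_of_fderivWithin hP hder hinj
  refine ⟨Function.extend (P.domRestrict ψ) (fun z : P => w z) (fun _ => 0),
    hemb.measurable_extend (hw.comp measurable_subtype_coe) measurable_const, ?_, ?_⟩
  · intro z hz
    exact hemb.injective.extend_apply _ _ (⟨z, hz⟩ : P)
  · intro x hx
    apply Function.extend_apply'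
    rintro ⟨z, rfl⟩
    exact hx ⟨z, z.2, rfl⟩

/-- Countable sums of integer-valued functions with summable `L¹` norms. -/
lemma sum_int {α : Type*} [MeasurableSpace α] {μ : Measure α} {Θ : ℕ → α → ℤ}
    (hm : ∀ n, Measurable (Θ n)) (hi : ∀ n, Integrable (fun x => (Θ n x : ℝ)) μ)
    (hs : Summable fun n => ∫ x, |(Θ n x : ℝ)| ∂μ) :
    ∃ T : α → ℤ, Measurable T ∧ Integrable (fun x => (T x : ℝ)) μ ∧
      (∫ x, |(T x : ℝ)| ∂μ ≤ ∑' n, ∫ x, |(Θ n x : ℝ)| ∂μ) ∧
      (∀ᵐ x ∂μ, (Function.support fun n => Θ n x).Finite ∧ HasSum (fun n => Θ n x) (T x)) ∧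
      (∀ x, (∀ n, Θ n x = 0) → T x = 0) ∧
      ∀ G : α → ℝ, Measurable G → (∃ C, ∀ x, |G x| ≤ C) →
        HasSum (fun n => ∫ x, G x * Θ n x ∂μ) (∫ x, G x * T x ∂μ) := by
  have hfin : ∑' n, ∫⁻ x, ‖(Θ n x : ℝ)‖ₑ ∂μ ≠ ∞ := by
    have h1 : ∀ n, ∫⁻ x, ‖(Θ n x : ℝ)‖ₑ ∂μ = ENNReal.ofReal (∫ x, |(Θ n x : ℝ)| ∂μ) := by
      intro n
      rw [← ofReal_integral_norm_eq_lintegral_enorm (hi n)]
      rfl
    simp_rw [h1]
    exact hs.tsum_ofReal_ne_top
  have hmeas : ∀ n, Measurable fun x => ‖(Θ n x : ℝ)‖ₑ := fun n =>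
    (measurable_of_countable (fun z : ℤ => ‖(z : ℝ)‖ₑ)).comp (hm n)
  have hlin : ∫⁻ x, ∑' n, ‖(Θ n x : ℝ)‖ₑ ∂μ = ∑' n, ∫⁻ x, ‖(Θ n x : ℝ)‖ₑ ∂μ :=
    lintegral_tsum fun n => (hmeas n).aemeasurable
  have hae : ∀ᵐ x ∂μ, ∑' n, ‖(Θ n x : ℝ)‖ₑ < ∞ := by
    apply ae_lt_top (Measurable.tsum hmeas)
    rw [hlin]; exact hfin
  have hsupp : ∀ x, ∑' n, ‖(Θ n x : ℝ)‖ₑ < ∞ → (Function.support fun n => Θ n x).Finite := by
    intro x hx
    have h2 : Tendsto (fun n => ‖(Θ n x : ℝ)‖ₑ) cofinite (𝓝 0) :=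
      ENNReal.tendsto_cofinite_zero_of_tsum_ne_top hx.ne
    have h3 : ∀ᶠ n in cofinite, ‖(Θ n x : ℝ)‖ₑ < 1 :=
      h2.eventually (gt_mem_nhds one_pos)
    refine Set.Finite.subset h3 ?_
    intro n hn
    simp only [Function.mem_support, ne_eq] at hn
    simp only [mem_compl_iff, mem_ofPred_eq, not_lt]
    have h4 : (1 : ℝ) ≤ |(Θ n x : ℝ)| := by exact_mod_cast Int.one_le_abs hn
    rw [← ofReal_norm, ← ENNReal.ofReal_one]
    exact ENNReal.ofReal_le_ofReal h4
  have hmF : Measurable fun x => ∑' n, (Θ n x : ℝ) := by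
    apply Measurable.tsum
    intro n
    exact (measurable_of_countable (fun z : ℤ => (z : ℝ))).comp (hm n)
  let T : α → ℤ := fun x => ⌊∑' n, (Θ n x : ℝ)⌋
  have hT : Measurable T := Int.measurable_floor.comp hmF
  have hTsum : ∀ᵐ x ∂μ, (Function.support fun n => Θ n x).Finite ∧
      HasSum (fun n => Θ n x) (T x) ∧ HasSum (fun n => (Θ n x : ℝ)) (T x : ℝ) := by
    filter_upwards [hae] with x hx
    have hf := hsupp x hx
    have h1 : HasSum (fun n => Θ n x) (∑' n, Θ n x) :=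
      (summable_of_hasFiniteSupport hf).hasSum
    have h2 : HasSum (fun n => (Θ n x : ℝ)) ((∑' n, Θ n x : ℤ) : ℝ) := by
      exact h1.map (Int.castAddHom ℝ) (continuous_of_discreteTopology)
    have h3 : T x = ∑' n, Θ n x := by
      simp only [T]
      rw [h2.tsum_eq, Int.floor_intCast]
    refine ⟨hf, ?_, ?_⟩
    · rw [h3]; exact h1
    · rw [h3]; exact h2
  have hle : ∫⁻ x, ‖(T x : ℝ)‖ₑ ∂μ ≤ ∑' n, ∫⁻ x, ‖(Θ n x : ℝ)‖ₑ ∂μ := by
    rw [← hlin]
    apply lintegral_mono_ae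
    filter_upwards [hTsum] with x hx
    rw [← hx.2.2.tsum_eq]
    exact enorm_tsum_le_tsum_enorm
  have hTm : Measurable fun x => (T x : ℝ) :=
    (measurable_of_countable (fun z : ℤ => (z : ℝ))).comp hT
  have hTi : Integrable (fun x => (T x : ℝ)) μ :=
    ⟨hTm.aestronglyMeasurable, lt_of_le_of_lt hle (lt_top_iff_ne_top.2 hfin)⟩
  refine ⟨T, hT, hTi, ?_, ?_, fun x hx => by simp [T, hx], ?_⟩
  · have h1 : ENNReal.ofReal (∫ x, |(T x : ℝ)| ∂μ)
        ≤ ENNReal.ofReal (∑' n, ∫ x, |(Θ n x : ℝ)| ∂μ) := by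
      rw [ENNReal.ofReal_tsum_of_nonneg (fun n => integral_nonneg fun x => abs_nonneg _) hs]
      have h2 := ofReal_integral_norm_eq_lintegral_enorm hTi
      simp only [Real.norm_eq_abs] at h2
      rw [h2]
      refine hle.trans (ENNReal.tsum_le_tsum fun n => ?_)
      have h3 := ofReal_integral_norm_eq_lintegral_enorm (hi n)
      simp only [Real.norm_eq_abs] at h3
      rw [h3]
    rwa [ENNReal.ofReal_le_ofReal_iff
      (tsum_nonneg fun n => integral_nonneg fun x => abs_nonneg _)] at h1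
  · filter_upwards [hTsum] with x hx using ⟨hx.1, hx.2.1⟩
  · intro G hG ⟨C, hC⟩
    have hGi : ∀ n, Integrable (fun x => G x * (Θ n x : ℝ)) μ := fun n =>
      (hi n).bdd_mul hG.aestronglyMeasurable (Eventually.of_forall fun x => hC x)
    have hsG : Summable fun n => ∫ x, ‖G x * (Θ n x : ℝ)‖ ∂μ := by
      refine Summable.of_nonneg_of_le (fun n => integral_nonneg fun x => norm_nonneg _)
        (fun n => ?_) (hs.mul_left |C|)
      rw [← integral_const_mul]
      apply integral_mono (hGi n).norm ((hi n).abs.const_mul _)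
      intro x
      simp only [norm_mul, Real.norm_eq_abs]
      exact mul_le_mul_of_nonneg_right ((hC x).trans (le_abs_self C)) (abs_nonneg _)
    have h1 := hasSum_integral_of_summable_integral_norm hGi hsG
    have h2 : ∫ x, ∑' n, G x * (Θ n x : ℝ) ∂μ = ∫ x, G x * T x ∂μ := by
      apply integral_congr_ae
      filter_upwards [hTsum] with x hx
      rw [tsum_mul_left, hx.2.2.tsum_eq]
    rw [h2] at h1
    exact h1

/-- **Area formula with integer weights** (unsigned Jacobian).  The push-forward under `ψ` of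
`w |det ψ'| dz` on `E` has an integer-valued integrable density `Θ`. -/
theorem area_int (μ : Measure V) [μ.IsAddHaarMeasure] {E : Set V} (hE : MeasurableSet E)
    {ψ : V → V} {ψ' : V → V →L[ℝ] V}
    (hd : ∀ᵐ z ∂(μ.restrict E), HasFDerivWithinAt ψ (ψ' z) E z) {w : V → ℤ}
    (hw : Integrable (fun z => (w z : ℝ) * |(ψ' z).det|) (μ.restrict E)) :
    ∃ Θ : V → ℤ, Measurable Θ ∧ Integrable (fun x => (Θ x : ℝ)) μ ∧
      (∫ x, |(Θ x : ℝ)| ∂μ ≤ ∫ z in E, |(w z : ℝ)| * |(ψ' z).det| ∂μ) ∧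
      (∀ x, x ∉ ψ '' E → Θ x = 0) ∧
      ∀ G : V → ℝ, Measurable G → (∃ C, ∀ x, |G x| ≤ C) →
        ∫ z in E, (w z : ℝ) * G (ψ z) * |(ψ' z).det| ∂μ = ∫ x, G x * Θ x ∂μ := by
  classical
  obtain ⟨E₁, hE₁E, hE₁m, hE₁0, hder₁, g, hg, hgdet⟩ := exists_good_set μ hE hd
  set E₂ : Set V := E₁ ∩ {z | g z ≠ 0} with hE₂
  have hE₂m : MeasurableSet E₂ :=
    hE₁m.inter (hg (measurableSet_singleton (0 : ℝ))).compl
  have hE₂E : E₂ ⊆ E := fun z hz => hE₁E hz.1
  have hder₂ : ∀ z ∈ E₂, HasFDerivWithinAt ψ (ψ' z) E₂ z := fun z hz =>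
    (hder₁ z hz.1).mono inter_subset_left
  have hdet₂ : ∀ z ∈ E₂, (ψ' z).det ≠ 0 := fun z hz => by rw [hgdet z hz.1]; exact hz.2
  -- integrals over `E` are integrals over `E₂`
  have hred : ∀ F : V → ℝ, (∀ z, (ψ' z).det = 0 → F z = 0) →
      ∫ z in E, F z ∂μ = ∫ z in E₂, F z ∂μ := by
    intro F hF
    apply setIntegral_eq_of_subset_of_ae_sdiff_eq_zero hE.nullMeasurableSet hE₂E
    have h0 : ∀ᵐ z ∂μ, z ∉ E \ E₁ := measure_eq_zero_iff_ae_notMem.1 hE₁0
    filter_upwards [h0] with z hz hzE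
    apply hF
    have hz1 : z ∈ E₁ := by
      by_contra h
      exact hz ⟨hzE.1, h⟩
    rw [hgdet z hz1]
    by_contra h
    exact hzE.2 ⟨hz1, h⟩
  have hw₂ : Integrable (fun z => (w z : ℝ) * |(ψ' z).det|) (μ.restrict E₂) :=
    hw.mono_measure (Measure.restrict_mono hE₂E le_rfl)
  -- a measurable version of `w` on `E₂`
  obtain ⟨w', hw'm, hw'e⟩ : ∃ w' : V → ℤ, Measurable w' ∧ ∀ᵐ z ∂(μ.restrict E₂), w z = w' z := by
    obtain ⟨h, hh, hhe⟩ := hw₂.aestronglyMeasurable.aemeasurable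
    refine ⟨fun z => ⌊h z * |g z|⁻¹⌋, Int.measurable_floor.comp (hh.mul hg.abs.inv), ?_⟩
    rw [Filter.EventuallyEq] at hhe
    filter_upwards [hhe, ae_restrict_mem hE₂m] with z hz hz2
    rw [← hz, hgdet z hz2.1, mul_assoc, mul_inv_cancel₀ (abs_ne_zero.2 hz2.2), mul_one,
      Int.floor_intCast]
  obtain ⟨t, htd, htm, htU, htinj⟩ := exists_partition hE₂m hder₂ hdet₂
  have htE₂ : ∀ n, t n ⊆ E₂ := fun n => by rw [← htU]; exact subset_iUnion t n
  have hdert : ∀ n, ∀ z ∈ t n, HasFDerivWithinAt ψ (ψ' z) (t n) z := fun n z hz =>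
    (hder₂ z (htE₂ n hz)).mono (htE₂ n)
  choose Θ hΘm hΘψ hΘ0 using fun n => piece (htm n) (hdert n) (htinj n) hw'm
  -- change of variables on one piece
  have hcv : ∀ n, ∀ G : V → ℝ, ∫ x in ψ '' t n, G x * Θ n x ∂μ
      = ∫ z in t n, (w z : ℝ) * G (ψ z) * |(ψ' z).det| ∂μ := by
    intro n G
    rw [integral_image_eq_integral_abs_det_fderiv_smul μ (htm n) (hdert n) (htinj n)]
    apply setIntegral_congr_ae (htm n)
    have h1 : ∀ᵐ z ∂μ, z ∈ E₂ → w z = w' z := by
      rwa [ae_restrict_iff' hE₂m] at hw'e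
    filter_upwards [h1] with z hz hzt
    rw [hΘψ n z hzt, hz (htE₂ n hzt), smul_eq_mul]
    ring
  have hcv' : ∀ n, ∫ x, |(Θ n x : ℝ)| ∂μ = ∫ z in t n, |(w z : ℝ)| * |(ψ' z).det| ∂μ := by
    intro n
    rw [← setIntegral_eq_integral_of_forall_compl_eq_zero (s := ψ '' t n)
      (fun x hx => by rw [hΘ0 n x hx]; simp),
      integral_image_eq_integral_abs_det_fderiv_smul μ (htm n) (hdert n) (htinj n)]
    apply setIntegral_congr_ae (htm n)
    have h1 : ∀ᵐ z ∂μ, z ∈ E₂ → w z = w' z := by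
      rwa [ae_restrict_iff' hE₂m] at hw'e
    filter_upwards [h1] with z hz hzt
    rw [hΘψ n z hzt, hz (htE₂ n hzt), smul_eq_mul]
    ring
  have hΘi : ∀ n, Integrable (fun x => (Θ n x : ℝ)) μ := by
    intro n
    rw [← integrableOn_iff_integrable_of_support_subset (s := ψ '' t n)]
    · rw [integrableOn_image_iff_integrableOn_abs_det_fderiv_smul μ (htm n) (hdert n) (htinj n)]
      have h2 : IntegrableOn (fun z => (w z : ℝ) * |(ψ' z).det|) (t n) μ :=
        hw₂.mono_measure (Measure.restrict_mono (htE₂ n) le_rfl)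
      refine Integrable.congr h2 ?_
      have h1 : ∀ᵐ z ∂(μ.restrict (t n)), w z = w' z :=
        ae_mono (Measure.restrict_mono (htE₂ n) le_rfl) hw'e
      filter_upwards [h1, ae_restrict_mem (htm n)] with z hz hzt
      rw [hΘψ n z hzt, hz, smul_eq_mul]
      ring
    · intro x hx
      by_contra h
      exact hx (by simp [hΘ0 n x h])
  have hwabs : IntegrableOn (fun z => |(w z : ℝ)| * |(ψ' z).det|) E₂ μ := by
    refine hw₂.abs.congr ?_
    filter_upwards with z
    simp [abs_mul]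
  have hsumabs : HasSum (fun n => ∫ z in t n, |(w z : ℝ)| * |(ψ' z).det| ∂μ)
      (∫ z in E₂, |(w z : ℝ)| * |(ψ' z).det| ∂μ) := by
    have := hasSum_integral_iUnion (μ := μ) (f := fun z => |(w z : ℝ)| * |(ψ' z).det|) htm htd
      (by rw [htU]; exact hwabs)
    rwa [htU] at this
  have hsum : Summable fun n => ∫ x, |(Θ n x : ℝ)| ∂μ := by
    simp_rw [hcv']
    exact hsumabs.summable
  obtain ⟨T, hTm, hTi, hTle, -, hT0, hTG⟩ := sum_int hΘm hΘi hsum
  refine ⟨T, hTm, hTi, ?_, ?_, ?_⟩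
  · refine hTle.trans ?_
    simp_rw [hcv']
    rw [hsumabs.tsum_eq, hred (fun z => |(w z : ℝ)| * |(ψ' z).det|) (fun z hz => by simp [hz])]
  · intro x hx
    apply hT0
    intro n
    apply hΘ0
    rintro ⟨z, hz, rfl⟩
    exact hx ⟨z, hE₂E (htE₂ n hz), rfl⟩
  · intro G hG hGb
    have h1 := hTG G hG hGb
    rw [hred (fun z => (w z : ℝ) * G (ψ z) * |(ψ' z).det|) (fun z hz => by simp [hz])]
    have h2 : HasSum (fun n => ∫ z in t n, (w z : ℝ) * G (ψ z) * |(ψ' z).det| ∂μ)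
        (∫ z in E₂, (w z : ℝ) * G (ψ z) * |(ψ' z).det| ∂μ) := by
      have := hasSum_integral_iUnion (μ := μ)
        (f := fun z => (w z : ℝ) * G (ψ z) * |(ψ' z).det|) htm htd ?_
      · rwa [htU] at this
      · rw [htU]
        obtain ⟨C, hC⟩ := hGb
        have hGm : AEStronglyMeasurable (fun z => G (ψ z)) (μ.restrict E₂) := by
          have hc : ContinuousOn ψ E₂ := fun z hz => (hder₂ z hz).continuousWithinAt
          exact (hG.comp_aemeasurable (hc.aemeasurable hE₂m)).aestronglyMeasurable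
        have h3 := hw₂.bdd_mul hGm (Eventually.of_forall fun z => hC (ψ z))
        refine h3.congr ?_
        filter_upwards with z
        ring
    have h3 : (fun n => ∫ x, G x * Θ n x ∂μ)
        = fun n => ∫ z in t n, (w z : ℝ) * G (ψ z) * |(ψ' z).det| ∂μ := by
      funext n
      rw [← hcv n G, setIntegral_eq_integral_of_forall_compl_eq_zero]
      intro x hx
      rw [hΘ0 n x hx]; simp
    rw [h3] at h1
    exact h2.unique h1

/-- **Area formula with integer weights** (signed Jacobian, degree version). -/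
theorem degree_int (μ : Measure V) [μ.IsAddHaarMeasure] {E : Set V} (hE : MeasurableSet E)
    {ψ : V → V} {ψ' : V → V →L[ℝ] V}
    (hd : ∀ᵐ z ∂(μ.restrict E), HasFDerivWithinAt ψ (ψ' z) E z) {θ : V → ℤ}
    (hθ : Integrable (fun z => (θ z : ℝ) * (ψ' z).det) (μ.restrict E)) :
    ∃ Θ : V → ℤ, Measurable Θ ∧ Integrable (fun x => (Θ x : ℝ)) μ ∧
      (∫ x, |(Θ x : ℝ)| ∂μ ≤ ∫ z in E, |(θ z : ℝ)| * |(ψ' z).det| ∂μ) ∧
      (∀ x, x ∉ ψ '' E → Θ x = 0) ∧
      ∀ G : V → ℝ, Measurable G → (∃ C, ∀ x, |G x| ≤ C) →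
        ∫ z in E, (θ z : ℝ) * G (ψ z) * (ψ' z).det ∂μ = ∫ x, G x * Θ x ∂μ := by
  classical
  have hsg : ∀ z, ((θ z * (SignType.sign (ψ' z).det : ℤ) : ℤ) : ℝ) * |(ψ' z).det|
      = (θ z : ℝ) * (ψ' z).det := by
    intro z
    push_cast
    rw [mul_assoc]
    congr 1
    exact sign_mul_abs _
  obtain ⟨Θ, h1, h2, h3, h4, h5⟩ := area_int μ hE hd
    (w := fun z => θ z * (SignType.sign (ψ' z).det : ℤ)) (by simp_rw [hsg]; exact hθ)
  refine ⟨Θ, h1, h2, h3.trans_eq ?_, h4, fun G hG hb => ?_⟩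
  · congr 1
    ext z
    have := congrArg abs (hsg z)
    rw [abs_mul, abs_mul, abs_abs] at this
    exact this
  · rw [← h5 G hG hb]
    congr 1
    ext z
    have := hsg z
    rw [mul_right_comm, ← this]
    ring

end Crest.Agent.R241.B6
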