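import Mathlib
import Crest.Prelude.Def_MetricCurrent
import Crest.Agent.R241.B6

/-!
# R241, block B6, part b (helper212): the area formula in the form of `chartAction`.
-/

set_option autoImplicit false

open MeasureTheory Measure Set Filter Topology
open scoped ENNReal NNReal

namespace Crest.Agent.R241.B6

open Crest.GeometryTopology.Submanifold (Euc)

section general

variable {V : Type*} [NormedAddCommGroup V] [NormedSpace ℝ V] [FiniteDimensional ℝ V]
  [MeasurableSpace V] [BorelSpace V]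

/-- `|det A| ≤ ‖A‖^d`. -/
lemma abs_det_le (A : V →L[ℝ] V) : |A.det| ≤ ‖A‖ ^ Module.finrank ℝ V := by
  let μ : Measure V := addHaar
  have h1 : μ (A '' Metric.closedBall 0 1)
      = ENNReal.ofReal |A.det| * μ (Metric.closedBall 0 1) :=
    addHaar_image_continuousLinearMap μ A _
  have h2 : μ (A '' Metric.closedBall 0 1) ≤ μ (Metric.closedBall 0 ‖A‖) := by
    apply measure_mono
    rintro _ ⟨x, hx, rfl⟩
    rw [mem_closedBall_zero_iff] at hx ⊢
    calc ‖A x‖ ≤ ‖A‖ * ‖x‖ := A.le_opNorm x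
      _ ≤ ‖A‖ * 1 := by gcongr
      _ = ‖A‖ := mul_one _
  rw [h1, addHaar_closedBall' μ 0 (norm_nonneg A)] at h2
  have h3 : μ (Metric.closedBall (0 : V) 1) ≠ 0 :=
    (Metric.measure_closedBall_pos μ 0 one_pos).ne'
  have h4 : μ (Metric.closedBall (0 : V) 1) ≠ ∞ := measure_closedBall_lt_top.ne
  rw [ENNReal.mul_le_mul_iff_left h3 h4] at h2
  exact (ENNReal.ofReal_le_ofReal_iff (by positivity)).1 h2

/-- The derivative within `E` of an `L`-Lipschitz map is a.e. bounded by `L`. -/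
lemma ae_norm_le (μ : Measure V) [μ.IsAddHaarMeasure] {E : Set V} (hE : MeasurableSet E)
    {ψ : V → V} {ψ' : V → V →L[ℝ] V} {L : ℝ≥0} (hL : LipschitzOnWith L ψ E)
    (hd : ∀ᵐ z ∂(μ.restrict E), HasFDerivWithinAt ψ (ψ' z) E z) :
    ∀ᵐ z ∂(μ.restrict E), ‖ψ' z‖ ≤ L := by
  obtain ⟨E₁, hE₁E, hE₁m, hE₁0, hder₁, -⟩ := exists_good_set μ hE hd
  have happ : ApproximatesLinearOn ψ (0 : V →L[ℝ] V) E₁ L := by
    intro x hx y hy
    have := hL.dist_le_mul x (hE₁E hx) y (hE₁E hy)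
    rw [dist_eq_norm, dist_eq_norm] at this
    simpa using this
  have h1 := happ.norm_fderiv_sub_le μ hE₁m ψ' hder₁
  rw [ae_restrict_iff' hE₁m] at h1
  rw [ae_restrict_iff' hE]
  have h0 : ∀ᵐ z ∂μ, z ∉ E \ E₁ := measure_eq_zero_iff_ae_notMem.1 hE₁0
  filter_upwards [h0, h1] with z hz hz1 hzE
  have hz2 : z ∈ E₁ := by
    by_contra h
    exact hz ⟨hzE, h⟩
  have := hz1 hz2
  rw [sub_zero] at this
  exact_mod_cast this

lemma aemeasurable_det (μ : Measure V) [μ.IsAddHaarMeasure] {E : Set V} (hE : MeasurableSet E)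
    {ψ : V → V} {ψ' : V → V →L[ℝ] V}
    (hd : ∀ᵐ z ∂(μ.restrict E), HasFDerivWithinAt ψ (ψ' z) E z) :
    AEMeasurable (fun z => (ψ' z).det) (μ.restrict E) := by
  obtain ⟨E₁, hE₁E, hE₁m, hE₁0, hder₁, g, hg, hge⟩ := exists_good_set μ hE hd
  refine ⟨g, hg, ?_⟩
  rw [Filter.EventuallyEq, ae_restrict_iff' hE]
  have h0 : ∀ᵐ z ∂μ, z ∉ E \ E₁ := measure_eq_zero_iff_ae_notMem.1 hE₁0
  filter_upwards [h0] with z hz hzE
  apply hge
  by_contra h
  exact hz ⟨hzE, h⟩

/-- Integrability of `θ det ψ'` for Lipschitz `ψ`. -/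
lemma integrable_det (μ : Measure V) [μ.IsAddHaarMeasure] {E : Set V} (hE : MeasurableSet E)
    {ψ : V → V} {ψ' : V → V →L[ℝ] V} {L : ℝ≥0} (hL : LipschitzOnWith L ψ E)
    (hd : ∀ᵐ z ∂(μ.restrict E), HasFDerivWithinAt ψ (ψ' z) E z) {θ : V → ℝ}
    (hθ : Integrable θ (μ.restrict E)) :
    Integrable (fun z => θ z * (ψ' z).det) (μ.restrict E) := by
  have h1 := ae_norm_le μ hE hL hd
  refine hθ.mul_bdd (c := (L : ℝ) ^ Module.finrank ℝ V)
    (aemeasurable_det μ hE hd).aestronglyMeasurable ?_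
  filter_upwards [h1] with z hz
  refine (abs_det_le (ψ' z)).trans ?_
  gcongr

end general

section chart

variable {k : ℕ}

/-- The linear map with prescribed components. -/
noncomputable def mkL (A : Fin k → (Euc k →L[ℝ] ℝ)) : Euc k →L[ℝ] Euc k :=
  ((EuclideanSpace.equiv (Fin k) ℝ).symm : (Fin k → ℝ) →L[ℝ] Euc k) ∘L
    (ContinuousLinearMap.pi A)

lemma mkL_apply (A : Fin k → (Euc k →L[ℝ] ℝ)) (v : Euc k) (i : Fin k) : mkL A v i = A i v := rfl

lemma proj_mkL (A : Fin k → (Euc k →L[ℝ] ℝ)) (i : Fin k) :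
    PiLp.proj 2 (fun _ : Fin k => ℝ) i ∘L mkL A = A i := by
  rfl

lemma det_mkL (A : Fin k → (Euc k →L[ℝ] ℝ)) :
    (mkL A).det = (Matrix.of fun i j => A i (EuclideanSpace.single j 1)).det := by
  have h := LinearMap.det_toMatrix (EuclideanSpace.basisFun (Fin k) ℝ).toBasis
    ((mkL A : Euc k →L[ℝ] Euc k) : Euc k →ₗ[ℝ] Euc k)
  rw [ContinuousLinearMap.det, ← h]
  congr 1

/-- The coordinate map `ψ = (u_1, …, u_k)`. -/
noncomputable def mkψ (u : Fin k → Euc k → ℝ) (z : Euc k) : Euc k :=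
  (EuclideanSpace.equiv (Fin k) ℝ).symm (fun i => u i z)

lemma mkψ_apply (u : Fin k → Euc k → ℝ) (z : Euc k) (i : Fin k) : mkψ u z i = u i z := rfl

lemma lipschitz_mkψ {u : Fin k → Euc k → ℝ} {E : Set (Euc k)}
    (hu : ∀ i, ∃ L : ℝ≥0, LipschitzOnWith L (u i) E) :
    ∃ L : ℝ≥0, LipschitzOnWith L (mkψ u) E := by
  choose L hL using hu
  have h1 : LipschitzOnWith (∑ i, L i) (fun z i => u i z) E := by
    refine LipschitzOnWith.of_dist_le_mul fun x hx y hy => ?_
    rw [dist_pi_le_iff (by positivity)]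
    intro i
    refine ((hL i).dist_le_mul x hx y hy).trans ?_
    gcongr
    exact_mod_cast Finset.single_le_sum (f := L) (fun j _ => zero_le) (Finset.mem_univ i)
  obtain ⟨K, hK⟩ : ∃ K : ℝ≥0, LipschitzWith K (EuclideanSpace.equiv (Fin k) ℝ).symm :=
    ⟨_, (EuclideanSpace.equiv (Fin k) ℝ).symm.lipschitz⟩
  exact ⟨_, hK.comp_lipschitzOnWith h1⟩

lemma ae_hasFDerivWithinAt_mkψ {u : Fin k → Euc k → ℝ} {E : Set (Euc k)} (hE : MeasurableSet E)
    (hu : ∀ i, ∃ L : ℝ≥0, LipschitzOnWith L (u i) E) :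
    ∀ᵐ z ∂(volume.restrict E),
      HasFDerivWithinAt (mkψ u) (mkL fun i => fderivWithin ℝ (u i) E z) E z := by
  have h1 : ∀ i, ∀ᵐ z ∂((volume : Measure (Euc k)).restrict E),
      DifferentiableWithinAt ℝ (u i) E z := by
    intro i
    obtain ⟨L, hL⟩ := hu i
    exact hL.ae_differentiableWithinAt hE
  rw [← ae_all_iff] at h1
  filter_upwards [h1] with z hz
  rw [hasFDerivWithinAt_euclidean]
  intro i
  rw [proj_mkL]
  exact (hz i).hasFDerivWithinAt

/-- **Area formula in chart form.**  For coordinate functions `u_i` Lipschitz on the Borel set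
`E` and an integer density `θ` integrable on `E`, the measure
`G ↦ ∫_{E ∩ B} θ G(ψ) det(∂_j u_i)` has an integer-valued integrable density on `ℝ^k`. -/
theorem chart_density {E : Set (Euc k)} (hE : MeasurableSet E) {u : Fin k → Euc k → ℝ}
    (hu : ∀ i, ∃ L : ℝ≥0, LipschitzOnWith L (u i) E) {θ : Euc k → ℤ}
    (hθ : Integrable (fun z => (θ z : ℝ)) (volume.restrict E)) {B : Set (Euc k)}
    (hB : MeasurableSet B) :
    ∃ Θ : Euc k → ℤ, Measurable Θ ∧ Integrable (fun x => (Θ x : ℝ)) ∧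
      (∀ x, x ∉ mkψ u '' (E ∩ B) → Θ x = 0) ∧
      (∫ x, |(Θ x : ℝ)| ≤ ∫ z in E ∩ B, |(θ z : ℝ)| * |(Matrix.of fun i j =>
          fderivWithin ℝ (u i) E z (EuclideanSpace.single j 1)).det|) ∧
      ∀ G : Euc k → ℝ, Measurable G → (∃ C, ∀ x, |G x| ≤ C) →
        ∫ z in E ∩ B, (θ z : ℝ) * G (mkψ u z) * (Matrix.of fun i j =>
          fderivWithin ℝ (u i) E z (EuclideanSpace.single j 1)).det = ∫ x, G x * Θ x := by
  obtain ⟨L, hL⟩ := lipschitz_mkψ hu
  have hd := ae_hasFDerivWithinAt_mkψ hE hu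
  have hd' : ∀ᵐ z ∂((volume : Measure (Euc k)).restrict (E ∩ B)),
      HasFDerivWithinAt (mkψ u) (mkL fun i => fderivWithin ℝ (u i) E z) (E ∩ B) z := by
    have := ae_mono (Measure.restrict_mono (inter_subset_left (s := E) (t := B)) le_rfl) hd
    filter_upwards [this] with z hz
    exact hz.mono inter_subset_left
  have hi := integrable_det volume hE hL hd hθ
  obtain ⟨Θ, h1, h2, h3, h4, h5⟩ := degree_int (volume : Measure (Euc k)) (hE.inter hB) hd'
    (θ := θ) (hi.mono_measure (Measure.restrict_mono inter_subset_left le_rfl))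
  refine ⟨Θ, h1, h2, h4, ?_, ?_⟩
  · simpa only [det_mkL] using h3
  · simpa only [det_mkL] using h5

end chart

end Crest.Agent.R241.B6
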