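import Crest.Agent.R241.B7a
import Crest.Agent.R241.B6b

/-!
R241, block B7: integer rectifiable currents have integral projections.  Owner: helper191.
-/

set_option autoImplicit false

open MeasureTheory Filter Topology Set
open scoped ENNReal NNReal

universe u

namespace Crest.Agent.R241.B7Int

open Crest.GeometryTopology.Submanifold (Euc)
open Crest.GeometryTopology.MetricCurrent
open Crest.Agent.R241.B7ZD Crest.Agent.R241.B7Slice Crest.Agent.R241.G1 Crest.Agent.R241.B7a

variable {X : Type u} [MetricSpace X] [MeasurableSpace X] [BorelSpace X] {k : ℕ}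

omit [BorelSpace X] in
/-- A controlling measure with almost optimal total mass. -/
theorem exists_controls_lt {T : Functional X k} (hT : IsCurrent T) {ε : ℝ} (hε : 0 < ε) :
    ∃ μ : Measure X, IsFiniteMeasure μ ∧ Controls T μ ∧ μ.real univ < mass T + ε := by
  obtain ⟨μ₀, h1, h2⟩ := hT.finite_mass
  have hne : {r : ℝ | ∃ μ : Measure X, IsFiniteMeasure μ ∧ Controls T μ ∧
      r = (μ Set.univ).toReal}.Nonempty := ⟨_, μ₀, h1, h2, rfl⟩
  have hlt : sInf {r : ℝ | ∃ μ : Measure X, IsFiniteMeasure μ ∧ Controls T μ ∧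
      r = (μ Set.univ).toReal} < mass T + ε := by
    have : mass T = sInf {r : ℝ | ∃ μ : Measure X, IsFiniteMeasure μ ∧ Controls T μ ∧
      r = (μ Set.univ).toReal} := rfl
    linarith
  obtain ⟨r, ⟨μ, hμ1, hμ2, hμ3⟩, hr⟩ := exists_lt_of_csInf_lt hne hlt
  exact ⟨μ, hμ1, hμ2, by rw [hμ3] at hr; exact hr⟩

/-- Integer rectifiable currents have integral projections. -/
theorem zd_of_rect {S : Functional X k} (hS : IsCurrent S) (hR : IsIntegerRectifiable S)
    {σ : Fin k → X → ℝ} (hσ : LipT σ) : ZD (ctrl S) (tup σ) (dens S σ) := by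
  obtain ⟨E, φ, θ, hE, hφ, -, hθ, -, hcur, hsum, hT⟩ := hR
  have hpm : Measurable (tup σ) := measurable_tup hσ
  choose K hK using hσ
  have hσ : LipT σ := fun i => ⟨_, hK i⟩
  have hu : ∀ i j, ∃ L : ℝ≥0, LipschitzOnWith L (fun z => σ j (φ i z)) (E i) := by
    intro i j
    obtain ⟨L, hL⟩ := hφ i
    exact ⟨_, (hK j).comp_lipschitzOnWith hL⟩
  have hdens := fun i => B6.chart_density (hE i).1 (hu i) (hθ i) MeasurableSet.univ
  choose Θ hΘm hΘi _ _ hΘ using hdens
  -- the identity on bounded Lipschitz functions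
  have hid : ∀ i (G : Euc k → ℝ), BL G →
      chartAction (E i) (φ i) (θ i) (fun x => G (tup σ x)) σ = ∫ x, G x * (Θ i x : ℝ) := by
    intro i G hG
    have htp : IsTestPair (fun x => G (tup σ x)) σ := (BL_comp_tup hG hσ).isTestPair hσ
    unfold chartAction
    rw [if_pos htp]
    rw [← hΘ i G hG.measurable ⟨hG.2.choose, hG.2.choose_spec⟩]
    rw [inter_univ]
    rfl
  -- L¹ bounds
  have hbound : ∀ i, ∫ x, |(Θ i x : ℝ)| ≤
      (∏ j, (K j : ℝ)) * (mass (chartAction (E i) (φ i) (θ i)) + (1 / 2) ^ i) := by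
    intro i
    obtain ⟨μ, hμ1, hμ2, hμ3⟩ := exists_controls_lt (hcur i) (ε := (1 / 2) ^ i) (by positivity)
    obtain ⟨g, hg1, hg2, hg3⟩ := exists_dens (hcur i) hμ2 hK
    have hgi : Integrable g μ := by
      have : BM g := ⟨hg1, _, hg2⟩
      exact this.integrable μ
    have hd : IsDens μ (tup σ) g (fun x => (Θ i x : ℝ)) := by
      refine ⟨hΘi i, fun D hD => ?_⟩
      refine eq_of_BL (p := tup σ) (q := (id : Euc k → Euc k)) hpm measurable_id hgi (hΘi i)
        (fun G hG => ?_) D hD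
      have h1 := hg3 _ (BL_comp_tup hG hσ)
      rw [hid i G hG] at h1
      simp only [id]
      exact h1.symm
    refine (hd.integral_abs_le hpm hgi).trans ?_
    have h2 : ∫ x, |g x| ∂μ ≤ ∫ _, (∏ j, (K j : ℝ)) ∂μ :=
      integral_mono hgi.abs (integrable_const _) hg2
    refine h2.trans ?_
    rw [integral_const, smul_eq_mul, mul_comm]
    exact mul_le_mul_of_nonneg_left hμ3.le (Finset.prod_nonneg fun j _ => (K j).coe_nonneg)
  have hsummable : Summable fun i => ∫ x, |(Θ i x : ℝ)| := by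
    refine Summable.of_nonneg_of_le (fun i => integral_nonneg fun x => abs_nonneg _) hbound ?_
    exact (hsum.add (summable_geometric_of_lt_one (by norm_num) (by norm_num))).mul_left _
  obtain ⟨Υ, hΥm, hΥi, -, -, -, hΥG⟩ := B6.sum_int hΘm hΘi hsummable
  refine ⟨fun x => (Υ x : ℝ), ⟨hΥi, fun D hD => ?_⟩, ae_of_all _ fun x => ⟨Υ x, rfl⟩⟩
  refine eq_of_BL (p := tup σ) (q := (id : Euc k → Euc k)) hpm measurable_id
    (integrable_dens S σ) hΥi (fun G hG => ?_) D hD
  have hBL := BL_comp_tup hG hσ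
  have h1 := dens_spec hS hσ hBL
  rw [← h1, hT _ _ (hBL.isTestPair hσ)]
  have h2 := hΥG G hG.measurable ⟨hG.2.choose, hG.2.choose_spec⟩
  simp only [id]
  rw [← h2.tsum_eq]
  exact tsum_congr fun i => hid i G hG

end Crest.Agent.R241.B7Int
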