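import Mathlib
import Crest.Prelude.Def_MetricCurrent

/-!
R241, block B7: functions all of whose projections have integer-valued densities.
Owner: helper191.
-/

set_option autoImplicit false

open MeasureTheory Filter Topology Set
open scoped ENNReal NNReal

universe u

namespace Crest.Agent.R241.B7ZD

open Crest.GeometryTopology.Submanifold (Euc)

variable {X : Type u} [MeasurableSpace X] {k : ℕ}

/-- `u` is the density of the projection of the signed measure `h μ` under `p`. -/
def IsDens (μ : Measure X) (p : X → Euc k) (h : X → ℝ) (u : Euc k → ℝ) : Prop :=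
  Integrable u volume ∧
    ∀ D : Set (Euc k), MeasurableSet D → ∫ x in p ⁻¹' D, h x ∂μ = ∫ x in D, u x

/-- The projection of `h μ` under `p` has an integer valued density. -/
def ZD (μ : Measure X) (p : X → Euc k) (h : X → ℝ) : Prop :=
  ∃ u : Euc k → ℝ, IsDens μ p h u ∧ (∀ᵐ x, ∃ n : ℤ, u x = n)

variable {μ : Measure X} {p : X → Euc k} {h h₁ h₂ : X → ℝ} {u u₁ u₂ : Euc k → ℝ}

lemma IsDens.congr (H : IsDens μ p h₁ u) (e : h₁ =ᵐ[μ] h₂) : IsDens μ p h₂ u := by
  refine ⟨H.1, fun D hD => ?_⟩
  rw [← H.2 D hD]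
  exact (integral_congr_ae (ae_restrict_of_ae e)).symm

lemma IsDens.add (_hp : Measurable p) (i₁ : Integrable h₁ μ) (i₂ : Integrable h₂ μ)
    (H₁ : IsDens μ p h₁ u₁) (H₂ : IsDens μ p h₂ u₂) :
    IsDens μ p (fun x => h₁ x + h₂ x) (fun x => u₁ x + u₂ x) := by
  refine ⟨H₁.1.add H₂.1, fun D hD => ?_⟩
  rw [integral_add i₁.integrableOn i₂.integrableOn,
    integral_add H₁.1.integrableOn H₂.1.integrableOn, H₁.2 D hD, H₂.2 D hD]

lemma IsDens.sub (_hp : Measurable p) (i₁ : Integrable h₁ μ) (i₂ : Integrable h₂ μ)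
    (H₁ : IsDens μ p h₁ u₁) (H₂ : IsDens μ p h₂ u₂) :
    IsDens μ p (fun x => h₁ x - h₂ x) (fun x => u₁ x - u₂ x) := by
  refine ⟨H₁.1.sub H₂.1, fun D hD => ?_⟩
  rw [integral_sub i₁.integrableOn i₂.integrableOn,
    integral_sub H₁.1.integrableOn H₂.1.integrableOn, H₁.2 D hD, H₂.2 D hD]

/-- The density has smaller `L¹` norm. -/
lemma IsDens.integral_abs_le (hp : Measurable p) (i : Integrable h μ) (H : IsDens μ p h u) :
    ∫ x, |u x| ≤ ∫ x, |h x| ∂μ := by
  have hum := H.1.aestronglyMeasurable
  set v := hum.mk u with hv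
  have hvm : Measurable v := hum.stronglyMeasurable_mk.measurable
  have huv : u =ᵐ[volume] v := hum.ae_eq_mk
  set D : Set (Euc k) := {x | 0 ≤ v x} with hD
  have hDm : MeasurableSet D := measurableSet_le measurable_const hvm
  have hvi : Integrable v volume := H.1.congr huv
  have e0 : ∫ x, |u x| = ∫ x, |v x| := by
    apply integral_congr_ae
    filter_upwards [huv] with x hx
    rw [hx]
  have e1 : ∫ x, |v x| = (∫ x in D, |v x|) + ∫ x in Dᶜ, |v x| :=
    (integral_add_compl hDm hvi.abs).symm
  have e2 : ∫ x in D, |v x| = ∫ x in p ⁻¹' D, h x ∂μ := by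
    rw [H.2 D hDm]
    rw [setIntegral_congr_ae hDm (g := v) (huv.mono fun x hx _ => hx)]
    apply setIntegral_congr_fun hDm
    intro x hx
    exact abs_of_nonneg hx
  have e3 : ∫ x in Dᶜ, |v x| = -∫ x in p ⁻¹' Dᶜ, h x ∂μ := by
    rw [H.2 Dᶜ hDm.compl]
    rw [setIntegral_congr_ae hDm.compl (g := v) (huv.mono fun x hx _ => hx), ← integral_neg]
    apply setIntegral_congr_fun hDm.compl
    intro x hx
    have : v x < 0 := not_le.1 hx
    exact abs_of_neg this
  have e4 : ∫ x in p ⁻¹' D, h x ∂μ ≤ ∫ x in p ⁻¹' D, |h x| ∂μ :=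
    integral_mono i.integrableOn i.abs.integrableOn (fun x => le_abs_self _)
  have e5 : -∫ x in p ⁻¹' Dᶜ, h x ∂μ ≤ ∫ x in p ⁻¹' Dᶜ, |h x| ∂μ := by
    rw [← integral_neg]
    exact integral_mono i.neg.integrableOn i.abs.integrableOn (fun x => neg_le_abs _)
  have e6 : ∫ x, |h x| ∂μ = (∫ x in p ⁻¹' D, |h x| ∂μ) + ∫ x in p ⁻¹' Dᶜ, |h x| ∂μ := by
    rw [preimage_compl]
    exact (integral_add_compl (hp hDm) i.abs).symm
  rw [e0, e1, e2, e3, e6]
  exact add_le_add e4 e5

lemma ZD.congr (H : ZD μ p h₁) (e : h₁ =ᵐ[μ] h₂) : ZD μ p h₂ := by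
  obtain ⟨u, hu, hz⟩ := H
  exact ⟨u, hu.congr e, hz⟩

lemma ZD.add (hp : Measurable p) (i₁ : Integrable h₁ μ) (i₂ : Integrable h₂ μ)
    (H₁ : ZD μ p h₁) (H₂ : ZD μ p h₂) : ZD μ p (fun x => h₁ x + h₂ x) := by
  obtain ⟨u₁, hu₁, hz₁⟩ := H₁
  obtain ⟨u₂, hu₂, hz₂⟩ := H₂
  refine ⟨_, hu₁.add hp i₁ i₂ hu₂, ?_⟩
  filter_upwards [hz₁, hz₂] with x ⟨n₁, e₁⟩ ⟨n₂, e₂⟩
  exact ⟨n₁ + n₂, by rw [e₁, e₂]; push_cast; ring⟩

lemma ZD.sub (hp : Measurable p) (i₁ : Integrable h₁ μ) (i₂ : Integrable h₂ μ)
    (H₁ : ZD μ p h₁) (H₂ : ZD μ p h₂) : ZD μ p (fun x => h₁ x - h₂ x) := by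
  obtain ⟨u₁, hu₁, hz₁⟩ := H₁
  obtain ⟨u₂, hu₂, hz₂⟩ := H₂
  refine ⟨_, hu₁.sub hp i₁ i₂ hu₂, ?_⟩
  filter_upwards [hz₁, hz₂] with x ⟨n₁, e₁⟩ ⟨n₂, e₂⟩
  exact ⟨n₁ - n₂, by rw [e₁, e₂]; push_cast; ring⟩

lemma ZD.zero : ZD μ p (fun _ => 0) := by
  refine ⟨fun _ => 0, ⟨integrable_zero _ _ _, fun D hD => by simp⟩, ?_⟩
  exact ae_of_all _ fun x => ⟨0, by simp⟩

/-- Integer-valuedness of the density passes to `L¹` limits. -/
lemma ZD.of_tendsto (hp : Measurable p) (f : ℕ → X → ℝ) (hf : ∀ j, Integrable (f j) μ)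
    (hh : Integrable h μ) (hz : ∀ j, ZD μ p (f j))
    (ht : Tendsto (fun j => ∫ x, |f j x - h x| ∂μ) atTop (𝓝 0)) : ZD μ p h := by
  choose u hu hzu using hz
  -- `u j` is Cauchy in `L¹`
  have hint : ∀ j, Integrable (u j) volume := fun j => (hu j).1
  have hdist : ∀ i j, dist ((hint i).toL1 (u i)) ((hint j).toL1 (u j))
      ≤ (∫ x, |f i x - h x| ∂μ) + ∫ x, |f j x - h x| ∂μ := by
    intro i j
    have h1 := (hu i).sub hp (hf i) (hf j) (hu j)
    have h2 := h1.integral_abs_le hp ((hf i).sub (hf j))
    rw [dist_eq_norm, ← Integrable.toL1_sub, L1.norm_of_fun_eq_integral_norm]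
    refine le_trans (le_of_eq ?_) (h2.trans ?_)
    · rfl
    · have a1 : Integrable (fun x => |f i x - h x|) μ := ((hf i).sub hh).abs
      have a2 : Integrable (fun x => |f j x - h x|) μ := ((hf j).sub hh).abs
      rw [← integral_add a1 a2]
      refine integral_mono ((hf i).sub (hf j)).abs (a1.add a2) ?_
      intro x
      have : (f i - f j) x = (f i x - h x) - (f j x - h x) := by simp
      simp only [this]
      exact abs_sub _ _
  have hcau : CauchySeq (fun j => (hint j).toL1 (u j)) := by
    rw [Metric.cauchySeq_iff]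
    intro ε hε
    have := (tendsto_order.1 ht).2 (ε / 2) (by positivity)
    obtain ⟨N, hN⟩ := eventually_atTop.1 this
    exact ⟨N, fun i hi j hj => lt_of_le_of_lt (hdist i j) (by linarith [hN i hi, hN j hj])⟩
  obtain ⟨U, hU⟩ := cauchySeq_tendsto_of_complete hcau
  have hUi : Integrable (U : Euc k → ℝ) volume := L1.integrable_coeFn U
  have hU' : Tendsto (fun j => ∫ x, |u j x - U x|) atTop (𝓝 0) := by
    have h1 : Tendsto (fun j => dist ((hint j).toL1 (u j)) U) atTop (𝓝 0) :=
      tendsto_iff_dist_tendsto_zero.1 hU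
    refine h1.congr fun j => ?_
    rw [dist_eq_norm]
    have : U = (L1.integrable_coeFn U).toL1 U := (Integrable.toL1_coeFn U _).symm
    conv_lhs => rw [this]
    rw [← Integrable.toL1_sub, L1.norm_of_fun_eq_integral_norm]
    rfl
  refine ⟨U, ⟨hUi, fun D hD => ?_⟩, ?_⟩
  · -- pass to the limit in the identity
    have l1 : Tendsto (fun j => ∫ x in p ⁻¹' D, f j x ∂μ) atTop (𝓝 (∫ x in p ⁻¹' D, h x ∂μ)) := by
      rw [tendsto_iff_dist_tendsto_zero]
      refine squeeze_zero (fun _ => dist_nonneg) (fun j => ?_) ht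
      rw [Real.dist_eq, ← integral_sub (hf j).integrableOn hh.integrableOn]
      refine (abs_integral_le_integral_abs).trans ?_
      exact setIntegral_le_integral ((hf j).sub hh).abs (ae_of_all _ fun x => abs_nonneg _)
    have l2 : Tendsto (fun j => ∫ x in D, u j x) atTop (𝓝 (∫ x in D, U x)) := by
      rw [tendsto_iff_dist_tendsto_zero]
      refine squeeze_zero (fun _ => dist_nonneg) (fun j => ?_) hU'
      rw [Real.dist_eq, ← integral_sub (hint j).integrableOn hUi.integrableOn]
      refine (abs_integral_le_integral_abs).trans ?_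
      exact setIntegral_le_integral ((hint j).sub hUi).abs (ae_of_all _ fun x => abs_nonneg _)
    refine tendsto_nhds_unique l1 (l2.congr fun j => ?_)
    exact ((hu j).2 D hD).symm
  · -- integer values
    have hm : TendstoInMeasure volume (fun j => (u j : Euc k → ℝ)) atTop (U : Euc k → ℝ) := by
      apply tendstoInMeasure_of_tendsto_eLpNorm (p := 1) one_ne_zero
        (fun j => (hint j).aestronglyMeasurable) hUi.aestronglyMeasurable
      have e : ∀ j, eLpNorm (u j - (U : Euc k → ℝ)) 1 volume
          = ENNReal.ofReal (∫ x, |u j x - U x|) := by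
        intro j
        rw [eLpNorm_one_eq_lintegral_enorm]
        rw [← ofReal_integral_norm_eq_lintegral_enorm ((hint j).sub hUi)]
        rfl
      simp_rw [e]
      have := (ENNReal.continuous_ofReal.tendsto 0).comp hU'
      simpa [Function.comp_def] using this
    obtain ⟨ns, -, hns⟩ := hm.exists_seq_tendsto_ae
    have hzall : ∀ᵐ x, ∀ j, ∃ n : ℤ, u j x = n := ae_all_iff.2 hzu
    filter_upwards [hns, hzall] with x hx hzx
    have hcl : IsClosed (range ((↑) : ℤ → ℝ)) := Int.isClosedEmbedding_coe_real.isClosed_range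
    have : (U : Euc k → ℝ) x ∈ range ((↑) : ℤ → ℝ) := by
      refine hcl.mem_of_tendsto hx (Eventually.of_forall fun j => ?_)
      obtain ⟨n, hn⟩ := hzx (ns j)
      exact ⟨n, hn.symm⟩
    obtain ⟨n, hn⟩ := this
    exact ⟨n, hn.symm⟩

/-- From superlevel sets of `1`-Lipschitz functions to all Borel sets. -/
theorem ZD.borel {Y : Type u} [MetricSpace Y] [MeasurableSpace Y] [BorelSpace Y]
    {ν : Measure Y} {q : Y → Euc k} (hq : Measurable q) {g : Y → ℝ} (hg : Integrable g ν)
    (hg0 : ZD ν q g)
    (H : ∀ F : Y → ℝ, LipschitzWith 1 F → (∀ x, 0 ≤ F x) →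
      ∃ᶠ t in 𝓝[>] (0 : ℝ), ZD ν q ({x | t < F x}.indicator g))
    (B : Set Y) (hB : MeasurableSet B) : ZD ν q (B.indicator g) := by
  have hcompl : ∀ A : Set Y, MeasurableSet A → ZD ν q (A.indicator g) → ZD ν q (Aᶜ.indicator g) := by
    intro A hA h
    refine (hg0.sub hq hg (hg.indicator hA) h).congr (ae_of_all _ fun x => ?_)
    by_cases hx : x ∈ A
    · simp [hx]
    · simp [hx]
  have hclosed : ∀ C : Set Y, IsClosed C → ZD ν q (C.indicator g) := by
    intro C hC
    rcases C.eq_empty_or_nonempty with h0 | hne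
    · subst h0
      simpa using (ZD.zero (μ := ν) (p := q))
    set F : Y → ℝ := fun x => Metric.infDist x C with hF
    have hFl : LipschitzWith 1 F := Metric.lipschitz_infDist_pt C
    have hF0 : ∀ x, 0 ≤ F x := fun x => Metric.infDist_nonneg
    have hfr := H F hFl hF0
    have hex : ∀ j : ℕ, ∃ t : ℝ, 0 < t ∧ t < 1 / ((j : ℝ) + 1) ∧
        ZD ν q ({x | t < F x}.indicator g) := by
      intro j
      have h1 : ∀ᶠ t in 𝓝[>] (0 : ℝ), t ∈ Ioo (0 : ℝ) (1 / ((j : ℝ) + 1)) :=
        Ioo_mem_nhdsGT (by positivity)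
      obtain ⟨t, ht, hz⟩ := (hfr.and_eventually h1).exists
      exact ⟨t, hz.1, hz.2, ht⟩
    choose t ht0 ht1 htz using hex
    have hCc : ZD ν q (Cᶜ.indicator g) := by
      refine ZD.of_tendsto hq (fun j => {x | t j < F x}.indicator g) (fun j => ?_)
        (hg.indicator hC.measurableSet.compl) htz ?_
      · exact hg.indicator (measurableSet_lt measurable_const hFl.continuous.measurable)
      · have hpt : ∀ x, Tendsto (fun j => |{x | t j < F x}.indicator g x - Cᶜ.indicator g x|)
            atTop (𝓝 0) := by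
          intro x
          by_cases hx : x ∈ C
          · have hFx : F x = 0 := (hC.mem_iff_infDist_zero hne).1 hx
            refine tendsto_const_nhds.congr fun j => ?_
            have : ¬ t j < F x := by rw [hFx]; exact not_lt.2 (ht0 j).le
            simp [hx, this]
          · have hFx : 0 < F x := by
              rcases (hF0 x).lt_or_eq with h | h
              · exact h
              · exact absurd ((hC.mem_iff_infDist_zero hne).2 h.symm) hx
            obtain ⟨N, hN⟩ := exists_nat_one_div_lt hFx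
            refine tendsto_const_nhds.congr' ?_
            filter_upwards [eventually_ge_atTop N] with j hj
            have : t j < F x := by
              refine (ht1 j).trans (lt_of_le_of_lt ?_ hN)
              exact one_div_le_one_div_of_le (by positivity) (by exact_mod_cast Nat.succ_le_succ hj)
            simp [hx, this]
        have h0 : (0 : ℝ) = ∫ x, (0 : ℝ) ∂ν := by simp
        rw [h0]
        refine tendsto_integral_of_dominated_convergence (fun x => |g x|) ?_ hg.abs ?_
          (ae_of_all _ hpt)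
        · intro j
          exact ((hg.indicator (measurableSet_lt measurable_const
            hFl.continuous.measurable)).sub (hg.indicator hC.measurableSet.compl)).abs.1
        · intro j
          refine ae_of_all _ fun x => ?_
          by_cases hx : x ∈ C
          · have hFx : F x = 0 := (hC.mem_iff_infDist_zero hne).1 hx
            have : ¬ t j < F x := by rw [hFx]; exact not_lt.2 (ht0 j).le
            simp [hx, this]
          · by_cases h' : t j < F x
            · simp [hx, h']
            · simp [hx, h']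
    have := hcompl _ hC.measurableSet.compl hCc
    simpa using this
  induction B, hB using MeasurableSpace.induction_on_inter
    (BorelSpace.measurable_eq (α := Y) ▸ borel_eq_generateFrom_isClosed) isPiSystem_isClosed with
  | empty => simpa using (ZD.zero (μ := ν) (p := q))
  | basic C hC => exact hclosed C hC
  | compl A hA h => exact hcompl A hA h
  | iUnion f hd hm hz =>
    -- partial unions
    have hpart : ∀ j : ℕ, ZD ν q ((⋃ i ∈ Finset.range j, f i).indicator g) := by
      intro j
      induction j with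
      | zero => simpa using (ZD.zero (μ := ν) (p := q))
      | succ j ih =>
        have hmj : MeasurableSet (⋃ i ∈ Finset.range j, f i) :=
          Finset.measurableSet_biUnion _ fun i _ => hm i
        refine (ih.add hq (hg.indicator hmj) (hg.indicator (hm j)) (hz j)).congr
          (ae_of_all _ fun x => ?_)
        have hun : (⋃ i ∈ Finset.range (j + 1), f i) = (⋃ i ∈ Finset.range j, f i) ∪ f j := by
          ext y
          simp only [Finset.mem_range, mem_iUnion, exists_prop, mem_union]
          constructor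
          · rintro ⟨i, hi, hy⟩
            rcases Nat.lt_succ_iff_lt_or_eq.1 hi with h | h
            · exact Or.inl ⟨i, h, hy⟩
            · exact Or.inr (h ▸ hy)
          · rintro (⟨i, hi, hy⟩ | hy)
            · exact ⟨i, hi.trans (Nat.lt_succ_self j), hy⟩
            · exact ⟨j, Nat.lt_succ_self j, hy⟩
        have hdis : Disjoint (⋃ i ∈ Finset.range j, f i) (f j) := by
          rw [disjoint_iUnion₂_left]
          intro i hi
          exact hd (ne_of_lt (Finset.mem_range.1 hi))
        simp only
        rw [hun, indicator_union_of_disjoint hdis]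
    refine ZD.of_tendsto hq (fun j => (⋃ i ∈ Finset.range j, f i).indicator g) (fun j =>
      hg.indicator (Finset.measurableSet_biUnion _ fun i _ => hm i))
      (hg.indicator (MeasurableSet.iUnion hm)) hpart ?_
    have hpt : ∀ x, Tendsto (fun j => |(⋃ i ∈ Finset.range j, f i).indicator g x
        - (⋃ i, f i).indicator g x|) atTop (𝓝 0) := by
      intro x
      by_cases hx : x ∈ ⋃ i, f i
      · obtain ⟨i, hi⟩ := mem_iUnion.1 hx
        refine tendsto_const_nhds.congr' ?_
        filter_upwards [eventually_gt_atTop i] with j hj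
        have : x ∈ ⋃ i ∈ Finset.range j, f i := by
          simp only [Finset.mem_range, mem_iUnion, exists_prop]
          exact ⟨i, hj, hi⟩
        rw [indicator_of_mem this, indicator_of_mem hx]
        simp
      · refine tendsto_const_nhds.congr fun j => ?_
        have : x ∉ ⋃ i ∈ Finset.range j, f i := by
          simp only [Finset.mem_range, mem_iUnion, exists_prop, not_exists, not_and]
          intro i _ hi
          exact hx (mem_iUnion.2 ⟨i, hi⟩)
        rw [indicator_of_notMem this, indicator_of_notMem hx]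
        simp
    have h0 : (0 : ℝ) = ∫ x, (0 : ℝ) ∂ν := by simp
    rw [h0]
    refine tendsto_integral_of_dominated_convergence (fun x => |g x|) ?_ hg.abs ?_
      (ae_of_all _ hpt)
    · intro j
      exact ((hg.indicator (Finset.measurableSet_biUnion _ fun i _ => hm i)).sub
        (hg.indicator (MeasurableSet.iUnion hm))).abs.1
    · intro j
      refine ae_of_all _ fun x => ?_
      by_cases hx : x ∈ ⋃ i ∈ Finset.range j, f i
      · have hx' : x ∈ ⋃ i, f i := by
          simp only [Finset.mem_range, mem_iUnion, exists_prop] at hx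
          obtain ⟨i, _, hi⟩ := hx
          exact mem_iUnion.2 ⟨i, hi⟩
        rw [indicator_of_mem hx, indicator_of_mem hx']
        simp
      · rw [indicator_of_notMem hx]
        by_cases hx' : x ∈ ⋃ i, f i
        · rw [indicator_of_mem hx']
          simp
        · rw [indicator_of_notMem hx']
          simp

end Crest.Agent.R241.B7ZD
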