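import Mathlib

/-!
R241 / B7d: pointwise Lipschitz estimate for functions of bounded variation on `ℝ^k`.

If `u ∈ L¹(ℝ^k)` and `|∫ u ∂_i φ| ≤ ∫ |φ| dm` for all `φ ∈ C_c^∞` and all `i`, with `m` a finite
measure, then for almost every pair of points `x, y` with `m (ball z r) ≤ L r^k` for all `r > 0`,
`z = x, y`, we have `|u x - u y| ≤ C_k L |x - y|`.
-/

set_option autoImplicit false

open MeasureTheory Filter Topology Metric Set

namespace Crest.Agent.R241.B7d

abbrev E (k : ℕ) := EuclideanSpace ℝ (Fin k)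

variable {k : ℕ}

/-- The weak derivatives of `u` are controlled by the measure `m`. -/
def BVBound (u : E k → ℝ) (m : Measure (E k)) : Prop :=
  ∀ φ : E k → ℝ, ContDiff ℝ (⊤ : ℕ∞) φ → HasCompactSupport φ → ∀ i : Fin k,
    |∫ x, u x * fderiv ℝ φ x (EuclideanSpace.single i 1)| ≤ ∫ x, |φ x| ∂m

/-- `m (closedBall x r) ≤ L r ^ k` for all `r > 0`. -/
def Growth (m : Measure (E k)) (L : ℝ) (x : E k) : Prop :=
  ∀ r : ℝ, 0 < r → m.real (closedBall x r) ≤ L * r ^ k

/-- Rescaled kernel. -/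
noncomputable def psi (η : E k → ℝ) (t : ℝ) (w : E k) : ℝ := (t ^ k)⁻¹ * η (t⁻¹ • w)

/-- Its time derivative. -/
noncomputable def dpsi (η : E k → ℝ) (t : ℝ) (w : E k) : ℝ :=
  -(k * t⁻¹ * (t ^ k)⁻¹ * η (t⁻¹ • w)) - (t ^ k)⁻¹ * t⁻¹ * (fderiv ℝ η (t⁻¹ • w) (t⁻¹ • w))

/-- The vector field whose divergence is `-dpsi`. -/
noncomputable def vf (η : E k → ℝ) (t : ℝ) (i : Fin k) (w : E k) : ℝ :=
  (w i * t⁻¹) * psi η t w

theorem hasDerivAt_psi {η : E k → ℝ} (hη : ContDiff ℝ (⊤ : ℕ∞) η) {t : ℝ} (ht : 0 < t) (w : E k) :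
    HasDerivAt (fun t => psi η t w) (dpsi η t w) t := by
  have h1 : HasDerivAt (fun t : ℝ => (t ^ k)⁻¹) (-(k * t⁻¹ * (t ^ k)⁻¹)) t := by
    have h := (hasDerivAt_pow k t).inv (pow_ne_zero k ht.ne')
    refine h.congr_deriv ?_
    have : t ≠ 0 := ht.ne'
    rcases Nat.eq_zero_or_pos k with hk | hk
    · have : (k : ℝ) = 0 := by exact_mod_cast hk
      rw [this]; simp
    · have hk' : t ^ k = t ^ (k - 1) * t := by
        rw [← pow_succ, Nat.sub_add_cancel hk]
      rw [hk']
      field_simp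
  have h2 : HasDerivAt (fun t : ℝ => t⁻¹ • w) (-(t ^ 2)⁻¹ • w) t := by
    have h := (hasDerivAt_inv ht.ne').smul_const w
    exact h
  have hd : DifferentiableAt ℝ η (t⁻¹ • w) :=
    (hη.differentiable (by simp)).differentiableAt
  have h3 : HasDerivAt (fun t : ℝ => η (t⁻¹ • w)) (fderiv ℝ η (t⁻¹ • w) (-(t ^ 2)⁻¹ • w)) t :=
    hd.hasFDerivAt.comp_hasDerivAt t h2
  have h4 := h1.mul h3
  refine h4.congr_deriv ?_
  unfold dpsi
  rw [map_smul, map_smul]
  simp only [smul_eq_mul]
  have : t ≠ 0 := ht.ne'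
  field_simp
  ring

theorem contDiff_psi {η : E k → ℝ} (hη : ContDiff ℝ (⊤ : ℕ∞) η) (t : ℝ) :
    ContDiff ℝ (⊤ : ℕ∞) (psi η t) := by
  unfold psi
  exact contDiff_const.mul (hη.comp (contDiff_const_smul _))

theorem contDiff_vf {η : E k → ℝ} (hη : ContDiff ℝ (⊤ : ℕ∞) η) (t : ℝ) (i : Fin k) :
    ContDiff ℝ (⊤ : ℕ∞) (vf η t i) := by
  unfold vf
  refine ContDiff.mul (ContDiff.mul ?_ contDiff_const) (contDiff_psi hη t)
  exact (EuclideanSpace.proj i : E k →L[ℝ] ℝ).contDiff

theorem div_vf {η : E k → ℝ} (hη : ContDiff ℝ (⊤ : ℕ∞) η) {t : ℝ} (_ht : 0 < t) (w : E k) :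
    ∑ i, fderiv ℝ (vf η t i) w (EuclideanSpace.single i 1) = - dpsi η t w := by
  have hd : DifferentiableAt ℝ η (t⁻¹ • w) :=
    (hη.differentiable (by simp)).differentiableAt
  have hpsi : HasFDerivAt (psi η t)
      ((t ^ k)⁻¹ • ((fderiv ℝ η (t⁻¹ • w)).comp (t⁻¹ • ContinuousLinearMap.id ℝ (E k)))) w := by
    have h1 : HasFDerivAt (fun w : E k => t⁻¹ • w) (t⁻¹ • ContinuousLinearMap.id ℝ (E k)) w :=
      (hasFDerivAt_id w).const_smul t⁻¹
    have h2 := hd.hasFDerivAt.comp w h1
    exact h2.const_mul _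
  have hi : ∀ i, fderiv ℝ (vf η t i) w (EuclideanSpace.single i 1)
      = t⁻¹ * psi η t w + (w i * t⁻¹) * ((t ^ k)⁻¹ * (t⁻¹ * fderiv ℝ η (t⁻¹ • w)
          (EuclideanSpace.single i 1))) := by
    intro i
    have h1 : HasFDerivAt (fun w : E k => w i * t⁻¹)
        (t⁻¹ • (EuclideanSpace.proj i : E k →L[ℝ] ℝ)) w := by
      exact ((EuclideanSpace.proj i : E k →L[ℝ] ℝ).hasFDerivAt (x := w)).mul_const t⁻¹
    have h2 := h1.mul hpsi
    have h3 : fderiv ℝ (vf η t i) w = _ := h2.fderiv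
    rw [h3]
    simp
    ring
  rw [Finset.sum_congr rfl (fun i _ => hi i), Finset.sum_add_distrib]
  have hw : w = ∑ i, w i • (EuclideanSpace.single i (1 : ℝ) : E k) := by
    ext j
    simp [Finset.sum_apply, Pi.single_apply]
  have hsum : fderiv ℝ η (t⁻¹ • w) w
      = ∑ i, w i * fderiv ℝ η (t⁻¹ • w) (EuclideanSpace.single i 1) := by
    conv_lhs => rw [show fderiv ℝ η (t⁻¹ • w) w = fderiv ℝ η (t⁻¹ • w) (∑ i, w i • (EuclideanSpace.single i (1 : ℝ) : E k)) by rw [← hw]]
    rw [map_sum]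
    simp
  unfold dpsi
  rw [map_smul, hsum]
  simp only [Finset.sum_const, Finset.card_univ, Fintype.card_fin, nsmul_eq_mul, smul_eq_mul]
  unfold psi
  rw [Finset.mul_sum, Finset.mul_sum, sub_eq_add_neg, neg_add, neg_neg, neg_neg]
  congr 1
  · ring
  · refine Finset.sum_congr rfl (fun i _ => ?_)
    ring

/-- The kernel data: a smooth function supported in `closedBall 0 ρ`, bounded by `M`. -/
structure Kern (η : E k → ℝ) (ρ M : ℝ) : Prop where
  smooth : ContDiff ℝ (⊤ : ℕ∞) η
  zero_of : ∀ w, ρ < ‖w‖ → η w = 0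
  bound : ∀ w, |η w| ≤ M
  rho_pos : 0 < ρ
  int_eq : ∫ w, η w = 1

theorem Kern.compact {η : E k → ℝ} {ρ M : ℝ} (h : Kern η ρ M) : HasCompactSupport η := by
  refine HasCompactSupport.of_support_subset_isCompact (isCompact_closedBall (0 : E k) ρ) ?_
  intro w hw
  by_contra hn
  exact hw (h.zero_of w (by simpa using hn))

theorem Kern.M_nonneg {η : E k → ℝ} {ρ M : ℝ} (h : Kern η ρ M) : 0 ≤ M :=
  (abs_nonneg _).trans (h.bound 0)

theorem psi_zero_of {η : E k → ℝ} {ρ M : ℝ} (h : Kern η ρ M) {t : ℝ} (ht : 0 < t) {w : E k}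
    (hw : ρ * t < ‖w‖) : psi η t w = 0 := by
  unfold psi
  rw [h.zero_of, mul_zero]
  rw [norm_smul, norm_inv, Real.norm_of_nonneg ht.le, inv_mul_eq_div, lt_div_iff₀ ht]
  exact hw

theorem abs_psi_le {η : E k → ℝ} {ρ M : ℝ} (h : Kern η ρ M) {t : ℝ} (ht : 0 < t) (w : E k) :
    |psi η t w| ≤ (t ^ k)⁻¹ * M := by
  unfold psi
  rw [abs_mul, abs_of_nonneg (inv_nonneg.2 (pow_nonneg ht.le k))]
  exact mul_le_mul_of_nonneg_left (h.bound _) (inv_nonneg.2 (pow_nonneg ht.le k))

theorem abs_vf_le {η : E k → ℝ} {ρ M : ℝ} (h : Kern η ρ M) {t : ℝ} (ht : 0 < t) (i : Fin k)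
    (w : E k) :
    |vf η t i w| ≤ (closedBall (0 : E k) (ρ * t)).indicator (fun _ => ρ * ((t ^ k)⁻¹ * M)) w := by
  by_cases hw : w ∈ closedBall (0 : E k) (ρ * t)
  · rw [indicator_of_mem hw]
    have hw' : ‖w‖ ≤ ρ * t := by simpa using hw
    unfold vf
    rw [abs_mul, abs_mul, abs_of_nonneg (inv_nonneg.2 ht.le)]
    refine mul_le_mul ?_ (abs_psi_le h ht w) (abs_nonneg _) h.rho_pos.le
    have h1 : |w i| ≤ ‖w‖ := by
      have := EuclideanSpace.norm_eq w
      have h2 := PiLp.norm_apply_le w i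
      simpa using h2
    calc |w i| * t⁻¹ ≤ (ρ * t) * t⁻¹ :=
          mul_le_mul_of_nonneg_right (h1.trans hw') (inv_nonneg.2 ht.le)
      _ = ρ := by field_simp
  · rw [indicator_of_notMem hw]
    have hw' : ρ * t < ‖w‖ := by simpa using hw
    unfold vf
    rw [psi_zero_of h ht hw']
    simp

/-- The averaged function. -/
noncomputable def avg (η : E k → ℝ) (u : E k → ℝ) (x : E k) (t : ℝ) : ℝ :=
  ∫ z, u z * psi η t (z - x)

theorem continuous_dpsi {η : E k → ℝ} (hη : ContDiff ℝ (⊤ : ℕ∞) η) (t : ℝ) :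
    Continuous (dpsi η t) := by
  unfold dpsi
  have h1 : Continuous fun w : E k => t⁻¹ • w := continuous_const_smul _
  have h2 : Continuous (fderiv ℝ η) := hη.continuous_fderiv (by simp)
  have h3 : Continuous fun w : E k => fderiv ℝ η (t⁻¹ • w) (t⁻¹ • w) :=
    (h2.comp h1).clm_apply h1
  have h4 : Continuous fun w : E k => η (t⁻¹ • w) := hη.continuous.comp h1
  fun_prop

theorem exists_dpsi_bound {η : E k → ℝ} {ρ M : ℝ} (h : Kern η ρ M) {t₀ : ℝ} (ht₀ : 0 < t₀) :
    ∃ C : ℝ, ∀ t, t₀ ≤ t → ∀ w : E k, |dpsi η t w| ≤ C := by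
  have hc : Continuous fun v : E k => fderiv ℝ η v v :=
    (h.smooth.continuous_fderiv (by simp)).clm_apply continuous_id
  have hcs : HasCompactSupport fun v : E k => fderiv ℝ η v v := by
    refine (h.compact.fderiv (𝕜 := ℝ)).mono ?_
    intro v hv
    simp only [Function.mem_support] at hv ⊢
    intro h0
    exact hv (by rw [h0]; simp)
  obtain ⟨M1, hM1⟩ := hcs.exists_bound_of_continuous hc
  have hM1' : 0 ≤ M1 := (norm_nonneg _).trans (hM1 0)
  have hM := h.M_nonneg
  refine ⟨k * t₀⁻¹ * (t₀ ^ k)⁻¹ * M + (t₀ ^ k)⁻¹ * t₀⁻¹ * M1, fun t ht w => ?_⟩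
  have ht0 : 0 < t := ht₀.trans_le ht
  have h1 : t⁻¹ ≤ t₀⁻¹ := inv_anti₀ ht₀ ht
  have h2 : (t ^ k)⁻¹ ≤ (t₀ ^ k)⁻¹ := inv_anti₀ (pow_pos ht₀ k) (pow_le_pow_left₀ ht₀.le ht k)
  have h1' : 0 ≤ t⁻¹ := inv_nonneg.2 ht0.le
  have h2' : 0 ≤ (t ^ k)⁻¹ := inv_nonneg.2 (pow_nonneg ht0.le k)
  have h1'' : 0 ≤ t₀⁻¹ := inv_nonneg.2 ht₀.le
  have h2'' : 0 ≤ (t₀ ^ k)⁻¹ := inv_nonneg.2 (pow_nonneg ht₀.le k)
  have hk : (0:ℝ) ≤ k := Nat.cast_nonneg k
  unfold dpsi
  have e1 : |k * t⁻¹ * (t ^ k)⁻¹ * η (t⁻¹ • w)| ≤ k * t₀⁻¹ * (t₀ ^ k)⁻¹ * M := by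
    rw [abs_mul, abs_of_nonneg (by positivity)]
    exact mul_le_mul (mul_le_mul (mul_le_mul_of_nonneg_left h1 hk) h2 h2' (by positivity))
      (h.bound _) (abs_nonneg _) (by positivity)
  have e2 : |(t ^ k)⁻¹ * t⁻¹ * (fderiv ℝ η (t⁻¹ • w) (t⁻¹ • w))| ≤ (t₀ ^ k)⁻¹ * t₀⁻¹ * M1 := by
    rw [abs_mul, abs_of_nonneg (by positivity)]
    exact mul_le_mul (mul_le_mul h2 h1 h1' h2'') (hM1 (t⁻¹ • w)) (abs_nonneg _) (by positivity)
  calc |-(k * t⁻¹ * (t ^ k)⁻¹ * η (t⁻¹ • w)) - (t ^ k)⁻¹ * t⁻¹ * (fderiv ℝ η (t⁻¹ • w) (t⁻¹ • w))|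
      ≤ |-(k * t⁻¹ * (t ^ k)⁻¹ * η (t⁻¹ • w))|
        + |(t ^ k)⁻¹ * t⁻¹ * (fderiv ℝ η (t⁻¹ • w) (t⁻¹ • w))| := abs_sub _ _
    _ ≤ _ := by rw [abs_neg]; exact add_le_add e1 e2

theorem hasDerivAt_avg {η : E k → ℝ} {ρ M : ℝ} (h : Kern η ρ M) {u : E k → ℝ}
    (hu : Integrable u) (x : E k) {t : ℝ} (ht : 0 < t) :
    HasDerivAt (avg η u x) (∫ z, u z * dpsi η t (z - x)) t := by
  obtain ⟨C, hC⟩ := exists_dpsi_bound h (half_pos ht)
  have hcont : ∀ s, Continuous fun z => psi η s (z - x) := fun s =>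
    (contDiff_psi h.smooth s).continuous.comp (continuous_id.sub continuous_const)
  have hcont' : ∀ s, Continuous fun z => dpsi η s (z - x) := fun s =>
    (continuous_dpsi h.smooth s).comp (continuous_id.sub continuous_const)
  have hs : Ioi (t / 2) ∈ 𝓝 t := Ioi_mem_nhds (by linarith)
  have := hasDerivAt_integral_of_dominated_loc_of_deriv_le (μ := (volume : Measure (E k)))
    (F := fun s z => u z * psi η s (z - x)) (F' := fun s z => u z * dpsi η s (z - x)) (x₀ := t)
    (bound := fun z => |u z| * C) (s := Ioi (t / 2)) hs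
    (Eventually.of_forall fun s => hu.aestronglyMeasurable.mul (hcont s).aestronglyMeasurable)
    (hu.mul_bdd (c := (t ^ k)⁻¹ * M) (hcont t).aestronglyMeasurable
      (Eventually.of_forall fun z => abs_psi_le h ht _))
    (hu.aestronglyMeasurable.mul (hcont' t).aestronglyMeasurable)
    (Eventually.of_forall fun z s hs => by
      rw [norm_mul]
      exact mul_le_mul_of_nonneg_left (hC s (le_of_lt hs) _) (norm_nonneg _))
    (hu.abs.mul_const C)
    (Eventually.of_forall fun z s hs =>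
      (hasDerivAt_psi h.smooth ((half_pos ht).trans hs) (z - x)).const_mul (u z))
  exact this.2

theorem abs_integral_dpsi_le {η : E k → ℝ} {ρ M : ℝ} (h : Kern η ρ M) {u : E k → ℝ}
    (hu : Integrable u) {m : Measure (E k)} [IsFiniteMeasure m] (hm : BVBound u m) {x : E k} {L : ℝ}
    (hL : Growth m L x) {t : ℝ} (ht : 0 < t) :
    |∫ z, u z * dpsi η t (z - x)| ≤ k * (M * ρ ^ (k + 1) * L) := by
  have hsm : ∀ i, ContDiff ℝ (⊤ : ℕ∞) fun z => vf η t i (z - x) := fun i =>
    (contDiff_vf h.smooth t i).comp (contDiff_id.sub contDiff_const)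
  have hcs : ∀ i, HasCompactSupport fun z => vf η t i (z - x) := by
    intro i
    refine HasCompactSupport.of_support_subset_isCompact (isCompact_closedBall x (ρ * t)) ?_
    intro z hz
    by_contra hn
    apply hz
    have : ρ * t < ‖z - x‖ := by simpa [dist_eq_norm] using hn
    simp only [vf, psi_zero_of h ht this, mul_zero]
  have hfd : ∀ i z, fderiv ℝ (fun z => vf η t i (z - x)) z (EuclideanSpace.single i 1)
      = fderiv ℝ (vf η t i) (z - x) (EuclideanSpace.single i 1) := by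
    intro i z
    rw [fderiv_comp_sub]
  have hint : ∀ i, Integrable fun z =>
      u z * fderiv ℝ (fun z => vf η t i (z - x)) z (EuclideanSpace.single i 1) := by
    intro i
    have hc : Continuous fun z =>
        fderiv ℝ (fun z => vf η t i (z - x)) z (EuclideanSpace.single i 1) :=
      ((hsm i).continuous_fderiv (by simp)).clm_apply continuous_const
    have hcs' : HasCompactSupport fun z =>
        fderiv ℝ (fun z => vf η t i (z - x)) z (EuclideanSpace.single i 1) := by
      refine ((hcs i).fderiv (𝕜 := ℝ)).mono ?_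
      intro v hv
      simp only [Function.mem_support] at hv ⊢
      intro h0
      exact hv (by rw [h0]; simp)
    obtain ⟨C, hC⟩ := hcs'.exists_bound_of_continuous hc
    exact hu.mul_bdd (c := C) hc.aestronglyMeasurable (Eventually.of_forall hC)
  have key : ∫ z, u z * dpsi η t (z - x)
      = - ∑ i, ∫ z, u z * fderiv ℝ (fun z => vf η t i (z - x)) z (EuclideanSpace.single i 1) := by
    rw [← integral_finsetSum _ (fun i _ => hint i), ← integral_neg]
    refine integral_congr_ae (Eventually.of_forall fun z => ?_)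
    simp only [hfd]
    rw [← Finset.mul_sum, div_vf h.smooth ht]
    ring
  rw [key, abs_neg]
  have hone : ∀ i : Fin k,
      |∫ z, u z * fderiv ℝ (fun z => vf η t i (z - x)) z (EuclideanSpace.single i 1)|
        ≤ M * ρ ^ (k + 1) * L := by
    intro i
    refine (hm _ (hsm i) (hcs i) i).trans ?_
    have hle : ∫ z, |vf η t i (z - x)| ∂m
        ≤ ∫ z, (closedBall x (ρ * t)).indicator (fun _ => ρ * ((t ^ k)⁻¹ * M)) z ∂m := by
      refine integral_mono_of_nonneg (Eventually.of_forall fun z => abs_nonneg _)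
        ((integrable_const _).indicator measurableSet_closedBall)
        (Eventually.of_forall fun z => ?_)
      refine (abs_vf_le h ht i (z - x)).trans (le_of_eq ?_)
      simp only [indicator, mem_closedBall, dist_eq_norm, sub_zero]
    refine hle.trans ?_
    rw [integral_indicator measurableSet_closedBall, setIntegral_const, smul_eq_mul]
    have hg := hL (ρ * t) (mul_pos h.rho_pos ht)
    have hM := h.M_nonneg
    have hρ := h.rho_pos
    calc m.real (closedBall x (ρ * t)) * (ρ * ((t ^ k)⁻¹ * M))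
        ≤ (L * (ρ * t) ^ k) * (ρ * ((t ^ k)⁻¹ * M)) :=
          mul_le_mul_of_nonneg_right hg (by positivity)
      _ = M * ρ ^ (k + 1) * L := by
          rw [mul_pow]
          field_simp
          ring
  calc |∑ i, ∫ z, u z * fderiv ℝ (fun z => vf η t i (z - x)) z (EuclideanSpace.single i 1)|
      ≤ ∑ i, |∫ z, u z * fderiv ℝ (fun z => vf η t i (z - x)) z (EuclideanSpace.single i 1)| :=
        Finset.abs_sum_le_sum_abs _ _
    _ ≤ ∑ _i : Fin k, M * ρ ^ (k + 1) * L := Finset.sum_le_sum fun i _ => hone i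
    _ = k * (M * ρ ^ (k + 1) * L) := by simp

theorem abs_avg_sub_le {η : E k → ℝ} {ρ M : ℝ} (h : Kern η ρ M) {u : E k → ℝ}
    (hu : Integrable u) {m : Measure (E k)} [IsFiniteMeasure m] (hm : BVBound u m) {x : E k} {L : ℝ}
    (hL : Growth m L x) {s t : ℝ} (hs : 0 < s) (ht : 0 < t) :
    |avg η u x t - avg η u x s| ≤ k * (M * ρ ^ (k + 1) * L) * |t - s| := by
  have := Convex.norm_image_sub_le_of_norm_hasDerivWithin_le (𝕜 := ℝ) (s := Ioi (0:ℝ))
    (f := avg η u x) (f' := fun t => ∫ z, u z * dpsi η t (z - x))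
    (C := k * (M * ρ ^ (k + 1) * L)) (x := s) (y := t)
    (fun r hr => (hasDerivAt_avg h hu x hr).hasDerivWithinAt)
    (fun r hr => abs_integral_dpsi_le h hu hm hL hr) (convex_Ioi 0) hs ht
  simpa using this

/-- Lebesgue points. -/
def LebPt (u : E k → ℝ) (x : E k) : Prop :=
  Tendsto (fun r : ℝ => ⨍ y in closedBall x r, |u y - u x|) (𝓝[>] 0) (𝓝 0)

theorem ae_lebPt {u : E k → ℝ} (hu : LocallyIntegrable u) : ∀ᵐ x, LebPt u x := by
  filter_upwards [IsUnifLocDoublingMeasure.ae_tendsto_average_norm_sub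
    (volume : Measure (E k)) hu 1] with x hx
  exact hx (fun _ => x) (fun r => r) tendsto_id
    (by filter_upwards [self_mem_nhdsWithin] with r hr
        exact mem_closedBall_self (by simpa using le_of_lt hr))

theorem integral_psi {η : E k → ℝ} {ρ M : ℝ} (h : Kern η ρ M) {t : ℝ} (ht : 0 < t) (x : E k) :
    ∫ z, psi η t (z - x) = 1 := by
  rw [integral_sub_right_eq_self (fun z => psi η t z) x]
  unfold psi
  rw [integral_const_mul, Measure.integral_comp_inv_smul_of_nonneg _ _ ht.le, h.int_eq]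
  simp only [finrank_euclideanSpace, Fintype.card_fin, smul_eq_mul, mul_one]
  exact inv_mul_cancel₀ (pow_ne_zero k ht.ne')

theorem tendsto_avg {η : E k → ℝ} {ρ M : ℝ} (h : Kern η ρ M) {u : E k → ℝ}
    (hu : Integrable u) {x : E k} (hx : LebPt u x) :
    Tendsto (avg η u x) (𝓝[>] 0) (𝓝 (u x)) := by
  have hρ := h.rho_pos
  have hM := h.M_nonneg
  set ω : ℝ := volume.real (closedBall (0 : E k) 1) with hω
  have hlim : Tendsto (fun t : ℝ => (M * ρ ^ k * ω) * ⨍ y in closedBall x (ρ * t), |u y - u x|)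
      (𝓝[>] 0) (𝓝 0) := by
    have h1 : Tendsto (fun t : ℝ => ρ * t) (𝓝[>] 0) (𝓝[>] 0) := by
      refine tendsto_nhdsWithin_iff.2 ⟨?_, ?_⟩
      · have : Tendsto (fun t : ℝ => ρ * t) (𝓝 0) (𝓝 (ρ * 0)) := tendsto_id.const_mul ρ
        rw [mul_zero] at this
        exact this.mono_left nhdsWithin_le_nhds
      · filter_upwards [self_mem_nhdsWithin] with t ht
        exact mul_pos hρ ht
    have h2 := (hx.comp h1).const_mul (M * ρ ^ k * ω)
    simpa using h2
  rw [tendsto_iff_norm_sub_tendsto_zero]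
  refine squeeze_zero' (Eventually.of_forall fun t => norm_nonneg _) ?_ hlim
  filter_upwards [self_mem_nhdsWithin] with t ht
  have ht : 0 < t := ht
  have hcont : Continuous fun z => psi η t (z - x) :=
    (contDiff_psi h.smooth t).continuous.comp (continuous_id.sub continuous_const)
  have hpcs : HasCompactSupport fun z => psi η t (z - x) := by
    refine HasCompactSupport.of_support_subset_isCompact (isCompact_closedBall x (ρ * t)) ?_
    intro z hz
    by_contra hn
    apply hz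
    have : ρ * t < ‖z - x‖ := by simpa [dist_eq_norm] using hn
    exact psi_zero_of h ht this
  have hpi : Integrable fun z => psi η t (z - x) := hcont.integrable_of_hasCompactSupport hpcs
  have hui : Integrable fun z => u z * psi η t (z - x) :=
    hu.mul_bdd (c := (t ^ k)⁻¹ * M) hcont.aestronglyMeasurable
      (Eventually.of_forall fun z => abs_psi_le h ht _)
  have e1 : avg η u x t - u x = ∫ z, (u z - u x) * psi η t (z - x) := by
    have : u x = ∫ z, u x * psi η t (z - x) := by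
      rw [integral_const_mul, integral_psi h ht, mul_one]
    unfold avg
    conv_lhs => rw [this]
    rw [← integral_sub hui (hpi.const_mul _)]
    refine integral_congr_ae (Eventually.of_forall fun z => ?_)
    simp only
    ring
  rw [e1]
  have hvol : volume.real (closedBall x (ρ * t)) = (ρ * t) ^ k * ω := by
    rw [Measure.addHaar_real_closedBall' _ _ (by positivity)]
    simp [hω]
  have hvpos : 0 < volume.real (closedBall x (ρ * t)) := by
    rw [measureReal_def]
    exact ENNReal.toReal_pos (measure_closedBall_pos _ _ (by positivity)).ne'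
      measure_closedBall_lt_top.ne
  have hIon : IntegrableOn (fun z => |u z - u x|) (closedBall x (ρ * t)) := by
    refine Integrable.abs ?_
    exact hu.integrableOn.sub (integrableOn_const measure_closedBall_lt_top.ne)
  calc ‖∫ z, (u z - u x) * psi η t (z - x)‖
      ≤ ∫ z, ‖(u z - u x) * psi η t (z - x)‖ := norm_integral_le_integral_norm _
    _ ≤ ∫ z, (closedBall x (ρ * t)).indicator
          (fun z => |u z - u x| * ((t ^ k)⁻¹ * M)) z := by
        refine integral_mono_of_nonneg (Eventually.of_forall fun z => norm_nonneg _)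
          ((integrable_indicator_iff measurableSet_closedBall).2 (Integrable.mul_const hIon _))
          (Eventually.of_forall fun z => ?_)
        by_cases hz : z ∈ closedBall x (ρ * t)
        · rw [indicator_of_mem hz]
          simp only [norm_mul, Real.norm_eq_abs]
          exact mul_le_mul_of_nonneg_left (abs_psi_le h ht _) (abs_nonneg _)
        · rw [indicator_of_notMem hz]
          have : ρ * t < ‖z - x‖ := by simpa [dist_eq_norm] using hz
          simp [psi_zero_of h ht this]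
    _ = (∫ z in closedBall x (ρ * t), |u z - u x|) * ((t ^ k)⁻¹ * M) := by
        rw [integral_indicator measurableSet_closedBall, integral_mul_const]
    _ = (M * ρ ^ k * ω) * ⨍ y in closedBall x (ρ * t), |u y - u x| := by
        rw [setAverage_eq, hvol, smul_eq_mul]
        rw [hvol] at hvpos
        have hωp : ω ≠ 0 := by
          intro h0; rw [h0] at hvpos; simp at hvpos
        have : (ρ * t) ^ k ≠ 0 := pow_ne_zero _ (by positivity)
        field_simp
        rw [mul_pow]
        ring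

theorem abs_avg_sub_self_le {η : E k → ℝ} {ρ M : ℝ} (h : Kern η ρ M) {u : E k → ℝ}
    (hu : Integrable u) {m : Measure (E k)} [IsFiniteMeasure m] (hm : BVBound u m) {x : E k} {L : ℝ}
    (hL : Growth m L x) (hx : LebPt u x) {t : ℝ} (ht : 0 < t) :
    |avg η u x t - u x| ≤ k * (M * ρ ^ (k + 1) * L) * t := by
  have h1 : Tendsto (fun s => |avg η u x t - avg η u x s|) (𝓝[>] 0) (𝓝 |avg η u x t - u x|) :=
    (tendsto_const_nhds.sub (tendsto_avg h hu hx)).abs
  have h2 : Tendsto (fun s => k * (M * ρ ^ (k + 1) * L) * |t - s|) (𝓝[>] 0)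
      (𝓝 (k * (M * ρ ^ (k + 1) * L) * |t - 0|)) := by
    refine Tendsto.mono_left ?_ nhdsWithin_le_nhds
    exact ((tendsto_const_nhds.sub tendsto_id).abs).const_mul _
  rw [sub_zero, abs_of_pos ht] at h2
  refine le_of_tendsto_of_tendsto h1 h2 ?_
  filter_upwards [self_mem_nhdsWithin] with s hs
  exact abs_avg_sub_le h hu hm hL hs ht

/-- The standard bump. -/
noncomputable def bump (k : ℕ) : ContDiffBump (0 : E k) := ⟨1 / 2, 1, by norm_num, by norm_num⟩

noncomputable def eta (k : ℕ) : E k → ℝ := (bump k).normed volume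

noncomputable def etaM (k : ℕ) : ℝ := 1 / volume.real (closedBall (0 : E k) (1 / 2))

theorem kern_eta (k : ℕ) : Kern (eta k) 1 (etaM k) where
  smooth := (bump k).contDiff_normed
  zero_of := by
    intro w hw
    by_contra h
    have : w ∈ Function.support ((bump k).normed volume) := h
    rw [ContDiffBump.support_normed_eq] at this
    have h2 : ‖w‖ < 1 := by simpa [bump] using this
    linarith
  bound := by
    intro w
    have h1 : |(bump k).normed volume w| ≤ 1 / volume.real (closedBall (0 : E k) (bump k).rIn) := by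
      rw [abs_of_nonneg ((bump k).nonneg_normed w)]
      exact (bump k).normed_le_div_measure_closedBall_rIn volume w
    exact h1
  rho_pos := one_pos
  int_eq := (bump k).integral_normed

/-- The constant in the estimate. -/
noncomputable def Ck (k : ℕ) : ℝ := k * etaM k * 2 ^ (k + 1)

theorem Ck_nonneg (k : ℕ) : 0 ≤ Ck k := by
  have := (kern_eta k).M_nonneg
  unfold Ck; positivity

/-- shifted kernel -/
theorem kern_shift {h : E k} (hh : h ≠ 0) :
    Kern (fun v => (‖h‖ ^ k)⁻¹ * eta k (‖h‖⁻¹ • (v - h))) (2 * ‖h‖) ((‖h‖ ^ k)⁻¹ * etaM k) where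
  smooth := by
    refine contDiff_const.mul ((kern_eta k).smooth.comp ?_)
    exact (contDiff_id.sub contDiff_const).const_smul _
  zero_of := by
    intro w hw
    have hp : 0 < ‖h‖ := norm_pos_iff.2 hh
    rw [(kern_eta k).zero_of, mul_zero]
    rw [norm_smul, norm_inv, norm_norm, inv_mul_eq_div, lt_div_iff₀ hp]
    have := norm_sub_norm_le w h
    linarith
  bound := by
    intro w
    rw [abs_mul, abs_of_nonneg (by positivity)]
    exact mul_le_mul_of_nonneg_left ((kern_eta k).bound _) (by positivity)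
  rho_pos := by
    have hp : 0 < ‖h‖ := norm_pos_iff.2 hh
    positivity
  int_eq := by
    have hp : 0 < ‖h‖ := norm_pos_iff.2 hh
    exact integral_psi (kern_eta k) hp h

/-- **Main estimate**: pointwise Lipschitz bound for a function of bounded variation. -/
theorem abs_sub_le {u : E k → ℝ} (hu : Integrable u) {m : Measure (E k)} [IsFiniteMeasure m]
    (hm : BVBound u m) {x y : E k} (hx : LebPt u x) (hy : LebPt u y) {L : ℝ}
    (hLx : Growth m L x) (hLy : Growth m L y) :
    |u x - u y| ≤ Ck k * L * dist x y := by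
  rcases eq_or_ne x y with rfl | hxy
  · simp
  set h : E k := y - x with hh
  have hh0 : h ≠ 0 := sub_ne_zero.2 hxy.symm
  have hp : 0 < ‖h‖ := norm_pos_iff.2 hh0
  have hneg : -h ≠ 0 := neg_ne_zero.2 hh0
  have h1 := abs_avg_sub_self_le (kern_shift hh0) hu hm hLx hx (t := 1 / 2) (by norm_num)
  have h2 := abs_avg_sub_self_le (kern_shift hneg) hu hm hLy hy (t := 1 / 2) (by norm_num)
  have heq : avg (fun v => (‖h‖ ^ k)⁻¹ * eta k (‖h‖⁻¹ • (v - h))) u x (1 / 2)
      = avg (fun v => (‖-h‖ ^ k)⁻¹ * eta k (‖-h‖⁻¹ • (v - -h))) u y (1 / 2) := by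
    unfold avg psi
    refine integral_congr_ae (Eventually.of_forall fun z => ?_)
    simp only [norm_neg]
    have : (1 / 2 : ℝ)⁻¹ • (z - x) - h = (1 / 2 : ℝ)⁻¹ • (z - y) - -h := by
      rw [hh]
      norm_num
      module
    rw [this]
  rw [← heq] at h2
  rw [norm_neg] at h2
  have hval : (k : ℝ) * ((‖h‖ ^ k)⁻¹ * etaM k * (2 * ‖h‖) ^ (k + 1) * L) * (1 / 2)
      = (Ck k * L * dist x y) / 2 := by
    rw [dist_comm, dist_eq_norm, ← hh]
    unfold Ck
    rw [mul_pow, pow_succ ‖h‖ k]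
    field_simp
  rw [hval] at h1 h2
  have h3 := abs_sub_comm (avg (fun v => (‖h‖ ^ k)⁻¹ * eta k (‖h‖⁻¹ • (v - h))) u x (1 / 2)) (u x)
  rw [h3] at h1
  calc |u x - u y| ≤ |u x - avg (fun v => (‖h‖ ^ k)⁻¹ * eta k (‖h‖⁻¹ • (v - h))) u x (1 / 2)|
        + |avg (fun v => (‖h‖ ^ k)⁻¹ * eta k (‖h‖⁻¹ • (v - h))) u x (1 / 2) - u y| :=
        _root_.abs_sub_le _ _ _
    _ ≤ _ := by linarith

/-- Almost every point has finite growth constant. -/
theorem ae_growth (m : Measure (E k)) [IsFiniteMeasure m] :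
    ∀ᵐ x, ∃ L : ℕ, Growth m L x := by
  filter_upwards [Besicovitch.ae_tendsto_rnDeriv m (volume : Measure (E k)),
    Measure.rnDeriv_lt_top m (volume : Measure (E k))] with x hx hfin
  set D := m.rnDeriv volume x with hD
  have hev : ∀ᶠ r in 𝓝[>] (0:ℝ), m (closedBall x r) / volume (closedBall x r) < D + 1 :=
    hx.eventually_lt_const (by
      exact ENNReal.lt_add_right hfin.ne one_ne_zero)
  obtain ⟨δ, hδ, hδr⟩ := (mem_nhdsGT_iff_exists_Ioc_subset).1 hev
  have hδ : 0 < δ := hδ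
  set ω : ℝ := volume.real (closedBall (0 : E k) 1) with hω
  obtain ⟨N, hN⟩ := exists_nat_ge (max ((D + 1).toReal * ω) (m.real univ / δ ^ k))
  refine ⟨N, fun r hr => ?_⟩
  rcases le_or_gt r δ with hrδ | hrδ
  · have h1 := hδr ⟨hr, hrδ⟩
    simp only [mem_ofPred_eq] at h1
    have hv0 : volume (closedBall x r) ≠ 0 := (measure_closedBall_pos _ _ hr).ne'
    have hvt : volume (closedBall x r) ≠ ⊤ := measure_closedBall_lt_top.ne
    have h2 : m (closedBall x r) ≤ (D + 1) * volume (closedBall x r) := by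
      rw [ENNReal.div_lt_iff (Or.inl hv0) (Or.inl hvt)] at h1
      exact h1.le
    have h3 : m.real (closedBall x r) ≤ (D + 1).toReal * volume.real (closedBall x r) := by
      rw [measureReal_def, measureReal_def, ← ENNReal.toReal_mul]
      refine ENNReal.toReal_mono ?_ h2
      exact ENNReal.mul_ne_top (ENNReal.add_lt_top.2 ⟨hfin, ENNReal.one_lt_top⟩).ne hvt
    have hvol : volume.real (closedBall x r) = r ^ k * ω := by
      rw [Measure.addHaar_real_closedBall' _ _ hr.le]
      simp [hω]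
    rw [hvol] at h3
    calc m.real (closedBall x r) ≤ (D + 1).toReal * (r ^ k * ω) := h3
      _ = ((D + 1).toReal * ω) * r ^ k := by ring
      _ ≤ N * r ^ k := mul_le_mul_of_nonneg_right ((le_max_left _ _).trans hN) (by positivity)
  · have hδk : 0 < δ ^ k := pow_pos hδ k
    calc m.real (closedBall x r) ≤ m.real univ := measureReal_mono (subset_univ _)
      _ = (m.real univ / δ ^ k) * δ ^ k := by field_simp
      _ ≤ N * r ^ k := mul_le_mul ((le_max_right _ _).trans hN)
          (pow_le_pow_left₀ hδ.le hrδ.le k) hδk.le (Nat.cast_nonneg N)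

theorem Growth.mono {m : Measure (E k)} {L L' : ℝ} {x : E k} (h : Growth m L x) (hL : L ≤ L') :
    Growth m L' x := fun r hr =>
  (h r hr).trans (mul_le_mul_of_nonneg_right hL (by positivity))

/-- **Packaged version** for a countable family with one controlling measure: there is a null set
outside of which every `u j` satisfies the Lipschitz estimate, and almost every point has a finite
growth constant. -/
theorem exists_null {ι : Type*} [Countable ι] (u : ι → E k → ℝ) (hu : ∀ j, Integrable (u j))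
    (m : Measure (E k)) [IsFiniteMeasure m] (hm : ∀ j, BVBound (u j) m) :
    ∃ N : Set (E k), MeasurableSet N ∧ volume N = 0 ∧
      (∀ x ∉ N, ∃ L : ℕ, Growth m L x) ∧
      ∀ x ∉ N, ∀ y ∉ N, ∀ L : ℝ, Growth m L x → Growth m L y →
        ∀ j, |u j x - u j y| ≤ Ck k * L * dist x y := by
  have h1 : ∀ᵐ x, (∃ L : ℕ, Growth m L x) ∧ ∀ j, LebPt (u j) x := by
    filter_upwards [ae_growth m, ae_all_iff.2 fun j => ae_lebPt (hu j).locallyIntegrable]
      with x h1 h2 using ⟨h1, h2⟩
  obtain ⟨N, hN, hNm, hN0⟩ := exists_measurable_superset_of_null (ae_iff.1 h1)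
  refine ⟨N, hNm, hN0, fun x hx => ?_, fun x hx y hy L hLx hLy j => ?_⟩
  · by_contra hc
    exact hx (hN fun h => hc h.1)
  · have hx' : (∃ L : ℕ, Growth m L x) ∧ ∀ j, LebPt (u j) x := by
      by_contra hc; exact hx (hN hc)
    have hy' : (∃ L : ℕ, Growth m L y) ∧ ∀ j, LebPt (u j) y := by
      by_contra hc; exact hy (hN hc)
    exact abs_sub_le (hu j) (hm j) (hx'.2 j) (hy'.2 j) hLx hLy

end Crest.Agent.R241.B7d
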