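import Mathlib
import Crest.Prelude.Def_MetricCurrent

/-!
R241, block B6/B7 (boundary rectifiability): exact statements of the pure-analysis inputs.
Owner: helper191.
-/

set_option autoImplicit false

open MeasureTheory Filter Topology Set ProbabilityTheory
open scoped ENNReal NNReal

universe u

namespace Crest.Agent.R241.B7

open Crest.GeometryTopology.MetricCurrent
open Crest.GeometryTopology.Submanifold (Euc)

/-- **B6** (area/degree formula with multiplicity on `ℝ^k`). -/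
def B6Target : Prop :=
  ∀ (k : ℕ) (E : Set (Euc k)) (ψ : Euc k → Euc k) (θ : Euc k → ℤ) (L : ℝ≥0),
    MeasurableSet E → LipschitzOnWith L ψ E →
    Measurable θ → Integrable (fun z => (θ z : ℝ)) (volume.restrict E) →
    ∃ Θ : Euc k → ℤ, Measurable Θ ∧ Integrable (fun y => (Θ y : ℝ)) volume ∧
      ∀ G : Euc k → ℝ, Measurable G → (∃ C, ∀ y, |G y| ≤ C) →
        ∫ z in E, (θ z : ℝ) * G (ψ z) * (fderivWithin ℝ ψ E z).det = ∫ y, G y * (Θ y : ℝ)

/-- **B7c** (disintegration of a measure all of whose pieces have `ℕ`-valued projections). -/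
def B7cTarget : Prop :=
  ∀ (k : ℕ) (X : Type u) [MetricSpace X] [CompleteSpace X] [SecondCountableTopology X]
    [MeasurableSpace X] [BorelSpace X] (ν : Measure X) [IsFiniteMeasure ν]
    (p : X → Euc k), Measurable p →
    (∀ B : Set X, MeasurableSet B → ∃ n : Euc k → ℕ, Measurable n ∧
      (ν.restrict B).map p = (volume : Measure (Euc k)).withDensity (fun x => (n x : ℝ≥0∞))) →
    ∃ κ : Kernel (Euc k) X, IsSFiniteKernel κ ∧
      (∀ f : X → ℝ≥0∞, Measurable f → ∫⁻ y, f y ∂ν = ∫⁻ x, ∫⁻ y, f y ∂(κ x)) ∧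
      (∀ x, κ x {y | p y ≠ x} = 0) ∧
      (∀ x, κ x univ < ∞) ∧
      (∀ x, ∃ (F : Finset X) (m : X → ℕ), (∀ q ∈ F, m q ≠ 0) ∧
        κ x = ∑ q ∈ F, (m q : ℝ≥0∞) • Measure.dirac q)

/-- **B7d** (Lusin-Lipschitz estimate for `BV` functions, uniform in the function). -/
def B7dTarget : Prop :=
  ∀ (k : ℕ), ∃ C : ℝ, 0 ≤ C ∧
    ∀ (m : Measure (Euc k)), IsFiniteMeasure m →
    ∀ u : Euc k → ℝ, Integrable u volume →
    (∀ (φ : Euc k → ℝ) (i : Fin k), ContDiff ℝ (⊤ : ℕ∞) φ → HasCompactSupport φ →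
      |∫ x, u x * fderiv ℝ φ x (EuclideanSpace.single i 1)| ≤ ∫ x, |φ x| ∂m) →
    ∃ N : Set (Euc k), volume N = 0 ∧
      ∀ (L : ℝ≥0) (x x' : Euc k), x ∉ N → x' ∉ N →
        (∀ r : ℝ, 0 < r → m (Metric.closedBall x r) ≤ ENNReal.ofReal (L * r ^ k)) →
        (∀ r : ℝ, 0 < r → m (Metric.closedBall x' r) ≤ ENNReal.ofReal (L * r ^ k)) →
        |u x - u x'| ≤ C * L * dist x x'

/-- **B7d'** (finite upper density almost everywhere). -/
def B7dTarget' : Prop :=
  ∀ (k : ℕ) (m : Measure (Euc k)), IsFiniteMeasure m →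
    ∀ᵐ x ∂(volume : Measure (Euc k)), ∃ L : ℕ, ∀ r : ℝ, 0 < r →
      m (Metric.closedBall x r) ≤ ENNReal.ofReal (L * r ^ k)

end Crest.Agent.R241.B7
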