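import Mathlib
import Crest.Agent.R241.B7Targets

/-!
# R241, block B7c (helper734)

Pure measure theory: a finite measure `ν` on a standard Borel space `X`, a measurable map
`π : X → Y`, such that for every Borel `B ⊆ X` the push-forward `π_#(ν|_B)` has an
integer-valued density with respect to `ρ`.  Then `ν` disintegrates into finite sums of
Dirac masses with integer weights on the fibres of `π`.
-/

set_option autoImplicit false

open MeasureTheory Set Filter Topology ProbabilityTheory
open scoped ENNReal NNReal

namespace Crest.Agent.R241.B7c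

/-! ## Natural-number valued measures -/

/-- `c` is a natural number. -/
def IsNatE (c : ℝ≥0∞) : Prop := ∃ n : ℕ, c = n

lemma isNatE_zero : IsNatE 0 := ⟨0, by simp⟩

lemma isNatE_natCast (n : ℕ) : IsNatE (n : ℝ≥0∞) := ⟨n, rfl⟩

lemma IsNatE.add {a b : ℝ≥0∞} (ha : IsNatE a) (hb : IsNatE b) : IsNatE (a + b) := by
  obtain ⟨n, rfl⟩ := ha
  obtain ⟨m, rfl⟩ := hb
  exact ⟨n + m, by push_cast; rfl⟩

lemma IsNatE.sub {a b : ℝ≥0∞} (ha : IsNatE a) (hb : IsNatE b) : IsNatE (a - b) := by
  obtain ⟨n, rfl⟩ := ha
  obtain ⟨m, rfl⟩ := hb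
  exact ⟨n - m, by rw [ENNReal.natCast_sub]⟩

lemma IsNatE.ne_top {a : ℝ≥0∞} (ha : IsNatE a) : a ≠ ∞ := by
  obtain ⟨n, rfl⟩ := ha
  exact ENNReal.natCast_ne_top n

lemma IsNatE.one_le {a : ℝ≥0∞} (ha : IsNatE a) (h0 : a ≠ 0) : 1 ≤ a := by
  obtain ⟨n, rfl⟩ := ha
  have : n ≠ 0 := by
    rintro rfl
    simp at h0
  exact_mod_cast Nat.one_le_iff_ne_zero.mpr this

lemma isNatE_of_tendsto {c : ℕ → ℝ≥0∞} {a : ℝ≥0∞} (hc : ∀ n, IsNatE (c n)) (ha : a ≠ ∞)
    (h : Tendsto c atTop (𝓝 a)) : IsNatE a := by
  choose f hf using hc
  have h1 : Tendsto (fun n => ((f n : ℕ) : ℝ)) atTop (𝓝 a.toReal) := by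
    have := (ENNReal.tendsto_toReal ha).comp h
    refine this.congr fun n => ?_
    simp [hf n]
  have h2 : a.toReal ∈ range ((↑) : ℕ → ℝ) :=
    Nat.isClosedEmbedding_coe_real.isClosed_range.mem_of_tendsto h1
      (Eventually.of_forall fun n => mem_range_self _)
  obtain ⟨m, hm⟩ := h2
  refine ⟨m, ?_⟩
  rw [← ENNReal.ofReal_toReal ha, ← hm]
  simp

lemma isNatE_finset_sum {ι : Type*} (s : Finset ι) (c : ι → ℝ≥0∞) (h : ∀ i ∈ s, IsNatE (c i)) :
    IsNatE (∑ i ∈ s, c i) := by
  classical
  induction s using Finset.induction_on with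
  | empty => simpa using isNatE_zero
  | insert a s has ih =>
    rw [Finset.sum_insert has]
    exact (h a (Finset.mem_insert_self a s)).add
      (ih fun i hi => h i (Finset.mem_insert_of_mem hi))

/-- The natural number `c` (or junk). -/
noncomputable def natOf (c : ℝ≥0∞) : ℕ := ⌊c.toReal⌋₊

@[simp] lemma natOf_natCast (n : ℕ) : natOf (n : ℝ≥0∞) = n := by simp [natOf]

@[simp] lemma natOf_zero : natOf 0 = 0 := by simp [natOf]

lemma IsNatE.natOf_eq {a : ℝ≥0∞} (ha : IsNatE a) : (natOf a : ℝ≥0∞) = a := by
  obtain ⟨n, rfl⟩ := ha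
  simp

lemma measurable_natOf : Measurable natOf :=
  Nat.measurable_floor.comp ENNReal.measurable_toReal

section Single

variable {X : Type*} [MeasurableSpace X]

/-- If a finite measure is `ℕ`-valued on a generating π-system and on the whole space then it is
`ℕ`-valued. -/
lemma isNatE_of_generate {ν : Measure X} [IsFiniteMeasure ν] {C : Set (Set X)}
    (hC : IsPiSystem C) (hgen : ‹MeasurableSpace X› = MeasurableSpace.generateFrom C)
    (huniv : IsNatE (ν univ)) (h : ∀ s ∈ C, IsNatE (ν s)) (s : Set X) (hs : MeasurableSet s) :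
    IsNatE (ν s) := by
  induction s, hs using MeasurableSpace.induction_on_inter hgen hC with
  | empty => simpa using isNatE_zero
  | basic t ht => exact h t ht
  | compl t ht ih =>
    rw [measure_compl ht (measure_ne_top ν t)]
    exact huniv.sub ih
  | iUnion f hd hm ih =>
    rw [measure_iUnion hd hm]
    have hfin : ∑' i, ν (f i) ≠ ∞ := by
      rw [← measure_iUnion hd hm]
      exact measure_ne_top ν _
    refine isNatE_of_tendsto (c := fun n => ∑ i ∈ Finset.range n, ν (f i)) (fun n => ?_) hfin ?_
    · exact isNatE_finset_sum _ _ fun i _ => ih i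
    · exact ENNReal.tendsto_nat_tsum _

/-- `ν` takes only natural-number values. -/
def NatValued (ν : Measure X) : Prop := ∀ s, MeasurableSet s → IsNatE (ν s)

lemma NatValued.restrict {ν : Measure X} (h : NatValued ν) {t : Set X} (ht : MeasurableSet t) :
    NatValued (ν.restrict t) := by
  intro s hs
  rw [Measure.restrict_apply hs]
  exact h _ (hs.inter ht)

variable [MeasurableSpace.CountablyGenerated X] [MeasurableSingletonClass X]

/-- A non-zero natural-number valued measure has an atom. -/
lemma NatValued.exists_atom {ν : Measure X} (h : NatValued ν) (hν : ν ≠ 0) :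
    ∃ p : X, ν {p} ≠ 0 := by
  classical
  -- choose a measurable set of smallest nonzero measure
  have hex : ∃ n : ℕ, n ≠ 0 ∧ ∃ A : Set X, MeasurableSet A ∧ ν A = n := by
    obtain ⟨n, hn⟩ := h univ MeasurableSet.univ
    refine ⟨n, ?_, univ, MeasurableSet.univ, hn⟩
    rintro rfl
    apply hν
    simpa using hn
  obtain ⟨hN0, A, hA, hAN⟩ := Nat.find_spec hex
  set N := Nat.find hex with hN
  have hmin : ∀ B : Set X, MeasurableSet B → B ⊆ A → ν B ≠ 0 → ν B = ν A := by
    intro B hB hBA hB0
    obtain ⟨m, hm⟩ := h B hB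
    have hm0 : m ≠ 0 := by
      rintro rfl
      simp at hm
      exact hB0 hm
    have h1 : N ≤ m := Nat.find_min' hex ⟨hm0, B, hB, hm⟩
    have h2 : ν B ≤ ν A := measure_mono hBA
    refine le_antisymm h2 ?_
    rw [hAN, hm]
    exact_mod_cast h1
  let t : ℕ → Set X := MeasurableSpace.natGeneratingSequence X
  have ht : ∀ n, MeasurableSet (t n) := fun n =>
    MeasurableSpace.measurableSet_natGeneratingSequence n
  let T : ℕ → Set X := fun n => if ν (A ∩ t n) ≠ 0 then t n else (t n)ᶜ
  have hT : ∀ n, MeasurableSet (T n) := by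
    intro n
    by_cases hn : ν (A ∩ t n) ≠ 0
    · simp only [T, if_pos hn]; exact ht n
    · simp only [T, if_neg hn]; exact (ht n).compl
  have hfinA : ν A ≠ ∞ := (h A hA).ne_top
  have hnull : ∀ n, ν (A \ T n) = 0 := by
    intro n
    by_cases hn : ν (A ∩ t n) ≠ 0
    · simp only [T, if_pos hn]
      have h1 : ν (A ∩ t n) = ν A := hmin _ (hA.inter (ht n)) inter_subset_left hn
      have h2 : ν (A \ t n) + ν (A ∩ t n) = ν A := measure_sdiff_add_inter A (ht n)
      rw [h1] at h2
      have h3 : ν (A \ t n) + ν A = 0 + ν A := by rw [h2, zero_add]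
      exact (ENNReal.add_left_inj hfinA).mp h3
    · simp only [T, if_neg hn, sdiff_compl]
      simpa using hn
  let D : Set X := A ∩ ⋂ n, T n
  have hD : ν D = ν A := by
    have hsub : A \ D ⊆ ⋃ n, A \ T n := by
      intro x hx
      simp only [D, Set.mem_sdiff, mem_inter_iff, mem_iInter, not_and, not_forall] at hx
      obtain ⟨n, hn⟩ := hx.2 hx.1
      exact mem_iUnion.mpr ⟨n, hx.1, hn⟩
    have h0 : ν (A \ D) = 0 := measure_mono_null hsub (measure_iUnion_null hnull)
    have hDA : D ⊆ A := inter_subset_left
    refine le_antisymm (measure_mono hDA) ?_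
    calc ν A = ν (D ∪ A \ D) := by rw [union_sdiff_cancel hDA]
      _ ≤ ν D + ν (A \ D) := measure_union_le _ _
      _ = ν D := by rw [h0, add_zero]
  have hD0 : ν D ≠ 0 := by
    rw [hD, hAN]
    exact_mod_cast hN0
  obtain ⟨p, hp⟩ := nonempty_of_measure_ne_zero hD0
  have hDp : D ⊆ {p} := by
    intro q hq
    have hsep : ∀ s ∈ range t, q ∈ s ↔ p ∈ s := by
      rintro s ⟨n, rfl⟩
      have h1 : q ∈ T n := (mem_iInter.mp hq.2) n
      have h2 : p ∈ T n := (mem_iInter.mp hp.2) n
      by_cases hn : ν (A ∩ t n) ≠ 0
      · simp only [T, if_pos hn] at h1 h2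
        exact ⟨fun _ => h2, fun _ => h1⟩
      · simp only [T, if_neg hn] at h1 h2
        exact ⟨fun h => absurd h h1, fun h => absurd h h2⟩
    have hinst : @MeasurableSpace.SeparatesPoints X (MeasurableSpace.generateFrom (range t)) := by
      have : MeasurableSpace.generateFrom (range t) = ‹MeasurableSpace X› :=
        MeasurableSpace.generateFrom_natGeneratingSequence X
      rw [this]
      infer_instance
    exact MeasurableSpace.separating_of_generateFrom (range t) (h := hinst) q p hsep
  refine ⟨p, fun h0 => hD0 (measure_mono_null hDp h0)⟩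

/-- The measure `∑ f p • δ_p` of a finitely supported function. -/
noncomputable def dsum (f : X →₀ ℕ) : Measure X :=
  ∑ p ∈ f.support, (f p : ℝ≥0∞) • Measure.dirac p

omit [MeasurableSpace.CountablyGenerated X] [MeasurableSingletonClass X] in
lemma lintegral_dsum (f : X →₀ ℕ) {F : X → ℝ≥0∞} (hF : Measurable F) :
    ∫⁻ p, F p ∂(dsum f) = ∑ p ∈ f.support, F p * f p := by
  rw [dsum, lintegral_finsetSum_measure]
  refine Finset.sum_congr rfl fun p _ => ?_
  rw [lintegral_smul_measure, lintegral_dirac' p hF, smul_eq_mul, mul_comm]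

omit [MeasurableSpace.CountablyGenerated X] [MeasurableSingletonClass X] in
lemma dsum_apply (f : X →₀ ℕ) {s : Set X} (hs : MeasurableSet s) :
    dsum f s = ∑ p ∈ f.support, s.indicator (fun _ => (f p : ℝ≥0∞)) p := by
  rw [dsum, Measure.finsetSum_apply]
  refine Finset.sum_congr rfl fun p _ => ?_
  rw [Measure.smul_apply, Measure.dirac_apply' p hs, smul_eq_mul]
  by_cases hp : p ∈ s <;> simp [hp]

open Classical in
/-- The atoms of a measure, as a finitely supported function (junk `0` if infinitely many). -/
noncomputable def atomsF (ν : Measure X) : X →₀ ℕ :=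
  if h : (Function.support fun p => natOf (ν {p})).Finite then
    Finsupp.ofSupportFinite _ h else 0

omit [MeasurableSpace.CountablyGenerated X] in
lemma NatValued.finite_atoms {ν : Measure X} [IsFiniteMeasure ν] (h : NatValued ν) :
    (Function.support fun p => natOf (ν {p})).Finite := by
  have h1 : Set.Finite {p : X | 1 ≤ ν {p}} :=
    Measure.finite_const_le_meas_of_disjoint_iUnion ν one_pos
      (fun p => measurableSet_singleton p)
      (fun p q hpq => by simpa using hpq) (measure_ne_top ν _)
  refine h1.subset fun p hp => ?_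
  have h2 : ν {p} ≠ 0 := by
    intro h0
    apply hp
    simp [h0]
  exact (h _ (measurableSet_singleton p)).one_le h2

lemma NatValued.atomsF_apply {ν : Measure X} [IsFiniteMeasure ν] (h : NatValued ν) (p : X) :
    (atomsF ν p : ℝ≥0∞) = ν {p} := by
  rw [atomsF, dif_pos h.finite_atoms, Finsupp.ofSupportFinite_coe,
    (h _ (measurableSet_singleton p)).natOf_eq]

lemma NatValued.dsum_atomsF {ν : Measure X} [IsFiniteMeasure ν] (h : NatValued ν) :
    dsum (atomsF ν) = ν := by
  classical
  set f := atomsF ν with hf
  have hfp : ∀ p, (f p : ℝ≥0∞) = ν {p} := fun p => h.atomsF_apply p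
  have hmeasF : MeasurableSet (f.support : Set X) := f.support.measurableSet
  have h0 : ν.restrict (f.support : Set X)ᶜ = 0 := by
    by_contra hne
    obtain ⟨p, hp⟩ := (h.restrict hmeasF.compl).exists_atom hne
    rw [Measure.restrict_apply (measurableSet_singleton p)] at hp
    by_cases hpf : p ∈ f.support
    · apply hp
      have : ({p} : Set X) ∩ (f.support : Set X)ᶜ = ∅ := by
        ext q
        simp only [mem_inter_iff, mem_singleton_iff, mem_compl_iff, Finset.mem_coe,
          mem_empty_iff_false, iff_false, not_and, not_not]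
        rintro rfl
        exact hpf
      rw [this, measure_empty]
    · have h1 : f p = 0 := by simpa using hpf
      have h2 : ν {p} = 0 := by rw [← hfp p, h1]; simp
      exact hp (measure_mono_null inter_subset_left h2)
  refine Measure.ext fun s hs => ?_
  have h1 : ν s = ν (s ∩ f.support) + ν (s ∩ (f.support : Set X)ᶜ) :=
    (measure_inter_add_sdiff s hmeasF).symm
  have h2 : ν (s ∩ (f.support : Set X)ᶜ) = 0 := by
    rw [← Measure.restrict_apply hs, h0]; simp
  have h3 : s ∩ f.support = ((f.support.filter (· ∈ s) : Finset X) : Set X) := by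
    ext p
    simp [and_comm]
  rw [dsum_apply f hs, h1, h2, add_zero, h3, ← sum_measure_singleton, Finset.sum_filter]
  refine Finset.sum_congr rfl fun p _ => ?_
  by_cases hp : p ∈ s <;> simp [hp, hfp p]

end Single

section Disint

variable {X Y : Type*} [MeasurableSpace X] [StandardBorelSpace X] [MeasurableSpace Y]

/-- The countable π-system of all cells of the countable partitions, together with `∅`. -/
def cells (X : Type*) [MeasurableSpace X] [MeasurableSpace.CountablyGenerated X] :
    Set (Set X) := insert ∅ (⋃ n, MeasurableSpace.countablePartition X n)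

lemma countable_cells : (cells X).Countable :=
  (countable_iUnion fun n =>
    (MeasurableSpace.finite_countablePartition X n).countable).insert ∅

lemma measurableSet_cells {s : Set X} (hs : s ∈ cells X) : MeasurableSet s := by
  rcases hs with rfl | hs
  · exact MeasurableSet.empty
  · obtain ⟨n, hn⟩ := mem_iUnion.mp hs
    exact MeasurableSpace.measurableSet_countablePartition n hn

lemma generateFrom_cells : MeasurableSpace.generateFrom (cells X) = ‹MeasurableSpace X› := by
  refine le_antisymm (MeasurableSpace.generateFrom_le fun s hs => measurableSet_cells hs) ?_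
  conv_lhs => rw [← MeasurableSpace.generateFrom_iUnion_countablePartition X]
  exact MeasurableSpace.generateFrom_mono (subset_insert _ _)

/-- Cells of a finer partition are contained in or disjoint from cells of a coarser one. -/
lemma cell_le {n m : ℕ} (hnm : n ≤ m) {s t : Set X}
    (hs : s ∈ MeasurableSpace.countablePartition X n)
    (ht : t ∈ MeasurableSpace.countablePartition X m) : t ⊆ s ∨ Disjoint t s := by
  have hmeas : ∀ k, n ≤ k → MeasurableSet[MeasurableSpace.generateFrom
      (MeasurableSpace.countablePartition X k)] s := by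
    intro k hk
    induction k, hk using Nat.le_induction with
    | base => exact MeasurableSpace.measurableSet_generateFrom hs
    | succ k hk ih =>
      exact (MeasurableSpace.generateFrom_countablePartition_le_succ X k) _ ih
  obtain ⟨S, hS, hSs⟩ := (MeasurableSpace.measurableSet_generateFrom_countablePartition_iff m s).mp
    (hmeas m hnm)
  by_cases htS : t ∈ S
  · left
    rw [hSs]
    exact subset_sUnion_of_mem (by exact_mod_cast htS)
  · right
    rw [hSs]
    refine disjoint_sUnion_right.mpr fun r hr => ?_
    have hr' : r ∈ (S : Set (Set X)) := hr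
    refine MeasurableSpace.disjoint_countablePartition ht (hS hr') ?_
    rintro rfl
    exact htS (by exact_mod_cast hr')

lemma isPiSystem_cells : IsPiSystem (cells X) := by
  intro s hs t ht hst
  rcases hs with rfl | hs
  · simp at hst
  rcases ht with rfl | ht
  · simp at hst
  have hs0 := hs
  have ht0 := ht
  obtain ⟨n, hn⟩ := mem_iUnion.mp hs
  obtain ⟨m, hm⟩ := mem_iUnion.mp ht
  rcases le_total n m with h | h
  · rcases cell_le h hn hm with h1 | h1
    · rw [inter_eq_self_of_subset_right h1]
      exact Or.inr ht0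
    · exact absurd hst (by rw [h1.symm.inter_eq]; simp)
  · rcases cell_le h hm hn with h1 | h1
    · rw [inter_eq_self_of_subset_left h1]
      exact Or.inr hs0
    · exact absurd hst (by rw [h1.inter_eq]; simp)

/-- **Disintegration into finite sums of Dirac masses**, positive version. -/
theorem exists_disint [MeasurableEq Y] (ρ : Measure Y) [SigmaFinite ρ] (ν : Measure X)
    [IsFiniteMeasure ν] {π : X → Y} (hπ : Measurable π)
    (hInt : ∀ B : Set X, MeasurableSet B → ∃ θ : Y → ℕ, Measurable θ ∧
      ∀ A : Set Y, MeasurableSet A → ν (B ∩ π ⁻¹' A) = ∫⁻ y in A, (θ y : ℝ≥0∞) ∂ρ) :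
    ∃ u : Y → X →₀ ℕ,
      (∀ y, ∀ p ∈ (u y).support, π p = y) ∧
      (∀ B : Set X, MeasurableSet B → Measurable fun y => dsum (u y) B) ∧
      (∀ B : Set X, MeasurableSet B → ν B = ∫⁻ y, dsum (u y) B ∂ρ) := by
  classical
  rcases isEmpty_or_nonempty X with hX | hX
  · refine ⟨fun _ => 0, fun y p _ => (hX.false p).elim, fun B _ => ?_, fun B _ => ?_⟩
    · simp [dsum]
    · have : B = ∅ := eq_empty_of_isEmpty B
      simp [this]
  choose! θ hθm hθ using hInt
  -- the joint measure
  let j : X → Y × X := fun p => (π p, p)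
  have hj : Measurable j := hπ.prodMk measurable_id
  let lam : Measure (Y × X) := ν.map j
  have hlamfin : IsFiniteMeasure lam := Measure.isFiniteMeasure_map ν j
  have hfst : lam.fst = ρ.withDensity (fun y => (θ univ y : ℝ≥0∞)) := by
    refine Measure.ext fun A hA => ?_
    rw [Measure.fst_apply hA, Measure.map_apply hj (measurable_fst hA),
      withDensity_apply _ hA, ← hθ univ MeasurableSet.univ A hA, univ_inter]
    rfl
  have hθtop : Measurable fun y => (θ univ y : ℝ≥0∞) :=
    measurable_from_top.comp (hθm univ MeasurableSet.univ)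
  let κ : Kernel Y X := lam.condKernel
  let K : Y → Measure X := fun y => (θ univ y : ℝ≥0∞) • κ y
  have hKfin : ∀ y, IsFiniteMeasure (K y) := by
    intro y
    refine ⟨?_⟩
    simp only [K, Measure.smul_apply, smul_eq_mul, measure_univ, mul_one]
    exact ENNReal.natCast_lt_top _
  have hKmeas : ∀ B : Set X, MeasurableSet B → Measurable fun y => K y B := by
    intro B hB
    simp only [K, Measure.smul_apply, smul_eq_mul]
    exact hθtop.mul (κ.measurable_coe hB)
  -- integral formula for sets in the product
  have hprod : ∀ s : Set (Y × X), MeasurableSet s →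
      lam s = ∫⁻ y, K y (Prod.mk y ⁻¹' s) ∂ρ := by
    intro s hs
    conv_lhs => rw [← lam.disintegrate lam.condKernel]
    rw [Measure.compProd_apply hs, hfst, lintegral_withDensity_eq_lintegral_mul _ hθtop
      (Kernel.measurable_kernel_prodMk_left hs)]
    rfl
  have hAB : ∀ (A : Set Y) (B : Set X), MeasurableSet A → MeasurableSet B →
      ν (B ∩ π ⁻¹' A) = ∫⁻ y in A, K y B ∂ρ := by
    intro A B hA hB
    have h1 := hprod (A ×ˢ B) (hA.prod hB)
    have h2 : lam (A ×ˢ B) = ν (B ∩ π ⁻¹' A) := by
      rw [Measure.map_apply hj (hA.prod hB)]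
      congr 1
      ext p
      simp [j, and_comm]
    rw [← h2, h1, ← lintegral_indicator hA]
    refine lintegral_congr fun y => ?_
    by_cases hy : y ∈ A <;> simp [hy]
  -- a.e. identification with θ
  have haeθ : ∀ B : Set X, MeasurableSet B → ∀ᵐ y ∂ρ, K y B = θ B y := by
    intro B hB
    refine ae_eq_of_forall_setLIntegral_eq_of_sigmaFinite (hKmeas B hB)
      (measurable_from_top.comp (hθm B hB)) fun A hA _ => ?_
    rw [← hAB A B hA hB, hθ B hB A hA]
  have hae1 : ∀ᵐ y ∂ρ, NatValued (K y) := by
    have h1 : ∀ᵐ y ∂ρ, ∀ B ∈ insert univ (cells X), K y B = θ B y := by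
      rw [ae_ball_iff (countable_cells.insert _)]
      intro B hB
      refine haeθ B ?_
      rcases hB with rfl | hB
      · exact MeasurableSet.univ
      · exact measurableSet_cells hB
    filter_upwards [h1] with y hy s hs
    have := hKfin y
    refine isNatE_of_generate isPiSystem_cells generateFrom_cells.symm ?_ ?_ s hs
    · rw [hy univ (mem_insert _ _)]
      exact isNatE_natCast _
    · intro t ht
      rw [hy t (mem_insert_of_mem _ ht)]
      exact isNatE_natCast _
  -- concentration on fibres
  have hae2 : ∀ᵐ y ∂ρ, K y {p | π p ≠ y} = 0 := by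
    have hs : MeasurableSet {q : Y × X | π q.2 ≠ q.1} :=
      (measurableSet_eq_fun (hπ.comp measurable_snd) measurable_fst).compl
    have h1 := hprod _ hs
    have h2 : lam {q : Y × X | π q.2 ≠ q.1} = 0 := by
      rw [Measure.map_apply hj hs]
      have : j ⁻¹' {q : Y × X | π q.2 ≠ q.1} = ∅ := by
        ext p
        simp [j]
      rw [this, measure_empty]
    rw [h2] at h1
    have hm : Measurable fun y => K y (Prod.mk y ⁻¹' {q : Y × X | π q.2 ≠ q.1}) := by
      simp only [K, Measure.smul_apply, smul_eq_mul]
      exact hθtop.mul (Kernel.measurable_kernel_prodMk_left hs)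
    have h3 := (lintegral_eq_zero_iff hm).mp h1.symm
    filter_upwards [h3] with y hy
    simpa using hy
  -- a measurable good set
  let bad : Set Y := toMeasurable ρ {y | ¬ (NatValued (K y) ∧ K y {p | π p ≠ y} = 0)}
  have hbadm : MeasurableSet bad := measurableSet_toMeasurable _ _
  have hbad0 : ρ bad = 0 := by
    rw [measure_toMeasurable]
    exact (hae1.and hae2)
  have hgood : ∀ y, y ∉ bad → NatValued (K y) ∧ K y {p | π p ≠ y} = 0 := by
    intro y hy
    by_contra hcon
    exact hy (subset_toMeasurable _ _ hcon)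
  let u : Y → X →₀ ℕ := fun y => if y ∈ bad then 0 else atomsF (K y)
  have hu : ∀ y, y ∉ bad → dsum (u y) = K y := by
    intro y hy
    have := hKfin y
    simp only [u, if_neg hy]
    exact (hgood y hy).1.dsum_atomsF
  refine ⟨u, ?_, ?_, ?_⟩
  · intro y p hp
    by_cases hy : y ∈ bad
    · simp [u, hy] at hp
    · have := hKfin y
      by_contra hne
      have h1 : K y {p} = 0 := measure_mono_null (by simpa using hne) (hgood y hy).2
      have h2 := (hgood y hy).1.atomsF_apply p
      rw [h1] at h2
      have h3 : u y p = 0 := by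
        simp only [u, if_neg hy]
        exact_mod_cast h2
      exact (Finsupp.mem_support_iff.mp hp) h3
  · intro B hB
    have h1 : (fun y => dsum (u y) B) = (badᶜ).indicator fun y => K y B := by
      funext y
      by_cases hy : y ∈ bad
      · simp [u, hy, dsum]
      · rw [indicator_of_mem (by simpa using hy), hu y hy]
    rw [h1]
    exact (hKmeas B hB).indicator hbadm.compl
  · intro B hB
    have h1 := hAB univ B MeasurableSet.univ hB
    rw [preimage_univ, inter_univ, Measure.restrict_univ] at h1
    rw [h1]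
    refine lintegral_congr_ae ?_
    have h2 : ∀ᵐ y ∂ρ, y ∉ bad := by
      rw [ae_iff]
      simpa using hbad0
    filter_upwards [h2] with y hy
    rw [hu y hy]

open Classical in
/-- A kernel whose measures have natural-number total mass is s-finite. -/
lemma isSFiniteKernel_of_natMass (κ : Kernel Y X) (h : ∀ y, IsNatE (κ y univ)) :
    IsSFiniteKernel κ := by
  have hs : ∀ n : ℕ, MeasurableSet {y : Y | κ y univ = n} := fun n =>
    (κ.measurable_coe MeasurableSet.univ) (measurableSet_singleton _)
  let η : ℕ → Kernel Y X := fun n => Kernel.piecewise (hs n) κ 0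
  have hη : ∀ n, IsFiniteKernel (η n) := by
    intro n
    refine ⟨⟨n, ENNReal.natCast_lt_top n, fun y => ?_⟩⟩
    by_cases hy : κ y univ = n
    · simp [η, Kernel.piecewise_apply, hy]
    · simp [η, Kernel.piecewise_apply, hy]
  have hsum : κ = Kernel.sum η := by
    ext y s hs'
    rw [Kernel.sum_apply' _ _ hs']
    obtain ⟨n, hn⟩ := h y
    rw [tsum_eq_single n]
    · simp [η, Kernel.piecewise_apply, hn]
    · intro m hm
      have : κ y univ ≠ m := by
        rw [hn]
        exact_mod_cast hm.symm
      simp [η, Kernel.piecewise_apply, this]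
  rw [hsum]
  infer_instance

/-- The kernel attached to a measurable family of finite sums of Dirac masses. -/
noncomputable def kernelOf (u : Y → X →₀ ℕ)
    (hu : ∀ B : Set X, MeasurableSet B → Measurable fun y => dsum (u y) B) : Kernel Y X where
  toFun y := dsum (u y)
  measurable' := Measure.measurable_of_measurable_coe _ hu

@[simp] lemma kernelOf_apply (u : Y → X →₀ ℕ)
    (hu : ∀ B : Set X, MeasurableSet B → Measurable fun y => dsum (u y) B) (y : Y) :
    kernelOf u hu y = dsum (u y) := rfl

lemma isNatE_dsum (f : X →₀ ℕ) {s : Set X} (hs : MeasurableSet s) : IsNatE (dsum f s) := by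
  rw [dsum_apply f hs]
  refine isNatE_finset_sum _ _ fun p _ => ?_
  by_cases hp : p ∈ s
  · simpa [hp] using isNatE_natCast _
  · simpa [hp] using isNatE_zero

/-- Integration formula. -/
lemma lintegral_of_disint {ρ : Measure Y} {ν : Measure X} {u : Y → X →₀ ℕ}
    (hu : ∀ B : Set X, MeasurableSet B → Measurable fun y => dsum (u y) B)
    (h : ∀ B : Set X, MeasurableSet B → ν B = ∫⁻ y, dsum (u y) B ∂ρ)
    {F : X → ℝ≥0∞} (hF : Measurable F) :
    ∫⁻ p, F p ∂ν = ∫⁻ y, ∫⁻ p, F p ∂(dsum (u y)) ∂ρ := by
  have hν : ν = ρ.bind (kernelOf u hu) := by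
    refine Measure.ext fun B hB => ?_
    rw [Measure.bind_apply hB (kernelOf u hu).measurable.aemeasurable, h B hB]
    rfl
  rw [hν, Measure.lintegral_bind (kernelOf u hu).measurable.aemeasurable hF.aemeasurable]
  rfl

end Disint

section Target

open Crest.Agent.R241.B7
open Crest.GeometryTopology.Submanifold (Euc)

universe v

/-- **B7c**. -/
theorem b7c : B7cTarget.{v} := by
  intro k X _ _ _ _ _ ν _ p hp hn
  obtain ⟨u, hu1, hu2, hu3⟩ := exists_disint (volume : Measure (Euc k)) ν hp (by
    intro B hB
    obtain ⟨n, hnm, hneq⟩ := hn B hB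
    refine ⟨n, hnm, fun A hA => ?_⟩
    have h1 : (ν.restrict B).map p A = ν (B ∩ p ⁻¹' A) := by
      rw [Measure.map_apply hp hA, Measure.restrict_apply (hp hA), inter_comm]
    rw [← h1, hneq, withDensity_apply _ hA])
  refine ⟨kernelOf u hu2, ?_, ?_, ?_, ?_, ?_⟩
  · exact isSFiniteKernel_of_natMass _ fun y => isNatE_dsum _ MeasurableSet.univ
  · intro f hf
    exact lintegral_of_disint hu2 hu3 hf
  · intro x
    have hm : MeasurableSet {y | p y ≠ x} :=
      (measurableSet_eq_fun hp measurable_const).compl
    rw [kernelOf_apply, dsum_apply _ hm]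
    refine Finset.sum_eq_zero fun q hq => ?_
    simp [hu1 x q hq]
  · intro x
    exact (isNatE_dsum _ MeasurableSet.univ).ne_top.lt_top
  · intro x
    exact ⟨(u x).support, u x, fun q hq => Finsupp.mem_support_iff.mp hq, rfl⟩

end Target

end Crest.Agent.R241.B7c
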