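import Mathlib
import Crest.Agent.R241.B7c

/-!
# R241, block B7e (helper734), pure form

From two measurable families `up`, `um` of finite sums of Dirac masses (with disjoint supports,
concentrated on the fibres of `p : X → Y`) which satisfy the flat-norm Lipschitz estimate on
countably many good sets covering almost all of `Y`, we produce countably many bi-Lipschitz
pieces (sections of `p`) with pairwise disjoint Borel images carrying all the atoms.
-/

set_option autoImplicit false

open MeasureTheory Set Filter Topology ProbabilityTheory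
open scoped ENNReal NNReal

namespace Crest.Agent.R241.B7e

open Crest.Agent.R241.B7c

section Aux

variable {X : Type*} [MeasurableSpace X]

lemma dsum_ne_zero_iff (f : X →₀ ℕ) {S : Set X} (hS : MeasurableSet S) :
    dsum f S ≠ 0 ↔ ∃ q ∈ f.support, q ∈ S := by
  rw [dsum_apply f hS]
  constructor
  · intro h
    obtain ⟨q, hq, hq0⟩ := Finset.exists_ne_zero_of_sum_ne_zero h
    refine ⟨q, hq, ?_⟩
    by_contra hqS
    exact hq0 (by simp [hqS])
  · rintro ⟨q, hq, hqS⟩ h
    rw [Finset.sum_eq_zero_iff] at h
    have := h q hq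
    rw [indicator_of_mem hqS] at this
    exact (Finsupp.mem_support_iff.mp hq) (by exact_mod_cast this)

lemma dsum_add (f g : X →₀ ℕ) : dsum (f + g) = dsum f + dsum g := by
  classical
  have key : ∀ (h : X →₀ ℕ) (t : Finset X), h.support ⊆ t →
      dsum h = ∑ p ∈ t, (h p : ℝ≥0∞) • Measure.dirac p := by
    intro h t ht
    rw [dsum]
    refine Finset.sum_subset ht fun p _ hp => ?_
    have : h p = 0 := by simpa using hp
    simp [this]
  rw [key (f + g) (f.support ∪ g.support) Finsupp.support_add,
    key f (f.support ∪ g.support) Finset.subset_union_left,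
    key g (f.support ∪ g.support) Finset.subset_union_right, ← Finset.sum_add_distrib]
  refine Finset.sum_congr rfl fun p _ => ?_
  rw [← add_smul]
  congr 1
  push_cast [Finsupp.add_apply]
  rfl

end Aux

/-- The evaluation of the signed finite sum `∑ (up x) - ∑ (um x)` at `g`. -/
noncomputable def ev {X Y : Type*} (up um : Y → X →₀ ℕ) (g : X → ℝ) (x : Y) : ℝ :=
  ∑ q ∈ (up x).support, (up x q : ℝ) * g q - ∑ q ∈ (um x).support, (um x q : ℝ) * g q

/-- The input data of the piece construction. -/
structure Input {X Y : Type*} [MetricSpace X] [MeasurableSpace X] [MetricSpace Y]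
    [MeasurableSpace Y] (p : X → Y) (up um : Y → X →₀ ℕ) (Gd : ℕ → Set Y) (C : ℝ) : Prop where
  proj_p : ∀ y, ∀ q ∈ (up y).support, p q = y
  proj_m : ∀ y, ∀ q ∈ (um y).support, p q = y
  meas_p : ∀ B : Set X, MeasurableSet B → Measurable fun y => dsum (up y) B
  meas_m : ∀ B : Set X, MeasurableSet B → Measurable fun y => dsum (um y) B
  disj : ∀ y, Disjoint (up y).support (um y).support
  meas_G : ∀ L, MeasurableSet (Gd L)
  lip : ∀ L : ℕ, ∀ x ∈ Gd L, ∀ x' ∈ Gd L, ∀ g : X → ℝ, LipschitzWith 1 g → (∀ q, |g q| ≤ 1) →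
    |ev up um g x - ev up um g x'| ≤ C * L * dist x x'

section Main

variable {X Y : Type*} [MetricSpace X] [SecondCountableTopology X] [MeasurableSpace X]
  [BorelSpace X] [MetricSpace Y] [MeasurableSpace Y] [BorelSpace Y]
  {p : X → Y} {up um : Y → X →₀ ℕ} {Gd : ℕ → Set Y} {C : ℝ}

/-- all atoms -/
noncomputable def tot (up um : Y → X →₀ ℕ) (y : Y) : X →₀ ℕ := up y + um y

omit [SecondCountableTopology X] [MetricSpace X] [MeasurableSpace X] [BorelSpace X]
  [MetricSpace Y] [MeasurableSpace Y] [BorelSpace Y] in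
lemma mem_tot_support {y : Y} {q : X} :
    q ∈ (tot up um y).support ↔ q ∈ (up y).support ∨ q ∈ (um y).support := by
  simp only [tot, Finsupp.mem_support_iff, Finsupp.add_apply]
  omega

omit [SecondCountableTopology X] [BorelSpace X] [BorelSpace Y] in
lemma Input.proj (h : Input p up um Gd C) {y : Y} {q : X} (hq : q ∈ (tot up um y).support) :
    p q = y := by
  rcases mem_tot_support.mp hq with hq | hq
  · exact h.proj_p y q hq
  · exact h.proj_m y q hq

omit [SecondCountableTopology X] [BorelSpace X] [BorelSpace Y] in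
lemma Input.meas_tot (h : Input p up um Gd C) {B : Set X} (hB : MeasurableSet B) :
    Measurable fun y => dsum (tot up um y) B := by
  have : (fun y => dsum (tot up um y) B) = fun y => dsum (up y) B + dsum (um y) B := by
    funext y
    rw [tot, dsum_add]
    rfl
  rw [this]
  exact (h.meas_p B hB).add (h.meas_m B hB)

omit [SecondCountableTopology X] [BorelSpace X] [BorelSpace Y] in
lemma Input.measurableSet_hit (h : Input p up um Gd C) {S : Set X} (hS : MeasurableSet S) :
    MeasurableSet {y | ∃ q ∈ (tot up um y).support, q ∈ S} := by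
  have : {y | ∃ q ∈ (tot up um y).support, q ∈ S} = {y | dsum (tot up um y) S = 0}ᶜ := by
    ext y
    simp only [mem_ofPred_eq, mem_compl_iff]
    rw [← dsum_ne_zero_iff _ hS]
  rw [this]
  exact ((h.meas_tot hS) (measurableSet_singleton 0)).compl

/-- points over which there is exactly one atom in `S` -/
def oneAt (up um : Y → X →₀ ℕ) (S : Set X) : Set Y :=
  {y | (∃ q ∈ (tot up um y).support, q ∈ S) ∧
    ∀ q ∈ (tot up um y).support, ∀ q' ∈ (tot up um y).support, q ∈ S → q' ∈ S → q = q'}

omit [BorelSpace Y] in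
lemma Input.measurableSet_oneAt [Nonempty X] (h : Input p up um Gd C) {S : Set X}
    (hS : MeasurableSet S) : MeasurableSet (oneAt up um S) := by
  let D : ℕ → X := TopologicalSpace.denseSeq X
  let r : ℕ → ℝ := fun j => (1 / 2 : ℝ) ^ j
  let hit : Set X → Set Y := fun S => {y | ∃ q ∈ (tot up um y).support, q ∈ S}
  have key : oneAt up um S = hit S ∩ ⋂ (j : ℕ) (i : ℕ) (i' : ℕ)
      (_ : Disjoint (Metric.ball (D i) (r j)) (Metric.ball (D i') (r j))),
      ((hit (Metric.ball (D i) (r j) ∩ S))ᶜ ∪ (hit (Metric.ball (D i') (r j) ∩ S))ᶜ) := by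
    ext y
    simp only [oneAt, mem_inter_iff, mem_iInter, mem_union, mem_compl_iff, hit, mem_ofPred_eq]
    refine and_congr_right fun _ => ⟨?_, ?_⟩
    · intro huniq j i i' hd
      by_contra hcon
      push Not at hcon
      obtain ⟨⟨q, hq, hqi⟩, ⟨q', hq', hqi'⟩⟩ := hcon
      have := huniq q hq q' hq' hqi.2 hqi'.2
      subst this
      exact (disjoint_left.mp hd hqi.1) hqi'.1
    · intro hall q hq q' hq' hqS hqS'
      by_contra hne
      have hd : 0 < dist q q' := dist_pos.mpr hne
      obtain ⟨j, hj⟩ := exists_pow_lt_of_lt_one (show 0 < dist q q' / 4 by positivity)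
        (show (1 / 2 : ℝ) < 1 by norm_num)
      have hrj : 0 < r j := by positivity
      obtain ⟨i, hi⟩ := (TopologicalSpace.denseRange_denseSeq X).exists_dist_lt q hrj
      obtain ⟨i', hi'⟩ := (TopologicalSpace.denseRange_denseSeq X).exists_dist_lt q' hrj
      have hdisj : Disjoint (Metric.ball (D i) (r j)) (Metric.ball (D i') (r j)) := by
        refine Metric.ball_disjoint_ball ?_
        have h1 : dist q q' ≤ dist q (D i) + dist (D i) (D i') + dist q' (D i') := by
          have := dist_triangle4 q (D i) (D i') q'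
          rwa [dist_comm (D i') q'] at this
        have h2 : r j < dist q q' / 4 := hj
        linarith
      rcases hall j i i' hdisj with h1 | h1
      · exact h1 ⟨q, hq, Metric.mem_ball.mpr hi, hqS⟩
      · exact h1 ⟨q', hq', Metric.mem_ball.mpr hi', hqS'⟩
  rw [key]
  refine (h.measurableSet_hit hS).inter ?_
  refine MeasurableSet.iInter fun j => MeasurableSet.iInter fun i => MeasurableSet.iInter fun i' =>
    MeasurableSet.iInter fun _ => ?_
  exact ((h.measurableSet_hit (measurableSet_ball.inter hS)).compl).union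
    ((h.measurableSet_hit (measurableSet_ball.inter hS)).compl)

/-- The index set of the pieces: radius, centre, growth constant, bound. -/
abbrev Idx := ℕ × ℕ × ℕ × ℕ

/-- small radii `≤ 1/2` -/
noncomputable def rad (j : ℕ) : ℝ := (1 / 2 : ℝ) ^ (j + 1)

lemma rad_pos (j : ℕ) : 0 < rad j := by unfold rad; positivity

lemma rad_le (j : ℕ) : rad j ≤ 1 / 2 := by
  unfold rad
  rw [pow_succ]
  have : (1 / 2 : ℝ) ^ j ≤ 1 := pow_le_one₀ (by norm_num) (by norm_num)
  linarith

lemma exists_rad_lt {ε : ℝ} (hε : 0 < ε) : ∃ j, rad j < ε := by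
  obtain ⟨j, hj⟩ := exists_pow_lt_of_lt_one hε (show (1 / 2 : ℝ) < 1 by norm_num)
  refine ⟨j, lt_of_le_of_lt ?_ hj⟩
  unfold rad
  rw [pow_succ]
  have : (0 : ℝ) < (1 / 2 : ℝ) ^ j := by positivity
  linarith

section Pieces

variable [Nonempty X] [Nonempty Y]

/-- big ball -/
noncomputable def bigB (X : Type*) [MetricSpace X] [SecondCountableTopology X] [Nonempty X]
    (t : Idx) : Set X := Metric.ball (TopologicalSpace.denseSeq X t.2.1) (8 * rad t.1)

/-- small ball -/
noncomputable def smallB (X : Type*) [MetricSpace X] [SecondCountableTopology X] [Nonempty X]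
    (t : Idx) : Set X := Metric.ball (TopologicalSpace.denseSeq X t.2.1) (rad t.1)

omit [MeasurableSpace X] [BorelSpace X] in
lemma smallB_subset (t : Idx) : smallB X t ⊆ bigB X t :=
  Metric.ball_subset_ball (by linarith [rad_pos t.1])

/-- The Borel set over which the piece `t` lives. -/
noncomputable def HH (up um : Y → X →₀ ℕ) (Gd : ℕ → Set Y) (t : Idx) : Set Y :=
  Gd t.2.2.1 ∩ oneAt up um (bigB X t) ∩ {y | ∃ q ∈ (tot up um y).support, q ∈ smallB X t} ∩
    Metric.closedBall (Classical.arbitrary Y) t.2.2.2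

open Classical in
/-- The section of `p` over the piece `t`. -/
noncomputable def yy (up um : Y → X →₀ ℕ) (Gd : ℕ → Set Y) (t : Idx) (y : Y) : X :=
  if h : y ∈ HH up um Gd t then h.1.2.choose else Classical.arbitrary X

omit [MeasurableSpace X] [BorelSpace X] [MeasurableSpace Y] [BorelSpace Y] in
lemma yy_mem {t : Idx} {y : Y} (h : y ∈ HH up um Gd t) :
    yy up um Gd t y ∈ (tot up um y).support ∧ yy up um Gd t y ∈ smallB X t := by
  rw [yy, dif_pos h]
  exact h.1.2.choose_spec

omit [MeasurableSpace X] [BorelSpace X] [MeasurableSpace Y] [BorelSpace Y] in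
lemma yy_unique {t : Idx} {y : Y} (h : y ∈ HH up um Gd t) {q : X}
    (hq : q ∈ (tot up um y).support) (hqB : q ∈ bigB X t) : q = yy up um Gd t y :=
  h.1.1.2.2 q hq _ (yy_mem h).1 hqB (smallB_subset t (yy_mem h).2)

lemma Input.measurableSet_HH (h : Input p up um Gd C) (t : Idx) :
    MeasurableSet (HH up um Gd t) :=
  (((h.meas_G _).inter (h.measurableSet_oneAt measurableSet_ball)).inter
    (h.measurableSet_hit measurableSet_ball)).inter Metric.isClosed_closedBall.measurableSet

lemma Input.measurable_yy (h : Input p up um Gd C) (t : Idx) :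
    Measurable (yy up um Gd t) := by
  intro B hB
  have : yy up um Gd t ⁻¹' B =
      (HH up um Gd t ∩ {y | ∃ q ∈ (tot up um y).support, q ∈ B ∩ bigB X t}) ∪
      ((HH up um Gd t)ᶜ ∩ {_y | Classical.arbitrary X ∈ B}) := by
    ext y
    by_cases hy : y ∈ HH up um Gd t
    · simp only [mem_preimage, mem_union, mem_inter_iff, hy, true_and, mem_compl_iff,
        not_true_eq_false, false_and, or_false, mem_ofPred_eq]
      constructor
      · intro hB'
        exact ⟨_, (yy_mem hy).1, hB', smallB_subset t (yy_mem hy).2⟩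
      · rintro ⟨q, hq, hqB, hqb⟩
        rwa [← yy_unique hy hq hqb]
    · simp only [mem_preimage, mem_union, mem_inter_iff, hy, false_and, mem_compl_iff,
        not_false_eq_true, true_and, false_or, mem_ofPred_eq]
      rw [yy, dif_neg hy]
  rw [this]
  exact ((h.measurableSet_HH t).inter
    (h.measurableSet_hit (hB.inter measurableSet_ball))).union
    ((h.measurableSet_HH t).compl.inter (MeasurableSet.const _))

omit [BorelSpace X] [BorelSpace Y] in
lemma Input.proj_yy (h : Input p up um Gd C) {t : Idx} {y : Y} (hy : y ∈ HH up um Gd t) :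
    p (yy up um Gd t y) = y :=
  h.proj (yy_mem hy).1

omit [BorelSpace X] [BorelSpace Y] in
/-- The key estimate: over a piece the atom depends Lipschitz continuously on the base point. -/
lemma Input.dist_yy_le (h : Input p up um Gd C) {t : Idx} {y y' : Y}
    (hy : y ∈ HH up um Gd t) (hy' : y' ∈ HH up um Gd t) :
    dist (yy up um Gd t y) (yy up um Gd t y') ≤ C * t.2.2.1 * dist y y' := by
  classical
  set a := yy up um Gd t y with ha
  set a' := yy up um Gd t y' with ha'
  set c := TopologicalSpace.denseSeq X t.2.1 with hc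
  set R := rad t.1 with hR
  set δ := dist a a' with hδ
  have hRpos : 0 < R := rad_pos _
  have hRle : R ≤ 1 / 2 := rad_le _
  have haS : dist a c < R := Metric.mem_ball.mp (yy_mem hy).2
  have haS' : dist a' c < R := Metric.mem_ball.mp (yy_mem hy').2
  have hδlt : δ < 2 * R := by
    have := dist_triangle_right a a' c
    linarith
  -- test function
  let g : X → ℝ := fun q => max 0 (δ - dist q a)
  have hgL : LipschitzWith 1 g := by
    have h1 : LipschitzWith 1 fun q => δ - dist q a := by
      refine LipschitzWith.of_dist_le_mul fun q q' => ?_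
      rw [Real.dist_eq, NNReal.coe_one, one_mul]
      have := abs_dist_sub_le q' q a
      rw [dist_comm q q']
      calc |δ - dist q a - (δ - dist q' a)| = |dist q' a - dist q a| := by
            congr 1; ring
        _ ≤ dist q' q := this
    exact (LipschitzWith.const_max h1 0)
  have hgb : ∀ q, |g q| ≤ 1 := by
    intro q
    have h0 : 0 ≤ g q := le_max_left _ _
    rw [abs_of_nonneg h0]
    refine max_le (by norm_num) ?_
    have := dist_nonneg (x := q) (y := a)
    linarith
  have hfar : ∀ q, q ∉ bigB X t → g q = 0 := by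
    intro q hq
    have h1 : 8 * R ≤ dist q c := by
      by_contra hcon
      push Not at hcon
      exact hq (Metric.mem_ball.mpr hcon)
    have h2 : dist q c ≤ dist q a + dist a c := dist_triangle _ _ _
    exact max_eq_left (by linarith)
  have hga : g a = δ := by
    simp only [g, dist_self, sub_zero]
    exact max_eq_right dist_nonneg
  have hga' : g a' = 0 := by
    simp only [g]
    rw [dist_comm a' a]
    simp [hδ]
  have hz : ∀ {x : Y}, x ∈ HH up um Gd t → ∀ q ∈ (tot up um x).support,
      q ≠ yy up um Gd t x → g q = 0 := by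
    intro x hx q hq hne
    refine hfar q fun hqb => hne (yy_unique hx hq hqb)
  -- evaluation of a family at g
  have hev' : ev up um g y' = 0 := by
    have h1 : ∀ q ∈ (tot up um y').support, g q = 0 := by
      intro q hq
      by_cases hqa : q = a'
      · rw [hqa, hga']
      · exact hz hy' q hq hqa
    unfold ev
    rw [Finset.sum_eq_zero, Finset.sum_eq_zero, sub_zero]
    · intro q hq
      rw [h1 q (mem_tot_support.mpr (Or.inr hq)), mul_zero]
    · intro q hq
      rw [h1 q (mem_tot_support.mpr (Or.inl hq)), mul_zero]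
  have hev : δ ≤ |ev up um g y| := by
    have hcase := mem_tot_support.mp (yy_mem hy).1
    have h0 : ∀ q ∈ (tot up um y).support, q ≠ a → g q = 0 := fun q hq hne => hz hy q hq hne
    rcases hcase with hp | hm
    · have hnm : a ∉ (um y).support := Finset.disjoint_left.mp (h.disj y) hp
      have hs1 : ∑ q ∈ (up y).support, (up y q : ℝ) * g q = (up y a : ℝ) * δ := by
        rw [Finset.sum_eq_single a, hga]
        · intro q hq hne
          rw [h0 q (mem_tot_support.mpr (Or.inl hq)) hne, mul_zero]
        · intro hn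
          exact absurd hp hn
      have hs2 : ∑ q ∈ (um y).support, (um y q : ℝ) * g q = 0 := by
        refine Finset.sum_eq_zero fun q hq => ?_
        have hne : q ≠ a := by
          rintro rfl
          exact hnm hq
        rw [h0 q (mem_tot_support.mpr (Or.inr hq)) hne, mul_zero]
      have h1 : (1 : ℝ) ≤ up y a := by
        exact_mod_cast Nat.one_le_iff_ne_zero.mpr (Finsupp.mem_support_iff.mp hp)
      rw [ev, hs1, hs2, sub_zero, abs_of_nonneg (by positivity)]
      nlinarith [dist_nonneg (x := a) (y := a')]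
    · have hnp : a ∉ (up y).support := Finset.disjoint_right.mp (h.disj y) hm
      have hs1 : ∑ q ∈ (um y).support, (um y q : ℝ) * g q = (um y a : ℝ) * δ := by
        rw [Finset.sum_eq_single a, hga]
        · intro q hq hne
          rw [h0 q (mem_tot_support.mpr (Or.inr hq)) hne, mul_zero]
        · intro hn
          exact absurd hm hn
      have hs2 : ∑ q ∈ (up y).support, (up y q : ℝ) * g q = 0 := by
        refine Finset.sum_eq_zero fun q hq => ?_
        have hne : q ≠ a := by
          rintro rfl
          exact hnp hq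
        rw [h0 q (mem_tot_support.mpr (Or.inl hq)) hne, mul_zero]
      have h1 : (1 : ℝ) ≤ um y a := by
        exact_mod_cast Nat.one_le_iff_ne_zero.mpr (Finsupp.mem_support_iff.mp hm)
      rw [ev, hs1, hs2, zero_sub, abs_neg, abs_of_nonneg (by positivity)]
      nlinarith [dist_nonneg (x := a) (y := a')]
  have hfin := h.lip t.2.2.1 y hy.1.1.1 y' hy'.1.1.1 g hgL hgb
  rw [hev', sub_zero] at hfin
  exact hev.trans hfin

omit [MeasurableSpace X] [BorelSpace X] [MeasurableSpace Y] [BorelSpace Y] in
/-- Every atom over a good point lies on some piece. -/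
lemma exists_idx {y : Y} (hy : y ∈ ⋃ L, Gd L) {q : X} (hq : q ∈ (tot up um y).support) :
    ∃ t : Idx, y ∈ HH up um Gd t ∧ yy up um Gd t y = q := by
  classical
  obtain ⟨L, hL⟩ := mem_iUnion.mp hy
  -- separation of `q` from the other atoms
  obtain ⟨ε, hε, hsep⟩ : ∃ ε : ℝ, 0 < ε ∧ ∀ q' ∈ (tot up um y).support, dist q' q < ε →
      q' = q := by
    let F := (tot up um y).support.erase q
    rcases F.eq_empty_or_nonempty with hF | hF
    · refine ⟨1, one_pos, fun q' hq' _ => ?_⟩
      by_contra hne
      have : q' ∈ F := Finset.mem_erase.mpr ⟨hne, hq'⟩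
      rw [hF] at this
      simp at this
    · obtain ⟨q0, hq0, hmin⟩ := F.exists_min_image (fun q' => dist q' q) hF
      refine ⟨dist q0 q, dist_pos.mpr (Finset.mem_erase.mp hq0).1, fun q' hq' hlt => ?_⟩
      by_contra hne
      exact absurd (hmin q' (Finset.mem_erase.mpr ⟨hne, hq'⟩)) (not_le.mpr hlt)
  obtain ⟨j, hj⟩ := exists_rad_lt (show 0 < ε / 9 by positivity)
  obtain ⟨i, hi⟩ := (TopologicalSpace.denseRange_denseSeq X).exists_dist_lt q (rad_pos j)
  obtain ⟨M, hM⟩ := exists_nat_ge (dist y (Classical.arbitrary Y))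
  let t : Idx := (j, i, L, M)
  have hqs : q ∈ smallB X t := Metric.mem_ball.mpr hi
  have hnear : ∀ q' ∈ (tot up um y).support, q' ∈ bigB X t → q' = q := by
    intro q' hq' hqb
    refine hsep q' hq' ?_
    have h1 : dist q' (TopologicalSpace.denseSeq X i) < 8 * rad j := Metric.mem_ball.mp hqb
    have h2 := dist_triangle_right q' q (TopologicalSpace.denseSeq X i)
    linarith
  have hyH : y ∈ HH up um Gd t := by
    refine ⟨⟨⟨hL, ⟨q, hq, smallB_subset t hqs⟩, ?_⟩, ⟨q, hq, hqs⟩⟩, Metric.mem_closedBall.mpr hM⟩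
    intro q1 hq1 q2 hq2 h1 h2
    rw [hnear q1 hq1 h1, hnear q2 hq2 h2]
  exact ⟨t, hyH, (yy_unique hyH hq (smallB_subset t hqs)).symm⟩

/-- enumeration of the index set -/
noncomputable def en : ℕ ≃ Idx := (Denumerable.eqv Idx).symm

/-- The disjointified base sets. -/
noncomputable def Hn (up um : Y → X →₀ ℕ) (Gd : ℕ → Set Y) (n : ℕ) : Set Y :=
  HH up um Gd (en n) \ ⋃ m ∈ Finset.range n,
    (HH up um Gd (en m) ∩ {y | yy up um Gd (en m) y = yy up um Gd (en n) y})

/-- The multiplicity. -/
noncomputable def thn (up um : Y → X →₀ ℕ) (n : ℕ) (y : Y) : ℤ :=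
  (natOf (dsum (up y) (bigB X (en n))) : ℤ) - natOf (dsum (um y) (bigB X (en n)))

omit [BorelSpace X] [SecondCountableTopology X] [MetricSpace X] [Nonempty X] [MetricSpace Y]
  [MeasurableSpace Y] [BorelSpace Y] [Nonempty Y] in
lemma dsum_single_atom {f : X →₀ ℕ} {S : Set X} (hS : MeasurableSet S) {a : X} (ha : a ∈ S)
    (h : ∀ q ∈ f.support, q ∈ S → q = a) : dsum f S = f a := by
  rw [dsum_apply f hS]
  by_cases haf : a ∈ f.support
  · rw [Finset.sum_eq_single a, indicator_of_mem ha]
    · intro q hq hne
      by_cases hqS : q ∈ S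
      · exact absurd (h q hq hqS) hne
      · simp [hqS]
    · intro hn
      exact absurd haf hn
  · have h0 : f a = 0 := by simpa using haf
    rw [h0]
    simp only [Nat.cast_zero]
    refine Finset.sum_eq_zero fun q hq => ?_
    by_cases hqS : q ∈ S
    · rw [h q hq hqS] at hq
      exact absurd hq haf
    · simp [hqS]

omit [MeasurableSpace Y] [BorelSpace Y] in
lemma thn_eq {n : ℕ} {y : Y} (hy : y ∈ HH up um Gd (en n)) :
    thn up um n y = (up y (yy up um Gd (en n) y) : ℤ) - um y (yy up um Gd (en n) y) := by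
  have hS : MeasurableSet (bigB X (en n)) := measurableSet_ball
  have ha := smallB_subset _ (yy_mem hy).2
  rw [thn, dsum_single_atom hS ha, dsum_single_atom hS ha, natOf_natCast, natOf_natCast]
  · intro q hq hqS
    exact yy_unique hy (mem_tot_support.mpr (Or.inr hq)) hqS
  · intro q hq hqS
    exact yy_unique hy (mem_tot_support.mpr (Or.inl hq)) hqS

/-- **B7e**, pure form. -/
theorem pieces (h : Input p up um Gd C) :
    ∃ (H : ℕ → Set Y) (yn : ℕ → Y → X) (th : ℕ → Y → ℤ),
      (∀ n, MeasurableSet (H n)) ∧ (∀ n, Bornology.IsBounded (H n)) ∧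
      (∀ n, Measurable (yn n)) ∧ (∀ n, ∃ L : ℝ≥0, LipschitzOnWith L (yn n) (H n)) ∧
      (∀ n, ∀ y ∈ H n, p (yn n y) = y) ∧
      (∀ n, Measurable (th n)) ∧
      (∀ n, ∀ y ∈ H n, yn n y ∈ (up y).support ∨ yn n y ∈ (um y).support) ∧
      (∀ n, ∀ y ∈ H n, th n y = (up y (yn n y) : ℤ) - um y (yn n y)) ∧
      (∀ n, ∀ y ∈ H n, th n y ≠ 0) ∧
      (∀ n m, n ≠ m → Disjoint (yn n '' H n) (yn m '' H m)) ∧
      (∀ y ∈ ⋃ L, Gd L, ∀ q, q ∈ (up y).support ∨ q ∈ (um y).support →
        ∃! n, y ∈ H n ∧ yn n y = q) := by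
  classical
  have hpm : ∀ n, ∀ y ∈ Hn up um Gd n, y ∈ HH up um Gd (en n) := fun n y hy => hy.1
  have hdisj : ∀ n m, n < m → ∀ y ∈ Hn up um Gd n, y ∈ Hn up um Gd m →
      yy up um Gd (en n) y ≠ yy up um Gd (en m) y := by
    intro n m hnm y hy hy' heq
    apply hy'.2
    exact mem_biUnion (x := n) (by simpa using hnm) ⟨hy.1, heq⟩
  refine ⟨Hn up um Gd, fun n => yy up um Gd (en n), thn up um, ?_, ?_, ?_, ?_, ?_, ?_, ?_, ?_,
    ?_, ?_, ?_⟩
  · intro n
    refine (h.measurableSet_HH _).diff (Finset.measurableSet_biUnion _ fun m _ => ?_)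
    exact (h.measurableSet_HH _).inter
      (measurableSet_eq_fun (h.measurable_yy _) (h.measurable_yy _))
  · intro n
    refine (Metric.isBounded_closedBall (x := Classical.arbitrary Y)
      (r := ((en n).2.2.2 : ℝ))).subset fun y hy => hy.1.2
  · exact fun n => h.measurable_yy _
  · intro n
    refine ⟨Real.toNNReal (C * (en n).2.2.1), LipschitzOnWith.of_dist_le_mul fun y hy y' hy' => ?_⟩
    refine (h.dist_yy_le hy.1 hy'.1).trans ?_
    exact mul_le_mul_of_nonneg_right (Real.le_coe_toNNReal _) dist_nonneg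
  · exact fun n y hy => h.proj_yy hy.1
  · intro n
    have hS : MeasurableSet (bigB X (en n)) := measurableSet_ball
    have h1 : Measurable fun y => (natOf (dsum (up y) (bigB X (en n))) : ℤ) :=
      measurable_from_top.comp (measurable_natOf.comp (h.meas_p _ hS))
    have h2 : Measurable fun y => (natOf (dsum (um y) (bigB X (en n))) : ℤ) :=
      measurable_from_top.comp (measurable_natOf.comp (h.meas_m _ hS))
    exact h1.sub h2
  · exact fun n y hy => mem_tot_support.mp (yy_mem hy.1).1
  · exact fun n y hy => thn_eq hy.1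
  · intro n y hy
    rw [thn_eq hy.1]
    rcases mem_tot_support.mp (yy_mem hy.1).1 with hq | hq
    · have h1 := Finset.disjoint_left.mp (h.disj y) hq
      have h2 : um y (yy up um Gd (en n) y) = 0 := by simpa using h1
      have h3 := Finsupp.mem_support_iff.mp hq
      rw [h2]
      simpa using h3
    · have h1 := Finset.disjoint_right.mp (h.disj y) hq
      have h2 : up y (yy up um Gd (en n) y) = 0 := by simpa using h1
      have h3 := Finsupp.mem_support_iff.mp hq
      rw [h2]
      simpa using h3
  · intro n m hnm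
    rw [disjoint_left]
    rintro _ ⟨y, hy, rfl⟩ ⟨y', hy', heq⟩
    have heq' : yy up um Gd (en m) y' = yy up um Gd (en n) y := heq
    have h1 : y' = y := by
      rw [← h.proj_yy hy'.1, heq', h.proj_yy hy.1]
    subst h1
    rcases lt_or_gt_of_ne hnm with hlt | hlt
    · exact hdisj n m hlt y' hy hy' heq'.symm
    · exact hdisj m n hlt y' hy' hy heq'
  · intro y hy q hq
    have hex : ∃ n, y ∈ HH up um Gd (en n) ∧ yy up um Gd (en n) y = q := by
      obtain ⟨t, ht, htq⟩ := exists_idx hy (mem_tot_support.mpr hq)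
      refine ⟨en.symm t, ?_⟩
      rw [Equiv.apply_symm_apply]
      exact ⟨ht, htq⟩
    have hspec := Nat.find_spec hex
    have hmin : ∀ m, m < Nat.find hex → ¬ (y ∈ HH up um Gd (en m) ∧ yy up um Gd (en m) y = q) :=
      fun m hm => Nat.find_min hex hm
    refine ⟨Nat.find hex, ⟨⟨hspec.1, ?_⟩, hspec.2⟩, ?_⟩
    · intro hmem
      simp only [mem_iUnion, Finset.mem_range, exists_prop] at hmem
      obtain ⟨m, hm, hmH, hmeq⟩ := hmem
      exact hmin m hm ⟨hmH, (hmeq : yy up um Gd (en m) y = _).trans hspec.2⟩
    · rintro n ⟨hn, hnq⟩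
      by_contra hne
      have hlt : Nat.find hex < n := lt_of_le_of_ne
        (Nat.find_min' hex ⟨hn.1, hnq⟩) (Ne.symm hne)
      apply hn.2
      exact mem_biUnion (x := Nat.find hex) (by simpa using hlt)
        ⟨hspec.1, hspec.2.trans hnq.symm⟩

end Pieces

end Main

end Crest.Agent.R241.B7e
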