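import Mathlib
import Crest.Agent.R241.B7e
import Crest.Agent.R241.B7d

/-!
# R241, block B7e, part 2 (helper734)

Signed version of the disintegration and the combined statement: an integrand `lam` on `X` all of
whose localised projections have integer densities, together with the `BV` bounds, yields
countably many bi-Lipschitz pieces representing `lam • μ`.
-/

set_option autoImplicit false

open MeasureTheory Set Filter Topology ProbabilityTheory
open scoped ENNReal NNReal

namespace Crest.Agent.R241.B7e2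

open Crest.Agent.R241.B7c Crest.Agent.R241.B7e

section Signed

variable {X Y : Type*} [MeasurableSpace X] [StandardBorelSpace X] [MeasurableSpace Y]
  [MeasurableEq Y]

/-- All localised projections of `lam • μ` have integer-valued integrable densities. -/
def IntDens (ρ : Measure Y) (μ : Measure X) (lam : X → ℝ) (p : X → Y) : Prop :=
  ∀ B : Set X, MeasurableSet B → ∃ θ : Y → ℤ, Measurable θ ∧
    Integrable (fun y => (θ y : ℝ)) ρ ∧
    ∀ A : Set Y, MeasurableSet A → ∫ q in B ∩ p ⁻¹' A, lam q ∂μ = ∫ y in A, (θ y : ℝ) ∂ρ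

omit [StandardBorelSpace X] [MeasurableEq Y] in
lemma IntDens.neg {ρ : Measure Y} {μ : Measure X} {lam : X → ℝ} {p : X → Y}
    (h : IntDens ρ μ lam p) : IntDens ρ μ (fun q => - lam q) p := by
  intro B hB
  obtain ⟨θ, hθm, hθi, hθ⟩ := h B hB
  refine ⟨fun y => - θ y, hθm.neg, ?_, fun A hA => ?_⟩
  · have : (fun y => ((- θ y : ℤ) : ℝ)) = fun y => - (θ y : ℝ) := by
      funext y; push_cast; rfl
    rw [this]
    exact hθi.neg
  · have : (fun y => ((- θ y : ℤ) : ℝ)) = fun y => - (θ y : ℝ) := by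
      funext y; push_cast; rfl
    rw [integral_neg, hθ A hA, this, integral_neg]

/-- Disintegration of the positive part. -/
theorem posPart_disint (ρ : Measure Y) [SigmaFinite ρ] (μ : Measure X) [IsFiniteMeasure μ]
    {lam : X → ℝ} (hlm : Measurable lam) (hli : Integrable lam μ) {p : X → Y}
    (hp : Measurable p) (h : IntDens ρ μ lam p) :
    ∃ u : Y → X →₀ ℕ,
      (∀ y, ∀ q ∈ (u y).support, p q = y) ∧
      (∀ B : Set X, MeasurableSet B → Measurable fun y => dsum (u y) B) ∧
      (∀ B : Set X, MeasurableSet B →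
        (μ.withDensity fun q => ENNReal.ofReal (lam q)) B = ∫⁻ y, dsum (u y) B ∂ρ) := by
  have hfin : IsFiniteMeasure (μ.withDensity fun q => ENNReal.ofReal (lam q)) :=
    isFiniteMeasure_withDensity_ofReal hli.2
  refine exists_disint ρ _ hp fun B hB => ?_
  set P : Set X := {q | 0 < lam q} with hP
  have hPm : MeasurableSet P := measurableSet_lt measurable_const hlm
  obtain ⟨θ, hθm, hθi, hθ⟩ := h (B ∩ P) (hB.inter hPm)
  have hnn : 0 ≤ᵐ[ρ] fun y => (θ y : ℝ) := by
    refine ae_nonneg_of_forall_setIntegral_nonneg hθi fun A hA _ => ?_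
    rw [← hθ A hA]
    refine setIntegral_nonneg ((hB.inter hPm).inter (hp hA)) fun q hq => ?_
    exact le_of_lt hq.1.2
  refine ⟨fun y => (θ y).toNat, (measurable_from_top (f := Int.toNat)).comp hθm,
    fun A hA => ?_⟩
  have hBA : MeasurableSet (B ∩ p ⁻¹' A) := hB.inter (hp hA)
  have hset : (B ∩ P) ∩ p ⁻¹' A = (B ∩ p ⁻¹' A) ∩ P := by
    ext q; simp only [mem_inter_iff]; tauto
  rw [withDensity_apply _ hBA]
  have h1 : ∫⁻ q in B ∩ p ⁻¹' A, ENNReal.ofReal (lam q) ∂μ
      = ∫⁻ q in (B ∩ P) ∩ p ⁻¹' A, ENNReal.ofReal (lam q) ∂μ := by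
    rw [hset, ← lintegral_indicator hBA, ← lintegral_indicator (hBA.inter hPm)]
    refine lintegral_congr fun q => ?_
    by_cases hq : q ∈ B ∩ p ⁻¹' A
    · by_cases hqP : q ∈ P
      · have hq2 : q ∈ B ∩ p ⁻¹' A ∩ P := ⟨hq, hqP⟩
        rw [indicator_of_mem hq, indicator_of_mem hq2]
      · rw [indicator_of_mem hq, indicator_of_notMem (fun hc => hqP hc.2)]
        exact ENNReal.ofReal_eq_zero.mpr (not_lt.mp hqP)
    · rw [indicator_of_notMem hq, indicator_of_notMem (fun hc => hq hc.1)]
  have h2 : ∫⁻ q in (B ∩ P) ∩ p ⁻¹' A, ENNReal.ofReal (lam q) ∂μ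
      = ENNReal.ofReal (∫ q in (B ∩ P) ∩ p ⁻¹' A, lam q ∂μ) := by
    rw [ofReal_integral_eq_lintegral_ofReal hli.integrableOn]
    refine (ae_restrict_iff' ((hB.inter hPm).inter (hp hA))).mpr
      (Eventually.of_forall fun q hq => ?_)
    exact le_of_lt hq.1.2
  rw [h1, h2, hθ A hA, ofReal_integral_eq_lintegral_ofReal hθi.integrableOn
    (ae_restrict_of_ae hnn)]
  refine lintegral_congr_ae (ae_restrict_of_ae ?_)
  filter_upwards [hnn] with y hy
  have hy0 : (0 : ℝ) ≤ θ y := hy
  have hy' : 0 ≤ θ y := by exact_mod_cast hy0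
  have h3 : ((θ y).toNat : ℤ) = θ y := Int.toNat_of_nonneg hy'
  have h4 : (θ y : ℝ) = ((θ y).toNat : ℝ) := by exact_mod_cast h3.symm
  rw [h4, ENNReal.ofReal_natCast]

/-- **Signed disintegration into finite integer combinations of Dirac masses.** -/
theorem signed_disint (ρ : Measure Y) [SigmaFinite ρ] (μ : Measure X) [IsFiniteMeasure μ]
    {lam : X → ℝ} (hlm : Measurable lam) (hli : Integrable lam μ) {p : X → Y}
    (hp : Measurable p) (h : IntDens ρ μ lam p) :
    ∃ up um : Y → X →₀ ℕ,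
      (∀ y, ∀ q ∈ (up y).support, p q = y) ∧ (∀ y, ∀ q ∈ (um y).support, p q = y) ∧
      (∀ B : Set X, MeasurableSet B → Measurable fun y => dsum (up y) B) ∧
      (∀ B : Set X, MeasurableSet B → Measurable fun y => dsum (um y) B) ∧
      (∀ y, Disjoint (up y).support (um y).support) ∧
      (∀ B : Set X, MeasurableSet B →
        (μ.withDensity fun q => ENNReal.ofReal (lam q)) B = ∫⁻ y, dsum (up y) B ∂ρ) ∧
      (∀ B : Set X, MeasurableSet B →
        (μ.withDensity fun q => ENNReal.ofReal (- lam q)) B = ∫⁻ y, dsum (um y) B ∂ρ) := by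
  classical
  obtain ⟨u, hu1, hu2, hu3⟩ := posPart_disint ρ μ hlm hli hp h
  obtain ⟨v, hv1, hv2, hv3⟩ := posPart_disint ρ μ (lam := fun q => - lam q) hlm.neg hli.neg hp
    h.neg
  set P : Set X := {q | 0 < lam q} with hP
  have hPm : MeasurableSet P := measurableSet_lt measurable_const hlm
  have hu0 : ∀ᵐ y ∂ρ, dsum (u y) Pᶜ = 0 := by
    have h1 : (μ.withDensity fun q => ENNReal.ofReal (lam q)) Pᶜ = 0 := by
      rw [withDensity_apply _ hPm.compl]
      refine (setLIntegral_congr_fun hPm.compl fun q hq => ?_).trans lintegral_zero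
      exact ENNReal.ofReal_eq_zero.mpr (not_lt.mp hq)
    rw [hu3 _ hPm.compl] at h1
    exact (lintegral_eq_zero_iff (hu2 _ hPm.compl)).mp h1
  have hv0 : ∀ᵐ y ∂ρ, dsum (v y) P = 0 := by
    have h1 : (μ.withDensity fun q => ENNReal.ofReal (- lam q)) P = 0 := by
      rw [withDensity_apply _ hPm]
      refine (setLIntegral_congr_fun hPm fun q hq => ?_).trans lintegral_zero
      refine ENNReal.ofReal_eq_zero.mpr ?_
      have : 0 < lam q := hq
      linarith
    rw [hv3 _ hPm] at h1
    exact (lintegral_eq_zero_iff (hv2 _ hPm)).mp h1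
  let bad : Set Y := {y | dsum (u y) Pᶜ = 0 ∧ dsum (v y) P = 0}ᶜ
  have hbadm : MeasurableSet bad :=
    (((hu2 _ hPm.compl) (measurableSet_singleton 0)).inter
      ((hv2 _ hPm) (measurableSet_singleton 0))).compl
  have hgood : ∀ᵐ y ∂ρ, y ∉ bad := by
    filter_upwards [hu0, hv0] with y h1 h2
    simp only [bad, mem_compl_iff, mem_ofPred_eq, not_not]
    exact ⟨h1, h2⟩
  let cut : (Y → X →₀ ℕ) → Y → X →₀ ℕ := fun w y => if y ∈ bad then 0 else w y
  have hcut0 : ∀ (w : Y → X →₀ ℕ) y, y ∈ bad → cut w y = 0 := fun w y hy => if_pos hy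
  have hcut1 : ∀ (w : Y → X →₀ ℕ) y, y ∉ bad → cut w y = w y := fun w y hy => if_neg hy
  have hcutm : ∀ w : Y → X →₀ ℕ, (∀ B : Set X, MeasurableSet B → Measurable fun y => dsum (w y) B) →
      ∀ B : Set X, MeasurableSet B → Measurable fun y => dsum (cut w y) B := by
    intro w hw B hB
    have : (fun y => dsum (cut w y) B) = (badᶜ).indicator fun y => dsum (w y) B := by
      funext y
      by_cases hy : y ∈ bad
      · rw [hcut0 w y hy, indicator_of_notMem (by simpa using hy)]
        simp [dsum]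
      · rw [hcut1 w y hy, indicator_of_mem (by simpa using hy)]
    rw [this]
    exact (hw B hB).indicator hbadm.compl
  have hcutp : ∀ w : Y → X →₀ ℕ, (∀ y, ∀ q ∈ (w y).support, p q = y) →
      ∀ y, ∀ q ∈ (cut w y).support, p q = y := by
    intro w hw y q hq
    by_cases hy : y ∈ bad
    · rw [hcut0 w y hy] at hq
      simp at hq
    · rw [hcut1 w y hy] at hq
      exact hw y q hq
  have hcuti : ∀ (w : Y → X →₀ ℕ) (B : Set X), ∫⁻ y, dsum (w y) B ∂ρ
      = ∫⁻ y, dsum (cut w y) B ∂ρ := by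
    intro w B
    refine lintegral_congr_ae ?_
    filter_upwards [hgood] with y hy
    rw [hcut1 w y hy]
  refine ⟨cut u, cut v, hcutp u hu1, hcutp v hv1, hcutm u hu2, hcutm v hv2, ?_, ?_, ?_⟩
  · intro y
    by_cases hy : y ∈ bad
    · rw [hcut0 u y hy]
      simp
    · rw [hcut1 u y hy, hcut1 v y hy]
      have hy' : dsum (u y) Pᶜ = 0 ∧ dsum (v y) P = 0 := by
        simpa only [bad, mem_compl_iff, mem_ofPred_eq, not_not] using hy
      rw [Finset.disjoint_left]
      intro q hq hq'
      by_cases hqP : q ∈ P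
      · exact (dsum_ne_zero_iff (v y) hPm).mpr ⟨q, hq', hqP⟩ hy'.2
      · exact (dsum_ne_zero_iff (u y) hPm.compl).mpr ⟨q, hq, hqP⟩ hy'.1
  · intro B hB
    rw [hu3 B hB, hcuti]
  · intro B hB
    rw [← hcuti]
    exact hv3 B hB

end Signed

section Integrals

variable {X Y : Type*} [MeasurableSpace X] [StandardBorelSpace X] [MeasurableSpace Y]

/-- Finite sum of a real function against the atoms. -/
noncomputable def SS (u : Y → X →₀ ℕ) (F : X → ℝ) (y : Y) : ℝ :=
  ∑ q ∈ (u y).support, (u y q : ℝ) * F q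

omit [MeasurableSpace X] [StandardBorelSpace X] [MeasurableSpace Y] in
lemma SS_sub (u : Y → X →₀ ℕ) (F G : X → ℝ) (y : Y) :
    SS u (fun q => F q - G q) y = SS u F y - SS u G y := by
  simp only [SS]
  rw [← Finset.sum_sub_distrib]
  exact Finset.sum_congr rfl fun q _ => by ring

omit [MeasurableSpace X] [StandardBorelSpace X] [MeasurableSpace Y] in
lemma SS_nonneg (u : Y → X →₀ ℕ) {F : X → ℝ} (hF : ∀ q, 0 ≤ F q) (y : Y) : 0 ≤ SS u F y :=
  Finset.sum_nonneg fun q _ => mul_nonneg (Nat.cast_nonneg _) (hF q)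

omit [StandardBorelSpace X] [MeasurableSpace Y] in
lemma lintegral_dsum_ofReal (u : Y → X →₀ ℕ) {F : X → ℝ} (hFm : Measurable F)
    (hF : ∀ q, 0 ≤ F q) (y : Y) :
    ∫⁻ q, ENNReal.ofReal (F q) ∂(dsum (u y)) = ENNReal.ofReal (SS u F y) := by
  rw [lintegral_dsum _ hFm.ennreal_ofReal, SS, ENNReal.ofReal_sum_of_nonneg
    fun q _ => mul_nonneg (Nat.cast_nonneg _) (hF q)]
  refine Finset.sum_congr rfl fun q _ => ?_
  rw [ENNReal.ofReal_mul (Nat.cast_nonneg _), ENNReal.ofReal_natCast, mul_comm]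

omit [StandardBorelSpace X] in
lemma measurable_SS_nonneg {u : Y → X →₀ ℕ}
    (hu : ∀ B : Set X, MeasurableSet B → Measurable fun y => dsum (u y) B)
    {F : X → ℝ} (hFm : Measurable F) (hF : ∀ q, 0 ≤ F q) : Measurable (SS u F) := by
  have h1 : SS u F = fun y => (∫⁻ q, ENNReal.ofReal (F q) ∂(dsum (u y))).toReal := by
    funext y
    rw [lintegral_dsum_ofReal u hFm hF, ENNReal.toReal_ofReal (SS_nonneg u hF y)]
  rw [h1]
  exact (hFm.ennreal_ofReal.lintegral_kernel (κ := kernelOf u hu)).ennreal_toReal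

lemma integral_SS_nonneg {ρ : Measure Y} {ν : Measure X} [IsFiniteMeasure ν] {u : Y → X →₀ ℕ}
    (hu : ∀ B : Set X, MeasurableSet B → Measurable fun y => dsum (u y) B)
    (h : ∀ B : Set X, MeasurableSet B → ν B = ∫⁻ y, dsum (u y) B ∂ρ)
    {F : X → ℝ} (hFm : Measurable F) (hF : ∀ q, 0 ≤ F q) {C : ℝ} (hC : ∀ q, F q ≤ C) :
    Integrable (SS u F) ρ ∧ ∫ q, F q ∂ν = ∫ y, SS u F y ∂ρ := by
  have h1 : ∫⁻ q, ENNReal.ofReal (F q) ∂ν = ∫⁻ y, ENNReal.ofReal (SS u F y) ∂ρ := by
    rw [lintegral_of_disint hu h hFm.ennreal_ofReal]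
    exact lintegral_congr fun y => lintegral_dsum_ofReal u hFm hF y
  have hfin : ∫⁻ q, ENNReal.ofReal (F q) ∂ν ≠ ∞ := by
    have : ∫⁻ q, ENNReal.ofReal (F q) ∂ν ≤ ∫⁻ _, ENNReal.ofReal C ∂ν :=
      lintegral_mono fun q => ENNReal.ofReal_le_ofReal (hC q)
    refine ne_top_of_le_ne_top ?_ this
    rw [lintegral_const]
    exact ENNReal.mul_ne_top ENNReal.ofReal_ne_top (measure_ne_top ν _)
  have hmeas := measurable_SS_nonneg hu hFm hF
  constructor
  · refine ⟨hmeas.aestronglyMeasurable, ?_⟩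
    rw [hasFiniteIntegral_iff_ofReal (Eventually.of_forall fun y => SS_nonneg u hF y), ← h1]
    exact hfin.lt_top
  · rw [integral_eq_lintegral_of_nonneg_ae (Eventually.of_forall hF) hFm.aestronglyMeasurable,
      integral_eq_lintegral_of_nonneg_ae (Eventually.of_forall fun y => SS_nonneg u hF y)
        hmeas.aestronglyMeasurable, h1]

/-- Fubini for bounded measurable functions. -/
lemma integral_SS {ρ : Measure Y} {ν : Measure X} [IsFiniteMeasure ν] {u : Y → X →₀ ℕ}
    (hu : ∀ B : Set X, MeasurableSet B → Measurable fun y => dsum (u y) B)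
    (h : ∀ B : Set X, MeasurableSet B → ν B = ∫⁻ y, dsum (u y) B ∂ρ)
    {F : X → ℝ} (hFm : Measurable F) {C : ℝ} (hC : ∀ q, |F q| ≤ C) :
    Measurable (SS u F) ∧ Integrable (SS u F) ρ ∧ ∫ q, F q ∂ν = ∫ y, SS u F y ∂ρ := by
  have hC0 : ∀ q : X, 0 ≤ C := fun q => (abs_nonneg _).trans (hC q)
  have hp0 : ∀ q, 0 ≤ max (F q) 0 := fun q => le_max_right _ _
  have hm0 : ∀ q, 0 ≤ max (-F q) 0 := fun q => le_max_right _ _
  have hpm : Measurable fun q => max (F q) 0 := hFm.max measurable_const
  have hmm : Measurable fun q => max (-F q) 0 := hFm.neg.max measurable_const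
  have hpC : ∀ q, max (F q) 0 ≤ C := fun q => max_le ((le_abs_self _).trans (hC q)) (hC0 q)
  have hmC : ∀ q, max (-F q) 0 ≤ C := fun q => max_le ((neg_le_abs _).trans (hC q)) (hC0 q)
  have hdec : F = fun q => max (F q) 0 - max (-F q) 0 := by
    funext q
    rcases le_total 0 (F q) with hq | hq
    · rw [max_eq_left hq, max_eq_right (by linarith), sub_zero]
    · rw [max_eq_right hq, max_eq_left (by linarith)]; ring
  obtain ⟨hi1, he1⟩ := integral_SS_nonneg hu h hpm hp0 hpC
  obtain ⟨hi2, he2⟩ := integral_SS_nonneg hu h hmm hm0 hmC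
  have hSS : SS u F = fun y => SS u (fun q => max (F q) 0) y - SS u (fun q => max (-F q) 0) y := by
    funext y
    conv_lhs => rw [hdec]
    exact SS_sub u _ _ y
  have hbd : ∀ {G : X → ℝ}, Measurable G → (∀ q, 0 ≤ G q) → (∀ q, G q ≤ C) → Integrable G ν := by
    intro G hG h0 h1
    refine (integrable_const C).mono' hG.aestronglyMeasurable (Eventually.of_forall fun q => ?_)
    rw [Real.norm_of_nonneg (h0 q)]
    exact h1 q
  refine ⟨?_, ?_, ?_⟩
  · rw [hSS]
    exact (measurable_SS_nonneg hu hpm hp0).sub (measurable_SS_nonneg hu hmm hm0)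
  · rw [hSS]
    exact hi1.sub hi2
  · rw [hSS, integral_sub hi1 hi2, ← he1, ← he2]
    conv_lhs => rw [hdec]
    exact integral_sub (hbd hpm hp0 hpC) (hbd hmm hm0 hmC)

end Integrals

section Formula

variable {X Y : Type*} [MeasurableSpace X] [StandardBorelSpace X] [MeasurableSpace Y]
  {ρ : Measure Y} {μ : Measure X} {lam : X → ℝ} {up um : Y → X →₀ ℕ}

/-- `∫ F lam dμ = ∫ ev F dρ`. -/
lemma integral_ev (hlm : Measurable lam) (hli : Integrable lam μ)
    (hup : ∀ B : Set X, MeasurableSet B → Measurable fun y => dsum (up y) B)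
    (hum : ∀ B : Set X, MeasurableSet B → Measurable fun y => dsum (um y) B)
    (h1 : ∀ B : Set X, MeasurableSet B →
        (μ.withDensity fun q => ENNReal.ofReal (lam q)) B = ∫⁻ y, dsum (up y) B ∂ρ)
    (h2 : ∀ B : Set X, MeasurableSet B →
        (μ.withDensity fun q => ENNReal.ofReal (- lam q)) B = ∫⁻ y, dsum (um y) B ∂ρ)
    {F : X → ℝ} (hFm : Measurable F) {C : ℝ} (hC : ∀ q, |F q| ≤ C) :
    Measurable (ev up um F) ∧ Integrable (ev up um F) ρ ∧
      ∫ q, F q * lam q ∂μ = ∫ y, ev up um F y ∂ρ := by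
  have hf1 : IsFiniteMeasure (μ.withDensity fun q => ENNReal.ofReal (lam q)) :=
    isFiniteMeasure_withDensity_ofReal hli.2
  have hf2 : IsFiniteMeasure (μ.withDensity fun q => ENNReal.ofReal (- lam q)) :=
    isFiniteMeasure_withDensity_ofReal hli.neg.2
  have hlm' : Measurable fun q => - lam q := hlm.neg
  obtain ⟨a1, a2, a3⟩ := integral_SS hup h1 hFm hC
  obtain ⟨b1, b2, b3⟩ := integral_SS hum h2 hFm hC
  have hev : ev up um F = fun y => SS up F y - SS um F y := rfl
  refine ⟨?_, ?_, ?_⟩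
  · rw [hev]; exact a1.sub b1
  · rw [hev]; exact a2.sub b2
  · rw [hev, integral_sub a2 b2, ← a3, ← b3,
      integral_withDensity_eq_integral_toReal_smul hlm.ennreal_ofReal
        (Eventually.of_forall fun _ => ENNReal.ofReal_lt_top),
      integral_withDensity_eq_integral_toReal_smul hlm'.ennreal_ofReal
        (Eventually.of_forall fun _ => ENNReal.ofReal_lt_top)]
    have hint : ∀ {G : X → ℝ}, Measurable G → (∀ q, |G q| ≤ |lam q|) →
        Integrable (fun q => G q * F q) μ := by
      intro G hG hGl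
      have hb : Integrable (fun q => |lam q| * C) μ := hli.abs.mul_const C
      refine hb.mono' (hG.mul hFm).aestronglyMeasurable (Eventually.of_forall fun q => ?_)
      rw [Real.norm_eq_abs, abs_mul]
      exact mul_le_mul (hGl q) (hC q) (abs_nonneg _) (abs_nonneg _)
    have e1 : ∀ q, (ENNReal.ofReal (lam q)).toReal = max (lam q) 0 := fun q =>
      ENNReal.toReal_ofReal' ..
    have e2 : ∀ q, (ENNReal.ofReal (- lam q)).toReal = max (- lam q) 0 := fun q =>
      ENNReal.toReal_ofReal' ..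
    simp only [e1, e2, smul_eq_mul]
    rw [← integral_sub]
    · refine integral_congr_ae (Eventually.of_forall fun q => ?_)
      simp only
      rcases le_total 0 (lam q) with hq | hq
      · rw [max_eq_left hq, max_eq_right (by linarith)]; ring
      · rw [max_eq_right hq, max_eq_left (by linarith)]; ring
    · refine hint (hlm.max measurable_const) fun q => ?_
      rw [abs_of_nonneg (le_max_right _ _)]
      exact max_le (le_abs_self _) (abs_nonneg _)
    · refine hint (hlm.neg.max measurable_const) fun q => ?_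
      rw [abs_of_nonneg (le_max_right _ _)]
      exact max_le (neg_le_abs _) (abs_nonneg _)

/-- Total-variation form. -/
lemma lintegral_tot (hlm : Measurable lam)
    (hup : ∀ B : Set X, MeasurableSet B → Measurable fun y => dsum (up y) B)
    (hum : ∀ B : Set X, MeasurableSet B → Measurable fun y => dsum (um y) B)
    (h1 : ∀ B : Set X, MeasurableSet B →
        (μ.withDensity fun q => ENNReal.ofReal (lam q)) B = ∫⁻ y, dsum (up y) B ∂ρ)
    (h2 : ∀ B : Set X, MeasurableSet B →
        (μ.withDensity fun q => ENNReal.ofReal (- lam q)) B = ∫⁻ y, dsum (um y) B ∂ρ)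
    {F : X → ℝ≥0∞} (hFm : Measurable F) :
    ∫⁻ q, F q * ‖lam q‖ₑ ∂μ = ∫⁻ y, ∫⁻ q, F q ∂(dsum (tot up um y)) ∂ρ := by
  have e1 := lintegral_of_disint hup h1 hFm
  have e2 := lintegral_of_disint hum h2 hFm
  rw [lintegral_withDensity_eq_lintegral_mul _ hlm.ennreal_ofReal hFm] at e1
  have hlm' : Measurable fun q => - lam q := hlm.neg
  rw [lintegral_withDensity_eq_lintegral_mul _ hlm'.ennreal_ofReal hFm] at e2
  have e3 : ∀ q, F q * ‖lam q‖ₑ =
      ((fun q => ENNReal.ofReal (lam q)) * F) q + ((fun q => ENNReal.ofReal (- lam q)) * F) q := by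
    intro q
    have : ‖lam q‖ₑ = ENNReal.ofReal (lam q) + ENNReal.ofReal (- lam q) := by
      rw [← ofReal_norm, Real.norm_eq_abs]
      rcases le_total 0 (lam q) with hq | hq
      · rw [abs_of_nonneg hq, ENNReal.ofReal_of_nonpos (by linarith : - lam q ≤ 0), add_zero]
      · rw [abs_of_nonpos hq, ENNReal.ofReal_of_nonpos hq, zero_add]
    rw [this]
    simp only [Pi.mul_apply]
    ring
  simp_rw [e3]
  rw [lintegral_add_left (hlm.ennreal_ofReal.mul hFm), e1, e2, ← lintegral_add_left]
  · refine lintegral_congr fun y => ?_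
    rw [tot, dsum_add, lintegral_add_measure]
  · exact hFm.lintegral_kernel (κ := kernelOf up hup)

end Formula

section Dense

/-- 1-Lipschitz functions bounded by 1. -/
def L1 (X : Type*) [MetricSpace X] : Set (X → ℝ) := {g | LipschitzWith 1 g ∧ ∀ q, |g q| ≤ 1}

lemma exists_dense (X : Type*) [MetricSpace X] [SecondCountableTopology X] [Nonempty X] :
    ∃ g : ℕ → X → ℝ, (∀ j, g j ∈ L1 X) ∧ ∀ f ∈ L1 X, ∀ (F : Finset X) (ε : ℝ), 0 < ε →
      ∃ j, ∀ q ∈ F, |g j q - f q| ≤ ε := by
  classical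
  let D : ℕ → X := TopologicalSpace.denseSeq X
  let R : (X → ℝ) → (ℕ → ℝ) := fun g i => g (D i)
  let S : Set (ℕ → ℝ) := R '' L1 X
  have hS : Nonempty S := ⟨⟨R (fun _ => 0), fun _ => 0, ⟨LipschitzWith.const' 0, by simp⟩, rfl⟩⟩
  let s : ℕ → S := TopologicalSpace.denseSeq S
  have hs : DenseRange s := TopologicalSpace.denseRange_denseSeq S
  choose g hg hgs using fun j => (s j).2
  refine ⟨g, hg, fun f hf F ε hε => ?_⟩
  have hD : ∀ q : X, ∃ i, dist q (D i) < ε / 3 := fun q =>
    (TopologicalSpace.denseRange_denseSeq X).exists_dist_lt q (by positivity)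
  choose ι hι using hD
  let f' : S := ⟨R f, f, hf, rfl⟩
  let U : Set S := {t | ∀ q ∈ F, |(t : ℕ → ℝ) (ι q) - R f (ι q)| < ε / 3}
  have hU : IsOpen U := by
    have : U = ⋂ q ∈ F, {t : S | |(t : ℕ → ℝ) (ι q) - R f (ι q)| < ε / 3} := by
      ext t
      simp [U]
    rw [this]
    refine isOpen_biInter_finset fun q _ => ?_
    refine isOpen_lt ?_ continuous_const
    exact (((continuous_apply (ι q)).comp continuous_subtype_val).sub continuous_const).abs
  have hfU : f' ∈ U := by
    intro q _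
    simp only [f', sub_self, abs_zero]
    positivity
  obtain ⟨j, hj⟩ := hs.exists_mem_open hU ⟨f', hfU⟩
  refine ⟨j, fun q hq => ?_⟩
  have h1 : |g j (D (ι q)) - f (D (ι q))| < ε / 3 := by
    have := hj q hq
    rwa [← hgs j] at this
  have h2 : |g j q - g j (D (ι q))| ≤ ε / 3 := by
    have := (hg j).1.dist_le_mul q (D (ι q))
    rw [Real.dist_eq, NNReal.coe_one, one_mul] at this
    exact this.trans (hι q).le
  have h3 : |f q - f (D (ι q))| ≤ ε / 3 := by
    have := hf.1.dist_le_mul q (D (ι q))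
    rw [Real.dist_eq, NNReal.coe_one, one_mul] at this
    exact this.trans (hι q).le
  have h4 : g j q - f q = (g j q - g j (D (ι q))) + (g j (D (ι q)) - f (D (ι q)))
      - (f q - f (D (ι q))) := by ring
  rw [h4]
  calc |(g j q - g j (D (ι q))) + (g j (D (ι q)) - f (D (ι q))) - (f q - f (D (ι q)))|
      ≤ |(g j q - g j (D (ι q))) + (g j (D (ι q)) - f (D (ι q)))| + |f q - f (D (ι q))| :=
        abs_sub _ _
    _ ≤ |g j q - g j (D (ι q))| + |g j (D (ι q)) - f (D (ι q))| + |f q - f (D (ι q))| := by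
        gcongr
        exact abs_add_le _ _
    _ ≤ ε := by linarith

/-- The total multiplicity at a point. -/
noncomputable def totM {X Y : Type*} (up um : Y → X →₀ ℕ) (y : Y) : ℝ :=
  ∑ q ∈ (up y).support, (up y q : ℝ) + ∑ q ∈ (um y).support, (um y q : ℝ)

lemma totM_nonneg {X Y : Type*} (up um : Y → X →₀ ℕ) (y : Y) : 0 ≤ totM up um y := by
  unfold totM
  positivity

lemma abs_ev_sub_le {X Y : Type*} (up um : Y → X →₀ ℕ) (y : Y) {f g : X → ℝ} {ε : ℝ}
    (h : ∀ q, q ∈ (up y).support ∨ q ∈ (um y).support → |g q - f q| ≤ ε) :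
    |ev up um g y - ev up um f y| ≤ totM up um y * ε := by
  have e1 : ev up um g y - ev up um f y =
      ∑ q ∈ (up y).support, (up y q : ℝ) * (g q - f q) -
        ∑ q ∈ (um y).support, (um y q : ℝ) * (g q - f q) := by
    simp only [ev, mul_sub, Finset.sum_sub_distrib]
    ring
  rw [e1, totM, add_mul, Finset.sum_mul, Finset.sum_mul]
  refine (abs_sub _ _).trans (add_le_add ?_ ?_)
  · refine (Finset.abs_sum_le_sum_abs _ _).trans (Finset.sum_le_sum fun q hq => ?_)
    rw [abs_mul, Nat.abs_cast]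
    exact mul_le_mul_of_nonneg_left (h q (Or.inl hq)) (Nat.cast_nonneg _)
  · refine (Finset.abs_sum_le_sum_abs _ _).trans (Finset.sum_le_sum fun q hq => ?_)
    rw [abs_mul, Nat.abs_cast]
    exact mul_le_mul_of_nonneg_left (h q (Or.inr hq)) (Nat.cast_nonneg _)

/-- Passing from the dense family to all 1-Lipschitz functions. -/
lemma lip_of_dense {X Y : Type*} [MetricSpace X] {up um : Y → X →₀ ℕ} {g : ℕ → X → ℝ}
    (hg : ∀ f ∈ L1 X, ∀ (F : Finset X) (ε : ℝ), 0 < ε → ∃ j, ∀ q ∈ F, |g j q - f q| ≤ ε)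
    {x x' : Y} {K : ℝ} (h : ∀ j, |ev up um (g j) x - ev up um (g j) x'| ≤ K)
    {f : X → ℝ} (hf : f ∈ L1 X) : |ev up um f x - ev up um f x'| ≤ K := by
  classical
  refine le_of_forall_pos_le_add fun δ hδ => ?_
  set M := totM up um x + totM up um x' + 1 with hM
  have hMpos : 0 < M := by
    have := totM_nonneg up um x
    have := totM_nonneg up um x'
    positivity
  obtain ⟨j, hj⟩ := hg f hf ((up x).support ∪ (um x).support ∪ ((up x').support ∪ (um x').support))
    (δ / M) (by positivity)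
  have h1 : |ev up um (g j) x - ev up um f x| ≤ totM up um x * (δ / M) :=
    abs_ev_sub_le up um x fun q hq => hj q (by
      simp only [Finset.mem_union]; tauto)
  have h2 : |ev up um (g j) x' - ev up um f x'| ≤ totM up um x' * (δ / M) :=
    abs_ev_sub_le up um x' fun q hq => hj q (by
      simp only [Finset.mem_union]; tauto)
  have h3 := h j
  have h4 : ev up um f x - ev up um f x' = (ev up um (g j) x - ev up um (g j) x')
      - (ev up um (g j) x - ev up um f x) + (ev up um (g j) x' - ev up um f x') := by ring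
  have h5 : (totM up um x + totM up um x') * (δ / M) ≤ δ := by
    rw [← mul_div_assoc, div_le_iff₀ hMpos]
    nlinarith
  rw [h4]
  calc _ ≤ |(ev up um (g j) x - ev up um (g j) x') - (ev up um (g j) x - ev up um f x)|
        + |ev up um (g j) x' - ev up um f x'| := abs_add_le _ _
    _ ≤ |ev up um (g j) x - ev up um (g j) x'| + |ev up um (g j) x - ev up um f x|
        + |ev up um (g j) x' - ev up um f x'| := by
        gcongr
        exact abs_sub _ _
    _ ≤ K + δ := by linarith

end Dense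

section Growth

open Crest.Agent.R241.B7d

lemma isClosed_growth {k : ℕ} (m : Measure (E k)) [IsFiniteMeasure m] (L : ℝ) :
    IsClosed {x | Growth m L x} := by
  refine isClosed_of_closure_subset fun x hx r hr => ?_
  have hev : ∀ δ : ℝ, 0 < δ → m.real (Metric.closedBall x r) ≤ L * (r + δ) ^ k := by
    intro δ hδ
    obtain ⟨y, hy, hxy⟩ := Metric.mem_closure_iff.mp hx δ hδ
    have hsub : Metric.closedBall x r ⊆ Metric.closedBall y (r + δ) :=
      Metric.closedBall_subset_closedBall' (by linarith)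
    exact (measureReal_mono hsub).trans (hy (r + δ) (by positivity))
  have hcont : Tendsto (fun δ : ℝ => L * (r + δ) ^ k) (𝓝[>] 0) (𝓝 (L * (r + 0) ^ k)) := by
    have : Continuous fun δ : ℝ => L * (r + δ) ^ k := by fun_prop
    exact this.continuousAt.tendsto.mono_left nhdsWithin_le_nhds
  rw [add_zero] at hcont
  refine ge_of_tendsto hcont ?_
  filter_upwards [self_mem_nhdsWithin] with δ hδ using hev δ hδ

end Growth

section Final

open Crest.Agent.R241.B7d

/-- Reindexing the atoms over one base point by the pieces. -/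
lemma hasSum_atoms {X M : Type*} [AddCommMonoid M] [TopologicalSpace M] {s : Finset X}
    {P : ℕ → Prop} [DecidablePred P] {y : ℕ → X}
    (h1 : ∀ n, P n → y n ∈ s) (h2 : ∀ q ∈ s, ∃! n, P n ∧ y n = q) (G : X → M) :
    HasSum (fun n => if P n then G (y n) else 0) (∑ q ∈ s, G q) := by
  classical
  choose! ν hν hνu using h2
  have hinj : Set.InjOn ν s := by
    intro q hq q' hq' heq
    rw [← (hν q hq).2, ← (hν q' hq').2, heq]
  have hsum : ∑ n ∈ s.image ν, (if P n then G (y n) else 0) = ∑ q ∈ s, G q := by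
    rw [Finset.sum_image hinj]
    refine Finset.sum_congr rfl fun q hq => ?_
    rw [if_pos (hν q hq).1, (hν q hq).2]
  rw [← hsum]
  refine hasSum_sum_of_ne_finset_zero fun n hn => ?_
  by_contra hne
  have hP : P n := by
    by_contra hP
    exact hne (if_neg hP)
  apply hn
  have : n = ν (y n) := hνu (y n) (h1 n hP) n ⟨hP, rfl⟩
  rw [this]
  exact Finset.mem_image_of_mem ν (h1 n hP)

/-- **B7e, final form.**  `lam • μ` has integer localised projections along `p` and satisfies the
`BV` bounds: then it is carried by countably many bi-Lipschitz sections of `p` with integer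
multiplicities. -/
theorem pieces_of_int {k : ℕ} {X : Type*} [MetricSpace X] [CompleteSpace X]
    [SecondCountableTopology X] [MeasurableSpace X] [BorelSpace X] [Nonempty X]
    (μ : Measure X) [IsFiniteMeasure μ] {lam : X → ℝ} (hlm : Measurable lam)
    (hli : Integrable lam μ) {p : X → E k} (hp : Measurable p)
    (hInt : IntDens (volume : Measure (E k)) μ lam p)
    (m : Measure (E k)) [IsFiniteMeasure m]
    (hBV : ∀ g : X → ℝ, LipschitzWith 1 g → (∀ q, |g q| ≤ 1) → ∀ φ : E k → ℝ,
      ContDiff ℝ (⊤ : ℕ∞) φ → HasCompactSupport φ → ∀ i : Fin k,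
      |∫ q, (g q * fderiv ℝ φ (p q) (EuclideanSpace.single i 1)) * lam q ∂μ|
        ≤ ∫ x, |φ x| ∂m) :
    ∃ (H : ℕ → Set (E k)) (yn : ℕ → E k → X) (th : ℕ → E k → ℤ),
      (∀ n, MeasurableSet (H n)) ∧ (∀ n, Bornology.IsBounded (H n)) ∧
      (∀ n, Measurable (yn n)) ∧ (∀ n, ∃ L : ℝ≥0, LipschitzOnWith L (yn n) (H n)) ∧
      (∀ n, ∀ y ∈ H n, p (yn n y) = y) ∧
      (∀ n, Measurable (th n)) ∧ (∀ n, ∀ y ∈ H n, th n y ≠ 0) ∧
      (∀ n k, n ≠ k → Disjoint (yn n '' H n) (yn k '' H k)) ∧
      (∀ n, MeasurableSet (yn n '' H n)) ∧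
      (∀ F : X → ℝ≥0∞, Measurable F → ∫⁻ q, F q * ‖lam q‖ₑ ∂μ =
        ∑' n, ∫⁻ y in H n, F (yn n y) * ‖(th n y : ℝ)‖ₑ) ∧
      (∀ F : X → ℝ, Measurable F → (∃ C, ∀ q, |F q| ≤ C) →
        (∀ n, IntegrableOn (fun y => F (yn n y) * (th n y : ℝ)) (H n)) ∧
        Summable (fun n => ∫ y in H n, |F (yn n y) * (th n y : ℝ)|) ∧
        HasSum (fun n => ∫ y in H n, F (yn n y) * (th n y : ℝ)) (∫ q, F q * lam q ∂μ)) := by
  classical
  obtain ⟨up, um, hpp, hpm, hmp, hmm, hdis, h1, h2⟩ :=
    signed_disint (volume : Measure (E k)) μ hlm hli hp hInt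
  obtain ⟨g, hg1, hgd⟩ := exists_dense X
  -- BV bounds for the dense family
  have hev : ∀ {F : X → ℝ}, Measurable F → ∀ {C : ℝ}, (∀ q, |F q| ≤ C) →
      Measurable (ev up um F) ∧ Integrable (ev up um F) volume ∧
      ∫ q, F q * lam q ∂μ = ∫ y, ev up um F y := by
    intro F hF C hC
    exact integral_ev hlm hli hmp hmm h1 h2 hF hC
  have hgm : ∀ j, Measurable (g j) := fun j => (hg1 j).1.continuous.measurable
  have hbv : ∀ j, BVBound (ev up um (g j)) m := by
    intro j φ hφ hφc i
    have hc : Continuous fun x => fderiv ℝ φ x (EuclideanSpace.single i 1) := by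
      have := hφ.continuous_fderiv (by simp)
      fun_prop
    obtain ⟨Cφ, hCφ⟩ : ∃ Cφ, ∀ x, ‖fderiv ℝ φ x (EuclideanSpace.single i 1)‖ ≤ Cφ := by
      refine hc.bounded_above_of_compact_support ?_
      exact (hφc.fderiv (𝕜 := ℝ)).comp_left (g := fun A : E k →L[ℝ] ℝ =>
        A (EuclideanSpace.single i 1)) (by simp)
    have hFm : Measurable fun q => g j q * fderiv ℝ φ (p q) (EuclideanSpace.single i 1) :=
      (hgm j).mul (hc.measurable.comp hp)
    have hFb : ∀ q, |g j q * fderiv ℝ φ (p q) (EuclideanSpace.single i 1)| ≤ 1 * Cφ := by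
      intro q
      rw [abs_mul]
      exact mul_le_mul ((hg1 j).2 q) (hCφ (p q)) (abs_nonneg _) zero_le_one
    have e1 := (hev hFm hFb).2.2
    have e2 : ∀ y, ev up um (fun q => g j q * fderiv ℝ φ (p q) (EuclideanSpace.single i 1)) y
        = ev up um (g j) y * fderiv ℝ φ y (EuclideanSpace.single i 1) := by
      intro y
      simp only [ev, sub_mul, Finset.sum_mul]
      congr 1
      · refine Finset.sum_congr rfl fun q hq => ?_
        rw [hpp y q hq]; ring
      · refine Finset.sum_congr rfl fun q hq => ?_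
        rw [hpm y q hq]; ring
    rw [integral_congr_ae (Eventually.of_forall e2)] at e1
    rw [← e1]
    exact hBV (g j) (hg1 j).1 (hg1 j).2 φ hφ hφc i
  obtain ⟨N, hNm, hN0, hNg, hNl⟩ := exists_null (fun j => ev up um (g j))
    (fun j => (hev (hgm j) (hg1 j).2).2.1) m hbv
  let Gd : ℕ → Set (E k) := fun L => Nᶜ ∩ {x | Growth m (L : ℝ) x}
  have hin : Input p up um Gd (Ck k) :=
    { proj_p := hpp
      proj_m := hpm
      meas_p := hmp
      meas_m := hmm
      disj := hdis
      meas_G := fun L => hNm.compl.inter (isClosed_growth m _).measurableSet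
      lip := by
        intro L x hx x' hx' f hf hfb
        refine lip_of_dense hgd (fun j => ?_) ⟨hf, hfb⟩
        exact hNl x hx.1 x' hx'.1 L hx.2 hx'.2 j }
  obtain ⟨H, yn, th, c1, c2, c3, c4, c5, c6, c7, c8, c9, c10, c11⟩ := pieces hin
  have hgoodae : ∀ᵐ y ∂(volume : Measure (E k)), y ∈ ⋃ L, Gd L := by
    have : ∀ᵐ y ∂(volume : Measure (E k)), y ∉ N := by
      rw [ae_iff]; simpa using hN0
    filter_upwards [this] with y hy
    obtain ⟨L, hL⟩ := hNg y hy
    exact mem_iUnion.mpr ⟨L, hy, hL⟩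
  -- pointwise reindexing
  have key : ∀ {M : Type} [AddCommMonoid M] [TopologicalSpace M] (y : E k), y ∈ ⋃ L, Gd L →
      ∀ G : X → M, HasSum (fun n => if y ∈ H n then G (yn n y) else 0)
        (∑ q ∈ (tot up um y).support, G q) := by
    intro M _ _ y hy G
    refine hasSum_atoms (P := fun n => y ∈ H n) (y := fun n => yn n y) ?_ ?_ G
    · intro n hn
      exact mem_tot_support.mpr (c7 n y hn)
    · intro q hq
      exact c11 y hy q (mem_tot_support.mp hq)
  have hthabs : ∀ n, ∀ y ∈ H n, ‖(th n y : ℝ)‖ₑ = (tot up um y (yn n y) : ℝ≥0∞) := by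
    intro n y hy
    rw [c8 n y hy, tot, Finsupp.add_apply]
    rcases c7 n y hy with hq | hq
    · have h0 : um y (yn n y) = 0 := by
        simpa using Finset.disjoint_left.mp (hdis y) hq
      rw [h0]
      simp only [Nat.cast_zero, sub_zero, Int.cast_natCast, add_zero]
      rw [← ofReal_norm, Real.norm_of_nonneg (Nat.cast_nonneg _), ENNReal.ofReal_natCast]
    · have h0 : up y (yn n y) = 0 := by
        simpa using Finset.disjoint_right.mp (hdis y) hq
      rw [h0]
      simp only [Nat.cast_zero, zero_sub, Int.cast_neg, Int.cast_natCast, zero_add]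
      rw [← ofReal_norm, norm_neg, Real.norm_of_nonneg (Nat.cast_nonneg _),
        ENNReal.ofReal_natCast]
  have hlint : ∀ F : X → ℝ≥0∞, Measurable F → ∫⁻ q, F q * ‖lam q‖ₑ ∂μ =
      ∑' n, ∫⁻ y in H n, F (yn n y) * ‖(th n y : ℝ)‖ₑ := by
    intro F hF
    rw [lintegral_tot hlm hmp hmm h1 h2 hF]
    have e1 : ∀ᵐ y ∂(volume : Measure (E k)), ∫⁻ q, F q ∂(dsum (tot up um y)) =
        ∑' n, (H n).indicator (fun y => F (yn n y) * ‖(th n y : ℝ)‖ₑ) y := by
      filter_upwards [hgoodae] with y hy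
      rw [lintegral_dsum _ hF, ← (key y hy fun q => F q * (tot up um y q : ℝ≥0∞)).tsum_eq]
      refine tsum_congr fun n => ?_
      by_cases hyn : y ∈ H n
      · rw [if_pos hyn, indicator_of_mem hyn, hthabs n y hyn]
      · rw [if_neg hyn, indicator_of_notMem hyn]
    rw [lintegral_congr_ae e1, lintegral_tsum]
    · refine tsum_congr fun n => ?_
      rw [lintegral_indicator (c1 n)]
    · intro n
      refine (Measurable.indicator ?_ (c1 n)).aemeasurable
      exact (hF.comp (c3 n)).mul
        ((measurable_from_top (f := fun z : ℤ => (z : ℝ))).comp (c6 n)).enorm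
  refine ⟨H, yn, th, c1, c2, c3, c4, c5, c6, c9, c10, ?_, hlint, ?_⟩
  · intro n
    have : yn n '' H n = {q | p q ∈ H n ∧ yn n (p q) = q} := by
      ext q
      constructor
      · rintro ⟨y, hy, rfl⟩
        refine ⟨?_, ?_⟩
        · rw [c5 n y hy]; exact hy
        · rw [c5 n y hy]
      · rintro ⟨h3, h4⟩
        exact ⟨p q, h3, h4⟩
    rw [this]
    exact (hp (c1 n)).inter (measurableSet_eq_fun ((c3 n).comp hp) measurable_id)
  · rintro F hF ⟨C, hC⟩
    have hthm : ∀ n, Measurable fun y => (th n y : ℝ) := fun n =>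
      (measurable_from_top (f := fun z : ℤ => (z : ℝ))).comp (c6 n)
    have hfm : ∀ n, Measurable fun y => F (yn n y) * (th n y : ℝ) := fun n =>
      (hF.comp (c3 n)).mul (hthm n)
    have htot : ∑' n, ∫⁻ y in H n, ‖F (yn n y) * (th n y : ℝ)‖ₑ ≠ ∞ := by
      have e1 := hlint (fun q => ‖F q‖ₑ) hF.enorm
      have e2 : ∑' n, ∫⁻ y in H n, ‖F (yn n y) * (th n y : ℝ)‖ₑ
          = ∑' n, ∫⁻ y in H n, ‖F (yn n y)‖ₑ * ‖(th n y : ℝ)‖ₑ := by
        refine tsum_congr fun n => lintegral_congr fun y => ?_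
        rw [enorm_mul]
      rw [e2, ← e1]
      have e3 : ∫⁻ q, ‖F q‖ₑ * ‖lam q‖ₑ ∂μ ≤ ∫⁻ q, ENNReal.ofReal C * ‖lam q‖ₑ ∂μ := by
        refine lintegral_mono fun q => ?_
        gcongr
        rw [← ofReal_norm, Real.norm_eq_abs]
        exact ENNReal.ofReal_le_ofReal (hC q)
      refine ne_top_of_le_ne_top ?_ e3
      rw [lintegral_const_mul _ hlm.enorm]
      exact ENNReal.mul_ne_top ENNReal.ofReal_ne_top hli.2.ne
    have hn : ∀ n, ∫⁻ y in H n, ‖F (yn n y) * (th n y : ℝ)‖ₑ ≠ ∞ := fun n =>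
      ENNReal.ne_top_of_tsum_ne_top htot n
    have hion : ∀ n, IntegrableOn (fun y => F (yn n y) * (th n y : ℝ)) (H n) := fun n =>
      ⟨(hfm n).aestronglyMeasurable, (hn n).lt_top⟩
    have habs : ∀ n, ∫ y in H n, |F (yn n y) * (th n y : ℝ)| =
        (∫⁻ y in H n, ‖F (yn n y) * (th n y : ℝ)‖ₑ).toReal := by
      intro n
      rw [← integral_norm_eq_lintegral_enorm (hfm n).aestronglyMeasurable]
      rfl
    have hsummable : Summable (fun n => ∫ y in H n, |F (yn n y) * (th n y : ℝ)|) := by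
      simp_rw [habs]
      exact ENNReal.summable_toReal htot
    refine ⟨hion, hsummable, ?_⟩
    have e0 := (hev hF hC).2.2
    rw [e0]
    have hF' : ∀ n, Integrable ((H n).indicator fun y => F (yn n y) * (th n y : ℝ)) volume :=
      fun n => (integrable_indicator_iff (c1 n)).mpr (hion n)
    have hsum' : Summable fun n => ∫ y, ‖(H n).indicator
        (fun y => F (yn n y) * (th n y : ℝ)) y‖ := by
      refine hsummable.congr fun n => ?_
      rw [← integral_indicator (c1 n)]
      refine integral_congr_ae (Eventually.of_forall fun y => ?_)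
      by_cases hy : y ∈ H n
      · simp [hy]
      · simp [hy]
    have hhs := hasSum_integral_of_summable_integral_norm hF' hsum'
    have e2 : ∀ᵐ y ∂(volume : Measure (E k)), ∑' n, (H n).indicator
        (fun y => F (yn n y) * (th n y : ℝ)) y = ev up um F y := by
      filter_upwards [hgoodae] with y hy
      have e3 : ev up um F y = ∑ q ∈ (tot up um y).support,
          F q * ((up y q : ℝ) - (um y q : ℝ)) := by
        have hsub1 : (up y).support ⊆ (tot up um y).support := fun q hq =>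
          mem_tot_support.mpr (Or.inl hq)
        have hsub2 : (um y).support ⊆ (tot up um y).support := fun q hq =>
          mem_tot_support.mpr (Or.inr hq)
        rw [ev, Finset.sum_subset hsub1, Finset.sum_subset hsub2, ← Finset.sum_sub_distrib]
        · exact Finset.sum_congr rfl fun q _ => by ring
        · intro q _ hq
          have : um y q = 0 := by simpa using hq
          rw [this]; simp
        · intro q _ hq
          have : up y q = 0 := by simpa using hq
          rw [this]; simp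
      rw [e3, ← (key y hy fun q => F q * ((up y q : ℝ) - (um y q : ℝ))).tsum_eq]
      refine tsum_congr fun n => ?_
      by_cases hyn : y ∈ H n
      · rw [if_pos hyn, indicator_of_mem hyn, c8 n y hyn]
        push_cast
        rfl
      · rw [if_neg hyn, indicator_of_notMem hyn]
    rw [integral_congr_ae e2] at hhs
    have e4 : (fun n => ∫ y in H n, F (yn n y) * (th n y : ℝ)) =
        fun n => ∫ y, (H n).indicator (fun y => F (yn n y) * (th n y : ℝ)) y := by
      funext n
      rw [integral_indicator (c1 n)]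
    rw [e4]
    exact hhs

end Final

end Crest.Agent.R241.B7e2
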