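import Mathlib
import Crest.Agent.R241.B7e2
import Crest.Agent.R241.B7ZD

/-!
# R241, block B7e, part 3 (helper734): the form consumed by B7f/B7g.
-/

set_option autoImplicit false

open MeasureTheory Set Filter Topology ProbabilityTheory
open scoped ENNReal NNReal

universe u

namespace Crest.Agent.R241.B7e3

open Crest.Agent.R241.B7e2 Crest.Agent.R241.B7ZD
open Crest.GeometryTopology.Submanifold (Euc)

/-- From helper191's `ZD` to `IntDens`. -/
lemma intDens_of_ZD {X : Type u} [MeasurableSpace X] {k : ℕ} {μ : Measure X} {p : X → Euc k}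
    {g : X → ℝ}
    (hZ : ∀ B : Set X, MeasurableSet B → ZD μ p (B.indicator g)) :
    IntDens (volume : Measure (Euc k)) μ g p := by
  intro B hB
  obtain ⟨u, ⟨hui, huD⟩, hu⟩ := hZ B hB
  set v := hui.aestronglyMeasurable.mk u with hv
  have hvm : Measurable v := hui.aestronglyMeasurable.stronglyMeasurable_mk.measurable
  have huv : u =ᵐ[volume] v := hui.aestronglyMeasurable.ae_eq_mk
  have hθ : u =ᵐ[volume] fun y => ((⌊v y⌋ : ℤ) : ℝ) := by
    filter_upwards [huv, hu] with y hy hn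
    obtain ⟨n, hn⟩ := hn
    rw [← hy, hn, Int.floor_intCast]
  refine ⟨fun y => ⌊v y⌋, Int.measurable_floor.comp hvm, hui.congr hθ, fun A hA => ?_⟩
  have h1 := huD A hA
  rw [setIntegral_indicator hB] at h1
  rw [inter_comm, h1]
  exact integral_congr_ae (ae_restrict_of_ae hθ)

/-- **B7e**, as consumed by B7f/B7g. -/
theorem pieces_ZD {k : ℕ} {X : Type u} [MetricSpace X] [CompleteSpace X]
    [SecondCountableTopology X] [MeasurableSpace X] [BorelSpace X] [Nonempty X]
    (μ : Measure X) [IsFiniteMeasure μ] {g : X → ℝ} (hgm : Measurable g)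
    (hgi : Integrable g μ) {p : X → Euc k} (hp : Measurable p)
    (hZ : ∀ B : Set X, MeasurableSet B → ZD μ p (B.indicator g))
    (m : Measure (Euc k)) [IsFiniteMeasure m]
    (hBV : ∀ φ : X → ℝ, LipschitzWith 1 φ → (∀ y, |φ y| ≤ 1) → ∀ ψ : Euc k → ℝ,
      ContDiff ℝ (⊤ : ℕ∞) ψ → HasCompactSupport ψ → ∀ i : Fin k,
      |∫ y, φ y * fderiv ℝ ψ (p y) (EuclideanSpace.single i 1) * g y ∂μ| ≤ ∫ x, |ψ x| ∂m) :
    ∃ (H : ℕ → Set (Euc k)) (yn : ℕ → Euc k → X) (th : ℕ → Euc k → ℤ),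
      (∀ n, MeasurableSet (H n)) ∧ (∀ n, Bornology.IsBounded (H n)) ∧
      (∀ n, Measurable (yn n)) ∧ (∀ n, ∃ L : ℝ≥0, LipschitzOnWith L (yn n) (H n)) ∧
      (∀ n, ∀ y ∈ H n, p (yn n y) = y) ∧
      (∀ n, Measurable (th n)) ∧ (∀ n, ∀ y ∈ H n, th n y ≠ 0) ∧
      (∀ n k, n ≠ k → Disjoint (yn n '' H n) (yn k '' H k)) ∧
      (∀ n, MeasurableSet (yn n '' H n)) ∧
      (∀ F : X → ℝ≥0∞, Measurable F → ∫⁻ q, F q * ‖g q‖ₑ ∂μ =
        ∑' n, ∫⁻ y in H n, F (yn n y) * ‖(th n y : ℝ)‖ₑ) ∧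
      (∀ n, IntegrableOn (fun y => (th n y : ℝ)) (H n)) ∧
      Summable (fun n => ∫ y in H n, |(th n y : ℝ)|) ∧
      (∀ F : X → ℝ, Measurable F → (∃ C, ∀ q, |F q| ≤ C) →
        (∀ n, IntegrableOn (fun y => F (yn n y) * (th n y : ℝ)) (H n)) ∧
        Summable (fun n => ∫ y in H n, |F (yn n y) * (th n y : ℝ)|) ∧
        HasSum (fun n => ∫ y in H n, F (yn n y) * (th n y : ℝ)) (∫ q, F q * g q ∂μ)) ∧
      (∀ᵐ q ∂μ, g q ≠ 0 → q ∈ ⋃ n, yn n '' H n) ∧
      (∀ n, ∀ F : X → ℝ, Measurable F → (∃ C, ∀ q, |F q| ≤ C) →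
        ∫ q in yn n '' H n, F q * g q ∂μ = ∫ y in H n, F (yn n y) * (th n y : ℝ)) := by
  obtain ⟨H, yn, th, c1, c2, c3, c4, c5, c6, c7, c8, c9, c10, c11⟩ :=
    pieces_of_int μ hgm hgi hp (intDens_of_ZD hZ) m
      (fun φ h1 h2 ψ h3 h4 i => hBV φ h1 h2 ψ h3 h4 i)
  have hone := c11 (fun _ => 1) measurable_const ⟨1, fun q => by simp⟩
  simp only [one_mul] at hone
  refine ⟨H, yn, th, c1, c2, c3, c4, c5, c6, c7, c8, c9, c10, hone.1, hone.2.1, c11, ?_, ?_⟩
  · set U : Set X := ⋃ n, yn n '' H n with hU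
    have hUm : MeasurableSet U := MeasurableSet.iUnion c9
    have e1 := c10 (Uᶜ.indicator fun _ => 1) (measurable_const.indicator hUm.compl)
    have e2 : ∑' n, ∫⁻ y in H n, (Uᶜ.indicator (fun _ => (1 : ℝ≥0∞)) (yn n y)) *
        ‖(th n y : ℝ)‖ₑ = 0 := by
      rw [ENNReal.tsum_eq_zero]
      intro n
      rw [← lintegral_zero (μ := volume.restrict (H n))]
      refine setLIntegral_congr_fun (c1 n) fun y hy => ?_
      have : yn n y ∉ Uᶜ := by
        simp only [mem_compl_iff, not_not]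
        exact mem_iUnion.mpr ⟨n, y, hy, rfl⟩
      simp only [indicator_of_notMem this, zero_mul]
    rw [e2] at e1
    have hmm : Measurable fun q => Uᶜ.indicator (fun _ => (1 : ℝ≥0∞)) q * ‖g q‖ₑ :=
      (measurable_const.indicator hUm.compl).mul hgm.enorm
    have e3 := (lintegral_eq_zero_iff hmm).mp e1
    filter_upwards [e3] with q hq hg0
    by_contra hqU
    have hmem : q ∈ Uᶜ := hqU
    simp only [Pi.zero_apply, indicator_of_mem hmem, one_mul] at hq
    exact hg0 (by simpa using hq)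
  · intro n F hF hFb
    obtain ⟨C, hC⟩ := hFb
    have hIm := c9 n
    have hF' : Measurable ((yn n '' H n).indicator F) := hF.indicator hIm
    have hb' : ∀ q, |(yn n '' H n).indicator F q| ≤ C := by
      intro q
      by_cases hq : q ∈ yn n '' H n
      · rw [indicator_of_mem hq]; exact hC q
      · rw [indicator_of_notMem hq, abs_zero]
        exact (abs_nonneg _).trans (hC q)
    have h1 := (c11 _ hF' ⟨C, hb'⟩).2.2
    have h2 : (fun j => ∫ y in H j, (yn n '' H n).indicator F (yn j y) * (th j y : ℝ)) =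
        fun j => if j = n then ∫ y in H n, F (yn n y) * (th n y : ℝ) else 0 := by
      funext j
      by_cases hj : j = n
      · subst hj
        rw [if_pos rfl]
        refine setIntegral_congr_fun (c1 j) fun y hy => ?_
        have : yn j y ∈ yn j '' H j := ⟨y, hy, rfl⟩
        simp only [indicator_of_mem this]
      · rw [if_neg hj, ← integral_zero (Euc k) ℝ (μ := volume.restrict (H j))]
        refine setIntegral_congr_fun (c1 j) fun y hy => ?_
        have : yn j y ∉ yn n '' H n := fun hc =>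
          disjoint_left.mp (c8 j n hj) ⟨y, hy, rfl⟩ hc
        simp only [indicator_of_notMem this, zero_mul]
    rw [h2] at h1
    have h3 := h1.unique (hasSum_ite_eq n _)
    rw [← h3, ← integral_indicator hIm]
    refine integral_congr_ae (Eventually.of_forall fun q => ?_)
    by_cases hq : q ∈ yn n '' H n
    · simp [hq]
    · simp [hq]

end Crest.Agent.R241.B7e3
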