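import Crest.Agent.R241.G1f

/-!
R241, block G1m: a countable pointwise dense family of 1-Lipschitz functions and the least
controlling measure (`massM T = ‖T‖`) of a metric current.
-/

set_option autoImplicit false
set_option linter.unusedSectionVars false

open MeasureTheory Filter Topology
open scoped ENNReal NNReal

namespace Crest.Agent.R241.G1

open Crest.GeometryTopology.MetricCurrent

universe u

section family

variable (X : Type u) [MetricSpace X] [TopologicalSpace.SeparableSpace X]

/-- a countable dense set -/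
def cds : Set X := (TopologicalSpace.exists_countable_dense X).choose

theorem cds_countable : (cds X).Countable := (TopologicalSpace.exists_countable_dense X).choose_spec.1

theorem cds_dense : Dense (cds X) := (TopologicalSpace.exists_countable_dense X).choose_spec.2

instance : Countable (cds X) := (cds_countable X).to_subtype

/-- index set of the countable family of 1-Lipschitz functions -/
def HIdx : Type u := {l : Finset (ℚ × cds X) // l.Nonempty}

instance : Countable (HIdx X) := by unfold HIdx; infer_instance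

variable {X}

/-- the countable family: finite minima of `q + dist · p` -/
noncomputable def hfun (l : HIdx X) (x : X) : ℝ :=
  l.1.inf' l.2 (fun c => (c.1 : ℝ) + dist x (c.2 : X))

theorem lipschitzWith_hfun (l : HIdx X) : LipschitzWith 1 (hfun l) := by
  apply LipschitzWith.of_le_add
  intro x y
  unfold hfun
  rw [← sub_le_iff_le_add]
  apply Finset.le_inf'
  intro c hc
  rw [sub_le_iff_le_add]
  refine (Finset.inf'_le _ hc).trans ?_
  have := dist_triangle x y (c.2 : X)
  linarith

/-- every 1-Lipschitz function is a pointwise limit of members of the family -/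
theorem exists_seq_hfun [Nonempty X] {p : X → ℝ} (hp : LipschitzWith 1 p) :
    ∃ l : ℕ → HIdx X, ∀ x, Tendsto (fun n => hfun (l n) x) atTop (𝓝 (p x)) := by
  classical
  have hne : Nonempty (cds X) := (cds_dense X).nonempty.to_subtype
  obtain ⟨e, he⟩ := exists_surjective_nat (cds X)
  have hq : ∀ n j : ℕ, ∃ q : ℚ, |(q : ℝ) - p (e j)| ≤ 1 / ((n : ℝ) + 1) := by
    intro n j
    obtain ⟨q, h1, h2⟩ := exists_rat_btwn (show p (e j) < p (e j) + 1 / ((n : ℝ) + 1) by
      have : (0 : ℝ) < 1 / ((n : ℝ) + 1) := by positivity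
      linarith)
    exact ⟨q, by rw [abs_le]; constructor <;> linarith⟩
  choose q hq using hq
  let l : ℕ → HIdx X := fun n =>
    ⟨(Finset.range (n + 1)).image (fun j => (q n j, e j)), by simp⟩
  refine ⟨l, fun x => ?_⟩
  rw [Metric.tendsto_atTop]
  intro ε hε
  obtain ⟨y, hyS, hy⟩ := (cds_dense X).exists_dist_lt x (show (0 : ℝ) < ε / 4 by positivity)
  obtain ⟨j, hj⟩ := he ⟨y, hyS⟩
  have hlim := tendsto_one_div_add_atTop_nhds_zero_nat (𝕜 := ℝ)
  obtain ⟨N, hN⟩ := (hlim.eventually_lt_const (show (0 : ℝ) < ε / 4 by positivity)).exists_forall_of_atTop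
  refine ⟨max N j, fun n hn => ?_⟩
  have hnN : N ≤ n := (le_max_left _ _).trans hn
  have hnj : j ≤ n := (le_max_right _ _).trans hn
  have hsmall : 1 / ((n : ℝ) + 1) < ε / 4 := hN n hnN
  have hej : ((e j : cds X) : X) = y := by rw [hj]
  rw [Real.dist_eq, abs_lt]
  constructor
  · -- lower bound
    have : p x - 1 / ((n : ℝ) + 1) ≤ hfun (l n) x := by
      unfold hfun
      apply Finset.le_inf'
      intro c hc
      simp only [l, Finset.mem_image, Finset.mem_range] at hc
      obtain ⟨i, -, rfl⟩ := hc
      have h1 := (abs_le.1 (hq n i)).1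
      have h2 := hp.dist_le_mul x (e i : X)
      simp only [NNReal.coe_one, one_mul, Real.dist_eq] at h2
      have h3 := (abs_le.1 h2).2
      simp only
      linarith
    linarith
  · have : hfun (l n) x ≤ (q n j : ℝ) + dist x (e j : X) := by
      unfold hfun
      apply Finset.inf'_le (f := fun c : ℚ × cds X => (c.1 : ℝ) + dist x (c.2 : X))
        (b := (q n j, e j))
      simp only [l, Finset.mem_image, Finset.mem_range]
      exact ⟨j, by omega, rfl⟩
    have h1 := (abs_le.1 (hq n j)).2
    have h2 := hp.dist_le_mul (e j : X) x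
    simp only [NNReal.coe_one, one_mul, Real.dist_eq] at h2
    have h3 := (abs_le.1 h2).2
    rw [dist_comm] at h3
    rw [hej] at *
    linarith

/-- tuples of members of the family -/
noncomputable def htup {k : ℕ} (c : Fin k → HIdx X) : Fin k → X → ℝ := fun i => hfun (c i)

theorem lipschitzWith_htup {k : ℕ} (c : Fin k → HIdx X) (i : Fin k) :
    LipschitzWith 1 (htup c i) := lipschitzWith_hfun (c i)

theorem lipT_htup {k : ℕ} (c : Fin k → HIdx X) : LipT (htup c) :=
  fun i => ⟨1, lipschitzWith_htup c i⟩

theorem exists_seq_htup [Nonempty X] {k : ℕ} {π : Fin k → X → ℝ}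
    (hπ : ∀ i, LipschitzWith 1 (π i)) :
    ∃ c : ℕ → Fin k → HIdx X, ∀ i x, Tendsto (fun n => htup (c n) i x) atTop (𝓝 (π i x)) := by
  choose l hl using fun i => exists_seq_hfun (hπ i)
  exact ⟨fun n i => l i n, fun i x => hl i x⟩

end family

section withDensity

variable {X : Type u} [MeasurableSpace X]

theorem withDensity_max_le {μ ν : Measure X} {f g : X → ℝ≥0∞} (hf : Measurable f)
    (hg : Measurable g) (h1 : μ.withDensity f ≤ ν) (h2 : μ.withDensity g ≤ ν) :
    μ.withDensity (fun x => max (f x) (g x)) ≤ ν := by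
  rw [Measure.le_iff] at *
  intro A hA
  set B : Set X := {x | g x ≤ f x} with hB
  have hBm : MeasurableSet B := measurableSet_le hg hf
  rw [withDensity_apply _ hA]
  have e1 : ∫⁻ x in A, max (f x) (g x) ∂μ = ∫⁻ x in A ∩ B, max (f x) (g x) ∂μ +
      ∫⁻ x in A \ B, max (f x) (g x) ∂μ := (lintegral_inter_add_sdiff _ _ hBm).symm
  have e2 : ∫⁻ x in A ∩ B, max (f x) (g x) ∂μ = ∫⁻ x in A ∩ B, f x ∂μ := by
    apply setLIntegral_congr_fun (hA.inter hBm)
    intro x hx
    exact max_eq_left hx.2
  have e3 : ∫⁻ x in A \ B, max (f x) (g x) ∂μ = ∫⁻ x in A \ B, g x ∂μ := by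
    apply setLIntegral_congr_fun (hA.diff hBm)
    intro x hx
    exact max_eq_right (le_of_not_ge hx.2)
  rw [e1, e2, e3]
  have a1 := h1 (A ∩ B) (hA.inter hBm)
  have a2 := h2 (A \ B) (hA.diff hBm)
  rw [withDensity_apply _ (hA.inter hBm)] at a1
  rw [withDensity_apply _ (hA.diff hBm)] at a2
  calc _ ≤ ν (A ∩ B) + ν (A \ B) := add_le_add a1 a2
    _ = ν A := measure_inter_add_sdiff A hBm

theorem withDensity_iSup_le {ι : Type*} [Countable ι] {μ ν : Measure X} {f : ι → X → ℝ≥0∞}
    (hf : ∀ i, Measurable (f i)) (h : ∀ i, μ.withDensity (f i) ≤ ν) :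
    μ.withDensity (fun x => ⨆ i, f i x) ≤ ν := by
  rcases isEmpty_or_nonempty ι with hE | hE
  · simp only [iSup_of_empty]
    have : μ.withDensity (fun _ => (⊥ : ℝ≥0∞)) = 0 := by
      exact withDensity_zero
    rw [this]
    exact Measure.zero_le _
  obtain ⟨e, he⟩ := exists_surjective_nat ι
  have h1 : (fun x => ⨆ i, f i x) = fun x => ⨆ n, f (e n) x := by
    funext x
    exact (he.iSup_comp (fun i => f i x)).symm
  rw [h1]
  let s : ℕ → X → ℝ≥0∞ := fun n x => (partialSups (fun n => f (e n) x)) n
  have hs0 : ∀ x, s 0 x = f (e 0) x := fun x => by simp [s]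
  have hs1 : ∀ n x, s (n + 1) x = max (s n x) (f (e (n + 1)) x) := fun n x => by
    simp [s, partialSups_add_one]
  have hsm : ∀ n, Measurable (s n) := by
    intro n
    induction n with
    | zero => simpa only [funext hs0] using hf (e 0)
    | succ n ih => simpa only [funext (hs1 n)] using ih.max (hf _)
  have hsν : ∀ n, μ.withDensity (s n) ≤ ν := by
    intro n
    induction n with
    | zero => simpa only [funext hs0] using h (e 0)
    | succ n ih =>
      have := withDensity_max_le (hsm n) (hf (e (n + 1))) ih (h _)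
      simpa only [funext (hs1 n)] using this
  have hsup : (fun x => ⨆ n, f (e n) x) = fun x => ⨆ n, s n x := by
    funext x
    exact (iSup_partialSups_eq _).symm
  rw [hsup, Measure.le_iff]
  intro A hA
  rw [withDensity_apply _ hA, lintegral_iSup hsm]
  · apply iSup_le
    intro n
    have := hsν n A
    rwa [withDensity_apply _ hA] at this
  · intro a b hab x
    exact (partialSups (fun n => f (e n) x)).monotone hab

end withDensity

section mass

variable {X : Type u} [MetricSpace X] [MeasurableSpace X] [BorelSpace X]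
variable {k : ℕ} {T : Functional X k}

/-- absolutely continuous bound for the density: `∫_A |dens T π| d ctrl ≤ ∏ K μ(A)` -/
theorem setLIntegral_dens_le (hT : IsCurrent T) {μ : Measure X} [IsFiniteMeasure μ]
    (hμ : Controls T μ) {π : Fin k → X → ℝ} {K : Fin k → ℝ≥0}
    (hK : ∀ i, LipschitzWith (K i) (π i)) {A : Set X} (hA : MeasurableSet A) :
    ∫⁻ x in A, ENNReal.ofReal |dens T π x| ∂(ctrl T) ≤ (∏ i, (K i : ℝ≥0∞)) * μ A := by
  have hd := bm_dens T π
  -- the sign of the density
  let sg : X → ℝ := fun x => if 0 ≤ dens T π x then 1 else -1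
  have hsgm : Measurable sg :=
    Measurable.ite (measurableSet_le measurable_const hd.1) measurable_const measurable_const
  have hsg : BM sg := by
    refine ⟨hsgm, 1, fun x => ?_⟩
    simp only [sg]
    split_ifs <;> simp
  have hsg1 : ∀ x, |sg x| = 1 := by
    intro x
    simp only [sg]
    split_ifs <;> simp
  have hsgd : ∀ x, sg x * dens T π x = |dens T π x| := by
    intro x
    simp only [sg]
    split_ifs with h
    · rw [one_mul, abs_of_nonneg h]
    · rw [neg_one_mul, abs_of_neg (lt_of_not_ge h)]
  have h1 := abs_ext_le hT hμ (hsg.indicator hA) hK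
  have h2 : ext T (A.indicator sg) π = ∫ x in A, |dens T π x| ∂(ctrl T) := by
    unfold ext
    rw [← integral_indicator hA]
    apply integral_congr_ae
    refine Eventually.of_forall fun x => ?_
    by_cases hx : x ∈ A
    · simp [hx, hsgd]
    · simp [hx]
  have h3 : ∫ x, |A.indicator sg x| ∂μ = μ.real A := by
    have : (fun x => |A.indicator sg x|) = A.indicator (fun _ => (1 : ℝ)) := by
      funext x
      by_cases hx : x ∈ A
      · simp [hx, hsg1]
      · simp [hx]
    rw [this, integral_indicator hA]
    simp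
  rw [h2, h3, abs_of_nonneg (integral_nonneg fun x => abs_nonneg _)] at h1
  have h4 : ∫⁻ x in A, ENNReal.ofReal |dens T π x| ∂(ctrl T) =
      ENNReal.ofReal (∫ x in A, |dens T π x| ∂(ctrl T)) := by
    rw [ofReal_integral_eq_lintegral_ofReal]
    · exact (hd.abs.integrable _).integrableOn
    · exact Eventually.of_forall fun x => abs_nonneg _
  rw [h4]
  refine (ENNReal.ofReal_le_ofReal h1).trans (le_of_eq ?_)
  rw [ENNReal.ofReal_mul (Finset.prod_nonneg fun i _ => (K i).coe_nonneg),
    ENNReal.ofReal_prod_of_nonneg (fun i _ => (K i).coe_nonneg)]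
  congr 1
  · exact Finset.prod_congr rfl fun i _ => ENNReal.ofReal_coe_nnreal
  · rw [Measure.real, ENNReal.ofReal_toReal (measure_ne_top _ _)]

variable [TopologicalSpace.SeparableSpace X]

/-- the density of `‖T‖` with respect to `ctrl T` -/
noncomputable def massDens (T : Functional X k) (x : X) : ℝ≥0∞ :=
  ⨆ c : Fin k → HIdx X, ENNReal.ofReal |dens T (htup c) x|

theorem measurable_massDens (T : Functional X k) : Measurable (massDens T) :=
  Measurable.iSup fun c => (bm_dens T (htup c)).1.abs.ennreal_ofReal

/-- the mass measure `‖T‖` : the least controlling measure -/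
noncomputable def massM (T : Functional X k) : Measure X := (ctrl T).withDensity (massDens T)

/-- minimality -/
theorem massM_le (hT : IsCurrent T) {μ : Measure X} [IsFiniteMeasure μ] (hμ : Controls T μ) :
    massM T ≤ μ := by
  apply withDensity_iSup_le (fun c => (bm_dens T (htup c)).1.abs.ennreal_ofReal)
  intro c
  rw [Measure.le_iff]
  intro A hA
  rw [withDensity_apply _ hA]
  have := setLIntegral_dens_le hT hμ (K := fun _ => 1) (lipschitzWith_htup c) hA
  simpa using this

theorem isFiniteMeasure_massM (hT : IsCurrent T) : IsFiniteMeasure (massM T) :=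
  isFiniteMeasure_of_le _ (massM_le hT (controls_ctrl hT))

theorem massM_le_ctrl (hT : IsCurrent T) : massM T ≤ ctrl T := massM_le hT (controls_ctrl hT)

theorem integral_massM (hT : IsCurrent T) {f : X → ℝ} (hf : BM f) (hf0 : ∀ x, 0 ≤ f x) :
    ENNReal.ofReal (∫ x, f x ∂(massM T)) = ∫⁻ x, massDens T x * ENNReal.ofReal (f x) ∂(ctrl T) := by
  have := isFiniteMeasure_massM hT
  rw [ofReal_integral_eq_lintegral_ofReal (hf.integrable _) (Eventually.of_forall hf0)]
  unfold massM
  rw [lintegral_withDensity_eq_lintegral_mul _ (measurable_massDens T)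
    hf.1.ennreal_ofReal]
  rfl

/-- the mass measure controls `T` -/
theorem controls_massM (hT : IsCurrent T) : Controls T (massM T) := by
  have := isFiniteMeasure_massM hT
  intro f π hfπ hπ
  have hf : BL f := (isTestPair_iff.1 hfπ).1
  have hπL : LipT π := (isTestPair_iff.1 hfπ).2
  rcases isEmpty_or_nonempty X with hX | hX
  · have h0 : T f π = 0 := by
      have := abs_le_of_controls hT (controls_ctrl hT) hf (K := fun _ => 1) hπ
      rw [Measure.eq_zero_of_isEmpty (ctrl T)] at this
      simp only [integral_zero_measure, mul_zero] at this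
      exact abs_eq_zero.1 (le_antisymm this (abs_nonneg _))
    rw [h0, abs_zero]
    exact integral_nonneg fun x => abs_nonneg _
  · obtain ⟨c, hc⟩ := exists_seq_htup hπ
    have h1 : Tendsto (fun n => T f (htup (c n))) atTop (𝓝 (T f π)) := by
      apply hT.continuity _ _ _ hfπ ⟨1, fun j i => lipschitzWith_htup (c j) i⟩ hc
    refine le_of_tendsto' h1.abs fun n => ?_
    rw [dens_spec hT (lipT_htup (c n)) hf]
    have h2 : |∫ x, f x * dens T (htup (c n)) x ∂(ctrl T)| ≤
        ∫ x, |f x| * |dens T (htup (c n)) x| ∂(ctrl T) := by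
      refine abs_integral_le_integral_abs.trans (le_of_eq ?_)
      simp only [abs_mul]
    refine h2.trans ?_
    have hI : 0 ≤ ∫ x, |f x| ∂(massM T) := integral_nonneg fun x => abs_nonneg _
    have hint : Integrable (fun x => |f x| * |dens T (htup (c n)) x|) (ctrl T) :=
      (hf.bm.abs.mul (bm_dens T (htup (c n))).abs).integrable _
    rw [← ENNReal.ofReal_le_ofReal_iff hI, integral_massM hT hf.bm.abs (fun x => abs_nonneg _),
      ofReal_integral_eq_lintegral_ofReal hint
        (Eventually.of_forall fun x => mul_nonneg (abs_nonneg _) (abs_nonneg _))]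
    apply lintegral_mono
    intro x
    change ENNReal.ofReal (|f x| * |dens T (htup (c n)) x|) ≤ massDens T x * ENNReal.ofReal |f x|
    rw [mul_comm, ENNReal.ofReal_mul (abs_nonneg _)]
    gcongr
    exact le_iSup (fun c : Fin k → HIdx X => ENNReal.ofReal |dens T (htup c) x|) (c n)

/-- the mass is the total measure of `‖T‖` -/
theorem mass_eq (hT : IsCurrent T) : mass T = (massM T Set.univ).toReal := by
  have := isFiniteMeasure_massM hT
  apply le_antisymm
  · apply csInf_le
    · refine ⟨0, ?_⟩
      rintro r ⟨μ, _, _, rfl⟩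
      exact ENNReal.toReal_nonneg
    · exact ⟨massM T, isFiniteMeasure_massM hT, controls_massM hT, rfl⟩
  · apply le_csInf
    · exact ⟨_, massM T, isFiniteMeasure_massM hT, controls_massM hT, rfl⟩
    · rintro r ⟨μ, hμf, hμ, rfl⟩
      have := hμf
      exact ENNReal.toReal_mono (measure_ne_top _ _) (massM_le hT hμ Set.univ)

theorem mass_nonneg (T : Functional X k) : 0 ≤ mass T := by
  apply Real.sInf_nonneg
  rintro r ⟨μ, _, _, rfl⟩
  exact ENNReal.toReal_nonneg

/-- the bound with the mass measure -/
theorem abs_ext_le_massM (hT : IsCurrent T) {f : X → ℝ} (hf : BM f) {π : Fin k → X → ℝ}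
    {K : Fin k → ℝ≥0} (hK : ∀ i, LipschitzWith (K i) (π i)) :
    |ext T f π| ≤ (∏ i, (K i : ℝ)) * ∫ x, |f x| ∂(massM T) := by
  have := isFiniteMeasure_massM hT
  exact abs_ext_le hT (controls_massM hT) hf hK

theorem abs_ext_le_mass (hT : IsCurrent T) {f : X → ℝ} (hf : BM f) {C : ℝ} (hC : ∀ x, |f x| ≤ C)
    {π : Fin k → X → ℝ} {K : Fin k → ℝ≥0} (hK : ∀ i, LipschitzWith (K i) (π i)) :
    |ext T f π| ≤ (∏ i, (K i : ℝ)) * (C * mass T) := by
  have := isFiniteMeasure_massM hT
  refine (abs_ext_le_massM hT hf hK).trans ?_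
  apply mul_le_mul_of_nonneg_left _ (Finset.prod_nonneg fun i _ => (K i).coe_nonneg)
  rw [mass_eq hT]
  calc ∫ x, |f x| ∂(massM T) ≤ ∫ _, C ∂(massM T) :=
        integral_mono (hf.abs.integrable _) (integrable_const C) hC
    _ = C * (massM T Set.univ).toReal := by simp [Measure.real, mul_comm]

/-- `‖T‖(A) = 0` can be tested on the countable family -/
theorem massM_eq_zero_of (hT : IsCurrent T) {A : Set X} (hA : MeasurableSet A)
    (h : ∀ (c : Fin k → HIdx X) (f : X → ℝ), BM f → ext T (A.indicator f) (htup c) = 0) :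
    massM T A = 0 := by
  unfold massM
  rw [withDensity_apply _ hA]
  rw [setLIntegral_eq_zero_iff hA (measurable_massDens T)]
  have h1 : ∀ c : Fin k → HIdx X, ∀ᵐ x ∂(ctrl T), x ∈ A → dens T (htup c) x = 0 := by
    intro c
    have hd := bm_dens T (htup c)
    have h2 := h c (dens T (htup c)) hd
    unfold ext at h2
    have h3 : ∫ x, A.indicator (dens T (htup c)) x * dens T (htup c) x ∂(ctrl T) =
        ∫ x, (A.indicator (dens T (htup c)) x) ^ 2 ∂(ctrl T) := by
      congr 1
      funext x
      by_cases hx : x ∈ A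
      · simp [hx, sq]
      · simp [hx]
    rw [h3, integral_eq_zero_iff_of_nonneg (fun x => sq_nonneg _)] at h2
    · filter_upwards [h2] with x hx hxA
      simpa [hxA] using hx
    · have := ((hd.indicator hA).mul (hd.indicator hA)).integrable (ctrl T)
      refine this.congr (Eventually.of_forall fun x => ?_)
      simp [sq]
  have h2 : ∀ᵐ x ∂(ctrl T), ∀ c : Fin k → HIdx X, x ∈ A → dens T (htup c) x = 0 :=
    ae_all_iff.2 h1
  filter_upwards [h2] with x hx hxA
  simp only [massDens, Pi.zero_apply, ENNReal.iSup_eq_zero]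
  intro c
  rw [hx c hxA]
  simp

theorem ext_indicator_eq_zero_of_massM (hT : IsCurrent T) {A : Set X}
    (h : massM T A = 0) {f : X → ℝ} (hf : BM f) (hA : MeasurableSet A) {π : Fin k → X → ℝ}
    (hπ : LipT π) : ext T (A.indicator f) π = 0 := by
  choose K hK using hπ
  have h1 := abs_ext_le_massM hT (hf.indicator hA) hK
  have h2 : ∫ x, |A.indicator f x| ∂(massM T) = 0 := by
    have : (fun x => |A.indicator f x|) =ᵐ[massM T] 0 := by
      have h3 : ∀ᵐ x ∂(massM T), x ∉ A := measure_eq_zero_iff_ae_notMem.1 h
      filter_upwards [h3] with x hx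
      simp [hx]
    rw [integral_congr_ae this]
    simp
  rw [h2, mul_zero] at h1
  exact abs_eq_zero.1 (le_antisymm h1 (abs_nonneg _))

end mass

end Crest.Agent.R241.G1
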