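import Crest.Agent.R241.B7f
import Crest.Agent.R241.B7Int
import Crest.Agent.R241.B7e3
import Crest.Agent.R241.G1m
import Crest.Agent.R241.B1Cur

/-!
R241, block B7g: identification of a metric current on the rectifiable pieces, assembly, and the
boundary rectifiability theorem.  Owner: helper191.
-/

set_option autoImplicit false

open MeasureTheory Filter Topology Set
open scoped ENNReal NNReal

universe u

namespace Crest.Agent.R241.B7g

open Crest.GeometryTopology.Submanifold (Euc)
open Crest.GeometryTopology.MetricCurrent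
open Crest.Agent.R241.G1 Crest.Agent.R241.B7a Crest.Agent.R241.B7BV Crest.Agent.R241.B7f
open Crest.Agent.R241.B7ZD

variable {X : Type u} [MetricSpace X] [MeasurableSpace X] [BorelSpace X] {k : ℕ}

/-- the density does not charge null fibres -/
def NoNull (T : Functional X k) (π : Fin k → X → ℝ) : Prop :=
  ∀ A : Set (Euc k), MeasurableSet A → volume A = 0 →
    ∀ᵐ x ∂(ctrl T), tup π x ∈ A → dens T π x = 0

theorem noNull_of_zd {T : Functional X k} {π : Fin k → X → ℝ} (hπ : LipT π)
    (hZ : ∀ B : Set X, MeasurableSet B → ZD (ctrl T) (tup π) (B.indicator (dens T π))) :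
    NoNull T π := by
  intro A hA hA0
  have hpm : Measurable (tup π) := measurable_tup hπ
  have hd := bm_dens T π
  have hint : Integrable (dens T π) (ctrl T) := hd.integrable _
  have h1 : ∀ B : Set X, MeasurableSet B → ∫ x in B, (tup π ⁻¹' A).indicator (dens T π) x ∂(ctrl T)
      = 0 := by
    intro B hB
    obtain ⟨u, hu, -⟩ := hZ B hB
    have h2 := hu.2 A hA
    rw [Measure.restrict_eq_zero.2 hA0, integral_zero_measure] at h2
    rw [setIntegral_indicator (hpm hA), ← h2, setIntegral_indicator hB, inter_comm]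
  have h3 : (tup π ⁻¹' A).indicator (dens T π) =ᵐ[ctrl T] 0 := by
    refine Integrable.ae_eq_zero_of_forall_setIntegral_eq_zero (hint.indicator (hpm hA)) ?_
    intro B hB _
    exact h1 B hB
  filter_upwards [h3] with x hx hxA
  have : x ∈ tup π ⁻¹' A := hxA
  simpa [indicator_of_mem this] using hx

/-- **B7f.**  Identification of `T` on a piece. -/
theorem ext_piece {T : Functional X k} (hT : IsCurrent T) {σ : Fin k → X → ℝ} (hσ : LipT σ)
    (hN : NoNull T σ) {H : Set (Euc k)} (hH : MeasurableSet H) {y : Euc k → X}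
    (hyL : ∃ L : ℝ≥0, LipschitzOnWith L y H) (hp : ∀ z ∈ H, tup σ (y z) = z)
    (hI : MeasurableSet (y '' H)) {th : Euc k → ℤ}
    (hloc : ∀ F : X → ℝ, BM F → ∫ q in y '' H, F q * dens T σ q ∂(ctrl T)
      = ∫ z in H, F (y z) * (th z : ℝ))
    {ω : Fin k → X → ℝ} (hω : LipT ω) {f : X → ℝ} (hf : BM f) :
    ext T ((y '' H).indicator f) ω = ∫ z in H, (th z : ℝ) * f (y z) *
      (Matrix.of fun i j =>
        fderivWithin ℝ (fun w => ω i (y w)) H z (EuclideanSpace.single j 1)).det := by
  obtain ⟨L, hL⟩ := hyL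
  choose K hK using hω
  have hω : LipT ω := fun i => ⟨_, hK i⟩
  obtain ⟨F, hF1, hF2⟩ := B1Cur.exists_ext_family hL hK
  set K' : ℝ≥0 := ∑ i, K i * L with hK'
  have hFK : ∀ i, LipschitzWith K' (F i) := fun i => (hF1 i).weaken
    (Finset.single_le_sum (f := fun i => K i * L) (fun i _ => zero_le) (Finset.mem_univ i))
  obtain ⟨Lt, hLt⟩ := lipschitz_tup hσ
  have e1 : ext T ((y '' H).indicator f) ω
      = ext T ((y '' H).indicator f) (fun i x => F i (tup σ x)) := by
    refine ext_congr_coord hT (hf.indicator hI) hω (fun i => ⟨_, (hFK i).comp hLt⟩) ?_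
    intro i x hx
    have hxI : x ∈ y '' H := by
      by_contra hc
      exact hx (indicator_of_notMem hc f)
    obtain ⟨z, hz, rfl⟩ := hxI
    rw [hp z hz]
    exact hF2 i hz
  rw [e1, ext_chain_lip hT hσ hN hFK (hf.indicator hI)]
  have e2 : ∫ x, (y '' H).indicator f x * jdet F (tup σ x) * dens T σ x ∂(ctrl T)
      = ∫ x in y '' H, (f x * jdet F (tup σ x)) * dens T σ x ∂(ctrl T) := by
    rw [← integral_indicator hI]
    congr 1
    funext x
    by_cases hx : x ∈ y '' H
    · simp [hx]
    · simp [hx]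
  have e4 := hloc _ (hf.mul (bm_jdet_tup hFK hσ))
  simp only [Pi.mul_apply] at e4
  rw [e2, e4]
  have hjac := B1Cur.ae_jac_eq (φ := y) (π := ω) hH (fun i => ⟨_, hFK i⟩) hF2
  refine integral_congr_ae ?_
  filter_upwards [hjac, ae_restrict_mem hH] with z hz hzH
  have e3 : (Matrix.of fun i j =>
      fderivWithin ℝ (fun w => ω i (y w)) H z (EuclideanSpace.single j 1)).det = jdet F z := hz
  rw [e3, hp z hzH]
  ring

/-- **Assembly.** -/
theorem rect_of_pieces [TopologicalSpace.SeparableSpace X] {T : Functional X k}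
    (hT : IsCurrent T) {H : ℕ → Set (Euc k)} {y : ℕ → Euc k → X} {th : ℕ → Euc k → ℤ}
    {σ : ℕ → Fin k → X → ℝ} (hσ : ∀ j, LipT (σ j)) (hN : ∀ j, NoNull T (σ j))
    (hH : ∀ j, MeasurableSet (H j)) (hb : ∀ j, Bornology.IsBounded (H j))
    (hy : ∀ j, Measurable (y j)) (hyL : ∀ j, ∃ L : ℝ≥0, LipschitzOnWith L (y j) (H j))
    (hp : ∀ j, ∀ z ∈ H j, tup (σ j) (y j z) = z)
    (hI : ∀ j, MeasurableSet (y j '' H j))
    (hth : ∀ j, IntegrableOn (fun z => (th j z : ℝ)) (H j))
    (hloc : ∀ j, ∀ F : X → ℝ, BM F → ∫ q in y j '' H j, F q * dens T (σ j) q ∂(ctrl T)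
      = ∫ z in H j, F (y j z) * (th j z : ℝ))
    (hcov : ∀ c : Fin k → HIdx X, ∀ᵐ x ∂(ctrl T), x ∉ ⋃ j, y j '' H j → dens T (htup c) x = 0) :
    IsIntegerRectifiable T := by
  classical
  -- disjoint pieces
  set P : ℕ → Set X := disjointed fun j => y j '' H j with hP
  have hPm : ∀ j, MeasurableSet (P j) := fun j => MeasurableSet.disjointed hI j
  have hPsub : ∀ j, P j ⊆ y j '' H j := fun j => disjointed_subset _ j
  have hPd : Pairwise (Function.onFun Disjoint P) := disjoint_disjointed _
  have hPU : ⋃ j, P j = ⋃ j, y j '' H j := iUnion_disjointed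
  set E : ℕ → Set (Euc k) := fun j => H j ∩ y j ⁻¹' P j with hE
  have hEm : ∀ j, MeasurableSet (E j) := fun j => (hH j).inter (hy j (hPm j))
  have hEH : ∀ j, E j ⊆ H j := fun j => inter_subset_left
  have himg : ∀ j, y j '' E j = P j := by
    intro j
    ext x
    constructor
    · rintro ⟨z, hz, rfl⟩
      exact hz.2
    · intro hx
      obtain ⟨z, hz, rfl⟩ := hPsub j hx
      exact ⟨z, ⟨hz, hx⟩, rfl⟩
  have hpE : ∀ j, ∀ z ∈ E j, tup (σ j) (y j z) = z := fun j z hz => hp j z (hEH j hz)
  have hyLE : ∀ j, ∃ L : ℝ≥0, LipschitzOnWith L (y j) (E j) := fun j => by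
    obtain ⟨L, hL⟩ := hyL j
    exact ⟨L, hL.mono (hEH j)⟩
  have hIE : ∀ j, MeasurableSet (y j '' E j) := fun j => by rw [himg]; exact hPm j
  have hthE : ∀ j, IntegrableOn (fun z => (th j z : ℝ)) (E j) := fun j => (hth j).mono_set (hEH j)
  have hlocE : ∀ j, ∀ F : X → ℝ, BM F → ∫ q in y j '' E j, F q * dens T (σ j) q ∂(ctrl T)
      = ∫ z in E j, F (y j z) * (th j z : ℝ) := by
    intro j F hF
    have h1 := hloc j _ (hF.indicator (hPm j))
    have h2 : ∫ q in y j '' H j, (P j).indicator F q * dens T (σ j) q ∂(ctrl T)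
        = ∫ q in y j '' E j, F q * dens T (σ j) q ∂(ctrl T) := by
      rw [himg, ← integral_indicator (hI j), ← integral_indicator (hPm j)]
      congr 1
      funext x
      by_cases hx : x ∈ P j
      · simp [hx, hPsub j hx]
      · simp [hx, indicator]
    have h3 : ∫ z in H j, (P j).indicator F (y j z) * (th j z : ℝ)
        = ∫ z in E j, F (y j z) * (th j z : ℝ) := by
      rw [← integral_indicator (hH j), ← integral_indicator (hEm j)]
      congr 1
      funext z
      by_cases hz : z ∈ H j
      · by_cases hz' : y j z ∈ P j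
        · have : z ∈ E j := ⟨hz, hz'⟩
          simp [hz, hz', this]
        · have : z ∉ E j := fun h => hz' h.2
          simp [hz', this, indicator]
      · have : z ∉ E j := fun h => hz h.1
        simp [hz, this]
    rw [← h2, ← h3, h1]
  -- identification
  have hid : ∀ j, ∀ f π, IsTestPair f π →
      chartAction (E j) (y j) (th j) f π = ext T ((P j).indicator f) π := by
    intro j f π hfπ
    obtain ⟨hf, hπ⟩ := isTestPair_iff.1 hfπ
    have h := ext_piece hT (hσ j) (hN j) (hEm j) (hyLE j) (hpE j) (hIE j) (hlocE j) hπ hf.bm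
    rw [himg] at h
    rw [h]
    unfold chartAction
    rw [if_pos hfπ]
  have hcur : ∀ j, IsCurrent (chartAction (E j) (y j) (th j)) := by
    intro j
    obtain ⟨L, hL⟩ := hyLE j
    exact B1Cur.isCurrent_chartAction (hEm j) hL (hthE j)
  have hfinM : IsFiniteMeasure (massM T) := isFiniteMeasure_massM hT
  have hctl : ∀ j, Controls (chartAction (E j) (y j) (th j)) ((massM T).restrict (P j)) := by
    intro j f π hfπ hπ
    obtain ⟨hf, hπ'⟩ := isTestPair_iff.1 hfπ
    rw [hid j f π hfπ]
    have h1 := abs_ext_le_massM hT (hf.bm.indicator (hPm j)) hπ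
    refine h1.trans (le_of_eq ?_)
    rw [← integral_indicator (hPm j)]
    simp only [NNReal.coe_one, Finset.prod_const_one, one_mul]
    congr 1
    funext x
    by_cases hx : x ∈ P j
    · simp [hx]
    · simp [hx]
  have hmass : ∀ j, mass (chartAction (E j) (y j) (th j)) ≤ (massM T).real (P j) := by
    intro j
    rw [mass_eq (hcur j)]
    have h1 := massM_le (hcur j) (hctl j)
    have h2 := h1 univ
    rw [Measure.restrict_apply_univ] at h2
    exact ENNReal.toReal_mono (measure_ne_top _ _) h2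
  -- the rest has no mass
  set U : Set X := ⋃ j, P j with hU
  have hUm : MeasurableSet U := MeasurableSet.iUnion hPm
  have hnull : massM T Uᶜ = 0 := by
    refine massM_eq_zero_of hT hUm.compl fun c f hf => ?_
    unfold G1.ext
    have : (fun x => Uᶜ.indicator f x * dens T (htup c) x) =ᵐ[ctrl T] 0 := by
      filter_upwards [hcov c] with x hx
      by_cases hxU : x ∈ U
      · simp [hxU]
      · rw [hPU] at hxU
        simp [hx hxU]
    rw [integral_congr_ae this]
    simp
  refine ⟨E, y, th, fun j => ⟨hEm j, (hb j).subset (hEH j)⟩, hyLE, ?_, hthE, ?_, hcur, ?_, ?_⟩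
  · intro j
    obtain ⟨L, hL⟩ := lipschitz_tup (hσ j)
    refine ⟨L, fun z hz w hw => ?_⟩
    have := hL.dist_le_mul (y j z) (y j w)
    rwa [hpE j z hz, hpE j w hw] at this
  · intro i j hij
    rw [himg, himg]
    exact hPd hij
  · refine Summable.of_nonneg_of_le (fun j => mass_nonneg _) hmass ?_
    have h1 : ∑' j, massM T (P j) ≠ ∞ := by
      rw [← measure_iUnion hPd hPm]
      exact measure_ne_top _ _
    exact ENNReal.summable_toReal h1
  · intro f π hfπ
    obtain ⟨hf, hπ⟩ := isTestPair_iff.1 hfπ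
    simp only [hid _ f π hfπ]
    rw [← ext_eq hT hπ hf]
    have hsplit : f = U.indicator f + Uᶜ.indicator f := (indicator_self_add_compl U f).symm
    have h1 : ext T f π = ext T (U.indicator f) π := by
      conv_lhs => rw [hsplit]
      rw [ext_add (hf.bm.indicator hUm) (hf.bm.indicator hUm.compl),
        ext_indicator_eq_zero_of_massM hT hnull hf.bm hUm.compl hπ, add_zero]
    rw [h1]
    have hint : IntegrableOn (fun x => f x * dens T π x) (⋃ j, P j) (ctrl T) :=
      (integrable_mul_dens hf.bm π).integrableOn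
    have h2 := hasSum_integral_iUnion hPm hPd hint
    have h3 : ∀ A : Set X, MeasurableSet A →
        ∫ x in A, f x * dens T π x ∂(ctrl T) = ext T (A.indicator f) π := by
      intro A hA
      unfold G1.ext
      rw [← integral_indicator hA]
      congr 1
      funext x
      by_cases hx : x ∈ A
      · simp [hx]
      · simp [hx]
    rw [h3 _ (MeasurableSet.iUnion hPm)] at h2
    simp only [h3 _ (hPm _)] at h2
    exact h2.tsum_eq.symm

/-- **Boundary rectifiability**, abstract form: a cycle with integer projections. -/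
theorem rect_of_cycle [CompleteSpace X] [SecondCountableTopology X] [Nonempty X]
    {T : Functional X (k + 1)} (hT : IsCurrent T) (hcyc : IsCyc T)
    (hZ : ∀ π : Fin (k + 1) → X → ℝ, LipT π → ∀ B : Set X, MeasurableSet B →
      ZD (ctrl T) (tup π) (B.indicator (dens T π))) : IsIntegerRectifiable T := by
  choose m hm hBV using fun c : Fin (k + 1) → HIdx X => bv_bound hT hcyc (lipT_htup c)
  choose H y th c1 c2 c3 c4 c5 c6 c7 c8 c9 c10 c11 c12 c13 c14 c15 using
    fun c : Fin (k + 1) → HIdx X =>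
      B7e3.pieces_ZD (ctrl T) (bm_dens T (htup c)).1 (integrable_dens T (htup c))
        (measurable_tup (lipT_htup c)) (hZ _ (lipT_htup c)) (m c) (hBV c)
  have hne : Nonempty (HIdx X) := by
    obtain ⟨l, -⟩ := exists_seq_hfun (X := X) (p := fun _ => 0)
      ((LipschitzWith.const 0).weaken zero_le_one)
    exact ⟨l 0⟩
  obtain ⟨e, he⟩ := exists_surjective_nat ((Fin (k + 1) → HIdx X) × ℕ)
  refine rect_of_pieces hT (H := fun j => H (e j).1 (e j).2) (y := fun j => y (e j).1 (e j).2)
    (th := fun j => th (e j).1 (e j).2) (σ := fun j => htup (e j).1)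
    (fun j => lipT_htup _) (fun j => noNull_of_zd (lipT_htup _) (hZ _ (lipT_htup _)))
    (fun j => c1 _ _) (fun j => c2 _ _) (fun j => c3 _ _) (fun j => c4 _ _) (fun j => c5 _ _)
    (fun j => c9 _ _) (fun j => c11 _ _) (fun j F hF => c15 _ _ F hF.1 hF.2) ?_
  intro c
  filter_upwards [c14 c] with x hx hxU
  by_contra hne0
  obtain ⟨n, hn⟩ := mem_iUnion.1 (hx hne0)
  obtain ⟨j, hj⟩ := he (c, n)
  refine hxU (mem_iUnion.2 ⟨j, ?_⟩)
  rw [hj]
  exact hn

/-- **Boundary rectifiability.** -/
theorem rect_bd [CompleteSpace X] [SecondCountableTopology X] [Nonempty X]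
    {S : Functional X (k + 2)} (hS : IsCurrent S) (hR : IsIntegerRectifiable S)
    (hb : IsCurrent (bd S)) : IsIntegerRectifiable (bd S) :=
  rect_of_cycle hb (isCyc_bd hS) fun _ hπ _ hB =>
    zd_bd hS hb (leib hS) (fun _ hσ => B7Int.zd_of_rect hS hR hσ) hπ hB

end Crest.Agent.R241.B7g
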