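import Crest.Agent.R241.B10Targets
import Crest.Agent.R241.B4Ops
import Crest.Agent.R241.B7g

/-!
R241: the targets `AddTarget` and `ClosureTarget` (helper502's reductions, helper638's normal form,
boundary rectifiability).  Owner: helper191.
-/

set_option autoImplicit false

open MeasureTheory Filter Topology Set
open scoped ENNReal NNReal

universe u

namespace Crest.Agent.R241.B10Final

open Crest.GeometryTopology.MetricCurrent
open Crest.Agent.R241.B4Norm Crest.Agent.R241.B4Ops

variable {X : Type u} [MetricSpace X] [MeasurableSpace X] [BorelSpace X]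
  [CompleteSpace X] [SecondCountableTopology X] [Nonempty X]

/-- **ADD.** -/
theorem addTarget (K : Set X) : AddTarget X K :=
  B10.addTarget (fun _ _ _ hS hS' => rect_add hS.cur hS'.cur hS.rect hS'.rect)
    (fun _ _ hS => rect_neg hS.rect)
    (fun _ _ hS => B7g.rect_bd hS.cur hS.rect hS.bdcur)

/-- **CLOSURE.** -/
theorem closureTarget {K : Set X} (hK : IsCompact K) (m : ℕ) : ClosureTarget X K m :=
  B10.closureTarget hK (addTarget K) m fun _ _ hT hm hs _ =>
    rect_of_hasSum (fun i => (hT i).cur) (fun i => (hT i).rect) hm hs

end Crest.Agent.R241.B10Final
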