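import Crest.Agent.R241.B11
import Crest.Agent.R241.B10Mass

/-!
# R241, block C: assembly of S0374 from the targets of the other blocks
-/

set_option autoImplicit false
set_option linter.unusedSectionVars false

open MeasureTheory Filter Topology Set
open scoped ENNReal NNReal

namespace Crest.Agent.R241.C

open Crest.GeometryTopology.MetricCurrent
open Crest.GeometryTopology.Submanifold (unitBallVol)
open Crest.Agent.R241.EModel

universe u

variable {X : Type u} [MetricSpace X] [MeasurableSpace X] [BorelSpace X]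

/-- `S0374` from FILLEQ, CONE and the algebra of integral currents in a compact `B`. -/
theorem exists_filling {m : ℕ} {B : Set X} [CompactSpace B] (hadd : AddTarget X B)
    (hcone : ConeTarget X B (m + 1)) (heq : FillEqTarget X B (m + 1))
    (T : Functional X (m + 2)) (hT : IsCyc B T) :
    ∃ S : Functional X (m + 3), IsInt B S ∧ bd S = T ∧
      mass S ≤ 1 / ((m + 3 : ℝ) *
            (((m + 3 : ℝ) * (volume (Metric.ball (0 : EuclideanSpace ℝ (Fin (m + 3))) 1)).toReal) ^
              (1 / (m + 2 : ℝ)))) *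
          mass T ^ ((m + 3 : ℝ) / (m + 2 : ℝ)) := by
  have hle := le_refl (0 : ℝ)
  have hmk : m + 2 ≠ 0 := by omega
  have hmass0 : 0 ≤ mass T := hadd.mass_nonneg _ T
  -- the right-hand side is `Vk (mass T)`
  have hrhs : 1 / ((m + 3 : ℝ) *
            (((m + 3 : ℝ) * (volume (Metric.ball (0 : EuclideanSpace ℝ (Fin (m + 3))) 1)).toReal) ^
              (1 / (m + 2 : ℝ)))) *
          mass T ^ ((m + 3 : ℝ) / (m + 2 : ℝ)) = Vk (m + 2) 0 (mass T) := by
    rw [Vk_zero_curv hmk hmass0]
    have e1 : (((m + 2 : ℕ) : ℝ) + 1) = (m + 3 : ℝ) := by push_cast; ring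
    have e2 : ((m + 2 : ℕ) : ℝ) = (m + 2 : ℝ) := by push_cast; ring
    have e3 : sphArea (m + 2) = (m + 3 : ℝ) *
        (volume (Metric.ball (0 : EuclideanSpace ℝ (Fin (m + 3))) 1)).toReal := by
      unfold sphArea
      rw [e1]
      rfl
    rw [e1, e3, e2]
  rw [hrhs]
  rcases eq_or_lt_of_le hmass0 with h0 | hpos
  · -- `T = 0`
    have hT0 : T = 0 := hadd.eq_zero _ T hT.int h0.symm
    subst hT0
    refine ⟨0, hadd.zero _, ?_, ?_⟩
    · have h := hadd.bd_add _ (0 : Functional X (m + 3)) 0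
      rw [add_zero] at h
      exact left_eq_add.1 h
    · rw [hadd.mass_zero]; exact Vk_nonneg _ _ _
  · set r := radA (m + 2) 0 (mass T) with hr
    have hrpos : 0 < r := radA_pos hmk hle hpos
    have hA : mass T = modelA (m + 1 + 1) 0 r := (modelA_radA hmk hle hmass0).symm
    have hV : Vk (m + 2) 0 (mass T) = modelV (m + 1 + 1) 0 r := rfl
    rw [hV]
    by_cases hex : ∃ S : Functional X (m + 3), IsInt B S ∧ bd S = T ∧
        mass S < modelV (m + 1 + 1) 0 r
    · obtain ⟨S, h1, h2, h3⟩ := hex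
      exact ⟨S, h1, h2, h3.le⟩
    · push Not at hex
      obtain ⟨x, hx, hsupp⟩ := heq T r hT hrpos hA hex
      have hcyc : IsCyc (B ∩ Metric.closedBall x r) T := by
        refine ⟨⟨hT.int.cur, hT.int.rect, hT.int.bdcur, ?_⟩, hT.cyc⟩
        intro f π hf h
        exact hsupp f π hf fun y hy => h y ⟨hy.1, Metric.sphere_subset_closedBall hy.2⟩
      obtain ⟨S, h1, h2, h3⟩ := hcone T x r hx hrpos.le hcyc
      refine ⟨S, h1, h2, h3.trans ?_⟩
      rw [hA]
      simp only [modelA, modelV, sn, if_true, integral_pow]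
      have hs := (sphArea_pos (m + 1 + 1)).le
      apply le_of_eq
      push_cast
      field_simp
      ring

/-- The inputs of block C on the closed balls of `X` (`k = 0`). -/
def BallInputs (X : Type u) [MetricSpace X] [MeasurableSpace X] [BorelSpace X] [ProperSpace X]
    (m : ℕ) : Prop :=
  ∀ (x₀ : X) (R : ℝ), 0 ≤ R → ∀ _ : CompactSpace (Metric.closedBall x₀ R),
    AddTarget X (Metric.closedBall x₀ R) ∧
    ClosureTarget X (Metric.closedBall x₀ R) (m + 1) ∧
    FVarTarget X 0 (Metric.closedBall x₀ R) (m + 1) ∧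
    ConeTarget X (Metric.closedBall x₀ R) (m + 1) ∧
    A.CatD 0 (Metric.closedBall x₀ R) ∧
    (∀ h, A.TheoremA (m + 2) 0 h (Metric.closedBall x₀ R)) ∧
    (∀ h, A.TheoremAeq (m + 2) h (Metric.closedBall x₀ R))

/-- **S0374**, from the inputs on closed balls. -/
theorem s0374 (X : Type u) [MetricSpace X] [MeasurableSpace X] [BorelSpace X] [ProperSpace X]
    (m : ℕ) (hin : BallInputs X m)
    (T : Functional X (m + 2)) (hT : IsIntegralCurrent T)
    (hcyc : bd T = 0) (K : Set X) (hK : IsCompact K) (hTK : IsSupportedIn K T) :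
    ∃ (S : Functional X (m + 3)) (K' : Set X), IsIntegralCurrent S ∧ IsCompact K' ∧
      IsSupportedIn K' S ∧ bd S = T ∧
      mass S ≤ 1 / ((m + 3 : ℝ) *
            (((m + 3 : ℝ) * (volume (Metric.ball (0 : EuclideanSpace ℝ (Fin (m + 3))) 1)).toReal) ^
              (1 / (m + 2 : ℝ)))) *
          mass T ^ ((m + 3 : ℝ) / (m + 2 : ℝ)) := by
  -- a chart gives a point of `X`
  obtain ⟨x₀⟩ : Nonempty X := by
    obtain ⟨E, φ, -⟩ := hT.2.1
    exact ⟨φ 0 0⟩
  obtain ⟨R, hR⟩ := hK.isBounded.subset_closedBall x₀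
  set B := Metric.closedBall x₀ (max R 0) with hB
  have hKB : K ⊆ B := hR.trans (Metric.closedBall_subset_closedBall (le_max_left _ _))
  have hBc : IsCompact B := isCompact_closedBall _ _
  have : CompactSpace B := isCompact_iff_compactSpace.1 hBc
  have hne : B.Nonempty := ⟨x₀, Metric.mem_closedBall_self (le_max_right _ _)⟩
  obtain ⟨hadd, hclo, hfv, hcone, hcat, hA, hAeq⟩ :=
    hin x₀ (max R 0) (le_max_right _ _) inferInstance
  have hTB : IsCyc B T :=
    ⟨⟨hT.1, hT.2.1, hT.2.2, fun f π hf h => hTK f π hf fun x hx => h x (hKB hx)⟩, hcyc⟩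
  have heq := B11.fillEqTarget (m := m + 1) (by omega) hadd hclo hfv hcone hcat hA hAeq hne
  obtain ⟨S, h1, h2, h3⟩ := exists_filling hadd hcone heq T hTB
  exact ⟨S, B, ⟨h1.cur, h1.rect, h1.bdcur⟩, hBc, h1.supp, h2, h3⟩

end Crest.Agent.R241.C
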