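import Crest.Agent.R241.E5
import Crest.Agent.R241.C
import Crest.Agent.R241.B10Final191
import Crest.Agent.R241.A5Cat
import Crest.Agent.R241.A8
import Crest.Agent.R241.Cat1
import Crest.Agent.R241.Cat3

/-!
# R241, block C/E: the inputs on closed balls from the general theorems (owner: helper534)
-/

set_option autoImplicit false

open MeasureTheory Filter Topology Set
open scoped ENNReal NNReal

universe u

namespace Crest.Agent.R241.CBall

open Crest.GeometryTopology.MetricCurrent

/-- FVarTarget on compact convex subsets of proper `CAT(-k²)` spaces. -/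
def FVarAll : Prop :=
  ∀ (X : Type u) (_ : MetricSpace X) (_ : MeasurableSpace X) (_ : BorelSpace X) (_ : ProperSpace X)
    (k : ℝ) (_ : 0 ≤ k) (C : CATk k X) (K : Set X) (_ : CompactSpace K) (_ : C.IsConv K) (m : ℕ),
    FVarTarget X k K m

/-- ConeTarget on compact convex subsets of proper `CAT(-k²)` spaces. -/
def ConeAll : Prop :=
  ∀ (X : Type u) (_ : MetricSpace X) (_ : MeasurableSpace X) (_ : BorelSpace X) (_ : ProperSpace X)
    (k : ℝ) (_ : 0 ≤ k) (C : CATk k X) (K : Set X) (_ : CompactSpace K) (_ : C.IsConv K) (m : ℕ),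
    ConeTarget X K m

/-- Theorem A in dimensions `n ≥ 3`. -/
def AAll : Prop :=
  ∀ (K : Type u) (_ : MetricSpace K) (_ : CompactSpace K) (_ : MeasurableSpace K)
    (_ : BorelSpace K) (n : ℕ) (_ : 3 ≤ n) (k h : ℝ), A.TheoremA n k h K

/-- Equality in Theorem A in dimensions `n ≥ 3`. -/
def AeqAll : Prop :=
  ∀ (K : Type u) (_ : MetricSpace K) (_ : CompactSpace K) (_ : MeasurableSpace K)
    (_ : BorelSpace K) (n : ℕ) (_ : 3 ≤ n) (h : ℝ), A.TheoremAeq n h K

theorem theoremA (hA : AAll.{u}) {K : Type u} [MetricSpace K] [CompactSpace K] [MeasurableSpace K]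
    [BorelSpace K] (n : ℕ) (k h : ℝ) : A.TheoremA n k h K := by
  rcases lt_trichotomy n 2 with h2 | h2 | h2
  · intro h3; omega
  · subst h2; exact A8.theoremA_two k h
  · exact hA K inferInstance inferInstance inferInstance inferInstance n h2 k h

theorem theoremAeq (hA : AeqAll.{u}) {K : Type u} [MetricSpace K] [CompactSpace K]
    [MeasurableSpace K] [BorelSpace K] (n : ℕ) (h : ℝ) : A.TheoremAeq n h K := by
  rcases lt_trichotomy n 2 with h2 | h2 | h2
  · intro h3; omega
  · subst h2; exact A8.theoremAeq_two h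
  · exact hA K inferInstance inferInstance inferInstance inferInstance n h2 h

/-- The inputs of block C for `S0374`. -/
theorem ballInputs (hFV : FVarAll.{u}) (hCone : ConeAll.{u}) (hA : AAll.{u}) (hAeq : AeqAll.{u})
    (X : Type u) [MetricSpace X] [MeasurableSpace X] [BorelSpace X] [ProperSpace X]
    (hX : IsCATZero X) (m : ℕ) : C.BallInputs X m := by
  intro x₀ R hR hc
  have : Nonempty X := ⟨x₀⟩
  let Ct : CATk 0 X := Cat1.ofIsCATZero hX
  have hconv : Ct.IsConv (Metric.closedBall x₀ R) := Cat3.isConv_closedBall Ct x₀ R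
  exact ⟨B10Final.addTarget _, B10Final.closureTarget (isCompact_closedBall _ _) _,
    hFV X inferInstance inferInstance inferInstance inferInstance 0 le_rfl Ct _ hc hconv _,
    hCone X inferInstance inferInstance inferInstance inferInstance 0 le_rfl Ct _ hc hconv _,
    A5.catD_of_isConv le_rfl Ct hconv, fun h => theoremA hA _ _ _, fun h => theoremAeq hAeq _ _⟩

/-- The inputs of blocks E4/E5 on closed balls. -/
theorem e4BallInputs (hFV : FVarAll.{0}) (hCone : ConeAll.{0}) (hA : AAll.{0}) :
    E4.BallInputs := by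
  intro X _ _ _ _ k hk Ct p R hR hc m hm
  have : Nonempty X := ⟨p⟩
  have hconv : Ct.IsConv (Metric.closedBall p R) := Cat3.isConv_closedBall Ct p R
  exact ⟨B10Final.addTarget _, B10Final.closureTarget (isCompact_closedBall _ _) _,
    hFV X inferInstance inferInstance inferInstance inferInstance k hk Ct _ hc hconv _,
    hCone X inferInstance inferInstance inferInstance inferInstance k hk Ct _ hc hconv _,
    A5.catD_of_isConv hk Ct hconv, fun h => theoremA hA _ _ _⟩

theorem e5EqInputs (hAeq : AeqAll.{0}) : E5.EqInputs := by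
  intro X _ _ _ _ Ct p R hR hc m hm h
  exact theoremAeq hAeq _ _

/-- **S0374** from the general theorems. -/
theorem s0374 (hFV : FVarAll.{u}) (hCone : ConeAll.{u}) (hA : AAll.{u}) (hAeq : AeqAll.{u})
    (X : Type u) [MetricSpace X] [MeasurableSpace X] [BorelSpace X] [ProperSpace X]
    (hX : IsCATZero X) (m : ℕ) (T : Functional X (m + 2)) (hT : IsIntegralCurrent T)
    (hcyc : bd T = 0) (K : Set X) (hK : IsCompact K) (hTK : IsSupportedIn K T) :
    ∃ (S : Functional X (m + 3)) (K' : Set X), IsIntegralCurrent S ∧ IsCompact K' ∧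
      IsSupportedIn K' S ∧ bd S = T ∧
      mass S ≤ 1 / ((m + 3 : ℝ) *
            (((m + 3 : ℝ) * (volume (Metric.ball (0 : EuclideanSpace ℝ (Fin (m + 3))) 1)).toReal) ^
              (1 / (m + 2 : ℝ)))) *
          mass T ^ ((m + 3 : ℝ) / (m + 2 : ℝ)) :=
  C.s0374 X m (ballInputs hFV hCone hA hAeq X hX m) T hT hcyc K hK hTK

end Crest.Agent.R241.CBall
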