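import Crest.Agent.R241.A7Final
import Crest.Agent.R241.CBall_534

/-!
R241: Theorem A and its equality case for `n ≥ 3`, in the form consumed by `CBall`.
-/

set_option autoImplicit false

namespace Crest.Agent.R241.AAll723

open Crest.Agent.R241.A
open MeasureTheory

universe u

theorem aAll : CBall.AAll.{u} := by
  intro K _ _ _ _ n hn k h _ hk hkh hcat P h0 hFV
  exact ASharp.ineq_of_sharp hn hk hkh P h0 (A7.t_sharp_final hn hk hkh hcat P h0 hFV)

theorem aeqAll : CBall.AeqAll.{u} := by
  intro K _ _ _ _ n hn h _ hh hcat P h0 hFV heq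
  have hm := mA_pos hn
  have hsup := A1.t_super P hm.le hFV
  obtain ⟨hint, hpole, -, -⟩ := A2.a2 hn le_rfl hh P hFV hsup
  exact A9.equality_case P hn hh hcat h0 hFV (A4H.t_H hn) A4Ode.t_ode
    (A3.t_key hn le_rfl hh P (A1.t_fv' P hFV)) hint hpole hsup
    (A7.t_sharp_final hn le_rfl hh hcat P h0 hFV) heq

end Crest.Agent.R241.AAll723
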