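import Crest.Agent.R241.ATargets

/-!
R241, block A: shared toolbox (zk calculus, Lipschitz functions, integrability, bilinear form).
-/

set_option autoImplicit false

namespace Crest.Agent.R241.A

open MeasureTheory Set Filter Topology
open scoped NNReal ENNReal RealInnerProductSpace

/-! ### the function `zk` -/

@[simp] lemma zk_zero (k : ℝ) : zk k 0 = 0 := by
  unfold zk; split_ifs <;> simp

@[simp] lemma snk_zero (k : ℝ) : snk k 0 = 0 := by
  unfold snk; split_ifs <;> simp

lemma zk_nonneg (k r : ℝ) : 0 ≤ zk k r := by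
  unfold zk; split_ifs
  · positivity
  · have := Real.one_le_cosh (k * r)
    exact div_nonneg (by linarith) (by positivity)

lemma zk_neg (k r : ℝ) : zk k (-r) = zk k r := by
  unfold zk; split_ifs
  · ring
  · rw [mul_neg, Real.cosh_neg]

lemma zk_abs (k r : ℝ) : zk k |r| = zk k r := by
  rcases abs_choice r with h | h <;> rw [h]
  exact zk_neg k r

lemma snk_sq (k r : ℝ) : snk k r ^ 2 = 2 * zk k r + k ^ 2 * zk k r ^ 2 := by
  unfold snk zk; split_ifs with h
  · subst h; ring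
  · have h2 := Real.cosh_sq (k * r)
    field_simp
    nlinarith [h2]

lemma hasDerivAt_zk (k r : ℝ) : HasDerivAt (zk k) (snk k r) r := by
  by_cases h : k = 0
  · have : zk k = fun r => r ^ 2 / 2 := by ext r; simp [zk, h]
    rw [this]
    have h1 : HasDerivAt (fun r : ℝ => r ^ 2 / 2) (2 * r ^ (2 - 1) * 1 / 2) r :=
      ((hasDerivAt_id' r).pow 2).div_const 2
    refine h1.congr_deriv ?_
    simp [snk, h]
  · have : zk k = fun r => (Real.cosh (k * r) - 1) / k ^ 2 := by ext r; simp [zk, h]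
    rw [this]
    have h0 : HasDerivAt (fun r : ℝ => k * r) k r := by simpa using (hasDerivAt_id r).const_mul k
    have h1 := ((h0.cosh).sub_const 1).div_const (k ^ 2)
    refine h1.congr_deriv ?_
    simp only [snk, h, if_false]
    rw [pow_two, mul_div_mul_right _ _ h]

lemma hasDerivAt_snk (k r : ℝ) : HasDerivAt (snk k) (1 + k ^ 2 * zk k r) r := by
  by_cases h : k = 0
  · have : snk k = fun r => r := by ext r; simp [snk, h]
    rw [this, h]
    exact (hasDerivAt_id' r).congr_deriv (by ring)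
  · have : snk k = fun r => Real.sinh (k * r) / k := by ext r; simp [snk, h]
    rw [this]
    have h0 : HasDerivAt (fun r : ℝ => k * r) k r := by simpa using (hasDerivAt_id r).const_mul k
    have h1 := (h0.sinh).div_const k
    refine h1.congr_deriv ?_
    simp only [zk, h, if_false]
    rw [mul_div_cancel₀ _ (pow_ne_zero 2 h), mul_div_cancel_right₀ _ h]
    ring

lemma continuous_zk (k : ℝ) : Continuous (zk k) :=
  continuous_iff_continuousAt.2 fun r => (hasDerivAt_zk k r).continuousAt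

lemma continuous_snk (k : ℝ) : Continuous (snk k) :=
  continuous_iff_continuousAt.2 fun r => (hasDerivAt_snk k r).continuousAt

lemma differentiable_zk (k : ℝ) : Differentiable ℝ (zk k) :=
  fun r => (hasDerivAt_zk k r).differentiableAt

lemma differentiable_snk (k : ℝ) : Differentiable ℝ (snk k) :=
  fun r => (hasDerivAt_snk k r).differentiableAt

lemma strictMono_snk (k : ℝ) : StrictMono (snk k) := by
  apply strictMono_of_deriv_pos
  intro r
  rw [(hasDerivAt_snk k r).deriv]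
  have := zk_nonneg k r
  positivity

lemma snk_nonneg {k r : ℝ} (hr : 0 ≤ r) : 0 ≤ snk k r := by
  have := (strictMono_snk k).monotone hr
  simpa using this

lemma le_snk {k r : ℝ} (hr : 0 ≤ r) : r ≤ snk k r := by
  have hm : MonotoneOn (fun r => snk k r - r) (Ici 0) := by
    apply monotoneOn_of_deriv_nonneg (convex_Ici 0)
    · exact ((continuous_snk k).sub continuous_id).continuousOn
    · exact ((differentiable_snk k).sub differentiable_id).differentiableOn
    · intro x hx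
      have h1 : HasDerivAt (fun r => snk k r - r) (1 + k ^ 2 * zk k x - 1) x :=
        (hasDerivAt_snk k x).sub (hasDerivAt_id x)
      rw [h1.deriv]
      have := zk_nonneg k x
      have h2 : 0 ≤ k ^ 2 * zk k x := by positivity
      linarith
  have := hm (mem_Ici.2 le_rfl) (mem_Ici.2 hr) hr
  simp at this
  linarith

lemma sq_div_two_le_zk (k r : ℝ) : r ^ 2 / 2 ≤ zk k r := by
  wlog hr : 0 ≤ r with H
  · have := H k (-r) (by linarith)
    rwa [zk_neg, neg_sq] at this
  have hm : MonotoneOn (fun r => zk k r - r ^ 2 / 2) (Ici 0) := by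
    apply monotoneOn_of_deriv_nonneg (convex_Ici 0)
    · exact ((continuous_zk k).sub (by fun_prop)).continuousOn
    · exact ((differentiable_zk k).sub (by fun_prop)).differentiableOn
    · intro x hx
      have hx0 : 0 ≤ x := by
        have := interior_subset hx
        simpa using this
      have h1 : HasDerivAt (fun r => zk k r - r ^ 2 / 2) (snk k x - x) x := by
        have h2 : HasDerivAt (fun r : ℝ => r ^ 2 / 2) (2 * x ^ (2 - 1) * 1 / 2) x :=
          ((hasDerivAt_id' x).pow 2).div_const 2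
        exact ((hasDerivAt_zk k x).sub h2).congr_deriv (by norm_num)
      rw [h1.deriv]
      linarith [le_snk (k := k) hx0]
  have := hm (mem_Ici.2 le_rfl) (mem_Ici.2 hr) hr
  simp at this
  linarith

lemma zk_pos {k r : ℝ} (hr : r ≠ 0) : 0 < zk k r :=
  lt_of_lt_of_le (by positivity) (sq_div_two_le_zk k r)

lemma zk_eq_zero_iff {k r : ℝ} : zk k r = 0 ↔ r = 0 := by
  constructor
  · intro h; by_contra hr; exact absurd h (zk_pos hr).ne'
  · rintro rfl; simp

lemma strictMonoOn_zk (k : ℝ) : StrictMonoOn (zk k) (Ici 0) := by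
  apply strictMonoOn_of_deriv_pos (convex_Ici 0) (continuous_zk k).continuousOn
  intro x hx
  rw [(hasDerivAt_zk k x).deriv]
  have hx0 : 0 < x := by simpa using hx
  exact lt_of_lt_of_le hx0 (le_snk hx0.le)

/-- Quadratic upper bound on bounded sets. -/
lemma exists_zk_le (k R : ℝ) : ∃ C : ℝ, 0 < C ∧ ∀ r ∈ Icc (0 : ℝ) R, zk k r ≤ C * (r ^ 2 / 2) := by
  -- zk' = snk ≤ (1 + k^2 zk R) r on [0,R]
  refine ⟨1 + k ^ 2 * zk k R, by have := zk_nonneg k R; positivity, ?_⟩
  intro r hr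
  have hmono : ∀ s ∈ Icc (0 : ℝ) R, zk k s ≤ zk k R := fun s hs =>
    (strictMonoOn_zk k).monotoneOn (mem_Ici.2 hs.1) (mem_Ici.2 (hs.1.trans hs.2)) hs.2
  set M := 1 + k ^ 2 * zk k R with hM
  have hs : ∀ s ∈ Icc (0 : ℝ) R, snk k s ≤ M * s := by
    intro s hs
    have hm : MonotoneOn (fun r => M * r - snk k r) (Icc 0 R) := by
      apply monotoneOn_of_deriv_nonneg (convex_Icc 0 R)
      · exact (((continuous_const.mul continuous_id)).sub (continuous_snk k)).continuousOn
      · exact ((differentiable_const _).mul differentiable_id |>.sub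
          (differentiable_snk k)).differentiableOn
      · intro x hx
        have hx' := interior_subset hx
        have h1 : HasDerivAt (fun r => M * r - snk k r) (M * 1 - (1 + k ^ 2 * zk k x)) x :=
          ((hasDerivAt_id x).const_mul M).sub (hasDerivAt_snk k x)
        rw [h1.deriv]
        have := hmono x hx'
        have h2 : k ^ 2 * zk k x ≤ k ^ 2 * zk k R := mul_le_mul_of_nonneg_left this (by positivity)
        linarith
    have := hm (left_mem_Icc.2 (hs.1.trans hs.2)) hs hs.1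
    simp at this
    linarith
  have hm : MonotoneOn (fun r => M * (r ^ 2 / 2) - zk k r) (Icc 0 R) := by
    apply monotoneOn_of_deriv_nonneg (convex_Icc 0 R)
    · exact (Continuous.sub (by fun_prop) (continuous_zk k)).continuousOn
    · exact (Differentiable.sub (by fun_prop) (differentiable_zk k)).differentiableOn
    · intro x hx
      have hx' := interior_subset hx
      have h1 : HasDerivAt (fun r => M * (r ^ 2 / 2) - zk k r) (M * x - snk k x) x := by
        have h2 : HasDerivAt (fun r : ℝ => M * (r ^ 2 / 2)) (M * (2 * x ^ (2 - 1) * 1 / 2)) x :=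
          (((hasDerivAt_id' x).pow 2).div_const 2).const_mul M
        exact (h2.sub (hasDerivAt_zk k x)).congr_deriv (by norm_num)
      rw [h1.deriv]
      linarith [hs x hx']
  have := hm (left_mem_Icc.2 (hr.1.trans hr.2)) hr hr.1
  simp at this
  linarith

/-! ### `zd` -/

section zd
variable {K : Type*} [MetricSpace K]

lemma zd_comm (k : ℝ) (x y : K) : zd k x y = zd k y x := by
  unfold zd; rw [dist_comm]

@[simp] lemma zd_self (k : ℝ) (x : K) : zd k x x = 0 := by simp [zd]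

lemma zd_nonneg (k : ℝ) (x y : K) : 0 ≤ zd k x y := zk_nonneg _ _

lemma zd_eq_zero_iff {k : ℝ} {x y : K} : zd k x y = 0 ↔ x = y := by
  unfold zd; rw [zk_eq_zero_iff, dist_eq_zero]

lemma zd_pos {k : ℝ} {x y : K} (h : x ≠ y) : 0 < zd k x y :=
  zk_pos (dist_ne_zero.2 h)

lemma continuous_zd₂ (k : ℝ) : Continuous (fun p : K × K => zd k p.1 p.2) :=
  (continuous_zk k).comp continuous_dist

lemma continuous_zd (k : ℝ) (x : K) : Continuous (zd k x) :=
  (continuous_zk k).comp (continuous_const.dist continuous_id)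

lemma dist_sq_le_zd (k : ℝ) (x y : K) : dist x y ^ 2 / 2 ≤ zd k x y := sq_div_two_le_zk _ _

/-- `zd < r²/2` implies `dist < r`. -/
lemma dist_lt_of_zd_lt {k r : ℝ} {x y : K} (hr : 0 ≤ r) (h : zd k x y < r ^ 2 / 2) :
    dist x y < r := by
  have h1 := dist_sq_le_zd k x y
  have h2 : dist x y ^ 2 < r ^ 2 := by linarith
  exact lt_of_pow_lt_pow_left₀ 2 hr h2

lemma exists_zd_le (k : ℝ) [CompactSpace K] : ∃ C : ℝ, 0 < C ∧ ∀ x y : K, zd k x y ≤ C := by
  obtain ⟨C, hC⟩ := (isCompact_univ (X := K × K)).bddAbove_image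
    (continuous_zd₂ (K := K) k).continuousOn
  refine ⟨max C 1, by positivity, fun x y => le_max_of_le_left ?_⟩
  exact hC ⟨(x, y), mem_univ _, rfl⟩

end zd

/-! ### Lipschitz functions -/

section lip
variable {K : Type*} [MetricSpace K]

lemma Lip.continuous {f : K → ℝ} (hf : Lip f) : Continuous f := by
  obtain ⟨C, hC⟩ := hf; exact hC.continuous

lemma Lip.const (c : ℝ) : Lip (fun _ : K => c) := ⟨0, LipschitzWith.const c⟩

lemma Lip.add {f g : K → ℝ} (hf : Lip f) (hg : Lip g) : Lip (fun y => f y + g y) := by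
  obtain ⟨C, hC⟩ := hf; obtain ⟨D, hD⟩ := hg; exact ⟨C + D, hC.add hD⟩

lemma Lip.neg {f : K → ℝ} (hf : Lip f) : Lip (fun y => - f y) := by
  obtain ⟨C, hC⟩ := hf; exact ⟨C, hC.neg⟩

lemma Lip.sub {f g : K → ℝ} (hf : Lip f) (hg : Lip g) : Lip (fun y => f y - g y) := by
  obtain ⟨C, hC⟩ := hf; obtain ⟨D, hD⟩ := hg; exact ⟨C + D, hC.sub hD⟩

lemma Lip.const_mul {f : K → ℝ} (c : ℝ) (hf : Lip f) : Lip (fun y => c * f y) := by
  obtain ⟨C, hC⟩ := hf
  refine ⟨‖c‖₊ * C, LipschitzWith.of_dist_le_mul fun x y => ?_⟩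
  have := hC.dist_le_mul x y
  rw [Real.dist_eq] at *
  rw [← mul_sub, abs_mul]
  push_cast
  rw [mul_assoc]
  exact mul_le_mul_of_nonneg_left this (abs_nonneg c)

lemma Lip.exists_bound [CompactSpace K] {f : K → ℝ} (hf : Lip f) :
    ∃ B : ℝ, 0 < B ∧ ∀ y, |f y| ≤ B := by
  obtain ⟨B, hB⟩ := (isCompact_univ (X := K)).exists_bound_of_continuousOn
    hf.continuous.continuousOn
  exact ⟨max B 1, by positivity, fun y => le_max_of_le_left (hB y (mem_univ _))⟩

lemma exists_bound_of_continuous [CompactSpace K] {f : K → ℝ} (hf : Continuous f) :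
    ∃ B : ℝ, 0 < B ∧ ∀ y, |f y| ≤ B := by
  obtain ⟨B, hB⟩ := (isCompact_univ (X := K)).exists_bound_of_continuousOn hf.continuousOn
  exact ⟨max B 1, by positivity, fun y => le_max_of_le_left (hB y (mem_univ _))⟩

lemma exists_pos_lower [CompactSpace K] {f : K → ℝ} (hf : Continuous f) (hpos : ∀ y, 0 < f y) :
    ∃ δ : ℝ, 0 < δ ∧ ∀ y, δ ≤ f y := by
  rcases isEmpty_or_nonempty K with h | h
  · exact ⟨1, one_pos, fun y => h.elim y⟩
  · obtain ⟨y0, hy0⟩ := hf.exists_forall_le_of_hasCompactSupport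
      (HasCompactSupport.of_compactSpace _)
    exact ⟨f y0, hpos y0, hy0⟩

lemma Lip.mul [CompactSpace K] {f g : K → ℝ} (hf : Lip f) (hg : Lip g) :
    Lip (fun y => f y * g y) := by
  obtain ⟨B, hB, hfB⟩ := hf.exists_bound
  obtain ⟨B', hB', hgB⟩ := hg.exists_bound
  obtain ⟨C, hC⟩ := hf; obtain ⟨D, hD⟩ := hg
  refine ⟨⟨B, hB.le⟩ * D + ⟨B', hB'.le⟩ * C, LipschitzWith.of_dist_le_mul fun x y => ?_⟩
  have h1 := hC.dist_le_mul x y
  have h2 := hD.dist_le_mul x y
  rw [Real.dist_eq] at *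
  have e : f x * g x - f y * g y = f x * (g x - g y) + g y * (f x - f y) := by ring
  rw [e]
  push_cast
  calc |f x * (g x - g y) + g y * (f x - f y)|
      ≤ |f x| * |g x - g y| + |g y| * |f x - f y| := by
        rw [← abs_mul, ← abs_mul]; exact abs_add_le _ _
    _ ≤ B * (D * dist x y) + B' * (C * dist x y) := by
        gcongr
        · exact hfB x
        · exact hgB y
    _ = (B * D + B' * C) * dist x y := by ring

lemma Lip.sq [CompactSpace K] {f : K → ℝ} (hf : Lip f) : Lip (fun y => f y ^ 2) := by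
  have := hf.mul hf
  simpa [pow_two] using this

/-- Composition with a `C¹` function on an interval containing the range. -/
lemma Lip.comp_Icc {f : K → ℝ} (hf : Lip f) {a b : ℝ} {φ φ' : ℝ → ℝ}
    (hφ : ∀ s ∈ Icc a b, HasDerivAt φ (φ' s) s) (hc : ContinuousOn φ' (Icc a b))
    (hab : ∀ y, f y ∈ Icc a b) : Lip (fun y => φ (f y)) := by
  obtain ⟨B, hB⟩ := isCompact_Icc.exists_bound_of_continuousOn hc
  obtain ⟨C, hC⟩ := hf
  have hB' : ∀ s ∈ Icc a b, ‖φ' s‖₊ ≤ (‖B‖₊ : ℝ≥0) := by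
    intro s hs
    have := hB s hs
    rw [← NNReal.coe_le_coe, coe_nnnorm, coe_nnnorm]
    exact this.trans (le_abs_self B)
  have h1 : LipschitzOnWith ‖B‖₊ φ (Icc a b) :=
    (convex_Icc a b).lipschitzOnWith_of_nnnorm_hasDerivWithin_le
      (fun s hs => (hφ s hs).hasDerivWithinAt) hB'
  refine ⟨‖B‖₊ * C, LipschitzWith.of_dist_le_mul fun x y => ?_⟩
  have h2 := h1.dist_le_mul (f x) (hab x) (f y) (hab y)
  have h3 := hC.dist_le_mul x y
  calc dist (φ (f x)) (φ (f y)) ≤ ‖B‖₊ * dist (f x) (f y) := h2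
    _ ≤ ‖B‖₊ * (C * dist x y) := by gcongr
    _ = _ := by push_cast; ring

/-- Composition with a function that is `C¹` on `(0,∞)`, for positive `f`. -/
lemma Lip.comp_pos [CompactSpace K] {f : K → ℝ} (hf : Lip f) (hpos : ∀ y, 0 < f y)
    {φ φ' : ℝ → ℝ} (hφ : ∀ s, 0 < s → HasDerivAt φ (φ' s) s)
    (hc : ContinuousOn φ' (Ioi 0)) : Lip (fun y => φ (f y)) := by
  obtain ⟨δ, hδ, hδf⟩ := exists_pos_lower hf.continuous hpos
  obtain ⟨B, hB, hBf⟩ := hf.exists_bound
  refine hf.comp_Icc (a := δ) (b := B) (φ' := φ') (fun s hs => hφ s (hδ.trans_le hs.1))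
    (hc.mono fun s hs => hδ.trans_le hs.1) fun y => ⟨hδf y, (le_abs_self _).trans (hBf y)⟩

lemma Lip.rpow [CompactSpace K] {f : K → ℝ} (hf : Lip f) (hpos : ∀ y, 0 < f y) (s : ℝ) :
    Lip (fun y => f y ^ s) := by
  refine hf.comp_pos hpos (φ := fun t => t ^ s) (φ' := fun t => s * t ^ (s - 1))
    (fun t ht => ?_) ?_
  · exact Real.hasDerivAt_rpow_const (x := t) (p := s) (Or.inl ht.ne')
  · intro t ht
    have ht0 : t ≠ 0 := ne_of_gt ht
    exact (ContinuousAt.mul continuousAt_const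
      (Real.continuousAt_rpow_const t (s - 1) (Or.inl ht0))).continuousWithinAt

lemma lip_dist (x : K) : Lip (fun y => dist x y) := ⟨1, LipschitzWith.dist_right x⟩

lemma lip_zd [CompactSpace K] (k : ℝ) (x : K) : Lip (zd k x) := by
  obtain ⟨B, hB, hBf⟩ := (lip_dist x).exists_bound
  exact (lip_dist x).comp_Icc (a := 0) (b := B) (φ := zk k) (φ' := snk k)
    (fun s _ => hasDerivAt_zk k s) (continuous_snk k).continuousOn
    fun y => ⟨dist_nonneg, (le_abs_self _).trans (hBf y)⟩

lemma lip_zd_add [CompactSpace K] (k : ℝ) (x : K) (a : ℝ) : Lip (fun y => zd k x y + a) :=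
  (lip_zd k x).add (Lip.const a)

lemma zd_add_pos (k : ℝ) (x : K) {a : ℝ} (ha : 0 < a) (y : K) : 0 < zd k x y + a := by
  have := zd_nonneg k x y; linarith

lemma lip_zd_rpow [CompactSpace K] (k : ℝ) (x : K) {a : ℝ} (ha : 0 < a) (s : ℝ) :
    Lip (fun y => (zd k x y + a) ^ s) :=
  (lip_zd_add k x a).rpow (zd_add_pos k x ha) s

end lip

/-! ### Calculus and integrability in `PreData` -/

namespace PreData

variable {n : ℕ} {k : ℝ} {K : Type*} [MetricSpace K] [CompactSpace K]
  [MeasurableSpace K] [BorelSpace K] (P : PreData n k K)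

instance : IsFiniteMeasure P.τ := P.fin

lemma integrable_of_continuous {f : K → ℝ} (hf : Continuous f) : Integrable f P.τ := by
  obtain ⟨B, _, hB⟩ := exists_bound_of_continuous hf
  exact Integrable.of_bound hf.aestronglyMeasurable B (ae_of_all _ fun y => by simpa using hB y)

lemma integrable_lip {f : K → ℝ} (hf : Lip f) : Integrable f P.τ :=
  P.integrable_of_continuous hf.continuous

lemma exists_G_bound {f : K → ℝ} (hf : Lip f) : ∃ C : ℝ, 0 ≤ C ∧ ∀ᵐ y ∂P.τ, P.G f f y ≤ C ^ 2 := by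
  obtain ⟨C, hC⟩ := hf
  exact ⟨C, C.2, P.G_bound f C hC⟩

/-! #### calculus in both slots -/

lemma G_add_right {f g u : K → ℝ} (hf : Lip f) (hg : Lip g) (hu : Lip u) :
    ∀ᵐ y ∂P.τ, P.G u (fun y => f y + g y) y = P.G u f y + P.G u g y := by
  filter_upwards [P.G_comm _ _ hu (hf.add hg), P.G_add f g u hf hg hu, P.G_comm f u hf hu,
    P.G_comm g u hg hu] with y h1 h2 h3 h4
  rw [h1, h2, h3, h4]

lemma G_smul_right (c : ℝ) {f u : K → ℝ} (hf : Lip f) (hu : Lip u) :
    ∀ᵐ y ∂P.τ, P.G u (fun y => c * f y) y = c * P.G u f y := by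
  filter_upwards [P.G_comm _ _ hu (hf.const_mul c), P.G_smul c f u hf hu, P.G_comm f u hf hu]
    with y h1 h2 h3
  rw [h1, h2, h3]

lemma G_mul_right {f g u : K → ℝ} (hf : Lip f) (hg : Lip g) (hu : Lip u) :
    ∀ᵐ y ∂P.τ, P.G u (fun y => f y * g y) y = f y * P.G u g y + g y * P.G u f y := by
  filter_upwards [P.G_comm _ _ hu (hf.mul hg), P.G_mul f g u hf hg hu, P.G_comm f u hf hu,
    P.G_comm g u hg hu] with y h1 h2 h3 h4
  rw [h1, h2, h3, h4]

lemma G_chain_right {f u : K → ℝ} {φ φ' : ℝ → ℝ} (hf : Lip f) (hu : Lip u)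
    (hφf : Lip (fun y => φ (f y))) (hφ : ∀ y, HasDerivAt φ (φ' (f y)) (f y))
    (hc : Continuous (fun y => φ' (f y))) :
    ∀ᵐ y ∂P.τ, P.G u (fun y => φ (f y)) y = φ' (f y) * P.G u f y := by
  filter_upwards [P.G_comm _ _ hu hφf, P.G_chain f u φ φ' hf hu hφf hφ hc, P.G_comm f u hf hu]
    with y h1 h2 h3
  rw [h1, h2, h3]

lemma G_const_left (c : ℝ) {u : K → ℝ} (hu : Lip u) : ∀ᵐ y ∂P.τ, P.G (fun _ => c) u y = 0 := by
  have := P.G_chain (fun _ => (0 : ℝ)) u (fun _ => c) (fun _ => 0) (Lip.const 0) hu (Lip.const c)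
    (fun y => hasDerivAt_const _ _) continuous_const
  filter_upwards [this] with y hy
  simpa using hy

lemma G_const_right (c : ℝ) {u : K → ℝ} (hu : Lip u) : ∀ᵐ y ∂P.τ, P.G u (fun _ => c) y = 0 := by
  filter_upwards [P.G_comm _ _ hu (Lip.const c), P.G_const_left c hu] with y h1 h2
  rw [h1, h2]

lemma G_add_const_left {f u : K → ℝ} (hf : Lip f) (hu : Lip u) (c : ℝ) :
    ∀ᵐ y ∂P.τ, P.G (fun y => f y + c) u y = P.G f u y := by
  filter_upwards [P.G_add f (fun _ => c) u hf (Lip.const c) hu, P.G_const_left c hu] with y h1 h2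
  rw [h1, h2, add_zero]

lemma G_add_const_right {f u : K → ℝ} (hf : Lip f) (hu : Lip u) (c : ℝ) :
    ∀ᵐ y ∂P.τ, P.G u (fun y => f y + c) y = P.G u f y := by
  filter_upwards [P.G_add_right hf (Lip.const c) hu, P.G_const_right c hu] with y h1 h2
  rw [h1, h2, add_zero]

lemma G_neg_left {f u : K → ℝ} (hf : Lip f) (hu : Lip u) :
    ∀ᵐ y ∂P.τ, P.G (fun y => - f y) u y = - P.G f u y := by
  filter_upwards [P.G_smul (-1) f u hf hu] with y h1
  have e : (fun y => -1 * f y) = fun y => - f y := by ext y; ring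
  rw [e] at h1
  rw [h1, neg_one_mul]

lemma G_sub_left {f g u : K → ℝ} (hf : Lip f) (hg : Lip g) (hu : Lip u) :
    ∀ᵐ y ∂P.τ, P.G (fun y => f y - g y) u y = P.G f u y - P.G g u y := by
  filter_upwards [P.G_add f (fun y => - g y) u hf hg.neg hu, P.G_neg_left hg hu] with y h1 h2
  have e : (fun y => f y + - g y) = fun y => f y - g y := by ext y; ring
  rw [e] at h1
  rw [h1, h2, sub_eq_add_neg]

/-- Chain rule for positive functions and `φ` of class `C¹` on `(0,∞)`. -/
lemma G_comp_pos_left {f u : K → ℝ} (hf : Lip f) (hu : Lip u) (hpos : ∀ y, 0 < f y)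
    {φ φ' : ℝ → ℝ} (hφ : ∀ s, 0 < s → HasDerivAt φ (φ' s) s) (hc : ContinuousOn φ' (Ioi 0)) :
    ∀ᵐ y ∂P.τ, P.G (fun y => φ (f y)) u y = φ' (f y) * P.G f u y :=
  P.G_chain f u φ φ' hf hu (hf.comp_pos hpos hφ hc) (fun y => hφ _ (hpos y))
    (hc.comp_continuous hf.continuous hpos)

lemma G_comp_pos_right {f u : K → ℝ} (hf : Lip f) (hu : Lip u) (hpos : ∀ y, 0 < f y)
    {φ φ' : ℝ → ℝ} (hφ : ∀ s, 0 < s → HasDerivAt φ (φ' s) s) (hc : ContinuousOn φ' (Ioi 0)) :
    ∀ᵐ y ∂P.τ, P.G u (fun y => φ (f y)) y = φ' (f y) * P.G u f y :=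
  P.G_chain_right hf hu (hf.comp_pos hpos hφ hc) (fun y => hφ _ (hpos y))
    (hc.comp_continuous hf.continuous hpos)

lemma continuousOn_rpow_deriv (s : ℝ) : ContinuousOn (fun t : ℝ => s * t ^ (s - 1)) (Ioi 0) := by
  intro t ht
  exact (ContinuousAt.mul continuousAt_const
    (Real.continuousAt_rpow_const t (s - 1) (Or.inl (ne_of_gt ht)))).continuousWithinAt

lemma G_rpow_left {f u : K → ℝ} (hf : Lip f) (hu : Lip u) (hpos : ∀ y, 0 < f y) (s : ℝ) :
    ∀ᵐ y ∂P.τ, P.G (fun y => f y ^ s) u y = s * f y ^ (s - 1) * P.G f u y :=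
  P.G_comp_pos_left hf hu hpos (φ := fun t => t ^ s) (φ' := fun t => s * t ^ (s - 1))
    (fun t ht => Real.hasDerivAt_rpow_const (Or.inl ht.ne')) (continuousOn_rpow_deriv s)

lemma G_rpow_right {f u : K → ℝ} (hf : Lip f) (hu : Lip u) (hpos : ∀ y, 0 < f y) (s : ℝ) :
    ∀ᵐ y ∂P.τ, P.G u (fun y => f y ^ s) y = s * f y ^ (s - 1) * P.G u f y :=
  P.G_comp_pos_right hf hu hpos (φ := fun t => t ^ s) (φ' := fun t => s * t ^ (s - 1))
    (fun t ht => Real.hasDerivAt_rpow_const (Or.inl ht.ne')) (continuousOn_rpow_deriv s)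

lemma G_sq_left {f u : K → ℝ} (hf : Lip f) (hu : Lip u) :
    ∀ᵐ y ∂P.τ, P.G (fun y => f y ^ 2) u y = 2 * f y * P.G f u y := by
  filter_upwards [P.G_mul f f u hf hf hu] with y hy
  have e : (fun y => f y * f y) = fun y => f y ^ 2 := by ext y; ring
  rw [e] at hy
  rw [hy]; ring

lemma G_zd_rpow_left (x : K) {a : ℝ} (ha : 0 < a) (s : ℝ) {u : K → ℝ} (hu : Lip u) :
    ∀ᵐ y ∂P.τ, P.G (fun y => (zd k x y + a) ^ s) u y
      = s * (zd k x y + a) ^ (s - 1) * P.G (zd k x) u y := by
  filter_upwards [P.G_rpow_left (lip_zd_add k x a) hu (zd_add_pos k x ha) s,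
    P.G_add_const_left (lip_zd k x) hu a] with y h1 h2
  rw [h1, h2]

lemma G_zd_rpow_right (x : K) {a : ℝ} (ha : 0 < a) (s : ℝ) {u : K → ℝ} (hu : Lip u) :
    ∀ᵐ y ∂P.τ, P.G u (fun y => (zd k x y + a) ^ s) y
      = s * (zd k x y + a) ^ (s - 1) * P.G u (zd k x) y := by
  filter_upwards [P.G_rpow_right (lip_zd_add k x a) hu (zd_add_pos k x ha) s,
    P.G_add_const_right (lip_zd k x) hu a] with y h1 h2
  rw [h1, h2]

/-- expansion of `G (u + s v) (u + s v)` -/
lemma G_add_smul_self (s : ℝ) {u v : K → ℝ} (hu : Lip u) (hv : Lip v) :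
    ∀ᵐ y ∂P.τ, P.G (fun y => u y + s * v y) (fun y => u y + s * v y) y
      = P.G u u y + 2 * s * P.G u v y + s ^ 2 * P.G v v y := by
  have hsv := hv.const_mul s
  filter_upwards [P.G_add u (fun y => s * v y) (fun y => u y + s * v y) hu hsv (hu.add hsv),
    P.G_smul s v (fun y => u y + s * v y) hv (hu.add hsv),
    P.G_add_right hu hsv hu, P.G_add_right hu hsv hv, P.G_smul_right s hv hu,
    P.G_smul_right s hv hv, P.G_comm v u hv hu] with y h1 h2 h3 h4 h5 h6 h7
  rw [h1, h2, h3, h4, h5, h6, h7]; ring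

/-- Pointwise Cauchy–Schwarz. -/
lemma G_sq_le {f g : K → ℝ} (hf : Lip f) (hg : Lip g) :
    ∀ᵐ y ∂P.τ, P.G f g y ^ 2 ≤ P.G f f y * P.G g g y := by
  have h1 : ∀ᵐ y ∂P.τ, ∀ s : ℚ, 0 ≤ P.G f f y + 2 * (s : ℝ) * P.G f g y
      + (s : ℝ) ^ 2 * P.G g g y := by
    rw [ae_all_iff]
    intro s
    filter_upwards [P.G_nonneg _ (hf.add (hg.const_mul (s : ℝ))), P.G_add_smul_self s hf hg]
      with y h1 h2
    rw [h2] at h1; exact h1
  filter_upwards [h1] with y hy
  have h2 : ∀ s : ℝ, 0 ≤ P.G g g y * (s * s) + (2 * P.G f g y) * s + P.G f f y := by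
    intro s
    have hcont : Continuous fun s : ℝ => P.G g g y * (s * s) + (2 * P.G f g y) * s + P.G f f y := by
      fun_prop
    have hd : Dense {s : ℝ | 0 ≤ P.G g g y * (s * s) + (2 * P.G f g y) * s + P.G f f y} := by
      refine Rat.denseRange_cast.mono ?_
      rintro _ ⟨s, rfl⟩
      have := hy s
      simp only [mem_setOf_eq]
      nlinarith [this]
    have hcl : IsClosed {s : ℝ | 0 ≤ P.G g g y * (s * s) + (2 * P.G f g y) * s + P.G f f y} :=
      isClosed_le continuous_const hcont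
    have : s ∈ closure {s : ℝ | 0 ≤ P.G g g y * (s * s) + (2 * P.G f g y) * s + P.G f f y} :=
      hd s
    rwa [hcl.closure_eq] at this
  have := discrim_le_zero h2
  unfold discrim at this
  nlinarith [this]

lemma abs_G_le {f g : K → ℝ} (hf : Lip f) (hg : Lip g) :
    ∀ᵐ y ∂P.τ, |P.G f g y| ≤ √(P.G f f y) * √(P.G g g y) := by
  filter_upwards [P.G_sq_le hf hg, P.G_nonneg f hf] with y h1 h2
  rw [← Real.sqrt_mul h2]
  exact Real.abs_le_sqrt h1

lemma integrable_G {f g : K → ℝ} (hf : Lip f) (hg : Lip g) : Integrable (P.G f g) P.τ := by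
  obtain ⟨C, hC0, hC⟩ := P.exists_G_bound hf
  obtain ⟨C', hC0', hC'⟩ := P.exists_G_bound hg
  refine Integrable.of_bound (P.G_meas f g hf hg) (C * C') ?_
  filter_upwards [hC, hC', P.abs_G_le hf hg] with y h1 h2 h3
  rw [Real.norm_eq_abs]
  refine h3.trans (mul_le_mul ?_ ?_ (Real.sqrt_nonneg _) hC0)
  · rw [← Real.sqrt_sq hC0]; exact Real.sqrt_le_sqrt h1
  · rw [← Real.sqrt_sq hC0']; exact Real.sqrt_le_sqrt h2

/-- products of a continuous function and `G f g` are integrable -/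
lemma integrable_mul_G {f g φ : K → ℝ} (hf : Lip f) (hg : Lip g) (hφ : Continuous φ) :
    Integrable (fun y => φ y * P.G f g y) P.τ := by
  obtain ⟨B, _, hB⟩ := exists_bound_of_continuous hφ
  exact (P.integrable_G hf hg).bdd_mul (c := B) hφ.aestronglyMeasurable
    (ae_of_all _ fun y => by simpa using hB y)

lemma aestronglyMeasurable_sqrt {f : K → ℝ} (hf : Lip f) :
    AEStronglyMeasurable (fun y => √(P.G f f y)) P.τ :=
  (P.G_meas f f hf hf).aemeasurable.sqrt.aestronglyMeasurable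

lemma integrable_sqrt {f : K → ℝ} (hf : Lip f) :
    Integrable (fun y => √(P.G f f y)) P.τ := by
  obtain ⟨C, hC0, hC⟩ := P.exists_G_bound hf
  refine Integrable.of_bound (P.aestronglyMeasurable_sqrt hf) C ?_
  filter_upwards [hC] with y h1
  rw [Real.norm_eq_abs, abs_of_nonneg (Real.sqrt_nonneg _), ← Real.sqrt_sq hC0]
  exact Real.sqrt_le_sqrt h1

/-! ### the form -/

lemma integrable_form (b : ℝ) {f g : K → ℝ} (hf : Lip f) (hg : Lip g) :
    Integrable (fun y => P.G f g y + b * (f y * g y)) P.τ :=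
  (P.integrable_G hf hg).add ((P.integrable_lip (hf.mul hg)).const_mul b)

lemma form_comm (b : ℝ) {f g : K → ℝ} (hf : Lip f) (hg : Lip g) :
    P.form b f g = P.form b g f := by
  unfold form
  refine integral_congr_ae ?_
  filter_upwards [P.G_comm f g hf hg] with y h
  rw [h, mul_comm (f y)]

lemma form_add_left (b : ℝ) {f g u : K → ℝ} (hf : Lip f) (hg : Lip g) (hu : Lip u) :
    P.form b (fun y => f y + g y) u = P.form b f u + P.form b g u := by
  unfold form
  rw [← integral_add (P.integrable_form b hf hu) (P.integrable_form b hg hu)]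
  refine integral_congr_ae ?_
  filter_upwards [P.G_add f g u hf hg hu] with y hy
  rw [hy]; ring

lemma form_smul_left (b c : ℝ) {f u : K → ℝ} (hf : Lip f) (hu : Lip u) :
    P.form b (fun y => c * f y) u = c * P.form b f u := by
  unfold form
  rw [← integral_const_mul]
  refine integral_congr_ae ?_
  filter_upwards [P.G_smul c f u hf hu] with y hy
  rw [hy]; ring

lemma form_add_right (b : ℝ) {f g u : K → ℝ} (hf : Lip f) (hg : Lip g) (hu : Lip u) :
    P.form b u (fun y => f y + g y) = P.form b u f + P.form b u g := by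
  rw [P.form_comm b hu (hf.add hg), P.form_add_left b hf hg hu, P.form_comm b hf hu,
    P.form_comm b hg hu]

lemma form_smul_right (b c : ℝ) {f u : K → ℝ} (hf : Lip f) (hu : Lip u) :
    P.form b u (fun y => c * f y) = c * P.form b u f := by
  rw [P.form_comm b hu (hf.const_mul c), P.form_smul_left b c hf hu, P.form_comm b hf hu]

lemma energy_eq (b : ℝ) (u : K → ℝ) :
    P.energy b u = ∫ y, (P.G u u y + b * u y ^ 2) ∂P.τ := by
  unfold energy form; congr 1; ext y; ring

lemma energy_nonneg {b : ℝ} (hb : 0 ≤ b) {u : K → ℝ} (hu : Lip u) : 0 ≤ P.energy b u := by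
  rw [energy_eq]
  refine integral_nonneg_of_ae ?_
  filter_upwards [P.G_nonneg u hu] with y hy
  simp only [Pi.zero_apply]
  positivity

lemma energy_eq_add (b : ℝ) {u : K → ℝ} (hu : Lip u) :
    P.energy b u = ∫ y, P.G u u y ∂P.τ + b * ∫ y, u y ^ 2 ∂P.τ := by
  rw [energy_eq, integral_add (P.integrable_G hu hu) ((P.integrable_lip hu.sq).const_mul b),
    integral_const_mul]

lemma integral_G_le_energy {b : ℝ} (hb : 0 ≤ b) {u : K → ℝ} (hu : Lip u) :
    ∫ y, P.G u u y ∂P.τ ≤ P.energy b u := by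
  rw [P.energy_eq_add b hu]
  have : 0 ≤ ∫ y, u y ^ 2 ∂P.τ := integral_nonneg fun y => sq_nonneg _
  nlinarith

lemma integral_sq_le_energy {b : ℝ} {u : K → ℝ} (hu : Lip u) :
    b * ∫ y, u y ^ 2 ∂P.τ ≤ P.energy b u := by
  rw [P.energy_eq_add b hu]
  have : 0 ≤ ∫ y, P.G u u y ∂P.τ := integral_nonneg_of_ae (P.G_nonneg u hu)
  linarith

lemma energy_add_smul (b s : ℝ) {u v : K → ℝ} (hu : Lip u) (hv : Lip v) :
    P.energy b (fun y => u y + s * v y)
      = P.energy b u + 2 * s * P.form b u v + s ^ 2 * P.energy b v := by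
  unfold energy
  have hsv := hv.const_mul s
  rw [P.form_add_left b hu hsv (hu.add hsv), P.form_add_right b hu hsv hu,
    P.form_add_right b hu hsv hsv, P.form_smul_right b s hv hu, P.form_smul_left b s hv hu,
    P.form_smul_left b s hv hsv, P.form_smul_right b s hv hv, P.form_comm b hv hu]
  ring

/-- Cauchy–Schwarz for the form. -/
lemma form_sq_le {b : ℝ} (hb : 0 ≤ b) {u v : K → ℝ} (hu : Lip u) (hv : Lip v) :
    P.form b u v ^ 2 ≤ P.energy b u * P.energy b v := by
  have h : ∀ s : ℝ, 0 ≤ P.energy b v * (s * s) + (2 * P.form b u v) * s + P.energy b u := by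
    intro s
    have := P.energy_nonneg hb (hu.add (hv.const_mul s))
    rw [P.energy_add_smul b s hu hv] at this
    nlinarith [this]
  have := discrim_le_zero h
  unfold discrim at this
  nlinarith [this]

lemma q_nonneg (x y : K) : 0 ≤ P.q x y := Real.sqrt_nonneg _

lemma q_sq (x : K) : ∀ᵐ y ∂P.τ, P.q x y ^ 2
    = 2 * zd k x y + k ^ 2 * zd k x y ^ 2 - P.G (zd k x) (zd k x) y := by
  filter_upwards [P.G_z x] with y hy
  unfold q
  rw [Real.sq_sqrt (by linarith)]

lemma q_meas (x : K) : AEStronglyMeasurable (P.q x) P.τ := by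
  have h1 := (P.G_meas _ _ (lip_zd k x) (lip_zd k x)).aemeasurable
  have h2 : AEMeasurable (fun y => 2 * zd k x y + k ^ 2 * zd k x y ^ 2
      - P.G (zd k x) (zd k x) y) P.τ := by
    have h3 : AEMeasurable (fun y => 2 * zd k x y + k ^ 2 * zd k x y ^ 2) P.τ :=
      ((continuous_const.mul (continuous_zd k x)).add
        (continuous_const.mul ((continuous_zd k x).pow 2))).aemeasurable
    exact h3.sub h1
  exact h2.sqrt.aestronglyMeasurable

lemma q_le (x : K) : ∀ᵐ y ∂P.τ, P.q x y ≤ √(2 * zd k x y + k ^ 2 * zd k x y ^ 2) := by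
  filter_upwards [P.G_nonneg _ (lip_zd k x)] with y hy
  unfold q
  exact Real.sqrt_le_sqrt (by linarith)

lemma sqrt_G_z_le (x : K) :
    ∀ᵐ y ∂P.τ, √(P.G (zd k x) (zd k x) y) ≤ √(2 * zd k x y + k ^ 2 * zd k x y ^ 2) := by
  filter_upwards [P.G_z x] with y hy
  exact Real.sqrt_le_sqrt hy

lemma integrable_mul_q {f : K → ℝ} (hf : Continuous f) (x : K) :
    Integrable (fun y => f y * P.q x y) P.τ := by
  have hg : Continuous fun y => √(2 * zd k x y + k ^ 2 * zd k x y ^ 2) :=
    Continuous.sqrt ((continuous_const.mul (continuous_zd k x)).add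
        (continuous_const.mul ((continuous_zd k x).pow 2)))
  obtain ⟨B, hB0, hB⟩ := exists_bound_of_continuous hf
  obtain ⟨B', hB0', hB'⟩ := exists_bound_of_continuous hg
  refine Integrable.of_bound (hf.aestronglyMeasurable.mul (P.q_meas x)) (B * B') ?_
  filter_upwards [P.q_le x] with y hy
  rw [norm_mul, Real.norm_eq_abs, Real.norm_eq_abs, abs_of_nonneg (P.q_nonneg x y)]
  refine mul_le_mul (hB y) (hy.trans ((le_abs_self _).trans (hB' y)))
    (P.q_nonneg x y) hB0.le

end PreData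

lemma mA_pos {n : ℕ} (hn : 3 ≤ n) : 0 < mA n := by
  have : (3 : ℝ) ≤ n := by exact_mod_cast hn
  unfold mA; linarith

lemma n_eq (n : ℕ) : (n : ℝ) = 2 * mA n + 2 := by unfold mA; ring

lemma bA_pos {n : ℕ} {k h : ℝ} (hn : 3 ≤ n) (hk : 0 ≤ k) (hkh : k < h) : 0 < bA n k h := by
  have h1 := mA_pos hn
  have h2 : (0 : ℝ) < n := by positivity
  have h3 : 0 < h ^ 2 - k ^ 2 := by nlinarith
  unfold bA; positivity

end Crest.Agent.R241.A
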