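import Crest.Agent.R241.ADefs

/-!
R241, block A: interfaces (Prop-valued), following helper723's blueprint (post 3740).
Every block proves the implications listed in the docstrings; Final assembles them.
Standing hypotheses everywhere: `3 ≤ n`, `0 ≤ k`, `k < h`, `P.FV h`.
-/

set_option autoImplicit false

namespace Crest.Agent.R241.A

open MeasureTheory Set Filter Topology
open scoped NNReal ENNReal RealInnerProductSpace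

section
variable {n : ℕ} {k : ℝ} {K : Type*} [MetricSpace K] [CompactSpace K]
  [MeasurableSpace K] [BorelSpace K]

/-- A1 (P). Weak supersolution. `A1: FV → T_super`. -/
def T_super (P : PreData n k K) (h : ℝ) : Prop :=
  ∀ (x : K) (a : ℝ), 0 < a → ∀ f : K → ℝ, Lip f → (∀ y, 0 ≤ f y) →
    mA n * n / 2 * s0 k a * ∫ y, (zd k x y + a) ^ (-(mA n) - 2) * f y ∂P.τ
      ≤ P.form (bA n k h) (phiA n k x a) f

/-- A1 (Barta). -/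
def T_barta (P : PreData n k K) (h : ℝ) : Prop :=
  ∀ (x : K) (a : ℝ), 0 < a → ∀ u : K → ℝ, Lip u →
    mA n * n / 2 * s0 k a * ∫ y, ((zd k x y + a) ^ 2)⁻¹ * u y ^ 2 ∂P.τ
      ≤ P.energy (bA n k h) u

/-- A1 (FV'). `∫ G(f,z) + (n/2) f (G(z,z)/z - c z) ≤ 0`, (`x/0 = 0`). -/
def T_fv' (P : PreData n k K) (h : ℝ) : Prop :=
  ∀ (x : K) (f : K → ℝ), Lip f → (∀ y, 0 ≤ f y) →
    ∫ y, (P.G f (zd k x) y + (n : ℝ) / 2 * f y *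
      (P.G (zd k x) (zd k x) y / zd k x y - (h ^ 2 - k ^ 2) * zd k x y)) ∂P.τ ≤ 0

/-- A2 (INT). Uniform negative moments of `z_x`, exponents `s < n/2`. -/
def T_int (P : PreData n k K) : Prop :=
  ∀ s : ℝ, 0 ≤ s → s < (n : ℝ) / 2 → ∃ C : ℝ, 0 < C ∧ ∀ x : K,
    ∫⁻ y, ENNReal.ofReal (zd k x y ^ (-s)) ∂P.τ ≤ ENNReal.ofReal C ∧ P.τ {x} = 0

/-- A2 (POLE). -/
def T_pole (P : PreData n k K) : Prop :=
  ∀ᵐ y' ∂P.τ, ∀ u : K → ℝ, Continuous u → (∀ y, 0 ≤ u y) → ∀ θ : ℝ, θ < 1 →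
    ∀ᶠ a in 𝓝[>] (0 : ℝ), θ * cP n * u y' ≤
      mA n * n / 2 * s0 k a * ∫ y, (zd k y' y + a) ^ (-(mA n) - 2) * u y ∂P.τ

/-- A2 (pointwise bound): consequence of POLE, T_super and INT. -/
def T_pt (P : PreData n k K) : Prop :=
  ∃ C : ℝ, 0 < C ∧ ∀ u : K → ℝ, Lip u → (∀ y, 0 ≤ u y) → ∀ᵐ y' ∂P.τ,
    u y' ≤ C * ∫ y, zd k y' y ^ (-(mA n) - 1 / 2) * (√(P.G u u y) + u y) ∂P.τ

/-- A2 (Q>0). Subcritical Sobolev inequality. -/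
def T_sob (P : PreData n k K) (h : ℝ) : Prop :=
  ∀ q : ℝ, 2 < q → mA n * q < n → ∃ C : ℝ, 0 < C ∧ ∀ u : K → ℝ, Lip u →
    (∫ y, |u y| ^ q ∂P.τ) ^ (2 / q) ≤ C * P.energy (bA n k h) u

/-- `w = z_x u^{1/m}`. -/
noncomputable def wA (n : ℕ) (k : ℝ) (x : K) (u : K → ℝ) (y : K) : ℝ :=
  zd k x y * u y ^ (1 / mA n)

/-- A3 (KEY). -/
def T_key (P : PreData n k K) (h : ℝ) : Prop :=
  (∀ (x : K) (t : ℝ) (u : K → ℝ), 0 < t → Lip u → (∀ y, 0 < u y) →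
    Lip (fun y => u y * (1 + t * wA n k x u y) ^ (-(mA n))) ∧
    Lip (fun y => u y * HA n (t * wA n k x u y)) ∧
    P.energy (bA n k h) (fun y => u y * (1 + t * wA n k x u y) ^ (-(mA n)))
      ≤ P.form (bA n k h) u (fun y => u y * HA n (t * wA n k x u y))) ∧
  ∃ C : ℝ, 0 < C ∧ ∀ (x : K) (t : ℝ) (u : K → ℝ), 0 < t → Lip u → (∀ y, 0 < u y) →
    P.energy (bA n k h) (fun y => u y * HA n (t * wA n k x u y))
      ≤ C * P.energy (bA n k h) u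

/-- A5 (CENTRE). -/
def T_centre (k : ℝ) (K : Type*) [MetricSpace K] [CompactSpace K]
    [MeasurableSpace K] [BorelSpace K] : Prop :=
  ∀ ν : Measure K, IsProbabilityMeasure ν →
    (∃ s : ℝ, 0 < s ∧ ∃ C : ℝ, ∀ x : K, ν {x} = 0 ∧
      ∫⁻ y, ENNReal.ofReal (zd k x y ^ (-s)) ∂ν ≤ ENNReal.ofReal C) →
    ∃ x : K, ∃ a : ℝ, 0 < a ∧ 0 < s0 k a ∧
      ∀ p : K, 1 ≤ ∫ y, zd k y p * (s0 k a / ((zd k x y + a) * (zd k x p + a))) ∂ν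

/-- A5 (two point bound). -/
def T_two (k : ℝ) (K : Type*) [MetricSpace K] : Prop :=
  ∀ (x y p : K) (a : ℝ), 0 < a → 0 < s0 k a →
    zd k y p * (s0 k a / ((zd k x y + a) * (zd k x p + a))) ≤ 2

end

/-- A4 (ODE): exact comparison, no constants. `W(t) = ∫₀ᵗ m s^{m-1} N(s) ds`. -/
def T_ode : Prop :=
  ∀ (m q e t0 T : ℝ) (N : ℝ → ℝ), 0 < m → 2 < q → 0 ≤ e → 0 < t0 → t0 ≤ T →
    Continuous N → (∀ s, 0 ≤ s → 0 < N s) →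
    (∀ t ∈ Icc t0 T, N t ^ (2 / q) ≤
      t ^ (-m) * (∫ s in (0 : ℝ)..t, m * s ^ (m - 1) * N s) + e) →
    ((∫ s in (0 : ℝ)..t0, m * s ^ (m - 1) * N s) + e * T ^ m) ^ (-((q - 2) / 2))
        - t0 ^ (-(m * (q - 2) / 2))
      ≤ (∫ s in (0 : ℝ)..T, m * s ^ (m - 1) * N s) ^ (-((q - 2) / 2))

/-- A4 (H, g, C_n). -/
structure T_H (n : ℕ) : Prop where
  cont : ContinuousOn (HA n) (Ici 0)
  pos : ∀ r, 0 ≤ r → 0 < HA n r
  anti : AntitoneOn (HA n) (Ici 0)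
  le_one : ∀ r, 0 ≤ r → HA n r ≤ 1
  one_sub_le : ∀ r, 0 ≤ r → 1 - HA n r ≤ 2 * mA n * r
  one_sub_ge : ∃ C : ℝ, 0 < C ∧ ∀ r, 0 ≤ r → 2 * mA n * r - C * r ^ 2 ≤ 1 - HA n r
  slope_anti : ∀ r s, 0 < r → r ≤ s → (1 - HA n s) / s ≤ (1 - HA n r) / r
  g_eq : ∀ r, 0 < r → gA n r = r ^ mA n * HA n r
  g_mono : MonotoneOn (gA n) (Ici 0)
  g_le : ∀ r, 0 ≤ r → gA n r ≤ CnA n
  g_tail : ∀ r, 0 < r → CnA n - gA n r ≤ mA n / (mA n + 2) * r ^ (-(mA n) - 2)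
  Cn_pos : 0 < CnA n
  const : 2 ^ n * omegaBall n * CnA n = sphArea n

/-- Theorem A, final target of block A. -/
def TheoremA (n : ℕ) (k h : ℝ) (K : Type*) [MetricSpace K] [CompactSpace K]
    [MeasurableSpace K] [BorelSpace K] : Prop :=
  2 ≤ n → 0 ≤ k → k < h → CatD k K → ∀ P : PreData n k K, P.τ ≠ 0 → P.FV h →
    sphArea n ≤ (h ^ 2 - k ^ 2) ^ ((n : ℝ) / 2) * P.τ.real univ

/-- Equality case (`k = 0`). -/
def TheoremAeq (n : ℕ) (h : ℝ) (K : Type*) [MetricSpace K] [CompactSpace K]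
    [MeasurableSpace K] [BorelSpace K] : Prop :=
  2 ≤ n → 0 < h → CatD 0 K → ∀ P : PreData n 0 K, P.τ ≠ 0 → P.FV h →
    (h ^ 2) ^ ((n : ℝ) / 2) * P.τ.real univ = sphArea n →
    ∃ x : K, ∀ᵐ y ∂P.τ, zd 0 x y = 1 / (2 * h ^ 2)

end Crest.Agent.R241.A
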