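import Crest.Agent.R241.A7Final
import Crest.Agent.R241.ASharp
import Crest.Agent.R241.A1
import Crest.Agent.R241.A2
import Crest.Agent.R241.A3
import Crest.Agent.R241.A4H
import Crest.Agent.R241.A4Ode
import Crest.Agent.R241.CBall_534

/-!
R241, block A: Theorem A and its equality case, all dimensions `n ≥ 2`.
-/

set_option autoImplicit false

universe u

namespace Crest.Agent.R241.ATheorem

open MeasureTheory Set Filter Topology Crest.Agent.R241.A
open scoped NNReal ENNReal

variable {K : Type u} [MetricSpace K] [CompactSpace K] [MeasurableSpace K] [BorelSpace K]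

theorem theoremA_three {n : ℕ} (hn : 3 ≤ n) (k h : ℝ) : TheoremA n k h K := by
  intro _ hk hkh hcat P h0 hFV
  exact ASharp.ineq_of_sharp hn hk hkh P h0 (A7.t_sharp_final hn hk hkh hcat P h0 hFV)

theorem theoremAeq_three {n : ℕ} (hn : 3 ≤ n) (h : ℝ) : TheoremAeq n h K := by
  intro _ hh hcat P h0 hFV heq
  have hm := mA_pos hn
  have hsup : T_super P h := A1.t_super P hm.le hFV
  obtain ⟨hint, hpole, -, -⟩ := A2.a2 hn le_rfl hh P hFV hsup
  have hkey : T_key P h := A3.t_key hn le_rfl hh P (A1.t_fv' P hFV)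
  exact A9.equality_case P hn hh hcat h0 hFV (A4H.t_H hn) A4Ode.t_ode hkey hint hpole hsup
    (A7.t_sharp_final hn le_rfl hh hcat P h0 hFV) heq

theorem aAll : CBall.AAll.{u} := by
  intro K _ _ _ _ n hn k h
  exact theoremA_three hn k h

theorem aeqAll : CBall.AeqAll.{u} := by
  intro K _ _ _ _ n hn h
  exact theoremAeq_three hn h

theorem theoremA (n : ℕ) (k h : ℝ) : TheoremA n k h K := CBall.theoremA aAll n k h

theorem theoremAeq (n : ℕ) (h : ℝ) : TheoremAeq n h K := CBall.theoremAeq aeqAll n h

end Crest.Agent.R241.ATheorem
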