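import Mathlib
import Crest.Agent.R241.B10Mass

/-!
# R241, block B10: limits of currents (owner: helper502)

* `controls_restrict`: a current supported in a compact set `K` is controlled by `μ.restrict K`;
* `exists_controls_of_tendsto`, `mass_le_of_frequently`: lower semicontinuity of mass under
  pointwise convergence with supports in one compact set, along any filter;
* `exists_controls_eq_mass`: for compactly supported currents the mass is attained;
* `IsCurrent.of_tendsto_uniform`, `exists_limit`: a sequence of currents with summable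
  mass-distances converges to a current.
-/

set_option autoImplicit false

open MeasureTheory Filter Topology Set
open scoped ENNReal NNReal

universe u

namespace Crest.Agent.R241.B10

open Crest.GeometryTopology.MetricCurrent

variable {X : Type u} [MetricSpace X]

theorem exists_lipschitz_mul {f g : X → ℝ} {Kf Kg : ℝ≥0} {Cf Cg : ℝ} (hf : LipschitzWith Kf f)
    (hg : LipschitzWith Kg g) (hCf : ∀ x, |f x| ≤ Cf) (hCg : ∀ x, |g x| ≤ Cg) :
    ∃ K : ℝ≥0, LipschitzWith K (fun x => f x * g x) := by
  refine ⟨Real.toNNReal |Cf| * Kg + Real.toNNReal |Cg| * Kf, ?_⟩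
  refine LipschitzWith.of_dist_le_mul fun x y => ?_
  have h1 := hf.dist_le_mul x y
  have h2 := hg.dist_le_mul x y
  rw [Real.dist_eq] at h1 h2
  rw [Real.dist_eq]
  have e : f x * g x - f y * g y = f x * (g x - g y) + (f x - f y) * g y := by ring
  rw [e]
  refine (abs_add_le _ _).trans ?_
  rw [abs_mul, abs_mul]
  have h3 : |f x| ≤ |Cf| := (hCf x).trans (le_abs_self _)
  have h4 : |g y| ≤ |Cg| := (hCg y).trans (le_abs_self _)
  have h5 : ((Real.toNNReal |Cf| * Kg + Real.toNNReal |Cg| * Kf : ℝ≥0) : ℝ) * dist x y =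
      |Cf| * (Kg * dist x y) + (Kf * dist x y) * |Cg| := by
    push_cast
    rw [Real.coe_toNNReal _ (abs_nonneg _), Real.coe_toNNReal _ (abs_nonneg _)]
    ring
  rw [h5]
  gcongr

theorem isTestPair_mul {k : ℕ} {f g : X → ℝ} {π : Fin k → X → ℝ} (hf : IsTestPair f π)
    (hg : ∃ K : ℝ≥0, LipschitzWith K g) (hgb : ∃ C : ℝ, ∀ x, |g x| ≤ C) :
    IsTestPair (fun x => f x * g x) π := by
  obtain ⟨⟨Kf, hKf⟩, ⟨Cf, hCf⟩, hπ⟩ := hf
  obtain ⟨Kg, hKg⟩ := hg
  obtain ⟨Cg, hCg⟩ := hgb
  refine ⟨exists_lipschitz_mul hKf hKg hCf hCg, ⟨|Cf| * |Cg|, fun x => ?_⟩, hπ⟩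
  rw [abs_mul]
  have h3 : |f x| ≤ |Cf| := (hCf x).trans (le_abs_self _)
  have h4 : |g x| ≤ |Cg| := (hCg x).trans (le_abs_self _)
  gcongr

section

variable [MeasurableSpace X] [BorelSpace X] {k : ℕ}

theorem sub_left {T : Functional X k} (hT : IsCurrent T) {f g : X → ℝ} {π : Fin k → X → ℝ}
    (hf : IsTestPair f π) (hg : IsTestPair g π) : T (f - g) π = T f π - T g π := by
  have h1 : f - g = f + (-1 : ℝ) • g := by
    funext x; simp [sub_eq_add_neg]
  rw [h1, hT.add_left f _ π hf (isTestPair_smul (-1) hg), hT.smul_left (-1) g π hg]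
  ring

/-- Only the values of `f` on the support matter. -/
theorem eq_of_eqOn {T : Functional X k} (hT : IsCurrent T) {K : Set X} (hK : IsSupportedIn K T)
    {f g : X → ℝ} {π : Fin k → X → ℝ} (hf : IsTestPair f π) (hg : IsTestPair g π)
    (h : ∀ x ∈ K, f x = g x) : T f π = T g π := by
  have h1 := hK (f - g) π (isTestPair_sub hf hg) fun x hx => by simp [h x hx]
  rw [sub_left hT hf hg] at h1
  linarith

/-- A current supported in the closed set `K` is controlled by the restriction to `K` of any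
controlling measure. -/
theorem controls_restrict {T : Functional X k} (hT : IsCurrent T) {K : Set X}
    (hKc : IsClosed K) (hK : IsSupportedIn K T) {μ : Measure X} [IsFiniteMeasure μ]
    (hμ : Controls T μ) : Controls T (μ.restrict K) := by
  intro f π hf hπ
  set δ : ℕ → ℝ := fun n => 1 / ((n : ℝ) + 1) with hδ
  have hδpos : ∀ n, 0 < δ n := fun n => by rw [hδ]; positivity
  have hδlim : Tendsto δ atTop (𝓝 0) := tendsto_one_div_add_atTop_nhds_zero_nat
  set χ : ℕ → X → ℝ := fun n x => ((thickenedIndicator (hδpos n) K x : ℝ≥0) : ℝ) with hχ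
  have hχ0 : ∀ n x, 0 ≤ χ n x := fun n x => NNReal.coe_nonneg _
  have hχ1 : ∀ n x, χ n x ≤ 1 := fun n x => by
    have := thickenedIndicator_le_one (hδpos n) K x
    exact_mod_cast this
  have hχL : ∀ n, ∃ L : ℝ≥0, LipschitzWith L (χ n) := fun n =>
    ⟨_, (NNReal.isometry_coe).lipschitz.comp (lipschitzWith_thickenedIndicator (hδpos n) K)⟩
  have hχb : ∀ n, ∃ C : ℝ, ∀ x, |χ n x| ≤ C := fun n =>
    ⟨1, fun x => by rw [abs_of_nonneg (hχ0 n x)]; exact hχ1 n x⟩
  have hχlim : ∀ x, Tendsto (fun n => χ n x) atTop (𝓝 (K.indicator (fun _ => (1 : ℝ)) x)) := by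
    intro x
    have h1 := thickenedIndicator_tendsto_indicator_closure hδpos hδlim K
    rw [hKc.closure_eq] at h1
    have h2 := (tendsto_pi_nhds.1 h1 x)
    have h3 := (NNReal.continuous_coe.tendsto _).comp h2
    have e : ((K.indicator (fun _ => (1 : ℝ≥0)) x : ℝ≥0) : ℝ) = K.indicator (fun _ => (1 : ℝ)) x := by
      by_cases hx : x ∈ K <;> simp [hx]
    rw [e] at h3
    exact h3
  have htest : ∀ n, IsTestPair (fun x => f x * χ n x) π := fun n =>
    isTestPair_mul hf (hχL n) (hχb n)
  have h1 : ∀ n, |T f π| ≤ ∫ x, |f x * χ n x| ∂μ := by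
    intro n
    have h2 : T f π = T (fun x => f x * χ n x) π := by
      refine eq_of_eqOn hT hK hf (htest n) fun x hx => ?_
      have : χ n x = 1 := by
        simp only [hχ]
        rw [thickenedIndicator_one (hδpos n) K hx]
        simp
      simp [this]
    rw [h2]
    exact hμ _ π (htest n) hπ
  obtain ⟨C, hC⟩ := hf.2.1
  have h2 : Tendsto (fun n => ∫ x, |f x * χ n x| ∂μ) atTop
      (𝓝 (∫ x, |f x| * K.indicator (fun _ => (1 : ℝ)) x ∂μ)) := by
    refine tendsto_integral_of_dominated_convergence (fun _ => C) (fun n => ?_)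
      (integrable_const _) (fun n => ?_) ?_
    · exact (IsTestPair.continuous (htest n)).measurable.abs.aestronglyMeasurable
    · refine Eventually.of_forall fun x => ?_
      rw [Real.norm_eq_abs, abs_abs, abs_mul, abs_of_nonneg (hχ0 n x)]
      calc |f x| * χ n x ≤ |f x| * 1 := by gcongr; exact hχ1 n x
        _ ≤ C := by rw [mul_one]; exact hC x
    · refine Eventually.of_forall fun x => ?_
      have := (hχlim x).const_mul |f x|
      refine this.congr fun n => ?_
      rw [abs_mul, abs_of_nonneg (hχ0 n x)]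
  have h3 : ∫ x, |f x| * K.indicator (fun _ => (1 : ℝ)) x ∂μ = ∫ x in K, |f x| ∂μ := by
    rw [← integral_indicator hKc.measurableSet]
    congr 1
    funext x
    by_cases hx : x ∈ K <;> simp [hx]
  rw [h3] at h2
  exact ge_of_tendsto h2 (Eventually.of_forall h1)

/-- Weak-* compactness of controlling measures: along any (nontrivial) filter, if the currents
`S j` are supported in the compact set `K`, controlled by measures of mass `≤ c` and converge
pointwise to `T` on test pairs, then `T` is controlled by a measure on `K` of mass `≤ c`. -/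
theorem exists_controls_of_tendsto {ι : Type*} {l : Filter ι} [l.NeBot] {S : ι → Functional X k}
    {T : Functional X k} {K : Set X} (hKc : IsCompact K) (hS : ∀ᶠ j in l, IsCurrent (S j))
    (hSK : ∀ᶠ j in l, IsSupportedIn K (S j)) {c : ℝ}
    (hc : ∀ᶠ j in l, ∃ μ : Measure X, IsFiniteMeasure μ ∧ Controls (S j) μ ∧ (μ univ).toReal ≤ c)
    (hlim : ∀ f π, IsTestPair f π → Tendsto (fun j => S j f π) l (𝓝 (T f π))) :
    ∃ μ : Measure X, IsFiniteMeasure μ ∧ Controls T μ ∧ μ Kᶜ = 0 ∧ (μ univ).toReal ≤ c := by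
  classical
  have hc0 : 0 ≤ c := by
    obtain ⟨j, μ, -, -, hj⟩ := hc.exists
    exact ENNReal.toReal_nonneg.trans hj
  -- choose controlling measures on `K`
  have h1 : ∀ᶠ j in l, ∃ μ : FiniteMeasure X, Controls (S j) (μ : Measure X) ∧
      μ.mass ≤ Real.toNNReal c ∧ (μ : Measure X) Kᶜ = 0 := by
    filter_upwards [hS, hSK, hc] with j hSj hKj hcj
    obtain ⟨μ, hμ, hcont, hm⟩ := hcj
    refine ⟨⟨μ.restrict K, inferInstance⟩, controls_restrict hSj hKc.isClosed hKj hcont, ?_, ?_⟩
    · rw [← NNReal.coe_le_coe, Real.coe_toNNReal c hc0]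
      refine le_trans ?_ hm
      change ((μ.restrict K) univ).toReal ≤ _
      exact ENNReal.toReal_mono (measure_ne_top _ _)
        (Measure.restrict_apply_univ (μ := μ) K ▸ measure_mono (subset_univ K))
    · change (μ.restrict K) Kᶜ = 0
      rw [Measure.restrict_apply hKc.measurableSet.compl]
      simp
  set m : ι → FiniteMeasure X := fun j => if h : ∃ μ : FiniteMeasure X,
    Controls (S j) (μ : Measure X) ∧ μ.mass ≤ Real.toNNReal c ∧ (μ : Measure X) Kᶜ = 0
    then h.choose else 0 with hm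
  have h2 : ∀ᶠ j in l, Controls (S j) (m j : Measure X) ∧ (m j).mass ≤ Real.toNNReal c ∧
      (m j : Measure X) Kᶜ = 0 := by
    filter_upwards [h1] with j hj
    rw [hm]
    simp only [dif_pos hj]
    exact hj.choose_spec
  -- pass to an ultrafilter
  set U : Ultrafilter ι := Ultrafilter.of l with hU
  have hUl : (U : Filter ι) ≤ l := Ultrafilter.of_le l
  have hcomp := isCompact_setOfPred_finiteMeasure_le_of_isCompact (E := X) (Real.toNNReal c) hKc
  rw [isCompact_iff_ultrafilter_le_nhds'] at hcomp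
  obtain ⟨ν, hν, hνlim⟩ := hcomp (U.map m) (by
    have h3 := hUl h2
    change m ⁻¹' _ ∈ (U : Filter ι)
    refine Filter.mem_of_superset h3 fun j hj => ?_
    refine ⟨hj.2.1, ?_⟩
    have := hj.2.2
    exact (FiniteMeasure.null_iff_toMeasure_null _ _).2 this)
  have hνt : Tendsto m (U : Filter ι) (𝓝 ν) := hνlim
  refine ⟨(ν : Measure X), inferInstance, ?_, ?_, ?_⟩
  · intro f π hf hπ
    obtain ⟨C, hC⟩ := hf.2.1
    set F : BoundedContinuousFunction X ℝ := BoundedContinuousFunction.ofNormedAddCommGroup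
      (fun x => |f x|) (IsTestPair.continuous hf).abs C (fun x => by simpa using hC x) with hF
    have h3 := FiniteMeasure.tendsto_iff_forall_integral_tendsto.1 hνt F
    have h4 : Tendsto (fun j => |S j f π|) (U : Filter ι) (𝓝 |T f π|) :=
      ((hlim f π hf).mono_left hUl).abs
    refine le_of_tendsto_of_tendsto h4 h3 ?_
    filter_upwards [hUl h2] with j hj
    exact hj.1 f π hf hπ
  · exact (FiniteMeasure.null_iff_toMeasure_null _ _).1 hν.2
  · have h3 := hν.1
    rw [← NNReal.coe_le_coe, Real.coe_toNNReal c hc0] at h3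
    exact h3

/-- Lower semicontinuity of mass, "frequently" form. -/
theorem exists_controls_of_frequently {ι : Type*} {l : Filter ι} {S : ι → Functional X k}
    {T : Functional X k} {K : Set X} (hKc : IsCompact K) (hS : ∀ᶠ j in l, IsCurrent (S j))
    (hSK : ∀ᶠ j in l, IsSupportedIn K (S j)) {c : ℝ} (hc : ∃ᶠ j in l, mass (S j) < c)
    (hlim : ∀ f π, IsTestPair f π → Tendsto (fun j => S j f π) l (𝓝 (T f π))) :
    ∃ μ : Measure X, IsFiniteMeasure μ ∧ Controls T μ ∧ μ Kᶜ = 0 ∧ (μ univ).toReal ≤ c := by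
  have hne : (l ⊓ 𝓟 {j | mass (S j) < c}).NeBot :=
    frequently_mem_iff_neBot.1 hc
  have hle : l ⊓ 𝓟 {j | mass (S j) < c} ≤ l := inf_le_left
  refine exists_controls_of_tendsto (l := l ⊓ 𝓟 {j | mass (S j) < c}) hKc (hle hS) (hle hSK) ?_
    fun f π h => (hlim f π h).mono_left hle
  have h1 : ∀ᶠ j in l ⊓ 𝓟 {j | mass (S j) < c}, mass (S j) < c :=
    Filter.mem_inf_of_right (mem_principal_self _)
  filter_upwards [h1, hle hS] with j hj hSj
  obtain ⟨μ, hμ, hcont, hm⟩ := exists_controls_lt hSj hj
  exact ⟨μ, hμ, hcont, hm.le⟩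

theorem mass_le_of_frequently {ι : Type*} {l : Filter ι} {S : ι → Functional X k}
    {T : Functional X k} {K : Set X} (hKc : IsCompact K) (hS : ∀ᶠ j in l, IsCurrent (S j))
    (hSK : ∀ᶠ j in l, IsSupportedIn K (S j)) {c : ℝ} (hc : ∃ᶠ j in l, mass (S j) ≤ c)
    (hlim : ∀ f π, IsTestPair f π → Tendsto (fun j => S j f π) l (𝓝 (T f π))) :
    mass T ≤ c := by
  refine le_of_forall_pos_le_add fun ε hε => ?_
  obtain ⟨μ, hμ, hcont, -, hm⟩ := exists_controls_of_frequently hKc hS hSK (c := c + ε)
    (hc.mono fun j hj => by linarith) hlim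
  exact (mass_le hcont).trans hm

/-- The mass of a compactly supported current is attained, by a measure on the support. -/
theorem exists_controls_eq_mass {T : Functional X k} (hT : IsCurrent T) {K : Set X}
    (hKc : IsCompact K) (hK : IsSupportedIn K T) :
    ∃ μ : Measure X, IsFiniteMeasure μ ∧ Controls T μ ∧ μ Kᶜ = 0 ∧ (μ univ).toReal = mass T := by
  have h1 : ∀ n : ℕ, ∃ μ : Measure X, IsFiniteMeasure μ ∧ Controls T μ ∧
      (μ univ).toReal < mass T + 1 / ((n : ℝ) + 1) := fun n =>
    exists_controls_lt hT (by have : (0 : ℝ) < 1 / ((n : ℝ) + 1) := by positivity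
                              linarith)
  -- all finite measures of mass `≤ mass T + 1/(n+1)` which control `T`: nested compact sets
  set A : ℕ → Set (FiniteMeasure X) := fun n => {μ : FiniteMeasure X |
    Controls T (μ : Measure X) ∧ (μ : Measure X) Kᶜ = 0 ∧
      (μ.mass : ℝ) ≤ mass T + 1 / ((n : ℝ) + 1)} with hA
  have hAne : ∀ n, (A n).Nonempty := by
    intro n
    obtain ⟨μ, hμ, hcont, hm⟩ := h1 n
    refine ⟨⟨μ.restrict K, inferInstance⟩, controls_restrict hT hKc.isClosed hK hcont, ?_, ?_⟩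
    · change (μ.restrict K) Kᶜ = 0
      rw [Measure.restrict_apply hKc.measurableSet.compl]
      simp
    · refine le_trans ?_ hm.le
      change ((μ.restrict K) univ).toReal ≤ _
      exact ENNReal.toReal_mono (measure_ne_top _ _)
        (Measure.restrict_apply_univ (μ := μ) K ▸ measure_mono (subset_univ K))
  have hne : ∀ n, ∃ μ, μ ∈ A n := hAne
  choose m hmA using hne
  set U : Ultrafilter ℕ := Ultrafilter.of atTop with hU
  have hUl : (U : Filter ℕ) ≤ atTop := Ultrafilter.of_le atTop
  have hmnn : 0 ≤ mass T := mass_nonneg T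
  have hcomp := isCompact_setOfPred_finiteMeasure_le_of_isCompact (E := X)
    (Real.toNNReal (mass T + 1)) hKc
  rw [isCompact_iff_ultrafilter_le_nhds'] at hcomp
  obtain ⟨ν, hν, hνlim⟩ := hcomp (U.map m) (by
    change m ⁻¹' _ ∈ (U : Filter ℕ)
    refine Filter.mem_of_superset Filter.univ_mem fun j _ => ?_
    refine ⟨?_, ?_⟩
    · rw [← NNReal.coe_le_coe, Real.coe_toNNReal _ (by linarith)]
      refine (hmA j).2.2.trans ?_
      have : (1 : ℝ) / ((j : ℝ) + 1) ≤ 1 := by
        rw [div_le_one (by positivity)]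
        have : (0 : ℝ) ≤ j := Nat.cast_nonneg j
        linarith
      linarith
    · exact (FiniteMeasure.null_iff_toMeasure_null _ _).2 (hmA j).2.1)
  have hνt : Tendsto m (U : Filter ℕ) (𝓝 ν) := hνlim
  have hcontr : Controls T (ν : Measure X) := by
    intro f π hf hπ
    obtain ⟨C, hC⟩ := hf.2.1
    set F : BoundedContinuousFunction X ℝ := BoundedContinuousFunction.ofNormedAddCommGroup
      (fun x => |f x|) (IsTestPair.continuous hf).abs C (fun x => by simpa using hC x) with hF
    have h3 := FiniteMeasure.tendsto_iff_forall_integral_tendsto.1 hνt F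
    exact ge_of_tendsto h3 (Eventually.of_forall fun j => (hmA j).1 f π hf hπ)
  refine ⟨(ν : Measure X), inferInstance, hcontr, ?_, ?_⟩
  · exact (FiniteMeasure.null_iff_toMeasure_null _ _).1 hν.2
  · refine le_antisymm ?_ (mass_le hcontr)
    have h4 : Tendsto (fun j => ((m j).mass : ℝ)) (U : Filter ℕ) (𝓝 (ν.mass : ℝ)) :=
      (NNReal.continuous_coe.tendsto _).comp
        ((FiniteMeasure.continuous_mass.tendsto _).comp hνt)
    have h5 : Tendsto (fun j : ℕ => mass T + 1 / ((j : ℝ) + 1)) (U : Filter ℕ)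
        (𝓝 (mass T + 0)) :=
      (tendsto_const_nhds.add tendsto_one_div_add_atTop_nhds_zero_nat).mono_left hUl
    rw [add_zero] at h5
    exact le_of_tendsto_of_tendsto h4 h5 (Eventually.of_forall fun j => (hmA j).2.2)

end

end Crest.Agent.R241.B10
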