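import Mathlib
import Crest.Agent.R241.B10Lim

/-!
# R241, block B10: mass-convergent series, completeness (owner: helper502)
-/

set_option autoImplicit false
set_option linter.unusedSectionVars false

open MeasureTheory Filter Topology Set
open scoped ENNReal NNReal

universe u

namespace Crest.Agent.R241.B10

open Crest.GeometryTopology.MetricCurrent

variable {X : Type u} [MetricSpace X] [MeasurableSpace X] [BorelSpace X] {k : ℕ}

/-- Uniform bound of the values by the mass, for one fixed `f` and all `π` with a given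
Lipschitz constant. -/
theorem abs_le_pow_mass {T : Functional X k} (hT : IsCurrent T) {f : X → ℝ} {π : Fin k → X → ℝ}
    (h : IsTestPair f π) {C : ℝ} (hC : ∀ x, |f x| ≤ C) (hC0 : 0 ≤ C) {L : ℝ≥0}
    (hL : ∀ i, LipschitzWith L (π i)) : |T f π| ≤ C * (L : ℝ) ^ k * mass T := by
  have := abs_le_mass hT h hC hC0 (fun _ => L) hL
  simpa using this

theorem exists_common_lip {f : X → ℝ} {π : Fin k → X → ℝ} (h : IsTestPair f π) :
    ∃ L : ℝ≥0, ∀ i, LipschitzWith L (π i) := by
  choose L hL using h.2.2
  exact ⟨∑ i, L i, fun i => (hL i).weaken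
    (Finset.single_le_sum (f := L) (fun j _ => zero_le) (Finset.mem_univ i))⟩

theorem exists_bound {f : X → ℝ} {π : Fin k → X → ℝ} (h : IsTestPair f π) :
    ∃ C : ℝ, 0 ≤ C ∧ ∀ x, |f x| ≤ C := by
  obtain ⟨C, hC⟩ := h.2.1
  exact ⟨|C|, abs_nonneg C, fun x => (hC x).trans (le_abs_self C)⟩

/-! ### Series -/

theorem controls_of_hasSum {T : ℕ → Functional X k} {S : Functional X k} {μ : ℕ → Measure X}
    (hμf : ∀ i, IsFiniteMeasure (μ i)) (hμ : ∀ i, Controls (T i) (μ i))
    (hsum : Summable fun i => (μ i univ).toReal)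
    (hS : ∀ f π, IsTestPair f π → HasSum (fun i => T i f π) (S f π)) :
    IsFiniteMeasure (Measure.sum μ) ∧ Controls S (Measure.sum μ) ∧
      ((Measure.sum μ) univ).toReal = ∑' i, (μ i univ).toReal := by
  have h1 : (Measure.sum μ) univ = ENNReal.ofReal (∑' i, (μ i univ).toReal) := by
    rw [Measure.sum_apply _ MeasurableSet.univ,
      ENNReal.ofReal_tsum_of_nonneg (fun i => ENNReal.toReal_nonneg) hsum]
    congr 1
    funext i
    rw [ENNReal.ofReal_toReal (measure_ne_top _ _)]
  have hfin : IsFiniteMeasure (Measure.sum μ) := ⟨by rw [h1]; exact ENNReal.ofReal_lt_top⟩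
  refine ⟨hfin, ?_, ?_⟩
  · intro f π hf hπ
    have hint : Integrable (fun x => |f x|) (Measure.sum μ) := IsTestPair.integrable hf _
    have h2 : HasSum (fun i => ∫ x, |f x| ∂(μ i)) (∫ x, |f x| ∂(Measure.sum μ)) :=
      hasSum_integral_measure hint
    have h3 := hS f π hf
    have h4 : Summable fun i => |T i f π| :=
      Summable.of_nonneg_of_le (fun i => abs_nonneg _) (fun i => hμ i f π hf hπ) h2.summable
    calc |S f π| = |∑' i, T i f π| := by rw [h3.tsum_eq]
      _ ≤ ∑' i, |T i f π| := by
          have := norm_tsum_le_tsum_norm (f := fun i => T i f π) (by simpa using h4)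
          simpa using this
      _ ≤ ∑' i, ∫ x, |f x| ∂(μ i) :=
          h4.tsum_le_tsum (fun i => hμ i f π hf hπ) h2.summable
      _ = ∫ x, |f x| ∂(Measure.sum μ) := h2.tsum_eq
  · rw [h1, ENNReal.toReal_ofReal (tsum_nonneg fun i => ENNReal.toReal_nonneg)]

/-- A mass-summable series is controlled by a measure of mass at most `∑ mass + ε`. -/
theorem exists_controls_of_hasSum {T : ℕ → Functional X k} {S : Functional X k}
    (hT : ∀ i, IsCurrent (T i)) {r : ℕ → ℝ} (hr : Summable r) (hm : ∀ i, mass (T i) ≤ r i)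
    (hS : ∀ f π, IsTestPair f π → HasSum (fun i => T i f π) (S f π)) {ε : ℝ} (hε : 0 < ε) :
    ∃ μ : Measure X, IsFiniteMeasure μ ∧ Controls S μ ∧ (μ univ).toReal ≤ (∑' i, r i) + ε := by
  obtain ⟨δ, hδpos, c, hδsum, hδε⟩ := posSumOfEncodable hε ℕ
  have h1 : ∀ i, ∃ μ : Measure X, IsFiniteMeasure μ ∧ Controls (T i) μ ∧
      (μ univ).toReal < r i + δ i := fun i =>
    exists_controls_lt (hT i) (by linarith [hm i, hδpos i])
  choose μ hμf hμc hμm using h1
  have hsum1 : Summable fun i => r i + δ i := hr.add hδsum.summable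
  have hsum : Summable fun i => (μ i univ).toReal :=
    Summable.of_nonneg_of_le (fun i => ENNReal.toReal_nonneg) (fun i => (hμm i).le) hsum1
  obtain ⟨hfin, hc, hm'⟩ := controls_of_hasSum hμf hμc hsum hS
  refine ⟨Measure.sum μ, hfin, hc, ?_⟩
  rw [hm']
  calc ∑' i, (μ i univ).toReal ≤ ∑' i, (r i + δ i) :=
        hsum.tsum_le_tsum (fun i => (hμm i).le) hsum1
    _ = (∑' i, r i) + ∑' i, δ i := hr.tsum_add hδsum.summable
    _ ≤ (∑' i, r i) + ε := by rw [hδsum.tsum_eq]; linarith

theorem mass_le_of_hasSum {T : ℕ → Functional X k} {S : Functional X k}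
    (hT : ∀ i, IsCurrent (T i)) {r : ℕ → ℝ} (hr : Summable r) (hm : ∀ i, mass (T i) ≤ r i)
    (hS : ∀ f π, IsTestPair f π → HasSum (fun i => T i f π) (S f π)) :
    mass S ≤ ∑' i, r i := by
  refine le_of_forall_pos_le_add fun ε hε => ?_
  obtain ⟨μ, hμ, hc, h⟩ := exists_controls_of_hasSum hT hr hm hS hε
  exact (mass_le hc).trans h

theorem summable_apply {T : ℕ → Functional X k} (hT : ∀ i, IsCurrent (T i))
    (hsum : Summable fun i => mass (T i)) {f : X → ℝ} {π : Fin k → X → ℝ} (h : IsTestPair f π) :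
    Summable fun i => T i f π := by
  obtain ⟨C, hC0, hC⟩ := exists_bound h
  obtain ⟨L, hL⟩ := exists_common_lip h
  refine Summable.of_norm_bounded (g := fun i => C * (L : ℝ) ^ k * mass (T i))
    (hsum.mul_left _) fun i => ?_
  rw [Real.norm_eq_abs]
  exact abs_le_pow_mass (hT i) h hC hC0 hL

/-- Mass-summable series of currents are currents. -/
theorem isCurrent_of_hasSum {T : ℕ → Functional X k} {S : Functional X k}
    (hT : ∀ i, IsCurrent (T i)) (hsum : Summable fun i => mass (T i))
    (hS : ∀ f π, IsTestPair f π → HasSum (fun i => T i f π) (S f π))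
    (hS0 : ∀ f π, ¬ IsTestPair f π → S f π = 0) : IsCurrent S where
  eq_zero_of_not_test := hS0
  add_left f g π hf hg := by
    refine (hS _ _ (isTestPair_add hf hg)).unique ?_
    refine ((hS f π hf).add (hS g π hg)).congr_fun ?_
    intro i
    exact ((hT i).add_left f g π hf hg)
  smul_left c f π hf := by
    refine (hS _ _ (isTestPair_smul c hf)).unique ?_
    refine ((hS f π hf).mul_left c).congr_fun ?_
    intro i
    exact ((hT i).smul_left c f π hf)
  add_coord f π i g hf hg := by
    have h1 : ∃ K : ℝ≥0, LipschitzWith K (π i + g) := by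
      obtain ⟨K, hK⟩ := hf.2.2 i
      obtain ⟨K', hK'⟩ := hg
      exact ⟨K + K', hK.add hK'⟩
    refine (hS _ _ (isTestPair_update hf i h1)).unique ?_
    refine ((hS f π hf).add (hS f _ (isTestPair_update hf i hg))).congr_fun ?_
    intro j
    exact ((hT j).add_coord f π i g hf hg)
  smul_coord f π i c hf := by
    have h1 : ∃ K : ℝ≥0, LipschitzWith K (c • π i) := by
      have h2 : IsTestPair (0 : X → ℝ) (fun _ : Fin 1 => π i) :=
        isTestPair_zero fun _ => hf.2.2 i
      obtain ⟨K, hK⟩ := hf.2.2 i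
      refine ⟨‖c‖₊ * K, LipschitzWith.of_dist_le_mul fun x y => ?_⟩
      simp only [Pi.smul_apply, smul_eq_mul, NNReal.coe_mul, coe_nnnorm, Real.norm_eq_abs,
        Real.dist_eq]
      rw [← mul_sub, abs_mul, mul_assoc]
      have := hK.dist_le_mul x y
      rw [Real.dist_eq] at this
      exact mul_le_mul_of_nonneg_left this (abs_nonneg _)
    refine (hS _ _ (isTestPair_update hf i h1)).unique ?_
    refine ((hS f π hf).mul_left c).congr_fun ?_
    intro j
    exact ((hT j).smul_coord f π i c hf)
  continuity f π πs hf hC hlim := by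
    obtain ⟨L, hL⟩ := hC
    obtain ⟨C, hC0, hCf⟩ := exists_bound hf
    have htest : ∀ j, IsTestPair f (πs j) := fun j => ⟨hf.1, hf.2.1, fun i => ⟨L, hL j i⟩⟩
    have h1 : ∀ j, S f (πs j) = ∑' i, T i f (πs j) := fun j => (hS f _ (htest j)).tsum_eq.symm
    have h2 : S f π = ∑' i, T i f π := (hS f π hf).tsum_eq.symm
    rw [h2]
    simp only [h1]
    refine tendsto_tsum_of_dominated_convergence
      (bound := fun i => C * (L : ℝ) ^ k * mass (T i)) (hsum.mul_left _) ?_ ?_
    · intro i
      exact (hT i).continuity f π πs hf ⟨L, hL⟩ hlim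
    · refine Eventually.of_forall fun j i => ?_
      rw [Real.norm_eq_abs]
      exact abs_le_pow_mass (hT i) (htest j) hCf hC0 (hL j)
  locality f π hf h := by
    have h1 : (fun i => T i f π) = fun _ => 0 := by
      funext i
      exact (hT i).locality f π hf h
    have h2 := hS f π hf
    rw [h1] at h2
    exact h2.unique hasSum_zero
  finite_mass := by
    obtain ⟨μ, hμ, hc, -⟩ := exists_controls_of_hasSum hT hsum (fun i => le_rfl) hS one_pos
    exact ⟨μ, hμ, hc⟩

/-- The limit functional of a mass-summable series. -/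
theorem exists_series_limit {T : ℕ → Functional X k} (hT : ∀ i, IsCurrent (T i))
    (hsum : Summable fun i => mass (T i)) :
    ∃ S : Functional X k, IsCurrent S ∧
      ∀ f π, IsTestPair f π → HasSum (fun i => T i f π) (S f π) := by
  refine ⟨fun f π => ∑' i, T i f π, ?_, ?_⟩
  · refine isCurrent_of_hasSum hT hsum (fun f π h => (summable_apply hT hsum h).hasSum) ?_
    intro f π h
    have : (fun i => T i f π) = fun _ => 0 := by
      funext i
      exact (hT i).eq_zero_of_not_test f π h
    simp [this]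
  · intro f π h
    exact (summable_apply hT hsum h).hasSum

/-- Completeness of the space of currents in the mass norm. -/
theorem exists_limit {S : ℕ → Functional X k} (hS : ∀ j, IsCurrent (S j)) {r : ℕ → ℝ}
    (hr : Summable r) (hSr : ∀ j, mass (S (j + 1) - S j) ≤ r j) :
    ∃ Sl : Functional X k, IsCurrent Sl ∧
      (∀ f π, IsTestPair f π → Tendsto (fun j => S j f π) atTop (𝓝 (Sl f π))) ∧
      (∀ j, ∀ f π, IsTestPair f π →
        HasSum (fun i => (S (i + j + 1) - S (i + j)) f π) ((Sl - S j) f π)) ∧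
      (∀ j, mass (Sl - S j) ≤ ∑' i, r (i + j)) ∧
      Tendsto (fun j => mass (Sl - S j)) atTop (𝓝 0) := by
  have hT : ∀ i, IsCurrent (S (i + 1) - S i) := fun i => IsCurrent.sub (hS _) (hS _)
  have hsum : Summable fun i => mass (S (i + 1) - S i) :=
    Summable.of_nonneg_of_le (fun i => mass_nonneg _) hSr hr
  obtain ⟨D, hD, hDs⟩ := exists_series_limit hT hsum
  refine ⟨D + S 0, IsCurrent.add hD (hS 0), ?_⟩
  have htel : ∀ f π, ∀ n, ∑ i ∈ Finset.range n, (S (i + 1) - S i) f π = S n f π - S 0 f π := by
    intro f π n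
    simp only [Pi.sub_apply]
    exact Finset.sum_range_sub (fun i => S i f π) n
  have hlim : ∀ f π, IsTestPair f π →
      Tendsto (fun j => S j f π) atTop (𝓝 ((D + S 0) f π)) := by
    intro f π hf
    have h1 := (hDs f π hf).tendsto_sum_nat
    simp only [htel] at h1
    have h2 := h1.add_const (S 0 f π)
    simpa using h2
  have hshift : ∀ j, ∀ f π, IsTestPair f π →
      HasSum (fun i => (S (i + j + 1) - S (i + j)) f π) (((D + S 0) - S j) f π) := by
    intro j f π hf
    have h1 := (hasSum_nat_add_iff' j).2 (hDs f π hf)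
    rw [htel] at h1
    have e : D f π - (S j f π - S 0 f π) = ((D + S 0) - S j) f π := by
      simp only [Pi.sub_apply, Pi.add_apply]; ring
    rw [e] at h1
    exact h1
  have hbound : ∀ j, mass ((D + S 0) - S j) ≤ ∑' i, r (i + j) := by
    intro j
    refine mass_le_of_hasSum (T := fun i => S (i + j + 1) - S (i + j))
      (fun i => hT (i + j)) ((summable_nat_add_iff j).2 hr) (fun i => hSr (i + j)) (hshift j)
  refine ⟨hlim, hshift, hbound, ?_⟩
  refine squeeze_zero (fun j => mass_nonneg _) hbound ?_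
  exact tendsto_sum_nat_add r

/-! ### Pointwise limits -/

/-- A pointwise limit of currents which is continuous in the coordinates and controlled by a
finite measure is a current. -/
theorem isCurrent_of_tendsto {ι : Type*} {l : Filter ι} [l.NeBot] {S : ι → Functional X k}
    {T : Functional X k} (hS : ∀ᶠ j in l, IsCurrent (S j))
    (hlim : ∀ f π, IsTestPair f π → Tendsto (fun j => S j f π) l (𝓝 (T f π)))
    (hT0 : ∀ f π, ¬ IsTestPair f π → T f π = 0)
    (hcont : ∀ f π (πs : ℕ → Fin k → X → ℝ), IsTestPair f π →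
      (∃ C : NNReal, ∀ j i, LipschitzWith C (πs j i)) →
      (∀ i x, Tendsto (fun j => πs j i x) atTop (𝓝 (π i x))) →
      Tendsto (fun j => T f (πs j)) atTop (𝓝 (T f π)))
    (hmass : ∃ μ : Measure X, IsFiniteMeasure μ ∧ Controls T μ) : IsCurrent T where
  eq_zero_of_not_test := hT0
  add_left f g π hf hg := by
    refine tendsto_nhds_unique (hlim _ _ (isTestPair_add hf hg)) ?_
    refine ((hlim f π hf).add (hlim g π hg)).congr' ?_
    filter_upwards [hS] with j hj
    exact (hj.add_left f g π hf hg).symm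
  smul_left c f π hf := by
    refine tendsto_nhds_unique (hlim _ _ (isTestPair_smul c hf)) ?_
    refine ((hlim f π hf).const_mul c).congr' ?_
    filter_upwards [hS] with j hj
    exact (hj.smul_left c f π hf).symm
  add_coord f π i g hf hg := by
    have h1 : ∃ K : ℝ≥0, LipschitzWith K (π i + g) := by
      obtain ⟨K, hK⟩ := hf.2.2 i
      obtain ⟨K', hK'⟩ := hg
      exact ⟨K + K', hK.add hK'⟩
    refine tendsto_nhds_unique (hlim _ _ (isTestPair_update hf i h1)) ?_
    refine ((hlim f π hf).add (hlim f _ (isTestPair_update hf i hg))).congr' ?_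
    filter_upwards [hS] with j hj
    exact (hj.add_coord f π i g hf hg).symm
  smul_coord f π i c hf := by
    have h1 : ∃ K : ℝ≥0, LipschitzWith K (c • π i) := by
      obtain ⟨K, hK⟩ := hf.2.2 i
      refine ⟨‖c‖₊ * K, LipschitzWith.of_dist_le_mul fun x y => ?_⟩
      simp only [Pi.smul_apply, smul_eq_mul, NNReal.coe_mul, coe_nnnorm, Real.norm_eq_abs,
        Real.dist_eq]
      rw [← mul_sub, abs_mul, mul_assoc]
      have := hK.dist_le_mul x y
      rw [Real.dist_eq] at this
      exact mul_le_mul_of_nonneg_left this (abs_nonneg _)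
    refine tendsto_nhds_unique (hlim _ _ (isTestPair_update hf i h1)) ?_
    refine ((hlim f π hf).const_mul c).congr' ?_
    filter_upwards [hS] with j hj
    exact (hj.smul_coord f π i c hf).symm
  continuity := hcont
  locality f π hf h := by
    refine tendsto_nhds_unique (hlim f π hf) ?_
    refine tendsto_const_nhds.congr' ?_
    filter_upwards [hS] with j hj
    exact (hj.locality f π hf h).symm
  finite_mass := hmass

/-- The boundary of a current is continuous in the coordinates. -/
theorem bd_continuity {S : Functional X (k + 1)} (hS : IsCurrent S) (f : X → ℝ)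
    (π : Fin k → X → ℝ) (πs : ℕ → Fin k → X → ℝ) (hf : IsTestPair f π)
    (hC : ∃ C : NNReal, ∀ j i, LipschitzWith C (πs j i))
    (hlim : ∀ i x, Tendsto (fun j => πs j i x) atTop (𝓝 (π i x))) :
    Tendsto (fun j => bd S f (πs j)) atTop (𝓝 (bd S f π)) := by
  obtain ⟨C, hC⟩ := hC
  obtain ⟨Kf, hKf⟩ := hf.1
  have htest : ∀ j, IsTestPair f (πs j) := fun j => ⟨hf.1, hf.2.1, fun i => ⟨C, hC j i⟩⟩
  rw [bd_apply hf]
  simp only [bd_apply (htest _)]
  refine hS.continuity (fun _ => 1) (Fin.cons f π) (fun j => Fin.cons f (πs j))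
    (isTestPair_cons hf) ⟨max C Kf, fun j i => ?_⟩ fun i x => ?_
  · refine Fin.cases ?_ (fun i => ?_) i
    · simpa using hKf.weaken (le_max_right _ _)
    · simpa using (hC j i).weaken (le_max_left _ _)
  · refine Fin.cases ?_ (fun i => ?_) i
    · simp
    · simpa using hlim i x

/-- Lower semicontinuity of the mass of the boundary; in particular the boundary of the limit
is a current. -/
theorem isCurrent_bd_of_tendsto {ι : Type*} {l : Filter ι} [l.NeBot]
    {S : ι → Functional X (k + 1)} {Sl : Functional X (k + 1)} {K : Set X} (hKc : IsCompact K)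
    (hSl : IsCurrent Sl) (hS : ∀ᶠ j in l, IsCurrent (bd (S j)))
    (hSK : ∀ᶠ j in l, IsSupportedIn K (bd (S j)))
    (hlim : ∀ f π, IsTestPair f π → Tendsto (fun j => S j f π) l (𝓝 (Sl f π))) {c : ℝ}
    (hc : ∃ᶠ j in l, mass (bd (S j)) ≤ c) :
    IsCurrent (bd Sl) ∧ mass (bd Sl) ≤ c := by
  have hlim' : ∀ f π, IsTestPair f π → Tendsto (fun j => bd (S j) f π) l (𝓝 (bd Sl f π)) := by
    intro f π hf
    simp only [bd_apply hf]
    exact hlim _ _ (isTestPair_cons hf)
  constructor
  · refine isCurrent_of_tendsto hS hlim' (fun f π h => bd_apply_not h)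
      (fun f π πs hf hC hl => bd_continuity hSl f π πs hf hC hl) ?_
    obtain ⟨μ, hμ, hcont, -⟩ := exists_controls_of_frequently hKc hS hSK (c := c + 1)
      (hc.mono fun j hj => by linarith) hlim'
    exact ⟨μ, hμ, hcont⟩
  · exact mass_le_of_frequently hKc hS hSK hc hlim'

/-! ### Supports of limits -/

theorem isSupportedIn_of_tendsto {ι : Type*} {l : Filter ι} [l.NeBot] {S : ι → Functional X k}
    {T : Functional X k} {K : Set X} (hSK : ∀ᶠ j in l, IsSupportedIn K (S j))
    (hlim : ∀ f π, IsTestPair f π → Tendsto (fun j => S j f π) l (𝓝 (T f π))) :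
    IsSupportedIn K T := by
  intro f π h hf
  refine tendsto_nhds_unique (hlim f π h) ?_
  refine tendsto_const_nhds.congr' ?_
  filter_upwards [hSK] with j hj
  exact (hj f π h hf).symm

end Crest.Agent.R241.B10
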