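import Mathlib

/-!
# R241, block B10: Ekeland's variational principle (abstract pseudo-metric form)
-/

set_option autoImplicit false

open Filter Topology Set

namespace Crest.Agent.R241.B10

universe u

/-- **Ekeland's principle**, for a not necessarily symmetric or separated distance `d`, a function
`Ψ` bounded below, and a completeness/semicontinuity hypothesis for descending sequences of
finite length. -/
theorem ekeland {S : Type u} (d : S → S → ℝ) (Ψ : S → ℝ) (ε : ℝ) (hε : 0 < ε)
    (hself : ∀ a, d a a = 0) (hnn : ∀ a b, 0 ≤ d a b)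
    (htri : ∀ a b c, d a c ≤ d a b + d b c)
    (hbdd : BddBelow (range Ψ))
    (hcomp : ∀ s : ℕ → S, Summable (fun j => d (s j) (s (j + 1))) →
      (∀ j, Ψ (s (j + 1)) ≤ Ψ (s j)) →
      ∃ t : S, Tendsto (fun j => d (s j) t) atTop (𝓝 0) ∧ ∀ j, Ψ t ≤ Ψ (s j))
    (s₀ : S) :
    ∃ s : S, Ψ s + ε * d s₀ s ≤ Ψ s₀ ∧ ∀ s', Ψ s ≤ Ψ s' + ε * d s s' := by
  classical
  -- the descending order
  let le : S → S → Prop := fun a b => Ψ a + ε * d b a ≤ Ψ b
  have le_refl : ∀ a, le a a := fun a => by simp [le, hself]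
  have le_trans' : ∀ a b c, le a b → le b c → le a c := by
    intro a b c hab hbc
    have h1 := htri c b a
    have h2 := mul_le_mul_of_nonneg_left h1 hε.le
    simp only [le] at *
    linarith [mul_add ε (d c b) (d b a)]
  let m : S → ℝ := fun a => sInf (Ψ '' {b | le b a})
  have hbd : ∀ a, BddBelow (Ψ '' {b | le b a}) := fun a =>
    hbdd.mono (image_subset_range _ _)
  have hne : ∀ a, (Ψ '' {b | le b a}).Nonempty := fun a => ⟨Ψ a, a, le_refl a, rfl⟩
  have hm_le : ∀ a b, le b a → m a ≤ Ψ b := fun a b hb => csInf_le (hbd a) ⟨b, hb, rfl⟩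
  have hstep : ∀ (a : S) (δ : ℝ), 0 < δ → ∃ b, le b a ∧ Ψ b < m a + δ := by
    intro a δ hδ
    obtain ⟨_, ⟨b, hb, rfl⟩, hb2⟩ := exists_lt_of_csInf_lt (hne a)
      (show sInf (Ψ '' {b | le b a}) < m a + δ by simp only [m]; linarith)
    exact ⟨b, hb, hb2⟩
  choose! next hnext1 hnext2 using hstep
  let s : ℕ → S := fun j => Nat.rec s₀ (fun j a => next a ((1 / 2 : ℝ) ^ j)) j
  have hs0 : s 0 = s₀ := rfl
  have hsucc : ∀ j, s (j + 1) = next (s j) ((1 / 2 : ℝ) ^ j) := fun j => rfl
  have hpow : ∀ j : ℕ, (0 : ℝ) < (1 / 2 : ℝ) ^ j := fun j => by positivity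
  have hle1 : ∀ j, le (s (j + 1)) (s j) := fun j => by
    rw [hsucc]; exact hnext1 _ _ (hpow j)
  have hlt : ∀ j, Ψ (s (j + 1)) < m (s j) + (1 / 2 : ℝ) ^ j := fun j => by
    rw [hsucc]; exact hnext2 _ _ (hpow j)
  have hle : ∀ i j, i ≤ j → le (s j) (s i) := by
    intro i j hij
    induction hij with
    | refl => exact le_refl _
    | step _ ih => exact le_trans' _ _ _ (hle1 _) ih
  have hanti : ∀ j, Ψ (s (j + 1)) ≤ Ψ (s j) := fun j => by
    have := hle1 j
    simp only [le] at this
    have := mul_nonneg hε.le (hnn (s j) (s (j + 1)))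
    linarith
  obtain ⟨B, hB⟩ := hbdd
  have hB' : ∀ a, B ≤ Ψ a := fun a => hB ⟨a, rfl⟩
  have hsum : Summable (fun j => d (s j) (s (j + 1))) := by
    have hpart : ∀ N, ∑ j ∈ Finset.range N, ε * d (s j) (s (j + 1)) ≤ Ψ (s 0) - Ψ (s N) := by
      intro N
      induction N with
      | zero => simp
      | succ N ih =>
        rw [Finset.sum_range_succ]
        have := hle1 N
        simp only [le] at this
        linarith
    have h1 : Summable (fun j => ε * d (s j) (s (j + 1))) := by
      apply summable_of_sum_range_le (c := Ψ (s 0) - B)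
      · intro j; exact mul_nonneg hε.le (hnn _ _)
      · intro N; linarith [hpart N, hB' (s N)]
    exact (summable_mul_left_iff hε.ne').1 h1
  obtain ⟨t, ht1, ht2⟩ := hcomp s hsum hanti
  have htle : ∀ j, le t (s j) := by
    intro j
    have h1 : ∀ᶠ i in atTop, Ψ t + ε * d (s j) t ≤ Ψ (s j) + ε * d (s i) t := by
      filter_upwards [eventually_ge_atTop j] with i hi
      have h2 := hle j i hi
      have h3 := mul_le_mul_of_nonneg_left (htri (s j) (s i) t) hε.le
      simp only [le] at h2
      have h4 := ht2 i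
      linarith [mul_add ε (d (s j) (s i)) (d (s i) t)]
    have h5 : Tendsto (fun i => Ψ (s j) + ε * d (s i) t) atTop (𝓝 (Ψ (s j) + ε * 0)) :=
      tendsto_const_nhds.add (ht1.const_mul ε)
    have h6 := ge_of_tendsto h5 h1
    simpa [le] using h6
  refine ⟨t, ?_, ?_⟩
  · have := htle 0
    simpa [le, hs0] using this
  · intro s'
    by_cases hs' : le s' t
    · -- then `Ψ s' ≥ Ψ t`
      have h1 : ∀ j, Ψ t - (1 / 2 : ℝ) ^ j ≤ Ψ s' := by
        intro j
        have h2 := hm_le (s j) s' (le_trans' _ _ _ hs' (htle j))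
        have h3 := hlt j
        have h4 := ht2 (j + 1)
        linarith
      have h5 : Tendsto (fun j : ℕ => Ψ t - (1 / 2 : ℝ) ^ j) atTop (𝓝 (Ψ t - 0)) :=
        tendsto_const_nhds.sub
          (tendsto_pow_atTop_nhds_zero_of_lt_one (by norm_num) (by norm_num))
      have h6 := le_of_tendsto' h5 h1
      have := mul_nonneg hε.le (hnn t s')
      linarith
    · simp only [le, not_le] at hs'
      exact hs'.le

end Crest.Agent.R241.B10
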