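import Mathlib
import Crest.Agent.R241.Defs
import Crest.Agent.R241.B10Complete

/-!
# R241, block B10: completeness of the class of integral currents in `K` (owner: helper502)
-/

set_option autoImplicit false
set_option linter.unusedSectionVars false

open MeasureTheory Filter Topology Set
open scoped ENNReal NNReal

universe u

namespace Crest.Agent.R241.B10

open Crest.GeometryTopology.MetricCurrent

variable {X : Type u} [MetricSpace X] [MeasurableSpace X] [BorelSpace X] {k : ℕ}

/-- soft threshold -/
noncomputable def soft (ε t : ℝ) : ℝ := max (t - ε) 0 + min (t + ε) 0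

theorem soft_eq_zero {ε t : ℝ} (h : |t| ≤ ε) : soft ε t = 0 := by
  obtain ⟨h1, h2⟩ := abs_le.1 h
  unfold soft
  rw [max_eq_right (by linarith), min_eq_right (by linarith), add_zero]

theorem abs_soft_sub_le {ε : ℝ} (hε : 0 ≤ ε) (t : ℝ) : |soft ε t - t| ≤ ε := by
  unfold soft
  rcases le_total (t - ε) 0 with h | h <;> rcases le_total (t + ε) 0 with h' | h'
  · rw [max_eq_right h, min_eq_left h', abs_le]; constructor <;> linarith
  · rw [max_eq_right h, min_eq_right h', abs_le]; constructor <;> linarith
  · rw [max_eq_left h, min_eq_left h', abs_le]; constructor <;> linarith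
  · rw [max_eq_left h, min_eq_right h', abs_le]; constructor <;> linarith

theorem lipschitz_soft {ε : ℝ} {f : X → ℝ} {L : ℝ≥0} (hf : LipschitzWith L f) :
    LipschitzWith (L + L) (fun x => soft ε (f x)) := by
  have h1 : LipschitzWith L (fun x => f x - ε) := by
    have := hf.sub (LipschitzWith.const (α := X) ε)
    simpa using this
  have h2 : LipschitzWith L (fun x => f x + ε) := by
    have := hf.add (LipschitzWith.const (α := X) ε)
    simpa using this
  exact (h1.max_const 0).add (h2.min_const 0)

/-- Strengthened locality: a coordinate may be constant on the (closed) support only. -/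
theorem eq_zero_of_eqOn_support {T : Functional X k} (hT : IsCurrent T) {K : Set X}
    (hK : IsSupportedIn K T) {f : X → ℝ} {π : Fin k → X → ℝ} (hf : IsTestPair f π) (i : Fin k)
    (h0 : ∀ x ∈ K, π i x = 0) : T f π = 0 := by
  obtain ⟨L, hL⟩ := hf.2.2 i
  set δ : ℕ → ℝ := fun n => 1 / ((n : ℝ) + 1) with hδ
  have hδpos : ∀ n, 0 < δ n := fun n => by rw [hδ]; positivity
  have hδlim : Tendsto δ atTop (𝓝 0) := tendsto_one_div_add_atTop_nhds_zero_nat
  set πs : ℕ → Fin k → X → ℝ := fun n => Function.update π i (fun x => soft (δ n) (π i x)) with hπs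
  have hπsL : ∀ n, ∃ M : ℝ≥0, LipschitzWith M (fun x => soft (δ n) (π i x)) := fun n =>
    ⟨_, lipschitz_soft hL⟩
  have htest : ∀ n, IsTestPair f (πs n) := fun n => isTestPair_update hf i (hπsL n)
  obtain ⟨C, hC⟩ := exists_common_lip hf
  have hlim : Tendsto (fun n => T f (πs n)) atTop (𝓝 (T f π)) := by
    refine hT.continuity f π πs hf ⟨C + C, fun n j => ?_⟩ fun j x => ?_
    · by_cases hj : j = i
      · subst hj
        simp only [hπs, Function.update_self]
        exact lipschitz_soft (hC j)
      · simp only [hπs, Function.update_of_ne hj]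
        exact (hC j).weaken (le_add_of_nonneg_left zero_le)
    · by_cases hj : j = i
      · subst hj
        simp only [hπs, Function.update_self]
        rw [tendsto_iff_dist_tendsto_zero]
        refine squeeze_zero (fun n => dist_nonneg) (fun n => ?_) hδlim
        rw [Real.dist_eq]
        exact abs_soft_sub_le (hδpos n).le _
      · simp only [hπs, Function.update_of_ne hj]
        exact tendsto_const_nhds
  refine tendsto_nhds_unique hlim ?_
  refine tendsto_const_nhds.congr fun n => ?_
  -- each term vanishes
  symm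
  have hη : 0 < δ n / ((L : ℝ) + 1) := div_pos (hδpos n) (by positivity)
  set χ : X → ℝ := fun x => ((thickenedIndicator hη K x : ℝ≥0) : ℝ) with hχ
  have hχL : ∃ M : ℝ≥0, LipschitzWith M χ :=
    ⟨_, (NNReal.isometry_coe).lipschitz.comp (lipschitzWith_thickenedIndicator hη K)⟩
  have hχb : ∃ M : ℝ, ∀ x, |χ x| ≤ M := by
    refine ⟨1, fun x => ?_⟩
    rw [abs_of_nonneg (NNReal.coe_nonneg _)]
    have := thickenedIndicator_le_one hη K x
    exact_mod_cast this
  have htest2 : IsTestPair (fun x => f x * χ x) (πs n) := isTestPair_mul (htest n) hχL hχb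
  have h1 : T f (πs n) = T (fun x => f x * χ x) (πs n) := by
    refine eq_of_eqOn hT hK (htest n) htest2 fun x hx => ?_
    have : χ x = 1 := by
      simp only [hχ]
      rw [thickenedIndicator_one hη K hx]
      simp
    simp [this]
  rw [h1]
  refine hT.locality _ _ htest2 ⟨i, Metric.thickening (δ n / ((L : ℝ) + 1)) K, 0,
    Metric.isOpen_thickening, ?_, ?_⟩
  · intro x hx
    by_contra hx'
    apply hx
    have : χ x = 0 := by
      simp only [hχ]
      rw [thickenedIndicator_zero hη K hx']
      simp
    simp [this]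
  · intro x hx
    simp only [hπs, Function.update_self]
    refine soft_eq_zero ?_
    obtain ⟨z, hz, hxz⟩ := Metric.mem_thickening_iff.1 hx
    have h2 := hL.dist_le_mul x z
    rw [Real.dist_eq, h0 z hz, sub_zero] at h2
    refine h2.trans ?_
    calc (L : ℝ) * dist x z ≤ ((L : ℝ) + 1) * (δ n / ((L : ℝ) + 1)) := by
          apply mul_le_mul (by linarith) hxz.le dist_nonneg (by positivity)
      _ = δ n := by field_simp

/-- The boundary is supported where the current is. -/
theorem isSupportedIn_bd {S : Functional X (k + 1)} (hS : IsCurrent S) {K : Set X}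
    (hK : IsSupportedIn K S) : IsSupportedIn K (bd S) := by
  intro f π hf h0
  rw [bd_apply hf]
  exact eq_zero_of_eqOn_support hS hK (isTestPair_cons hf) 0 (by simpa using h0)

/-- A current in the class `IsInt K` from its ingredients. -/
theorem isInt_sub {n : ℕ} {K : Set X}
    (hsub : ∀ S S' : Functional X (n + 1), IsCurrent S → IsIntegerRectifiable S → IsCurrent S' →
      IsIntegerRectifiable S' → IsIntegerRectifiable (S - S'))
    {S S' : Functional X (n + 1)} (hS : IsInt K S) (hS' : IsInt K S') : IsInt K (S - S') where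
  cur := IsCurrent.sub hS.cur hS'.cur
  rect := hsub _ _ hS.cur hS.rect hS'.cur hS'.rect
  bdcur := by rw [bd_sub]; exact IsCurrent.sub hS.bdcur hS'.bdcur
  supp := isSupportedIn_sub hS.supp hS'.supp

/-- COMPLETENESS: the class `IsInt K` (with a bound for the boundary masses) is complete in the
mass norm, and `S ↦ mass (bd S)` is lower semicontinuous. -/
theorem complete_int {n : ℕ} {K : Set X} (hKc : IsCompact K)
    (hsub : ∀ S S' : Functional X (n + 1), IsCurrent S → IsIntegerRectifiable S → IsCurrent S' →
      IsIntegerRectifiable S' → IsIntegerRectifiable (S - S'))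
    (hser : ∀ (T : ℕ → Functional X (n + 1)) (S : Functional X (n + 1)),
      (∀ i, IsCurrent (T i)) → (∀ i, IsIntegerRectifiable (T i)) →
      Summable (fun i => mass (T i)) →
      (∀ f π, IsTestPair f π → HasSum (fun i => T i f π) (S f π)) → IsCurrent S →
      IsIntegerRectifiable S)
    {S : ℕ → Functional X (n + 1)} (hS : ∀ j, IsInt K (S j)) {r : ℕ → ℝ} (hr : Summable r)
    (hSr : ∀ j, mass (S (j + 1) - S j) ≤ r j) {c₀ : ℝ}
    (hc₀ : ∃ᶠ j in atTop, mass (bd (S j)) ≤ c₀) :
    ∃ Sl : Functional X (n + 1), IsInt K Sl ∧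
      (∀ f π, IsTestPair f π → Tendsto (fun j => S j f π) atTop (𝓝 (Sl f π))) ∧
      Tendsto (fun j => mass (Sl - S j)) atTop (𝓝 0) ∧
      ∀ c, (∃ᶠ j in atTop, mass (bd (S j)) ≤ c) → mass (bd Sl) ≤ c := by
  obtain ⟨Sl, hSl, hlim, hshift, -, hmass⟩ := exists_limit (fun j => (hS j).cur) hr hSr
  have hbdK : ∀ j, IsSupportedIn K (bd (S j)) := fun j => isSupportedIn_bd (hS j).cur (hS j).supp
  have hbd : ∀ c, (∃ᶠ j in atTop, mass (bd (S j)) ≤ c) →
      IsCurrent (bd Sl) ∧ mass (bd Sl) ≤ c := fun c hc =>
    isCurrent_bd_of_tendsto hKc hSl (Eventually.of_forall fun j => (hS j).bdcur)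
      (Eventually.of_forall hbdK) hlim hc
  have hrect : IsIntegerRectifiable Sl := by
    set T : ℕ → Functional X (n + 1) := fun i => Nat.casesOn i (S 0) (fun i => S (i + 1) - S i)
      with hT
    have hT0 : T 0 = S 0 := rfl
    have hTs : ∀ i, T (i + 1) = S (i + 1) - S i := fun i => rfl
    have hTc : ∀ i, IsCurrent (T i) := by
      intro i
      cases i with
      | zero => exact (hS 0).cur
      | succ i => exact IsCurrent.sub (hS _).cur (hS _).cur
    have hTr : ∀ i, IsIntegerRectifiable (T i) := by
      intro i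
      cases i with
      | zero => exact (hS 0).rect
      | succ i => exact hsub _ _ (hS _).cur (hS _).rect (hS _).cur (hS _).rect
    have hTm : Summable (fun i => mass (T i)) := by
      rw [← summable_nat_add_iff 1]
      exact Summable.of_nonneg_of_le (fun i => mass_nonneg _) hSr hr
    refine hser T Sl hTc hTr hTm (fun f π hf => ?_) hSl
    have h1 := hshift 0 f π hf
    simp only [add_zero] at h1
    have h2 : HasSum (fun i => T (i + 1) f π) (Sl f π - ∑ i ∈ Finset.range 1, T i f π) := by
      rw [Finset.sum_range_one]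
      simpa [hT0, hTs] using h1
    exact (hasSum_nat_add_iff' 1).1 h2
  refine ⟨Sl, ⟨hSl, hrect, (hbd c₀ hc₀).1, ?_⟩, hlim, hmass, fun c hc => (hbd c hc).2⟩
  exact isSupportedIn_of_tendsto (Eventually.of_forall fun j => (hS j).supp) hlim

end Crest.Agent.R241.B10
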