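import Crest.Agent.R241.Defs
import Crest.Agent.R241.ATargets

/-!
# R241: interfaces between the blocks (owner: helper882)

`n = m + 1` is the dimension of the cycles, `n + 1 = m + 2` the dimension of the fillings.
Everything here is a `Prop`; each block proves its `Prop`, the final files assemble them.
-/

set_option autoImplicit false

open MeasureTheory Filter Topology Set
open scoped ENNReal NNReal RealInnerProductSpace

universe u

namespace Crest.Agent.R241

open Crest.GeometryTopology.MetricCurrent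
open Crest.GeometryTopology.Submanifold (Euc relBoundary)

section Currents

variable (X : Type u) [MetricSpace X] [MeasurableSpace X] [BorelSpace X]

/-- **ADD** (block B): integral currents form a group, the mass is a group norm, and boundaries
of integral currents are integral cycles (boundary rectifiability). -/
structure AddTarget (K : Set X) : Prop where
  zero : ∀ n, IsInt K (0 : Functional X (n + 1))
  add : ∀ (n : ℕ) (S S' : Functional X (n + 1)), IsInt K S → IsInt K S' → IsInt K (S + S')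
  neg : ∀ (n : ℕ) (S : Functional X (n + 1)), IsInt K S → IsInt K (-S)
  isCyc_bd : ∀ (n : ℕ) (S : Functional X (n + 2)), IsInt K S → IsCyc K (bd S)
  bd_add : ∀ (n : ℕ) (S S' : Functional X (n + 1)), bd (S + S') = bd S + bd S'
  bd_neg : ∀ (n : ℕ) (S : Functional X (n + 1)), bd (-S) = -bd S
  mass_nonneg : ∀ (n : ℕ) (S : Functional X (n + 1)), 0 ≤ mass S
  mass_zero : ∀ n : ℕ, mass (0 : Functional X (n + 1)) = 0
  mass_neg : ∀ (n : ℕ) (S : Functional X (n + 1)), mass (-S) = mass S
  mass_add : ∀ (n : ℕ) (S S' : Functional X (n + 1)), IsInt K S → IsInt K S' →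
    mass (S + S') ≤ mass S + mass S'
  eq_zero : ∀ (n : ℕ) (S : Functional X (n + 1)), IsInt K S → mass S = 0 → S = 0

/-- **CLOSURE** (block B): mass-summable series of integral currents whose partial boundaries
have bounded mass converge to integral currents; lower semicontinuity of the boundary mass. -/
def ClosureTarget (K : Set X) (m : ℕ) : Prop :=
  ∀ (T₀ : Functional X (m + 1)) (S : ℕ → Functional X (m + 2)) (M : ℝ), IsCyc K T₀ →
    (∀ j, IsInt K (S j)) → Summable (fun j => mass (S j)) →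
    (∀ j, mass (T₀ + bd (∑ i ∈ Finset.range j, S i)) ≤ M) →
    ∃ S' : Functional X (m + 2), IsInt K S' ∧ IsCyc K (T₀ + bd S') ∧
      (∀ j, mass (S' - ∑ i ∈ Finset.range j, S i) ≤ ∑' i, mass (S (i + j))) ∧
      ∀ c : ℝ, (∃ᶠ j in atTop, mass (T₀ + bd (∑ i ∈ Finset.range j, S i)) ≤ c) →
        mass (T₀ + bd S') ≤ c

variable {X}

/-- Left-hand side of the first variation inequality `A.PreData.FV`. -/
noncomputable def fvar {n : ℕ} {k : ℝ} {K : Type u} [MetricSpace K] [CompactSpace K]
    [MeasurableSpace K] [BorelSpace K] (P : A.PreData n k K) (x : K) (f : K → ℝ) : ℝ :=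
  ∫ y, ((n : ℝ) * (1 + k ^ 2 * A.zd k x y) * f y + P.G f (A.zd k x) y) ∂P.τ

/-- First variation data of the cycle `T` (blocks B5 + B9): the mass measure of `T` (which
controls `T`), the tangential gradient, and the two estimates for the geodesic contraction
towards `x` with speed `f`. -/
def HasFVData (k : ℝ) (K : Set X) [CompactSpace K] {m : ℕ} (T : Functional X (m + 1)) : Prop :=
  ∃ P : A.PreData (m + 1) k K, Controls T (P.τ.map (Subtype.val : K → X)) ∧
    mass T = P.τ.real univ ∧
    ∀ (x : K) (f : K → ℝ), A.Lip f → (∀ y, 0 ≤ f y) → ∀ ε : ℝ, 0 < ε →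
      ∀ᶠ t in 𝓝[>] (0 : ℝ), ∃ R : Functional X (m + 2), IsInt K R ∧
        mass R ≤ t * (∫ y, f y * P.q x y ∂P.τ + ε) ∧
        mass (T + bd R) ≤ mass T - t * fvar P x f + ε * t

variable (X)

/-- **FVAR** (blocks B5 + B8 + B9). -/
def FVarTarget (k : ℝ) (K : Set X) [CompactSpace K] (m : ℕ) : Prop :=
  ∀ T : Functional X (m + 1), IsCyc K T → HasFVData k K T

/-- **CONE** (block B8, only the `CAT(0)` inequality is used). -/
def ConeTarget (K : Set X) (m : ℕ) : Prop :=
  ∀ (T : Functional X (m + 1)) (x : X) (r : ℝ), x ∈ K → 0 ≤ r →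
    IsCyc (K ∩ Metric.closedBall x r) T →
    ∃ S : Functional X (m + 2), IsInt K S ∧ bd S = T ∧ mass S ≤ r / (m + 2 : ℝ) * mass T

/-- **FILL** (`m ≥ 1`: block B11 from Theorem A; `m = 0`: block L). -/
def FillTarget (k : ℝ) (K : Set X) (m : ℕ) : Prop :=
  ∀ (T : Functional X (m + 1)) (r : ℝ), IsCyc K T → 0 ≤ r → mass T ≤ modelA (m + 1) k r →
    ∀ ε : ℝ, 0 < ε → ∃ S : Functional X (m + 2), IsInt K S ∧ bd S = T ∧
      mass S ≤ modelV (m + 1) k r + ε

/-- **FILLEQ** (`k = 0`; `m ≥ 1`: block B11/A9; `m = 0`: block L). -/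
def FillEqTarget (K : Set X) (m : ℕ) : Prop :=
  ∀ (T : Functional X (m + 1)) (r : ℝ), IsCyc K T → 0 < r → mass T = modelA (m + 1) 0 r →
    (∀ S : Functional X (m + 2), IsInt K S → bd S = T → modelV (m + 1) 0 r ≤ mass S) →
    ∃ x ∈ K, IsSupportedIn (K ∩ Metric.sphere x r) T

end Currents

section Geometry

/-- **D** (Cartan–Hadamard package): `X` is `S` with its intrinsic distance; `ι` the inclusion;
`e p` the exponential map at `p` in orthonormal coordinates. -/
structure CHModel (d N : ℕ) (k : ℝ) (S : Set (Euc N)) (X : Type) [MetricSpace X] where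
  cat : CATk k X
  ι : X → Euc N
  ι_inj : Function.Injective ι
  ι_range : range ι = S
  ι_le : ∀ x y, dist (ι x) (ι y) ≤ dist x y
  ι_loc : ∀ (x : X) (ε : ℝ), 0 < ε → ∃ δ > 0, ∀ y z, dist y x < δ → dist z x < δ →
    dist y z ≤ (1 + ε) * dist (ι y) (ι z)
  ι_emb : IsEmbedding ι
  e : X → Euc d → X
  e_bij : ∀ p, Function.Bijective (e p)
  e_zero : ∀ p, e p 0 = p
  e_dist : ∀ p v, dist p (e p v) = ‖v‖
  e_expand : ∀ p v w, ‖v - w‖ ≤ dist (e p v) (e p w)
  e_lip : ∀ p (R : ℝ), ∃ L : ℝ≥0, LipschitzOnWith L (e p) (Metric.closedBall 0 R)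
  e_geo : ∀ p v, ∀ s ∈ Icc (0 : ℝ) 1, cat.geo p (e p v) s = e p (s • v)
  smooth : ∀ p, ContDiff ℝ (⊤ : ℕ∞) (fun v => ι (e p v))
  fderiv_ge : ∀ p v w, ‖w‖ ≤ ‖fderiv ℝ (fun v => ι (e p v)) v w‖
  gauss : ∀ p v w, ⟪fderiv ℝ (fun v => ι (e p v)) v v, fderiv ℝ (fun v => ι (e p v)) v w⟫
    = ⟪v, w⟫

open Crest.GeometryTopology.Submanifold in
/-- **D**, final target of block D. -/
def CHTarget : Prop :=
  ∀ (d N : ℕ) (_ : 2 ≤ d) (k : ℝ) (_ : 0 ≤ k) (S : Set (Euc N)), IsSubmanifold d N S →
    IsClosed S → IsConnected S → SimplyConnectedSpace S →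
    (∀ p ∈ S, ∀ (f : Euc d → Euc N) (V : Set (Euc d)), IsLocalParam d N S p f V →
      ∀ u v : Euc d, secNum f 0 u v ≤ -k ^ 2 * gramDet f 0 u v) →
    ∃ (X : Type) (_ : MetricSpace X) (_ : ProperSpace X) (_ : Nonempty X),
      Nonempty (CHModel d N k S X)

open Crest.GeometryTopology.Submanifold in
/-- **D6** (rigidity in Günther's inequality, `k = 0`). -/
def RigidTarget : Prop :=
  ∀ (d N : ℕ) (_ : 2 ≤ d) (S : Set (Euc N)) (X : Type) (_ : MetricSpace X) (_ : ProperSpace X)
    (M : CHModel d N 0 S X) (p : X) (r : ℝ), 0 < r →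
    Measure.euclideanHausdorffMeasure d (M.ι '' Metric.ball p r) =
      ENNReal.ofReal (modelVolume d 0 r) →
    ∀ v ∈ Metric.ball (0 : Euc d) r, metricMat (fun v => M.ι (M.e p v)) v = 1

variable {d N : ℕ} {k : ℝ} {S : Set (Euc N)} {X : Type} [MetricSpace X]

/-- the top-dimensional current `[[E]]` of `E ⊆ S`, as a chart action of the exponential map. -/
noncomputable def CHModel.chain (M : CHModel d N k S X) (p : X) (E : Set (Euc N)) :
    Functional X d :=
  chartAction {v | M.ι (M.e p v) ∈ E} (M.e p) (fun _ => 1)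

open Crest.GeometryTopology.Submanifold in
/-- **E1/E2**: `[[E]]` for bounded relatively open `E` (`d = m + 2`): it is an integral current,
its mass is the volume, its boundary mass is at most the boundary measure, and it is the only
integral filling of its boundary with compact support. -/
def ChainTarget : Prop :=
  ∀ (m N : ℕ) (k : ℝ) (_ : 0 ≤ k) (S : Set (Euc N)) (X : Type) (_ : MetricSpace X)
    (_ : ProperSpace X) (_ : MeasurableSpace X) (_ : BorelSpace X)
    (M : CHModel (m + 2) N k S X) (p : X) (R : ℝ) (E : Set (Euc N)),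
    E ⊆ S → (∃ U : Set (Euc N), IsOpen U ∧ E = S ∩ U) → E ⊆ M.ι '' Metric.closedBall p R →
    Measure.euclideanHausdorffMeasure (m + 1) (relBoundary S E) < ⊤ →
    IsInt (Metric.closedBall p R) (M.chain p E) ∧
    Measure.euclideanHausdorffMeasure (m + 2) E = ENNReal.ofReal (mass (M.chain p E)) ∧
    ENNReal.ofReal (mass (bd (M.chain p E))) ≤
      Measure.euclideanHausdorffMeasure (m + 1) (relBoundary S E) ∧
    (∀ S' : Functional X (m + 2), IsInt (Metric.closedBall p R) S' →
      bd S' = bd (M.chain p E) → S' = M.chain p E) ∧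
    ∀ (x : X) (r : ℝ), 0 < r → IsSupportedIn (Metric.sphere x r) (bd (M.chain p E)) →
      0 < mass (M.chain p E) →
      Measure.euclideanHausdorffMeasure (m + 2) (symmDiff E (M.ι '' Metric.ball x r)) = 0

/-- **E3**: cut-off of unbounded sets. -/
def CutTarget : Prop :=
  ∀ (d N : ℕ) (_ : 1 ≤ d) (S : Set (Euc N)) (E : Set (Euc N)), IsClosed S → E ⊆ S →
    (∃ U : Set (Euc N), IsOpen U ∧ E = S ∩ U) →
    Measure.euclideanHausdorffMeasure (d + 1) E < ⊤ →
    Measure.euclideanHausdorffMeasure d (relBoundary S E) < ⊤ →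
    ∀ ε : ℝ, 0 < ε → ∃ R : ℝ, 0 < R ∧
      Measure.euclideanHausdorffMeasure (d + 1) (E \ Metric.ball 0 R) ≤ ENNReal.ofReal ε ∧
      Measure.euclideanHausdorffMeasure d (relBoundary S (E ∩ Metric.ball 0 R)) ≤
        Measure.euclideanHausdorffMeasure d (relBoundary S E) + ENNReal.ofReal ε

end Geometry

end Crest.Agent.R241
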