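import Mathlib
import Crest.Agent.R241.Targets
import Crest.Agent.R241.B10Int

/-!
# R241, block B10: `AddTarget` and `ClosureTarget` from the closure properties of
integer rectifiable currents (B4) and boundary rectifiability (B7) (owner: helper502)
-/

set_option autoImplicit false
set_option linter.unusedSectionVars false

open MeasureTheory Filter Topology Set
open scoped ENNReal NNReal

universe u

namespace Crest.Agent.R241.B10

open Crest.GeometryTopology.MetricCurrent
open Crest.GeometryTopology.Submanifold (Euc)

variable {X : Type u} [MetricSpace X] [MeasurableSpace X] [BorelSpace X] {k : ℕ}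

/-- `bd (bd S) = 0`. -/
theorem bd_bd {S : Functional X (k + 2)} (hS : IsCurrent S) : bd (bd S) = 0 := by
  funext f π
  by_cases h : IsTestPair f π
  · rw [bd_apply h, bd_apply (isTestPair_cons h)]
    refine eq_zero_of_const hS (isTestPair_cons (isTestPair_cons h)) 0 1 fun x => ?_
    simp
  · rw [bd_apply_not h]; rfl

theorem chartAction_empty (φ : Euc k → X) (θ : Euc k → ℤ) :
    chartAction (∅ : Set (Euc k)) φ θ = 0 := by
  funext f π
  simp [chartAction]

/-- The zero current is integer rectifiable. -/
theorem rect_zero [Nonempty X] : IsIntegerRectifiable (0 : Functional X k) := by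
  obtain ⟨x₀⟩ := ‹Nonempty X›
  refine ⟨fun _ => ∅, fun _ _ => x₀, fun _ _ => 0, ?_, ?_, ?_, ?_, ?_, ?_, ?_, ?_⟩
  · intro i; exact ⟨MeasurableSet.empty, Bornology.isBounded_empty⟩
  · intro i; exact ⟨0, by simp⟩
  · intro i; exact ⟨0, by simp⟩
  · intro i; simp
  · intro i j _; simp
  · intro i; rw [chartAction_empty]; exact IsCurrent.zero
  · simp only [chartAction_empty, mass_zero]; exact summable_zero
  · intro f π _; simp [chartAction_empty]

theorem isInt_zero [Nonempty X] {n : ℕ} {K : Set X} : IsInt K (0 : Functional X (n + 1)) where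
  cur := IsCurrent.zero
  rect := rect_zero
  bdcur := by rw [bd_zero]; exact IsCurrent.zero
  supp := isSupportedIn_zero

theorem addTarget [Nonempty X] {K : Set X}
    (hadd : ∀ (n : ℕ) (S S' : Functional X (n + 1)), IsInt K S → IsInt K S' →
      IsIntegerRectifiable (S + S'))
    (hneg : ∀ (n : ℕ) (S : Functional X (n + 1)), IsInt K S → IsIntegerRectifiable (-S))
    (hbd : ∀ (n : ℕ) (S : Functional X (n + 2)), IsInt K S → IsIntegerRectifiable (bd S)) :
    AddTarget X K where
  zero _ := isInt_zero
  add n S S' hS hS' :=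
    { cur := IsCurrent.add hS.cur hS'.cur
      rect := hadd n S S' hS hS'
      bdcur := by rw [bd_add]; exact IsCurrent.add hS.bdcur hS'.bdcur
      supp := isSupportedIn_add hS.supp hS'.supp }
  neg n S hS :=
    { cur := IsCurrent.neg hS.cur
      rect := hneg n S hS
      bdcur := by rw [bd_neg]; exact IsCurrent.neg hS.bdcur
      supp := isSupportedIn_neg hS.supp }
  isCyc_bd n S hS :=
    { int :=
        { cur := hS.bdcur
          rect := hbd n S hS
          bdcur := by rw [bd_bd hS.cur]; exact IsCurrent.zero
          supp := isSupportedIn_bd hS.cur hS.supp }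
      cyc := bd_bd hS.cur }
  bd_add _ S S' := B10.bd_add S S'
  bd_neg _ S := B10.bd_neg S
  mass_nonneg _ S := B10.mass_nonneg S
  mass_zero _ := B10.mass_zero
  mass_neg _ S := B10.mass_neg S
  mass_add _ S S' hS hS' := mass_add_le hS.cur hS'.cur
  eq_zero _ S hS h := eq_zero_of_mass_eq_zero hS.cur h

theorem isInt_sum {n : ℕ} {K : Set X} (hA : AddTarget X K) {ι : Type*} (s : Finset ι)
    (S : ι → Functional X (n + 1)) (hS : ∀ i, IsInt K (S i)) : IsInt K (∑ i ∈ s, S i) := by
  classical
  induction s using Finset.induction_on with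
  | empty => simpa using hA.zero n
  | insert a s ha ih => rw [Finset.sum_insert ha]; exact hA.add n _ _ (hS a) ih

theorem bd_sum {n : ℕ} {ι : Type*} (s : Finset ι) (S : ι → Functional X (n + 1)) :
    bd (∑ i ∈ s, S i) = ∑ i ∈ s, bd (S i) := by
  classical
  induction s using Finset.induction_on with
  | empty => simpa using bd_zero
  | insert a s ha ih => rw [Finset.sum_insert ha, Finset.sum_insert ha, bd_add, ih]

theorem closureTarget {K : Set X} (hKc : IsCompact K) (hA : AddTarget X K) (m : ℕ)
    (hser : ∀ (T : ℕ → Functional X (m + 2)) (S : Functional X (m + 2)),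
      (∀ i, IsInt K (T i)) → Summable (fun i => mass (T i)) →
      (∀ f π, IsTestPair f π → HasSum (fun i => T i f π) (S f π)) → IsCurrent S →
      IsIntegerRectifiable S) : ClosureTarget X K m := by
  intro T₀ S M hT₀ hS hsum hM
  obtain ⟨S', hS'cur, hS'sum⟩ := exists_series_limit (fun i => (hS i).cur) hsum
  -- the partial sums
  set P : ℕ → Functional X (m + 2) := fun j => ∑ i ∈ Finset.range j, S i with hP
  have hPint : ∀ j, IsInt K (P j) := fun j => isInt_sum hA _ S hS
  have hPapply : ∀ j f π, P j f π = ∑ i ∈ Finset.range j, S i f π := by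
    intro j f π
    simp only [hP, Finset.sum_apply]
  have hPlim : ∀ f π, IsTestPair f π → Tendsto (fun j => P j f π) atTop (𝓝 (S' f π)) := by
    intro f π h
    simp only [hPapply]
    exact (hS'sum f π h).tendsto_sum_nat
  have hcyc : ∀ j, IsCyc K (bd (P j)) := fun j => hA.isCyc_bd m _ (hPint j)
  have hQcur : ∀ j, IsCurrent (T₀ + bd (P j)) := fun j =>
    IsCurrent.add hT₀.int.cur (hcyc j).int.cur
  have hQK : ∀ j, IsSupportedIn K (T₀ + bd (P j)) := fun j =>
    isSupportedIn_add hT₀.int.supp (hcyc j).int.supp
  have hQlim : ∀ f π, IsTestPair f π →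
      Tendsto (fun j => (T₀ + bd (P j)) f π) atTop (𝓝 ((T₀ + bd S') f π)) := by
    intro f π h
    simp only [Pi.add_apply, bd_apply h]
    exact tendsto_const_nhds.add (hPlim _ _ (isTestPair_cons h))
  have hQmass : ∀ c, (∃ᶠ j in atTop, mass (T₀ + bd (P j)) ≤ c) → mass (T₀ + bd S') ≤ c :=
    fun c hc => mass_le_of_frequently hKc (Eventually.of_forall hQcur) (Eventually.of_forall hQK)
      hc hQlim
  have hQ : IsCurrent (T₀ + bd S') := by
    refine isCurrent_of_tendsto (Eventually.of_forall hQcur) hQlim ?_ ?_ ?_
    · intro f π h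
      simp [bd_apply_not h, hT₀.int.cur.eq_zero_of_not_test f π h]
    · intro f π πs hf hC hl
      exact (hT₀.int.cur.continuity f π πs hf hC hl).add (bd_continuity hS'cur f π πs hf hC hl)
    · obtain ⟨μ, hμ, hcont, -⟩ := exists_controls_of_frequently hKc
        (Eventually.of_forall hQcur) (Eventually.of_forall hQK) (c := M + 1)
        ((Eventually.of_forall fun j => by
          have := hM j
          change mass (T₀ + bd (P j)) < M + 1
          change mass (T₀ + bd (P j)) ≤ M at this
          linarith).frequently) hQlim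
      exact ⟨μ, hμ, hcont⟩
  have hbdS' : IsCurrent (bd S') := by
    have := IsCurrent.sub hQ hT₀.int.cur
    rwa [add_sub_cancel_left] at this
  have hS'int : IsInt K S' :=
    { cur := hS'cur
      rect := hser S S' hS hsum hS'sum hS'cur
      bdcur := hbdS'
      supp := isSupportedIn_of_tendsto (Eventually.of_forall fun j => (hPint j).supp) hPlim }
  have hbdcyc := hA.isCyc_bd m S' hS'int
  refine ⟨S', hS'int, ?_, ?_, hQmass⟩
  · exact
      { int := hA.add m _ _ hT₀.int hbdcyc.int
        cyc := by rw [hA.bd_add, hT₀.cyc, hbdcyc.cyc, add_zero] }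
  · intro j
    change mass (S' - P j) ≤ _
    refine mass_le_of_hasSum (T := fun i => S (i + j)) (fun i => (hS _).cur)
      ((summable_nat_add_iff j).2 hsum) (fun i => le_rfl) fun f π h => ?_
    have h1 := (hasSum_nat_add_iff' j).2 (hS'sum f π h)
    rw [← hPapply] at h1
    exact h1

end Crest.Agent.R241.B10
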