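import Crest.Agent.R241.EModel
import Crest.Agent.R241.B10Ekeland

/-!
# R241, block B11: the abstract variational argument

`VarSys n k` collects exactly what the isoperimetric argument needs from geometric measure
theory: a class `S` of fillings with the (pseudo)distance `d = mass (S - S')`, the boundary area
`A = mass (bd S)`, the filling volume `V = fillvol (bd S)`, completeness, the cone inequality,
and the first variation.  Main results: `VarSys.fill` (the sharp filling inequality, given the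
conclusion of Theorem A) and `VarSys.fv_of_eq` (equality case).
-/

set_option autoImplicit false

open MeasureTheory Filter Topology Set

namespace Crest.Agent.R241.B11

open Crest.Agent.R241.EModel

universe u v

/-- The abstract variational system. -/
structure VarSys (n : ℕ) (k : ℝ) where
  /-- the class of fillings -/
  S : Type u
  /-- the tests `(x, f)` -/
  T : Type v
  d : S → S → ℝ
  A : S → ℝ
  V : S → ℝ
  L : S → T → ℝ
  Q : S → T → ℝ
  d_self : ∀ a, d a a = 0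
  d_nonneg : ∀ a b, 0 ≤ d a b
  d_tri : ∀ a b c, d a c ≤ d a b + d b c
  A_nonneg : ∀ s, 0 ≤ A s
  V_nonneg : ∀ s, 0 ≤ V s
  V_le : ∀ a b, V a ≤ V b + d a b
  V_le' : ∀ a b, V b ≤ V a + d a b
  complete : ∀ s : ℕ → S, Summable (fun j => d (s j) (s (j + 1))) → (∃ C, ∀ j, A (s j) ≤ C) →
    ∃ t, Tendsto (fun j => d (s j) t) atTop (𝓝 0) ∧
      ∀ c, (∀ᶠ j in atTop, A (s j) ≤ c) → A t ≤ c
  V_zero : ∀ s, A s = 0 → V s = 0
  var : ∀ s τ (ε : ℝ), 0 < ε → ∃ᶠ t in 𝓝[>] (0 : ℝ), ∃ s',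
    d s s' ≤ t * (Q s τ + ε) ∧ A s' ≤ A s - t * L s τ + ε * t
  Q_nonneg : ∀ s τ, 0 ≤ Q s τ

variable {n : ℕ} {k : ℝ}

/-! ### more on the model -/

theorem hk_eq_sqrt (n : ℕ) (hn : n ≠ 0) {k : ℝ} (hk0 : 0 ≤ k) {v : ℝ} (hv : 0 < v) :
    hk n k v = √(k ^ 2 + (sn k (radV n k v) ^ 2)⁻¹) := by
  have hs := sn_pos (k := k) (radV_pos (n := n) hn hk0 hv)
  rw [← Real.sqrt_sq (hk_pos (n := n) hn hk0 hv).le]
  congr 1
  have := sn_sq k (radV n k v)
  rw [hk]
  field_simp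
  linarith

theorem hk_anti (hn : n ≠ 0) (hk0 : 0 ≤ k) {v w : ℝ} (hv : 0 < v) (hvw : v ≤ w) :
    hk n k w ≤ hk n k v := by
  rw [hk_eq_sqrt n hn hk0 hv, hk_eq_sqrt n hn hk0 (hv.trans_le hvw)]
  apply Real.sqrt_le_sqrt
  have h1 := sn_pos (k := k) (radV_pos (n := n) hn hk0 hv)
  have h2 : radV n k v ≤ radV n k w :=
    (strictMonoOn_radV hn hk0).monotoneOn (mem_Ici.2 hv.le) (mem_Ici.2 (hv.le.trans hvw)) hvw
  have h3 := (strictMono_sn k).monotone h2
  gcongr

namespace VarSys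

variable (Y : VarSys.{u, v} n k)

/-- the truncated functional `Ψ = A - Ak (min V v₀)`. -/
noncomputable def Psi (v₀ : ℝ) (s : Y.S) : ℝ := Y.A s - Ak n k (min (Y.V s) v₀)

/-- First variation inequality at an `ε`-Ekeland point. -/
theorem fv_of_ekeland (hn : n ≠ 0) (hk0 : 0 ≤ k) {v₀ : ℝ} {ε : ℝ} (hε : 0 ≤ ε) {s : Y.S}
    (hV : 0 < min (Y.V s) v₀) (hs : ∀ s', Y.Psi v₀ s ≤ Y.Psi v₀ s' + ε * Y.d s s') (τ : Y.T) :
    Y.L s τ ≤ (n * hk n k (min (Y.V s) v₀) + ε) * Y.Q s τ := by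
  set q := Y.Q s τ with hq
  have hq0 : 0 ≤ q := Y.Q_nonneg s τ
  set W := min (Y.V s) v₀ with hW
  set h' := n * hk n k W with hh'
  have hh0 : 0 ≤ h' := by
    have := hk_pos (n := n) hn hk0 hV
    positivity
  -- it is enough to prove it with an error `δ`
  have main : ∀ δ : ℝ, 0 < δ → Y.L s τ ≤ δ + (h' + ε) * (q + δ) := by
    intro δ hδ
    by_contra hcon
    push Not at hcon
    -- the function `t ↦ Ak (W - t (q+δ))`
    have hd : HasDerivAt (fun t : ℝ => Ak n k (W - t * (q + δ))) (h' * (-(q + δ))) 0 := by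
      have h1 : HasDerivAt (fun t : ℝ => W - t * (q + δ)) (-(q + δ)) 0 := by
        simpa using ((hasDerivAt_id (0 : ℝ)).mul_const (q + δ)).const_sub W
      have h2 : HasDerivAt (Ak n k) h' (W - 0 * (q + δ)) := by
        rw [zero_mul, sub_zero]; exact hasDerivAt_Ak hn hk0 hV
      exact HasDerivAt.comp (h₂ := Ak n k) (0 : ℝ) h2 h1
    have ht := hd.tendsto_slope_zero_right
    have hlim : ∀ᶠ t in 𝓝[>] (0 : ℝ), t⁻¹ • (Ak n k (W - (0 + t) * (q + δ))
        - Ak n k (W - 0 * (q + δ))) > δ + ε * (q + δ) - Y.L s τ := by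
      apply ht.eventually_const_lt
      linarith [mul_add (h' + ε) q δ, mul_add h' q δ, add_mul h' ε (q + δ)]
    have hpos : ∀ᶠ t in 𝓝[>] (0 : ℝ), 0 ≤ W - t * (q + δ) := by
      have h1 : Tendsto (fun t : ℝ => W - t * (q + δ)) (𝓝[>] 0) (𝓝 (W - 0 * (q + δ))) :=
        (tendsto_const_nhds.sub
          ((tendsto_id.mono_left nhdsWithin_le_nhds).mul_const (q + δ)))
      have h2 : 0 < W - 0 * (q + δ) := by simpa using hV
      exact (h1.eventually_const_lt h2).mono fun _ h => h.le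
    obtain ⟨t, ⟨s', hs'1, hs'2⟩, ht1, ht2, ht3⟩ :=
      ((Y.var s τ δ hδ).and_eventually (hlim.and (hpos.and self_mem_nhdsWithin))).exists
    have ht0 : 0 < t := ht3
    have h1 := hs s'
    have hqt : 0 ≤ t * (q + δ) := by positivity
    have h2 : Ak n k (W - t * (q + δ)) ≤ Ak n k (min (Y.V s') v₀) := by
      have h3 : W - t * (q + δ) ≤ min (Y.V s') v₀ := by
        apply le_min
        · linarith [Y.V_le s s', min_le_left (Y.V s) v₀]
        · linarith [min_le_right (Y.V s) v₀]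
      exact (strictMonoOn_Ak hn hk0).monotoneOn (mem_Ici.2 ht2) (mem_Ici.2 (ht2.trans h3)) h3
    simp only [Psi] at h1
    rw [← hW] at h1
    have h3 : ε * Y.d s s' ≤ ε * (t * (q + δ)) := mul_le_mul_of_nonneg_left hs'1 hε
    have h4 : t * (δ + ε * (q + δ) - Y.L s τ) <
        Ak n k (W - t * (q + δ)) - Ak n k W := by
      have := mul_lt_mul_of_pos_left ht1 ht0
      rw [smul_eq_mul, ← mul_assoc, mul_inv_cancel₀ ht0.ne', one_mul, zero_mul, sub_zero,
        zero_add] at this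
      exact this
    nlinarith
  have hlim : Tendsto (fun δ : ℝ => δ + (h' + ε) * (q + δ)) (𝓝[>] 0)
      (𝓝 (0 + (h' + ε) * (q + 0))) := by
    apply Tendsto.mono_left _ nhdsWithin_le_nhds
    exact tendsto_id.add ((tendsto_const_nhds.add tendsto_id).const_mul (h' + ε))
  have := ge_of_tendsto hlim (eventually_nhdsWithin_of_forall fun δ hδ => main δ hδ)
  simpa using this

/-- Ekeland points. -/
theorem exists_ekeland (hn : n ≠ 0) (hk0 : 0 ≤ k) {v₀ : ℝ} (hv₀ : 0 ≤ v₀) {ε : ℝ} (hε : 0 < ε)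
    (s₀ : Y.S) :
    ∃ s, Y.Psi v₀ s ≤ Y.Psi v₀ s₀ ∧ ∀ s', Y.Psi v₀ s ≤ Y.Psi v₀ s' + ε * Y.d s s' := by
  have hW0 : ∀ s, 0 ≤ min (Y.V s) v₀ := fun s => le_min (Y.V_nonneg s) hv₀
  have hAv : ∀ s, Ak n k (min (Y.V s) v₀) ≤ Ak n k v₀ := fun s =>
    (strictMonoOn_Ak hn hk0).monotoneOn (mem_Ici.2 (hW0 s)) (mem_Ici.2 hv₀) (min_le_right _ _)
  have hbdd : BddBelow (range (Y.Psi v₀)) := by
    refine ⟨-Ak n k v₀, ?_⟩
    rintro _ ⟨s, rfl⟩
    have := hAv s
    have := Y.A_nonneg s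
    simp only [Psi]
    linarith
  have hcomp : ∀ s : ℕ → Y.S, Summable (fun j => Y.d (s j) (s (j + 1))) →
      (∀ j, Y.Psi v₀ (s (j + 1)) ≤ Y.Psi v₀ (s j)) →
      ∃ t : Y.S, Tendsto (fun j => Y.d (s j) t) atTop (𝓝 0) ∧
        ∀ j, Y.Psi v₀ t ≤ Y.Psi v₀ (s j) := by
    intro s hsum hanti
    have hanti' : Antitone (fun j => Y.Psi v₀ (s j)) := antitone_nat_of_succ_le hanti
    have hAb : ∀ j, Y.A (s j) ≤ Y.Psi v₀ (s 0) + Ak n k v₀ := by
      intro j
      have h1 := hanti' (Nat.zero_le j)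
      have h2 := hAv (s j)
      simp only [Psi] at h1 ⊢
      linarith
    obtain ⟨t, ht1, ht2⟩ := Y.complete s hsum ⟨_, hAb⟩
    refine ⟨t, ht1, ?_⟩
    -- semicontinuity
    have hVt : Tendsto (fun j => Y.V (s j)) atTop (𝓝 (Y.V t)) := by
      rw [tendsto_iff_dist_tendsto_zero]
      apply squeeze_zero (fun _ => dist_nonneg) _ ht1
      intro j
      rw [Real.dist_eq, abs_le]
      constructor
      · linarith [Y.V_le' (s j) t]
      · linarith [Y.V_le (s j) t]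
    have hWt : Tendsto (fun j => min (Y.V (s j)) v₀) atTop (𝓝 (min (Y.V t) v₀)) :=
      hVt.min tendsto_const_nhds
    have hAk : Tendsto (fun j => Ak n k (min (Y.V (s j)) v₀)) atTop
        (𝓝 (Ak n k (min (Y.V t) v₀))) := by
      have := (continuousOn_Ak hn hk0) (min (Y.V t) v₀) (mem_Ici.2 (hW0 t))
      exact this.tendsto.comp (tendsto_nhdsWithin_iff.2
        ⟨hWt, Eventually.of_forall fun j => mem_Ici.2 (hW0 _)⟩)
    intro j
    apply le_of_forall_pos_le_add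
    intro δ hδ
    have h1 : ∀ᶠ i in atTop, Y.A (s i) ≤ Y.Psi v₀ (s j) + Ak n k (min (Y.V t) v₀) + δ := by
      filter_upwards [eventually_ge_atTop j,
        hAk.eventually_lt_const (show Ak n k (min (Y.V t) v₀) < Ak n k (min (Y.V t) v₀) + δ by
          linarith)] with i hi h2
      have h3 := hanti' hi
      simp only [Psi] at h3 ⊢
      linarith
    have h2 := ht2 _ h1
    simp only [Psi] at h2 ⊢
    linarith
  obtain ⟨s, hs1, hs2⟩ :=
    B10.ekeland Y.d (Y.Psi v₀) ε hε Y.d_self Y.d_nonneg Y.d_tri hbdd hcomp s₀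
  refine ⟨s, ?_, hs2⟩
  have := mul_nonneg hε.le (Y.d_nonneg s₀ s)
  linarith

/-- the conclusion of Theorem A for the system -/
def ThmA : Prop := ∀ (s : Y.S) (h : ℝ), k < h → 0 < Y.A s →
  (∀ τ, Y.L s τ ≤ n * h * Y.Q s τ) → sphArea n ≤ (h ^ 2 - k ^ 2) ^ ((n : ℝ) / 2) * Y.A s

/-- **The sharp filling inequality.** -/
theorem fill (hn : n ≠ 0) (hk0 : 0 ≤ k) (hA : Y.ThmA) (s₀ : Y.S) :
    Ak n k (Y.V s₀) ≤ Y.A s₀ := by
  by_contra hcon
  push Not at hcon
  set σ := Ak n k (Y.V s₀) - Y.A s₀ with hσ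
  have hσ0 : 0 < σ := by simp only [hσ]; linarith
  have hn1 : (0 : ℝ) < n := by positivity
  -- the truncation level
  set v₁ := Y.V s₀ + 1 with hv₁
  have hv₁0 : 0 < v₁ := by linarith [Y.V_nonneg s₀]
  -- the lower bound for `V`
  obtain ⟨v₂, hv₂, hv₂'⟩ : ∃ v₂, 0 < v₂ ∧ ∀ v, 0 ≤ v → σ ≤ Ak n k v → v₂ ≤ v := by
    refine ⟨Vk n k σ, ?_, ?_⟩
    · have := strictMonoOn_Vk (n := n) hn hk0 (mem_Ici.2 le_rfl) (mem_Ici.2 hσ0.le) hσ0
      rwa [Vk_zero hn hk0] at this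
    · intro v hv h
      have := (strictMonoOn_Vk (n := n) hn hk0).monotoneOn (mem_Ici.2 hσ0.le)
        (mem_Ici.2 (Ak_nonneg n k v)) h
      rwa [Vk_Ak hn hk0 hv] at this
  -- uniform continuity of `φ`
  set a := hk n k v₁ with ha
  set b := hk n k v₂ with hb
  have hka : k < a := lt_hk hn hk0 hv₁0
  let φ : ℝ → ℝ := fun h => sphArea n * (h ^ 2 - k ^ 2) ^ (-((n : ℝ) / 2))
  have hφc : ContinuousOn φ (Icc a (b + 1)) := by
    apply ContinuousOn.mul continuousOn_const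
    apply ContinuousOn.rpow_const (by fun_prop)
    intro x hx
    left
    have : k < x := hka.trans_le hx.1
    nlinarith
  have huc := isCompact_Icc.uniformContinuousOn_of_continuous hφc
  rw [Metric.uniformContinuousOn_iff] at huc
  obtain ⟨δ, hδ, hδ'⟩ := huc σ hσ0
  set ε := n * min (δ / 2) 1 with hε
  have hε0 : 0 < ε := by positivity
  obtain ⟨s, hs1, hs2⟩ := Y.exists_ekeland hn hk0 hv₁0.le hε0 s₀
  have hPs : Y.Psi v₁ s ≤ -σ := by
    have : Y.Psi v₁ s₀ = -σ := by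
      simp only [Psi, hσ]
      rw [min_eq_left (by linarith)]
      ring
    linarith
  set W := min (Y.V s) v₁ with hW
  have hWnn : 0 ≤ W := le_min (Y.V_nonneg s) hv₁0.le
  have hAnn := Y.A_nonneg s
  have hPs' : Y.A s ≤ Ak n k W - σ := by
    simp only [Psi] at hPs
    rw [← hW] at hPs
    linarith
  have hσA : σ ≤ Ak n k W := by linarith
  have hV2 : v₂ ≤ W := hv₂' _ hWnn hσA
  have hWpos : 0 < W := hv₂.trans_le hV2
  have hV1 : W ≤ v₁ := min_le_right _ _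
  have hVpos : 0 < Y.V s := hWpos.trans_le (min_le_left _ _)
  have hApos : 0 < Y.A s := by
    rcases eq_or_lt_of_le hAnn with h | h
    · exact absurd (Y.V_zero s h.symm) hVpos.ne'
    · exact h
  set h := hk n k W with hh
  have hah : a ≤ h := hk_anti hn hk0 hWpos hV1
  have hhb : h ≤ b := hk_anti hn hk0 hv₂ hV2
  set η := min (δ / 2) 1 with hη
  have hη0 : 0 < η := by positivity
  have hη1 : η ≤ 1 := min_le_right _ _
  have hηδ : η < δ := (min_le_left _ _).trans_lt (by linarith)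
  have hFV : ∀ τ, Y.L s τ ≤ n * (h + η) * Y.Q s τ := by
    intro τ
    have := Y.fv_of_ekeland hn hk0 hε0.le hWpos hs2 τ
    rw [← hW, ← hh, hε] at this
    calc Y.L s τ ≤ (n * h + n * η) * Y.Q s τ := this
      _ = n * (h + η) * Y.Q s τ := by ring
  have hkh : k < h + η := by linarith
  have hthm := hA s (h + η) hkh hApos hFV
  have hpos : 0 < (h + η) ^ 2 - k ^ 2 := by nlinarith
  have h1 : φ (h + η) ≤ Y.A s := by
    simp only [φ]
    rw [Real.rpow_neg hpos.le, ← div_eq_mul_inv, div_le_iff₀ (Real.rpow_pos_of_pos hpos _)]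
    linarith
  have h2 : Ak n k W = φ h := Ak_eq_rpow n hn hk0 hWpos
  have h3 := hδ' h ⟨hah, by linarith⟩ (h + η) ⟨by linarith, by linarith⟩ (by
    rw [Real.dist_eq, abs_sub_comm, abs_of_nonneg (by linarith)]; linarith)
  rw [Real.dist_eq] at h3
  have h4 := (abs_lt.1 h3).2
  linarith

/-- Consequence: `V ≤ Vk (A)`. -/
theorem fill' (hn : n ≠ 0) (hk0 : 0 ≤ k) (hA : Y.ThmA) (s₀ : Y.S) :
    Y.V s₀ ≤ Vk n k (Y.A s₀) := by
  have h := Y.fill hn hk0 hA s₀
  have := (strictMonoOn_Vk (n := n) hn hk0).monotoneOn (mem_Ici.2 (Ak_nonneg n k _))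
    (mem_Ici.2 (Y.A_nonneg s₀)) h
  rwa [Vk_Ak hn hk0 (Y.V_nonneg s₀)] at this

/-- **Equality case**: an extremal filling satisfies the first variation inequality exactly. -/
theorem fv_of_eq (hn : n ≠ 0) (hk0 : 0 ≤ k) (hA : Y.ThmA) {s : Y.S} (hV : 0 < Y.V s)
    (heq : Y.A s ≤ Ak n k (Y.V s)) (τ : Y.T) :
    Y.L s τ ≤ n * hk n k (Y.V s) * Y.Q s τ := by
  have h1 : ∀ s', Y.Psi (Y.V s) s ≤ Y.Psi (Y.V s) s' + 0 * Y.d s s' := by
    intro s'
    have h2 := Y.fill hn hk0 hA s'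
    have h3 : Ak n k (min (Y.V s') (Y.V s)) ≤ Ak n k (Y.V s') :=
      (strictMonoOn_Ak hn hk0).monotoneOn (mem_Ici.2 (le_min (Y.V_nonneg _) hV.le))
        (mem_Ici.2 (Y.V_nonneg _)) (min_le_left _ _)
    simp only [Psi, min_self]
    linarith
  have := Y.fv_of_ekeland hn hk0 le_rfl (v₀ := Y.V s) (by simpa using hV) h1 τ
  simpa using this

end VarSys

end Crest.Agent.R241.B11
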