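import Crest.Agent.R241.G1a

/-!
R241, block G1b: scaling, control with Lipschitz constants, density representation.
-/

set_option autoImplicit false
set_option linter.unusedSectionVars false

open MeasureTheory Filter Topology
open scoped ENNReal NNReal

namespace Crest.Agent.R241.G1

open Crest.GeometryTopology.MetricCurrent

universe u

variable {X : Type u} [MetricSpace X] [MeasurableSpace X]

section basics

variable {k : ℕ} {T : Functional X k}

theorem LipT.update {π : Fin k → X → ℝ} (hπ : LipT π) (i : Fin k) {g : X → ℝ}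
    (hg : ∃ K : ℝ≥0, LipschitzWith K g) : LipT (Function.update π i g) := by
  intro j
  by_cases h : j = i
  · subst h; simpa using hg
  · simpa [h] using hπ j

theorem LipT.smul {π : Fin k → X → ℝ} (hπ : LipT π) (c : Fin k → ℝ) :
    LipT (fun i => c i • π i) := by
  intro i
  obtain ⟨K, hK⟩ := hπ i
  exact ⟨_, lipschitzWith_smul hK (c i)⟩

theorem LipT.add {π σ : Fin k → X → ℝ} (hπ : LipT π) (hσ : LipT σ) :
    LipT (fun i => π i + σ i) := by
  intro i
  obtain ⟨K, hK⟩ := hπ i
  obtain ⟨K', hK'⟩ := hσ i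
  exact ⟨_, hK.add hK'⟩

theorem T_scale_finset (hT : IsCurrent T) {f : X → ℝ} {π : Fin k → X → ℝ} (hf : BL f)
    (hπ : LipT π) (c : Fin k → ℝ) (s : Finset (Fin k)) :
    T f (fun i => if i ∈ s then c i • π i else π i) = (∏ i ∈ s, c i) * T f π := by
  classical
  induction s using Finset.induction_on with
  | empty => simp
  | insert a s ha ih =>
    set σ : Fin k → X → ℝ := fun i => if i ∈ s then c i • π i else π i with hσ
    have h1 : (fun i => if i ∈ insert a s then c i • π i else π i)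
        = Function.update σ a (c a • σ a) := by
      funext i
      by_cases hi : i = a
      · subst hi; simp [hσ, ha]
      · simp [hσ, hi]
    have hσL : LipT σ := by
      intro i
      by_cases hi : i ∈ s
      · simpa [hσ, hi] using (hπ.smul c) i
      · simpa [hσ, hi] using hπ i
    rw [h1, hT.smul_coord f σ a (c a) (hf.isTestPair hσL), ih, Finset.prod_insert ha, mul_assoc]

theorem T_scale (hT : IsCurrent T) {f : X → ℝ} {π : Fin k → X → ℝ} (hf : BL f)
    (hπ : LipT π) (c : Fin k → ℝ) :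
    T f (fun i => c i • π i) = (∏ i, c i) * T f π := by
  simpa using T_scale_finset hT hf hπ c Finset.univ

theorem T_zero_of_const (hT : IsCurrent T) {f : X → ℝ} {π : Fin k → X → ℝ} (hf : BL f)
    (hπ : LipT π) {i : Fin k} {c : ℝ} (h : ∀ x, π i x = c) : T f π = 0 :=
  hT.locality f π (hf.isTestPair hπ) ⟨i, Set.univ, c, isOpen_univ, Set.subset_univ _,
    fun x _ => h x⟩

theorem Controls.mono {μ ν : Measure X} (hμ : Controls T μ) (h : μ ≤ ν) [IsFiniteMeasure ν]
    [BorelSpace X] : Controls T ν := by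
  intro f π hfπ hπ
  refine (hμ f π hfπ hπ).trans ?_
  have hf : BL f := (isTestPair_iff.1 hfπ).1
  exact integral_mono_measure h (Eventually.of_forall fun x => abs_nonneg _)
    (hf.abs.integrable ν)

/-- the control inequality with arbitrary Lipschitz constants -/
theorem abs_le_of_controls [BorelSpace X] (hT : IsCurrent T) {μ : Measure X} (hμ : Controls T μ)
    {f : X → ℝ} {π : Fin k → X → ℝ} (hf : BL f) {K : Fin k → ℝ≥0}
    (hK : ∀ i, LipschitzWith (K i) (π i)) :
    |T f π| ≤ (∏ i, (K i : ℝ)) * ∫ x, |f x| ∂μ := by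
  have hI : 0 ≤ ∫ x, |f x| ∂μ := integral_nonneg fun x => abs_nonneg _
  have hπ : LipT π := fun i => ⟨_, hK i⟩
  by_cases h0 : ∃ i, K i = 0
  · obtain ⟨i, hi⟩ := h0
    have hc : T f π = 0 := by
      rcases isEmpty_or_nonempty X with hX | ⟨⟨x0⟩⟩
      · exact hT.locality f π (hf.isTestPair hπ) ⟨i, Set.univ, 0, isOpen_univ, Set.subset_univ _,
          fun x _ => (hX.false x).elim⟩
      · apply T_zero_of_const hT hf hπ (i := i) (c := π i x0)
        intro x
        have := (hK i).dist_le_mul x x0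
        rw [hi] at this
        simp only [NNReal.coe_zero, zero_mul] at this
        exact dist_le_zero.1 this
    rw [hc, abs_zero]
    exact mul_nonneg (Finset.prod_nonneg fun i _ => (K i).coe_nonneg) hI
  · push Not at h0
    have hpos : ∀ i, (0 : ℝ) < K i := fun i => lt_of_le_of_ne (K i).coe_nonneg
      (fun h => h0 i (by exact_mod_cast h.symm))
    set σ : Fin k → X → ℝ := fun i => (K i : ℝ)⁻¹ • π i with hσ
    have h1 : π = fun i => (K i : ℝ) • σ i := by
      funext i x
      simp [hσ, (hpos i).ne']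
    have hσ1 : ∀ i, LipschitzWith 1 (σ i) := by
      intro i
      apply LipschitzWith.of_dist_le_mul
      intro x y
      have := (hK i).dist_le_mul x y
      simp only [hσ, Pi.smul_apply, smul_eq_mul, Real.dist_eq, NNReal.coe_one, one_mul] at *
      rw [← mul_sub, abs_mul, abs_of_pos (inv_pos.2 (hpos i)), inv_mul_le_iff₀ (hpos i)]
      exact this
    have hσL : LipT σ := fun i => ⟨1, hσ1 i⟩
    have h2 : T f π = (∏ i, (K i : ℝ)) * T f σ := by
      conv_lhs => rw [h1]
      exact T_scale hT hf hσL _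
    rw [h2, abs_mul, abs_of_nonneg (Finset.prod_nonneg fun i _ => (K i).coe_nonneg)]
    exact mul_le_mul_of_nonneg_left (hμ f σ (hf.isTestPair hσL) hσ1)
      (Finset.prod_nonneg fun i _ => (K i).coe_nonneg)

end basics

section density

variable [BorelSpace X]

/-- well-definedness mod null sets -/
theorem L_eq_of_ae {μ : Measure X} [IsFiniteMeasure μ] {L : (X → ℝ) → ℝ}
    (hadd : ∀ f g, BL f → BL g → L (f + g) = L f + L g)
    (hsmul : ∀ (c : ℝ) f, BL f → L (c • f) = c * L f)
    {C : ℝ} (hb : ∀ f, BL f → |L f| ≤ C * ∫ x, |f x| ∂μ) {f g : X → ℝ} (hf : BL f) (hg : BL g)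
    (h : f =ᵐ[μ] g) : L f = L g := by
  have h1 : L (f - g) = L f - L g := by
    have : f - g = f + (-1 : ℝ) • g := by funext x; simp [sub_eq_add_neg]
    rw [this, hadd f _ hf (hg.smul _), hsmul (-1) g hg]; ring
  have h2 : |L (f - g)| ≤ 0 := by
    refine (hb _ (hf.sub hg)).trans ?_
    have : ∫ x, |(f - g) x| ∂μ = 0 := by
      rw [integral_eq_zero_iff_of_nonneg_ae (Eventually.of_forall fun x => abs_nonneg _)
        ((hf.sub hg).abs.integrable μ)]
      filter_upwards [h] with x hx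
      simp [hx]
    rw [this, mul_zero]
  rw [h1] at h2
  linarith [abs_eq_zero.1 (le_antisymm h2 (abs_nonneg _))]

/-- Riesz representation on bounded Lipschitz functions -/
theorem exists_density (μ : Measure X) [IsFiniteMeasure μ] (L : (X → ℝ) → ℝ)
    (hadd : ∀ f g, BL f → BL g → L (f + g) = L f + L g)
    (hsmul : ∀ (c : ℝ) f, BL f → L (c • f) = c * L f)
    {C : ℝ} (hC : 0 ≤ C) (hb : ∀ f, BL f → |L f| ≤ C * ∫ x, |f x| ∂μ) :
    ∃ g : X → ℝ, Measurable g ∧ (∀ x, |g x| ≤ C) ∧ ∀ f, BL f → L f = ∫ x, f x * g x ∂μ := by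
  -- the subspace of classes of bounded Lipschitz functions
  let W : Submodule ℝ (Lp ℝ 2 μ) :=
    { carrier := {u | ∃ f : X → ℝ, BL f ∧ u =ᵐ[μ] f}
      add_mem' := by
        rintro u v ⟨f, hf, hu⟩ ⟨g, hg, hv⟩
        refine ⟨f + g, hf.add hg, ?_⟩
        filter_upwards [Lp.coeFn_add u v, hu, hv] with x h1 h2 h3
        exact h1.trans (by rw [Pi.add_apply, h2, h3]; rfl)
      zero_mem' := ⟨0, BL.zero, Lp.coeFn_zero _ _ _⟩
      smul_mem' := by
        rintro c u ⟨f, hf, hu⟩
        refine ⟨c • f, hf.smul c, ?_⟩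
        filter_upwards [Lp.coeFn_smul c u, hu] with x h1 h2
        exact h1.trans (by rw [Pi.smul_apply, h2]; rfl) }
  have hW : ∀ u : W, ∃ f : X → ℝ, BL f ∧ (u : Lp ℝ 2 μ) =ᵐ[μ] f := fun u => u.2
  choose φ hφ1 hφ2 using hW
  let Llin : W →ₗ[ℝ] ℝ :=
    { toFun := fun u => L (φ u)
      map_add' := by
        intro u v
        rw [← hadd _ _ (hφ1 u) (hφ1 v)]
        apply L_eq_of_ae hadd hsmul hb (hφ1 _) ((hφ1 _).add (hφ1 _))
        filter_upwards [hφ2 (u + v), hφ2 u, hφ2 v, Lp.coeFn_add (u : Lp ℝ 2 μ) (v : Lp ℝ 2 μ)]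
          with x h1 h2 h3 h4
        rw [← h1, Submodule.coe_add, h4]
        simp [h2, h3]
      map_smul' := by
        intro c u
        simp only [RingHom.id_apply, smul_eq_mul]
        rw [← hsmul _ _ (hφ1 u)]
        apply L_eq_of_ae hadd hsmul hb (hφ1 _) ((hφ1 _).smul c)
        filter_upwards [hφ2 (c • u), hφ2 u, Lp.coeFn_smul c (u : Lp ℝ 2 μ)] with x h1 h2 h3
        rw [← h1, Submodule.coe_smul, h3]
        simp [h2] }
  have hnorm : ∀ u : Lp ℝ 2 μ, ∫ x, |u x| ∂μ ≤ (μ.real Set.univ) ^ (1 / 2 : ℝ) * ‖u‖ := by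
    intro u
    have h1 : eLpNorm u 1 μ ≤ eLpNorm u 2 μ * μ Set.univ ^ (1 / (1 : ℝ≥0∞).toReal - 1 / (2 : ℝ≥0∞).toReal) :=
      eLpNorm_le_eLpNorm_mul_rpow_measure_univ (by norm_num) (Lp.aestronglyMeasurable u)
    have h2 : ∫ x, |u x| ∂μ = (eLpNorm u 1 μ).toReal := by
      rw [eLpNorm_one_eq_lintegral_enorm, ← integral_norm_eq_lintegral_enorm
        (Lp.aestronglyMeasurable u)]
      rfl
    rw [h2, Lp.norm_def]
    have h3 : (1 / (1 : ℝ≥0∞).toReal - 1 / (2 : ℝ≥0∞).toReal) = (1 / 2 : ℝ) := by norm_num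
    rw [h3] at h1
    have h4 : eLpNorm u 2 μ * μ Set.univ ^ (1 / 2 : ℝ) ≠ ∞ := by
      apply ENNReal.mul_ne_top (Lp.eLpNorm_ne_top u)
      exact ENNReal.rpow_ne_top_of_nonneg (by norm_num) (measure_ne_top _ _)
    have h5 := ENNReal.toReal_mono h4 h1
    rw [ENNReal.toReal_mul, ← ENNReal.toReal_rpow] at h5
    rw [mul_comm]
    exact h5
  have hLb : ∀ u : W, ‖Llin u‖ ≤ (C * (μ.real Set.univ) ^ (1 / 2 : ℝ)) * ‖u‖ := by
    intro u
    have h1 : |L (φ u)| ≤ C * ∫ x, |φ u x| ∂μ := hb _ (hφ1 u)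
    have h2 : ∫ x, |φ u x| ∂μ = ∫ x, |(u : Lp ℝ 2 μ) x| ∂μ := by
      apply integral_congr_ae
      filter_upwards [hφ2 u] with x hx
      rw [hx]
    rw [h2] at h1
    calc ‖Llin u‖ = |L (φ u)| := rfl
      _ ≤ C * ∫ x, |(u : Lp ℝ 2 μ) x| ∂μ := h1
      _ ≤ C * ((μ.real Set.univ) ^ (1 / 2 : ℝ) * ‖(u : Lp ℝ 2 μ)‖) :=
        mul_le_mul_of_nonneg_left (hnorm _) hC
      _ = _ := by rw [mul_assoc]; rfl
  let Lc : StrongDual ℝ W := Llin.mkContinuous _ hLb
  obtain ⟨G, hG, -⟩ := exists_extension_norm_eq W Lc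
  let g0 : Lp ℝ 2 μ := (InnerProductSpace.toDual ℝ (Lp ℝ 2 μ)).symm G
  have hg0 : ∀ u : Lp ℝ 2 μ, G u = ∫ x, u x * g0 x ∂μ := by
    intro u
    have h1 : inner ℝ g0 u = G u := InnerProductSpace.toDual_symm_apply
    rw [← h1, L2.inner_def]
    rfl
  have hg0i : Integrable g0 μ := (Lp.memLp g0).integrable (by norm_num)
  have hrep : ∀ f, BL f → L f = ∫ x, f x * g0 x ∂μ := by
    intro f hf
    let u : Lp ℝ 2 μ := (hf.memLp 2 μ).toLp f
    have hu : u =ᵐ[μ] f := (hf.memLp 2 μ).coeFn_toLp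
    have huW : u ∈ W := ⟨f, hf, hu⟩
    have h1 : G u = L f := by
      have := hG ⟨u, huW⟩
      rw [this]
      change L (φ ⟨u, huW⟩) = L f
      apply L_eq_of_ae hadd hsmul hb (hφ1 _) hf
      filter_upwards [hφ2 ⟨u, huW⟩, hu] with x h1 h2
      rw [← h1, h2]
    rw [← h1, hg0]
    apply integral_congr_ae
    filter_upwards [hu] with x hx
    rw [hx]
  -- set integrals of g0
  have hset : ∀ A : Set X, MeasurableSet A → |∫ x in A, g0 x ∂μ| ≤ C * μ.real A := by
    intro A hA
    have hmem : MemLp (A.indicator (fun _ => (1 : ℝ))) 2 μ :=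
      MemLp.indicator hA (memLp_const 1)
    have h : ∀ n : ℕ, ∃ g : X → ℝ, eLpNorm (A.indicator (fun _ => (1 : ℝ)) - g) 2 μ
        ≤ ENNReal.ofReal (1 / ((n : ℝ) + 1)) ∧ BL g :=
      fun n => exists_BL_eLpNorm_sub_le μ (by simp) hmem (by
        simp only [ne_eq, ENNReal.ofReal_eq_zero, not_le]; positivity)
    choose f hf1 hf2 using h
    -- L² convergence as Lp elements
    let U : Lp ℝ 2 μ := hmem.toLp _
    let u : ℕ → Lp ℝ 2 μ := fun n => ((hf2 n).memLp 2 μ).toLp (f n)
    have hUu : ∀ n, ‖U - u n‖ ≤ 1 / ((n : ℝ) + 1) := by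
      intro n
      rw [← MemLp.toLp_sub, Lp.norm_toLp]
      exact ENNReal.toReal_le_of_le_ofReal (by positivity) (hf1 n)
    have htend : Tendsto (fun n => ‖U - u n‖) atTop (𝓝 0) :=
      squeeze_zero (fun n => norm_nonneg _) hUu tendsto_one_div_add_atTop_nhds_zero_nat
    have hu : Tendsto u atTop (𝓝 U) := by
      rw [tendsto_iff_norm_sub_tendsto_zero]
      refine htend.congr fun n => ?_
      rw [norm_sub_rev]
    have hGu : Tendsto (fun n => G (u n)) atTop (𝓝 (G U)) := (G.continuous.tendsto U).comp hu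
    have hGU : G U = ∫ x in A, g0 x ∂μ := by
      rw [hg0, ← integral_indicator hA]
      apply integral_congr_ae
      filter_upwards [hmem.coeFn_toLp] with x hx
      rw [hx]
      by_cases hxA : x ∈ A <;> simp [hxA]
    have hGun : ∀ n, |G (u n)| ≤ C * (μ.real A + (μ.real Set.univ) ^ (1 / 2 : ℝ) * ‖U - u n‖) := by
      intro n
      have h1 : G (u n) = L (f n) := by
        rw [hrep _ (hf2 n), hg0]
        apply integral_congr_ae
        filter_upwards [((hf2 n).memLp 2 μ).coeFn_toLp] with x hx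
        rw [hx]
      rw [h1]
      refine (hb _ (hf2 n)).trans (mul_le_mul_of_nonneg_left ?_ hC)
      have h2 : ∫ x, |f n x| ∂μ ≤ ∫ x, (A.indicator (fun _ => (1 : ℝ)) x + |(U - u n : Lp ℝ 2 μ) x|) ∂μ := by
        apply integral_mono_ae ((hf2 n).abs.integrable μ)
        · apply Integrable.add
          · exact (integrable_const (1 : ℝ)).indicator hA
          · exact ((Lp.memLp (U - u n)).integrable (by norm_num)).abs
        · filter_upwards [Lp.coeFn_sub U (u n), hmem.coeFn_toLp,
            ((hf2 n).memLp 2 μ).coeFn_toLp] with x h1 h2 h3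
          have h2' : U x = A.indicator (fun _ => (1 : ℝ)) x := h2
          have h3' : u n x = f n x := h3
          change |f n x| ≤ A.indicator (fun _ => (1 : ℝ)) x + |(U - u n : Lp ℝ 2 μ) x|
          rw [h1, Pi.sub_apply, h2', h3']
          have h5 : (0 : ℝ) ≤ A.indicator (fun _ => (1 : ℝ)) x :=
            Set.indicator_nonneg (fun _ _ => zero_le_one) x
          have h6 : f n x = A.indicator (fun _ => (1 : ℝ)) x - (A.indicator (fun _ => (1 : ℝ)) x - f n x) := by ring
          calc |f n x| = |A.indicator (fun _ => (1 : ℝ)) x - (A.indicator (fun _ => (1 : ℝ)) x - f n x)| := by rw [← h6]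
            _ ≤ |A.indicator (fun _ => (1 : ℝ)) x| + |A.indicator (fun _ => (1 : ℝ)) x - f n x| := abs_sub _ _
            _ = _ := by rw [abs_of_nonneg h5]
      refine h2.trans ?_
      rw [integral_add ((integrable_const (1 : ℝ)).indicator hA)
        ((Lp.memLp (U - u n)).integrable (by norm_num)).abs]
      gcongr
      · rw [integral_indicator hA]; simp
      · exact hnorm _
    have hlim : Tendsto (fun n => C * (μ.real A + (μ.real Set.univ) ^ (1 / 2 : ℝ) * ‖U - u n‖)) atTop
        (𝓝 (C * (μ.real A + (μ.real Set.univ) ^ (1 / 2 : ℝ) * 0))) :=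
      (((htend.const_mul _).const_add _).const_mul _)
    rw [mul_zero, add_zero] at hlim
    rw [← hGU]
    exact le_of_tendsto_of_tendsto' hGu.abs hlim hGun
  have hle : ∀ᵐ x ∂μ, g0 x ≤ C := by
    apply ae_le_of_forall_setIntegral_le hg0i (integrable_const C)
    intro A hA _
    have := (abs_le.1 (hset A hA)).2
    refine this.trans (le_of_eq ?_)
    simp [mul_comm, Measure.real]
  have hge : ∀ᵐ x ∂μ, -C ≤ g0 x := by
    apply ae_le_of_forall_setIntegral_le (integrable_const (-C)) hg0i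
    intro A hA _
    have := (abs_le.1 (hset A hA)).1
    refine le_trans (le_of_eq ?_) this
    simp [mul_comm, Measure.real]
  -- measurable representative
  have hsm : AEStronglyMeasurable g0 μ := Lp.aestronglyMeasurable g0
  refine ⟨fun x => max (-C) (min C (hsm.mk g0 x)), ?_, fun x => abs_clamp_le hC, fun f hf => ?_⟩
  · exact measurable_const.max (measurable_const.min hsm.stronglyMeasurable_mk.measurable)
  · rw [hrep f hf]
    apply integral_congr_ae
    filter_upwards [hsm.ae_eq_mk, hle, hge] with x h1 h2 h3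
    rw [← h1, clamp_eq (abs_le.2 ⟨h3, h2⟩)]

end density

end Crest.Agent.R241.G1
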