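import Crest.Agent.R241.Targets
import Crest.Agent.R241.B11Abs
import Crest.Agent.R241.G1b

/-!
# R241, block B11: FILL and FILLEQ for cycles of dimension `m + 1 ≥ 2`

`fillTarget`, `fillEqTarget`: from ADD, CLOSURE, FVAR, CONE and Theorem A.
-/

set_option autoImplicit false
set_option linter.unusedSectionVars false

open MeasureTheory Filter Topology Set
open scoped ENNReal NNReal

namespace Crest.Agent.R241.B11

open Crest.GeometryTopology.MetricCurrent
open Crest.Agent.R241.EModel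

universe u

variable {X : Type u} [MetricSpace X] [MeasurableSpace X] [BorelSpace X]

/-- filling volume in `K` -/
noncomputable def fillvol (K : Set X) {m : ℕ} (T : Functional X (m + 1)) : ℝ :=
  sInf {r : ℝ | ∃ S : Functional X (m + 2), IsInt K S ∧ bd S = T ∧ r = mass S}

section
variable {K : Set X} {m : ℕ} (hadd : AddTarget X K)

include hadd

theorem bddBelow_fill (T : Functional X (m + 1)) :
    BddBelow {r : ℝ | ∃ S : Functional X (m + 2), IsInt K S ∧ bd S = T ∧ r = mass S} :=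
  ⟨0, by rintro _ ⟨S, _, _, rfl⟩; exact hadd.mass_nonneg _ S⟩

theorem fillvol_nonneg (T : Functional X (m + 1)) : 0 ≤ fillvol K T :=
  Real.sInf_nonneg (by rintro _ ⟨S, _, _, rfl⟩; exact hadd.mass_nonneg _ S)

theorem fillvol_le {S : Functional X (m + 2)} (hS : IsInt K S) : fillvol K (bd S) ≤ mass S :=
  csInf_le (bddBelow_fill hadd _) ⟨S, hS, rfl, rfl⟩

omit hadd [BorelSpace X] in
theorem exists_fill_lt {S : Functional X (m + 2)} (hS : IsInt K S) {c : ℝ}
    (hc : fillvol K (bd S) < c) :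
    ∃ S' : Functional X (m + 2), IsInt K S' ∧ bd S' = bd S ∧ mass S' < c := by
  have hne : {r : ℝ | ∃ S' : Functional X (m + 2), IsInt K S' ∧ bd S' = bd S ∧
      r = mass S'}.Nonempty := ⟨_, S, hS, rfl, rfl⟩
  obtain ⟨_, ⟨S', h1, h2, rfl⟩, h3⟩ := exists_lt_of_csInf_lt hne hc
  exact ⟨S', h1, h2, h3⟩

theorem isInt_sub {S S' : Functional X (m + 2)} (hS : IsInt K S) (hS' : IsInt K S') :
    IsInt K (S - S') := by
  rw [sub_eq_add_neg]; exact hadd.add _ _ _ hS (hadd.neg _ _ hS')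

theorem bd_sub' (S S' : Functional X (m + 2)) : bd (S - S') = bd S - bd S' := by
  rw [sub_eq_add_neg, hadd.bd_add, hadd.bd_neg, ← sub_eq_add_neg]

theorem bd_zero' : bd (0 : Functional X (m + 2)) = 0 := by
  have h := hadd.bd_add _ (0 : Functional X (m + 2)) 0
  rw [add_zero] at h
  exact left_eq_add.1 h

theorem mass_sub_comm (S S' : Functional X (m + 2)) : mass (S - S') = mass (S' - S) := by
  rw [← hadd.mass_neg _ (S - S'), neg_sub]

theorem mass_tri {a b c : Functional X (m + 2)} (ha : IsInt K a) (hb : IsInt K b)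
    (hc : IsInt K c) : mass (c - a) ≤ mass (b - a) + mass (c - b) := by
  have h := hadd.mass_add _ (b - a) (c - b) (isInt_sub hadd hb ha) (isInt_sub hadd hc hb)
  rwa [show b - a + (c - b) = c - a by abel] at h

theorem fillvol_lip {a b : Functional X (m + 2)} (ha : IsInt K a) (hb : IsInt K b) :
    fillvol K (bd a) ≤ fillvol K (bd b) + mass (b - a) := by
  apply le_of_forall_pos_le_add
  intro δ hδ
  obtain ⟨S', h1, h2, h3⟩ := exists_fill_lt hb (c := fillvol K (bd b) + δ) (by linarith)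
  have h4 := isInt_sub hadd ha hb
  have h5 : IsInt K (S' + (a - b)) := hadd.add _ _ _ h1 h4
  have h6 : bd (S' + (a - b)) = bd a := by
    rw [hadd.bd_add, bd_sub' hadd, h2]; abel
  have h7 := fillvol_le hadd h5
  rw [h6] at h7
  have h8 := hadd.mass_add _ _ _ h1 h4
  rw [mass_sub_comm hadd a b] at h8
  linarith

theorem fillvol_eq_zero {a : Functional X (m + 2)} (ha : IsInt K a) (h : mass (bd a) = 0) :
    fillvol K (bd a) = 0 := by
  have h1 : bd a = 0 := hadd.eq_zero _ _ (hadd.isCyc_bd _ a ha).int h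
  have h2 := fillvol_le hadd (hadd.zero (m + 1))
  rw [bd_zero' hadd, hadd.mass_zero] at h2
  rw [h1]
  exact le_antisymm h2 (fillvol_nonneg hadd _)

end

section
variable {k : ℝ} {K : Set X} [CompactSpace K] {m : ℕ}

/-- The variational system of integral currents in `K`. -/
noncomputable def sys (hadd : AddTarget X K) (hclo : ClosureTarget X K m)
    (hfv : FVarTarget X k K m) : VarSys (m + 1) k where
  S := {S : Functional X (m + 2) // IsInt K S}
  T := {τ : K × (K → ℝ) // A.Lip τ.2 ∧ ∀ y, 0 ≤ τ.2 y}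
  d a b := mass (b.1 - a.1)
  A a := mass (bd a.1)
  V a := fillvol K (bd a.1)
  L a τ := fvar (hfv (bd a.1) (hadd.isCyc_bd m a.1 a.2)).choose τ.1.1 τ.1.2
  Q a τ := ∫ y, τ.1.2 y * (hfv (bd a.1) (hadd.isCyc_bd m a.1 a.2)).choose.q τ.1.1 y
    ∂(hfv (bd a.1) (hadd.isCyc_bd m a.1 a.2)).choose.τ
  d_self a := by rw [sub_self]; exact hadd.mass_zero _
  d_nonneg a b := hadd.mass_nonneg _ _
  d_tri a b c := mass_tri hadd a.2 b.2 c.2
  A_nonneg a := hadd.mass_nonneg _ _
  V_nonneg a := fillvol_nonneg hadd _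
  V_le a b := fillvol_lip hadd a.2 b.2
  V_le' a b := by
    have := fillvol_lip hadd b.2 a.2
    rwa [mass_sub_comm hadd] at this
  complete s hsum hC := by
    obtain ⟨C, hC⟩ := hC
    have hsumeq : ∀ j, ∑ i ∈ Finset.range j, ((s (i + 1)).1 - (s i).1) = (s j).1 - (s 0).1 :=
      fun j => Finset.sum_range_sub (fun i => (s i).1) j
    have hbd : ∀ j, bd (s 0).1 + bd (∑ i ∈ Finset.range j, ((s (i + 1)).1 - (s i).1)) =
        bd (s j).1 := by
      intro j; rw [hsumeq, bd_sub' hadd]; abel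
    obtain ⟨S', h1, -, h3, h4⟩ := hclo (bd (s 0).1) (fun j => (s (j + 1)).1 - (s j).1) C
      (hadd.isCyc_bd m _ (s 0).2) (fun j => isInt_sub hadd (s (j + 1)).2 (s j).2) hsum
      (fun j => by rw [hbd]; exact hC j)
    refine ⟨⟨(s 0).1 + S', hadd.add _ _ _ (s 0).2 h1⟩, ?_, ?_⟩
    · have hle : ∀ j, mass ((s 0).1 + S' - (s j).1) ≤
          ∑' i, mass ((s (i + j + 1)).1 - (s (i + j)).1) := by
        intro j
        have := h3 j
        rw [hsumeq] at this
        rwa [show S' - ((s j).1 - (s 0).1) = (s 0).1 + S' - (s j).1 by abel] at this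
      exact squeeze_zero (fun j => hadd.mass_nonneg _ _) hle
        (tendsto_sum_nat_add (fun i => mass ((s (i + 1)).1 - (s i).1)))
    · intro c hc
      show mass (bd ((s 0).1 + S')) ≤ c
      rw [hadd.bd_add]
      apply h4
      apply Eventually.frequently
      filter_upwards [hc] with j hj
      rw [hbd]; exact hj
  V_zero a h := fillvol_eq_zero hadd a.2 h
  var a τ ε hε := by
    have hP := (hfv (bd a.1) (hadd.isCyc_bd m a.1 a.2)).choose_spec
    apply Eventually.frequently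
    filter_upwards [hP.2.2 τ.1.1 τ.1.2 τ.2.1 τ.2.2 ε hε] with t ht
    obtain ⟨R, hR, hR1, hR2⟩ := ht
    refine ⟨⟨a.1 + R, hadd.add _ _ _ a.2 hR⟩, ?_, ?_⟩
    · show mass (a.1 + R - a.1) ≤ _
      rw [add_sub_cancel_left]; exact hR1
    · show mass (bd (a.1 + R)) ≤ _
      rw [hadd.bd_add]; exact hR2
  Q_nonneg a τ := integral_nonneg fun y => mul_nonneg (τ.2.2 y) (Real.sqrt_nonneg _)

theorem thmA (hk : 0 ≤ k) (hm : 1 ≤ m) (hadd : AddTarget X K) (hclo : ClosureTarget X K m)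
    (hfv : FVarTarget X k K m) (hcat : A.CatD k K) (hA : ∀ h, A.TheoremA (m + 1) k h K) :
    (sys hadd hclo hfv).ThmA := by
  intro s h hkh hpos hL
  set P := (hfv (bd s.1) (hadd.isCyc_bd m s.1 s.2)).choose with hPdef
  have hP := (hfv (bd s.1) (hadd.isCyc_bd m s.1 s.2)).choose_spec
  have hmass : mass (bd s.1) = P.τ.real univ := hP.2.1
  have hpos' : 0 < mass (bd s.1) := hpos
  have hτ : P.τ ≠ 0 := by
    intro h0
    rw [hmass, h0] at hpos'
    simp at hpos'
  have hFV : P.FV h := fun x f hf hf0 => hL ⟨(x, f), hf, hf0⟩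
  have := hA h (by omega) hk hkh hcat P hτ hFV
  show A.sphArea (m + 1) ≤ (h ^ 2 - k ^ 2) ^ (((m + 1 : ℕ) : ℝ) / 2) * mass (bd s.1)
  rw [hmass]
  exact this

/-- **B11, FILL**. -/
theorem fillTarget (hk : 0 ≤ k) (hm : 1 ≤ m) (hadd : AddTarget X K)
    (hclo : ClosureTarget X K m) (hfv : FVarTarget X k K m) (hcone : ConeTarget X K m)
    (hcat : A.CatD k K) (hA : ∀ h, A.TheoremA (m + 1) k h K) (hne : K.Nonempty) :
    FillTarget X k K m := by
  intro T r hT hr hmass ε hε
  obtain ⟨x, hx⟩ := hne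
  have hKc : IsCompact K := isCompact_iff_compactSpace.2 inferInstance
  obtain ⟨R, hR⟩ := hKc.isBounded.subset_closedBall x
  have hR' : K ∩ Metric.closedBall x (max R 0) = K :=
    inter_eq_left.2 (hR.trans (Metric.closedBall_subset_closedBall (le_max_left _ _)))
  obtain ⟨S₀, hS₀, hbd, -⟩ := hcone T x (max R 0) hx (le_max_right _ _) (by rw [hR']; exact hT)
  have hmk : m + 1 ≠ 0 := by omega
  have h1 := (sys hadd hclo hfv).fill' hmk hk (thmA hk hm hadd hclo hfv hcat hA) ⟨S₀, hS₀⟩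
  have h2 : fillvol K (bd S₀) ≤ Vk (m + 1) k (mass (bd S₀)) := h1
  have h3 : Vk (m + 1) k (mass (bd S₀)) ≤ modelV (m + 1) k r := by
    rw [← Vk_modelA hmk hk hr]
    rw [hbd]
    exact (strictMonoOn_Vk hmk hk).monotoneOn (mem_Ici.2 (hadd.mass_nonneg _ _))
      (mem_Ici.2 (modelA_nonneg hr)) hmass
  obtain ⟨S', h4, h5, h6⟩ := exists_fill_lt hS₀ (c := modelV (m + 1) k r + ε) (by linarith)
  exact ⟨S', h4, h5.trans hbd, h6.le⟩

omit [CompactSpace K] in
theorem isSupportedIn_of_controls {n : ℕ} {T : Functional X n} (hT : IsCurrent T)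
    {μ : Measure X} (hμ : Controls T μ) {B : Set X} (hB : ∀ᵐ y ∂μ, y ∈ B) :
    IsSupportedIn B T := by
  intro f π hfπ hf
  choose L hL using hfπ.2.2
  have h1 := G1.abs_le_of_controls hT hμ (f := f) (π := π) ⟨hfπ.1, hfπ.2.1⟩ hL
  have h2 : ∫ x, |f x| ∂μ = 0 := by
    rw [integral_eq_zero_of_ae]
    filter_upwards [hB] with y hy
    simp [hf y hy]
  rw [h2, mul_zero] at h1
  exact abs_nonpos_iff.1 h1

/-- **B11, FILLEQ**. -/
theorem fillEqTarget (hm : 1 ≤ m) (hadd : AddTarget X K)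
    (hclo : ClosureTarget X K m) (hfv : FVarTarget X 0 K m) (hcone : ConeTarget X K m)
    (hcat : A.CatD 0 K) (hA : ∀ h, A.TheoremA (m + 1) 0 h K)
    (hAeq : ∀ h, A.TheoremAeq (m + 1) h K) (hne : K.Nonempty) :
    FillEqTarget X K m := by
  intro T r hT hr hmass hext
  obtain ⟨x, hx⟩ := hne
  have hKc : IsCompact K := isCompact_iff_compactSpace.2 inferInstance
  obtain ⟨R, hR⟩ := hKc.isBounded.subset_closedBall x
  have hR' : K ∩ Metric.closedBall x (max R 0) = K :=
    inter_eq_left.2 (hR.trans (Metric.closedBall_subset_closedBall (le_max_left _ _)))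
  obtain ⟨S₀, hS₀, hbd, -⟩ := hcone T x (max R 0) hx (le_max_right _ _) (by rw [hR']; exact hT)
  subst hbd
  have hmk : m + 1 ≠ 0 := by omega
  have hle := le_refl (0 : ℝ)
  have hthm := thmA hle hm hadd hclo hfv hcat hA
  have h1 : fillvol K (bd S₀) ≤ Vk (m + 1) 0 (mass (bd S₀)) :=
    (sys hadd hclo hfv).fill' hmk hle hthm ⟨S₀, hS₀⟩
  rw [hmass, Vk_modelA hmk hle hr.le] at h1
  have h2 : modelV (m + 1) 0 r ≤ fillvol K (bd S₀) := by
    have hne' : {r : ℝ | ∃ S' : Functional X (m + 2), IsInt K S' ∧ bd S' = bd S₀ ∧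
        r = mass S'}.Nonempty := ⟨_, S₀, hS₀, rfl, rfl⟩
    apply le_csInf hne'
    rintro _ ⟨S', hS', hb, rfl⟩
    exact hext S' hS' hb
  have hV : fillvol K (bd S₀) = modelV (m + 1) 0 r := le_antisymm h1 h2
  have hVpos : 0 < fillvol K (bd S₀) := by rw [hV]; exact modelV_pos hr
  have hAk : mass (bd S₀) ≤ Ak (m + 1) 0 (fillvol K (bd S₀)) := by
    rw [hV, Ak_modelV hmk hle hr.le, hmass]
  set P := (hfv (bd S₀) (hadd.isCyc_bd m S₀ hS₀)).choose with hPdef
  have hP := (hfv (bd S₀) (hadd.isCyc_bd m S₀ hS₀)).choose_spec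
  have hhk : hk (m + 1) 0 (fillvol K (bd S₀)) = 1 / r := by
    rw [hV, hk, radV_modelV hmk hle hr.le]
    simp [sn]
  have hFV : P.FV (1 / r) := by
    intro x f hf hf0
    have := (sys hadd hclo hfv).fv_of_eq hmk hle hthm (s := ⟨S₀, hS₀⟩) hVpos hAk
      ⟨(x, f), hf, hf0⟩
    have e : hk (m + 1) 0 ((sys hadd hclo hfv).V ⟨S₀, hS₀⟩) = 1 / r := hhk
    rw [e] at this
    exact this
  have hmτ : mass (bd S₀) = P.τ.real univ := hP.2.1
  have hApos : 0 < modelA (m + 1) 0 r := modelA_pos hr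
  have hτ : P.τ ≠ 0 := by
    intro h0
    rw [hmass, h0] at hmτ
    simp at hmτ
    linarith
  have hmodel : ((1 / r) ^ 2) ^ (((m + 1 : ℕ) : ℝ) / 2) * P.τ.real univ = A.sphArea (m + 1) := by
    rw [← hmτ, hmass]
    have e1 : ((1 / r) ^ 2) ^ (((m + 1 : ℕ) : ℝ) / 2) = (1 / r) ^ (m + 1) := by
      rw [← Real.rpow_natCast (1 / r) 2, ← Real.rpow_mul (by positivity),
        ← Real.rpow_natCast (1 / r) (m + 1)]
      congr 1
      push_cast
      ring
    rw [e1]
    have e2 : modelA (m + 1) 0 r = sphArea (m + 1) * r ^ (m + 1) := by simp [modelA, sn]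
    rw [e2]
    have e3 : A.sphArea (m + 1) = sphArea (m + 1) := rfl
    rw [e3, one_div, inv_pow]
    field_simp
  obtain ⟨c, hc⟩ := hAeq (1 / r) (by omega) (by positivity) hcat P hτ hFV hmodel
  refine ⟨c.1, c.2, ?_⟩
  apply isSupportedIn_of_controls (hadd.isCyc_bd m S₀ hS₀).int.cur hP.1
  rw [ae_map_iff measurable_subtype_coe.aemeasurable]
  · filter_upwards [hc] with y hy
    refine ⟨y.2, ?_⟩
    rw [Metric.mem_sphere, dist_comm]
    have h3 : dist c y ^ 2 / 2 = r ^ 2 / 2 := by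
      simp only [A.zd, A.zk, if_true] at hy
      rw [hy]
      field_simp
    have h4 : dist c y ^ 2 = r ^ 2 := by linarith
    have h5 := (pow_left_inj₀ dist_nonneg hr.le two_ne_zero).1 h4
    exact h5
  · exact hKc.measurableSet.inter Metric.isClosed_sphere.measurableSet

end

end Crest.Agent.R241.B11
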