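import Mathlib

/-!
# R241, block B11: Ekeland's variational principle

Stated for a set with a "distance function" `d` which only satisfies the triangle inequality; the
completeness and lower semicontinuity hypotheses are stated along fast Cauchy sequences.
-/

set_option autoImplicit false

open Filter Topology Set

namespace Crest.Agent.R241.B11

/-- Ekeland's variational principle (weak form). `d` is a nonnegative function with `d x x = 0` and
the triangle inequality. Completeness + lower semicontinuity: every sequence with summable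
consecutive distances and bounded `Ψ`-values has a limit `u` with `Ψ u ≤ c` whenever eventually
`Ψ (x j) ≤ c`. -/
theorem ekeland {α : Type*} (d : α → α → ℝ) (hd0 : ∀ x, d x x = 0) (hdn : ∀ x y, 0 ≤ d x y)
    (hdt : ∀ x y z, d x z ≤ d x y + d y z) (Ψ : α → ℝ) (m₀ : ℝ) (hb : ∀ x, m₀ ≤ Ψ x)
    (hc : ∀ x : ℕ → α, (∀ j, Ψ (x (j + 1)) ≤ Ψ (x j)) →
      Summable (fun j => d (x j) (x (j + 1))) →
      ∃ u, Tendsto (fun j => d (x j) u) atTop (𝓝 0) ∧
        ∀ c, (∀ᶠ j in atTop, Ψ (x j) ≤ c) → Ψ u ≤ c)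
    (ε : ℝ) (hε : 0 < ε) (x₀ : α) :
    ∃ u, Ψ u + ε * d x₀ u ≤ Ψ x₀ ∧ ∀ v, Ψ u ≤ Ψ v + ε * d u v := by
  classical
  -- the sections
  let S : α → Set α := fun x => {y | Ψ y + ε * d x y ≤ Ψ x}
  have hSself : ∀ x, x ∈ S x := fun x => by simp [S, hd0]
  have hStrans : ∀ x y z, y ∈ S x → z ∈ S y → z ∈ S x := by
    intro x y z hy hz
    simp only [S, mem_ofPred_eq] at hy hz ⊢
    nlinarith [hdt x y z]
  have hSb : ∀ x, BddBelow (Ψ '' S x) := fun x => ⟨m₀, by rintro _ ⟨y, -, rfl⟩; exact hb y⟩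
  -- choice of the next point
  have hnext : ∀ (x : α) (j : ℕ), ∃ y ∈ S x, Ψ y ≤ sInf (Ψ '' S x) + (1 / 2 : ℝ) ^ j := by
    intro x j
    have hne : (Ψ '' S x).Nonempty := ⟨_, x, hSself x, rfl⟩
    obtain ⟨_, ⟨y, hy, rfl⟩, hy2⟩ := exists_lt_of_csInf_lt hne
      (show sInf (Ψ '' S x) < sInf (Ψ '' S x) + (1 / 2 : ℝ) ^ j by
        have : (0 : ℝ) < (1 / 2 : ℝ) ^ j := by positivity
        linarith)
    exact ⟨y, hy, hy2.le⟩
  choose nx hnx1 hnx2 using hnext
  let x : ℕ → α := fun j => Nat.rec x₀ (fun j y => nx y j) j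
  have hx0 : x 0 = x₀ := rfl
  have hxs : ∀ j, x (j + 1) = nx (x j) j := fun j => rfl
  have hstep : ∀ j, x (j + 1) ∈ S (x j) := fun j => by rw [hxs]; exact hnx1 _ _
  have hmem : ∀ i j, i ≤ j → x j ∈ S (x i) := by
    intro i j hij
    induction hij with
    | refl => exact hSself _
    | step _ ih => exact hStrans _ _ _ ih (hstep _)
  have hmono : ∀ j, Ψ (x (j + 1)) ≤ Ψ (x j) := by
    intro j
    have h1 := hstep j
    simp only [S, mem_ofPred_eq] at h1
    nlinarith [hdn (x j) (x (j + 1))]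
  have hsum : Summable (fun j => d (x j) (x (j + 1))) := by
    refine summable_of_sum_range_le (c := (Ψ x₀ - m₀) / ε) (fun j => hdn _ _) ?_
    intro N
    have h1 : ∀ N, ε * ∑ j ∈ Finset.range N, d (x j) (x (j + 1)) ≤ Ψ x₀ - Ψ (x N) := by
      intro N
      induction N with
      | zero => simp [hx0]
      | succ N ih =>
        rw [Finset.sum_range_succ, mul_add]
        have h1 := hstep N
        simp only [S, mem_ofPred_eq] at h1
        linarith
    rw [le_div_iff₀ hε, mul_comm]
    linarith [h1 N, hb (x N)]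
  obtain ⟨u, hu1, hu2⟩ := hc x hmono hsum
  -- `u` lies in all sections
  have hanti : ∀ i j, i ≤ j → Ψ (x j) ≤ Ψ (x i) := fun i j hij =>
    antitone_nat_of_succ_le (f := fun j => Ψ (x j)) hmono hij
  have huS : ∀ i, u ∈ S (x i) := by
    intro i
    simp only [S, mem_ofPred_eq]
    -- for every δ > 0, Ψ u ≤ Ψ x_i - ε d(x_i,u) + δ
    refine le_of_forall_pos_le_add fun δ hδ => ?_
    have h1 : ∀ᶠ j in atTop, ε * d (x j) u < δ := by
      have : Tendsto (fun j => ε * d (x j) u) atTop (𝓝 (ε * 0)) := hu1.const_mul ε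
      rw [mul_zero] at this
      exact this.eventually (gt_mem_nhds hδ)
    have h2 : Ψ u ≤ Ψ (x i) - ε * d (x i) u + δ := by
      refine hu2 _ ?_
      filter_upwards [h1, eventually_ge_atTop i] with j hj hij
      have h3 := hmem i j hij
      simp only [S, mem_ofPred_eq] at h3
      nlinarith [hdt (x i) (x j) u]
    linarith
  refine ⟨u, ?_, ?_⟩
  · have := huS 0
    simpa [S, hx0] using this
  · intro v
    by_contra hcon
    push Not at hcon
    have hvS : v ∈ S u := by
      simp only [S, mem_ofPred_eq]; exact hcon.le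
    -- then `Ψ v ≥ Ψ u`
    have h1 : ∀ j, Ψ (x (j + 1)) - (1 / 2 : ℝ) ^ j ≤ Ψ v := by
      intro j
      have h2 : v ∈ S (x j) := hStrans _ _ _ (huS j) hvS
      have h3 : sInf (Ψ '' S (x j)) ≤ Ψ v := csInf_le (hSb _) ⟨v, h2, rfl⟩
      have h4 := hnx2 (x j) j
      rw [← hxs] at h4
      linarith
    have h5 : Ψ u ≤ Ψ v := by
      refine le_of_forall_pos_le_add fun δ hδ => ?_
      refine hu2 _ ?_
      have h6 : ∀ᶠ j : ℕ in atTop, (1 / 2 : ℝ) ^ j < δ :=
        (tendsto_pow_atTop_nhds_zero_of_lt_one (by norm_num) (by norm_num)).eventually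
          (gt_mem_nhds hδ)
      obtain ⟨j, hj⟩ := h6.exists
      filter_upwards [eventually_ge_atTop (j + 1)] with i hi
      have := h1 j
      have := hanti (j + 1) i hi
      linarith
    nlinarith [hdn u v]

end Crest.Agent.R241.B11
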