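import Mathlib

/-!
R241 / B1: almost every point of a set is a point of unique differentiability; derivatives within a
set of the restriction of a Lipschitz function coincide a.e. with the derivatives of an extension.
-/

set_option autoImplicit false

open MeasureTheory Filter Topology Metric Set
open scoped Pointwise NNReal ENNReal

namespace Crest.Agent.R241.B1Density

variable {E : Type*} [NormedAddCommGroup E] [NormedSpace ℝ E] [MeasurableSpace E] [BorelSpace E]
  [FiniteDimensional ℝ E]

/-- At a Lebesgue density point the tangent cone is everything. -/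
theorem tangentConeAt_eq_univ_of_density (μ : Measure E) [μ.IsAddHaarMeasure] {s : Set E} {x : E}
    (h : Tendsto (fun r => μ (s ∩ closedBall x r) / μ (closedBall x r)) (𝓝[>] 0) (𝓝 1)) :
    tangentConeAt ℝ s x = univ := by
  refine eq_univ_of_forall fun z => ?_
  have key : ∀ n : ℕ, ∃ r : ℝ, 0 < r ∧ r < 1 / ((n : ℝ) + 1) ∧ ∃ a : E,
      a ∈ closedBall z (1 / ((n : ℝ) + 1)) ∧ x + r • a ∈ s := by
    intro n
    have hn : (0 : ℝ) < 1 / ((n : ℝ) + 1) := by positivity
    have B₁ : ∀ᶠ r in 𝓝[>] (0 : ℝ), (s ∩ ({x} + r • closedBall z (1 / ((n : ℝ) + 1)))).Nonempty :=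
      Measure.eventually_nonempty_inter_smul_of_density_one μ s x h _ measurableSet_closedBall
        (measure_closedBall_pos μ z hn).ne'
    have B₂ : ∀ᶠ r in 𝓝[>] (0 : ℝ), r < 1 / ((n : ℝ) + 1) :=
      nhdsWithin_le_nhds (Iio_mem_nhds hn)
    obtain ⟨r, ⟨⟨y, ys, hy⟩, hr⟩, rpos⟩ :=
      ((B₁.and B₂).and self_mem_nhdsWithin).exists
    obtain ⟨a, az, ya⟩ : ∃ a, a ∈ closedBall z (1 / ((n : ℝ) + 1)) ∧ y = x + r • a := by
      simp only [mem_smul_set, image_add_left, mem_preimage, singleton_add] at hy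
      rcases hy with ⟨a, az, ha⟩
      exact ⟨a, az, by simp only [ha, add_neg_cancel_left]⟩
    exact ⟨r, rpos, hr, a, az, ya ▸ ys⟩
  choose r rpos hr a ha has using key
  have hlim : Tendsto (fun n : ℕ => 1 / ((n : ℝ) + 1)) atTop (𝓝 0) :=
    tendsto_one_div_add_atTop_nhds_zero_nat
  have hr0 : Tendsto r atTop (𝓝 0) :=
    squeeze_zero (fun n => (rpos n).le) (fun n => (hr n).le) hlim
  have ha0 : Tendsto a atTop (𝓝 z) := by
    rw [tendsto_iff_dist_tendsto_zero]
    exact squeeze_zero (fun n => dist_nonneg) (fun n => ha n) hlim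
  refine mem_tangentConeAt_of_seq atTop (fun n => (r n)⁻¹) (fun n => r n • a n) ?_
    (Eventually.of_forall has) ?_
  · have := hr0.smul ha0
    simpa using this
  · refine ha0.congr fun n => ?_
    rw [smul_smul, inv_mul_cancel₀ (rpos n).ne', one_smul]

theorem ae_uniqueDiffWithinAt (μ : Measure E) [μ.IsAddHaarMeasure] {s : Set E}
    (hs : MeasurableSet s) : ∀ᵐ x ∂(μ.restrict s), UniqueDiffWithinAt ℝ s x := by
  filter_upwards [Besicovitch.ae_tendsto_measure_inter_div μ s, ae_restrict_mem hs] with x hx xs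
  refine ⟨?_, subset_closure xs⟩
  rw [tangentConeAt_eq_univ_of_density μ hx, Submodule.span_univ]
  exact dense_univ

/-- The derivative within `s` of a function which agrees on `s` with a function differentiable at
almost every point is a.e. equal to the derivative of the latter. -/
theorem ae_fderivWithin_eq (μ : Measure E) [μ.IsAddHaarMeasure] {s : Set E}
    (hs : MeasurableSet s) {F : Type*} [NormedAddCommGroup F] [NormedSpace ℝ F] {u v : E → F}
    (huv : EqOn u v s) (hv : ∀ᵐ x ∂μ, DifferentiableAt ℝ v x) :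
    ∀ᵐ x ∂(μ.restrict s), fderivWithin ℝ u s x = fderiv ℝ v x := by
  filter_upwards [ae_uniqueDiffWithinAt μ hs, ae_restrict_mem hs, ae_restrict_of_ae hv]
    with x hx xs hd
  rw [fderivWithin_congr huv (huv xs)]
  exact hd.fderivWithin hx

/-- Same, with a Lipschitz extension. -/
theorem ae_fderivWithin_eq_of_lipschitz (μ : Measure E) [μ.IsAddHaarMeasure] {s : Set E}
    (hs : MeasurableSet s) {u v : E → ℝ} {C : ℝ≥0} (huv : EqOn u v s) (hv : LipschitzWith C v) :
    ∀ᵐ x ∂(μ.restrict s), fderivWithin ℝ u s x = fderiv ℝ v x :=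
  ae_fderivWithin_eq μ hs huv hv.ae_differentiableAt

/-- two functions differentiable at a.e. point and equal on `s` have the same derivative at a.e.
point of `s`. -/
theorem ae_fderiv_eq_of_eqOn (μ : Measure E) [μ.IsAddHaarMeasure] {s : Set E}
    (hs : MeasurableSet s) {F : Type*} [NormedAddCommGroup F] [NormedSpace ℝ F] {u v : E → F}
    (huv : EqOn u v s) (hu : ∀ᵐ x ∂μ, DifferentiableAt ℝ u x)
    (hv : ∀ᵐ x ∂μ, DifferentiableAt ℝ v x) :
    ∀ᵐ x ∂(μ.restrict s), fderiv ℝ u x = fderiv ℝ v x := by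
  filter_upwards [ae_fderivWithin_eq μ hs huv hv, ae_fderivWithin_eq μ hs (eqOn_refl u s) hu]
    with x h1 h2
  rw [← h1, ← h2]

theorem ae_fderivWithin_mono (μ : Measure E) [μ.IsAddHaarMeasure] {s t : Set E}
    (hs : MeasurableSet s) (hst : s ⊆ t) {F : Type*} [NormedAddCommGroup F] [NormedSpace ℝ F]
    {u : E → F} (hu : ∀ᵐ x ∂(μ.restrict s), DifferentiableWithinAt ℝ u t x) :
    ∀ᵐ x ∂(μ.restrict s), fderivWithin ℝ u s x = fderivWithin ℝ u t x := by
  filter_upwards [ae_uniqueDiffWithinAt μ hs, ae_restrict_mem hs, hu] with x hx xs hd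
  exact fderivWithin_subset hst hx hd

omit [MeasurableSpace E] [BorelSpace E] [FiniteDimensional ℝ E] in
/-- Two functions equal on `s` have the same derivative within `s` at the points of `s`. -/
theorem fderivWithin_congr_eqOn {s : Set E} {F : Type*} [NormedAddCommGroup F]
    [NormedSpace ℝ F] {u v : E → F} (huv : EqOn u v s) {x : E} (hx : x ∈ s) :
    fderivWithin ℝ u s x = fderivWithin ℝ v s x :=
  fderivWithin_congr huv (huv hx)

end Crest.Agent.R241.B1Density
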