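import Crest.Prelude.Def_MetricCurrent
import Crest.Agent.R241.B1Density

/-!
R241 / B1: the Jacobian determinant of Lipschitz functions is a null Lagrangian:
`∫ det D(G₁,…,G_k) = 0` if the `G i` are Lipschitz on `ℝᵏ` and one of them has compact support.
-/

set_option autoImplicit false

open MeasureTheory Filter Topology Metric Set Module
open scoped NNReal ENNReal Nat

namespace Crest.Agent.R241.B1Null

open Crest.GeometryTopology.Submanifold (Euc)

noncomputable section

variable {k : ℕ}

/-- The matrix of partial derivatives of a family of scalar functions. -/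
def DM (F : Fin k → Euc k → ℝ) (z : Euc k) : Matrix (Fin k) (Fin k) ℝ :=
  Matrix.of fun i j => fderiv ℝ (F i) z (EuclideanSpace.single j 1)

theorem DM_apply (F : Fin k → Euc k → ℝ) (z : Euc k) (i j : Fin k) :
    DM F z i j = fderiv ℝ (F i) z (EuclideanSpace.single j 1) := rfl

theorem measurable_DM (F : Fin k → Euc k → ℝ) (i j : Fin k) :
    Measurable fun z => DM F z i j :=
  measurable_fderiv_apply_const ℝ (F i) _

theorem measurable_det {X : Type*} [MeasurableSpace X] {M : X → Matrix (Fin k) (Fin k) ℝ}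
    (h : ∀ i j, Measurable fun y => M y i j) : Measurable fun y => (M y).det := by
  simp only [Matrix.det_apply']
  exact Finset.measurable_sum _ fun σ _ =>
    (Finset.measurable_prod _ fun i _ => h (σ i) i).const_mul _

theorem aemeasurable_det {X : Type*} [MeasurableSpace X] {μ : Measure X}
    {M : X → Matrix (Fin k) (Fin k) ℝ}
    (h : ∀ i j, AEMeasurable (fun y => M y i j) μ) : AEMeasurable (fun y => (M y).det) μ := by
  simp only [Matrix.det_apply']
  exact Finset.aemeasurable_fun_sum _ fun σ _ =>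
    (Finset.aemeasurable_fun_prod _ fun i _ => h (σ i) i).const_mul _

theorem measurable_det_DM (F : Fin k → Euc k → ℝ) : Measurable fun z => (DM F z).det :=
  measurable_det (measurable_DM F)

theorem abs_fderiv_apply_le {F : Euc k → ℝ} {C : ℝ≥0} (hF : LipschitzWith C F) (z v : Euc k) :
    |fderiv ℝ F z v| ≤ C * ‖v‖ := by
  have h := (fderiv ℝ F z).le_opNorm v
  rw [Real.norm_eq_abs] at h
  refine h.trans ?_
  gcongr
  exact norm_fderiv_le_of_lipschitz ℝ hF

theorem abs_DM_le {F : Fin k → Euc k → ℝ} {C : ℝ≥0} (hF : ∀ i, LipschitzWith C (F i))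
    (z : Euc k) (i j : Fin k) : |DM F z i j| ≤ C := by
  have := abs_fderiv_apply_le (hF i) z (EuclideanSpace.single j 1)
  simpa [DM] using this

theorem abs_det_le {M : Matrix (Fin k) (Fin k) ℝ} {C : ℝ} (h : ∀ i j, |M i j| ≤ C) :
    |M.det| ≤ (k ! : ℝ) * C ^ k := by
  have := Matrix.det_le (A := M) (abv := AbsoluteValue.abs) (x := C) h
  simpa using this

theorem abs_det_DM_le {F : Fin k → Euc k → ℝ} {C : ℝ≥0} (hF : ∀ i, LipschitzWith C (F i))
    (z : Euc k) : |(DM F z).det| ≤ (k ! : ℝ) * (C : ℝ) ^ k :=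
  abs_det_le fun i j => abs_DM_le hF z i j

/-- Lipschitz images of null sets are null. -/
theorem lipschitz_image_null {K : ℝ≥0} {h : Euc k → Euc k}
    (hh : LipschitzWith K h) {N : Set (Euc k)} (hN : volume N = 0) : volume (h '' N) = 0 := by
  set ν : Measure (Euc k) := μH[finrank ℝ (Euc k)] with hν
  have h1 : ν ≪ volume := Measure.absolutelyContinuous_isAddHaarMeasure ν volume
  have h2 : (volume : Measure (Euc k)) ≪ ν :=
    Measure.absolutelyContinuous_isAddHaarMeasure volume ν
  apply h2
  have h3 : ν N = 0 := h1 hN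
  have h4 := hh.hausdorffMeasure_image_le (d := finrank ℝ (Euc k)) (by positivity) N
  rw [← hν, h3, mul_zero] at h4
  exact le_antisymm h4 (by positivity)

/-- Area formula for an injective Lipschitz map. -/
theorem area_eq {K : ℝ≥0} {h : Euc k → Euc k}
    (hh : LipschitzWith K h) {s : Set (Euc k)} (hs : MeasurableSet s) (hinj : InjOn h s) :
    ∫⁻ x in s, ENNReal.ofReal |(fderiv ℝ h x).det| = volume (h '' s) := by
  have hnull : volume (s \ {x | DifferentiableAt ℝ h x}) = 0 := by
    have : ∀ᵐ x ∂(volume : Measure (Euc k)), DifferentiableAt ℝ h x := hh.ae_differentiableAt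
    refine measure_mono_null ?_ (ae_iff.mp this)
    intro x hx
    exact hx.2
  set t := s ∩ {x | DifferentiableAt ℝ h x} with ht
  have htm : MeasurableSet t := hs.inter (measurableSet_of_differentiableAt ℝ h)
  have hts : t ⊆ s := inter_subset_left
  have hae : t =ᵐ[volume] s := by
    have : ∀ᵐ x ∂(volume : Measure (Euc k)), DifferentiableAt ℝ h x := hh.ae_differentiableAt
    filter_upwards [this] with x hx
    simp only [eq_iff_iff]
    exact ⟨fun h1 => h1.1, fun h1 => ⟨h1, hx⟩⟩
  have him : volume (h '' s) = volume (h '' t) := by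
    apply le_antisymm
    · have hsub : h '' s ⊆ h '' t ∪ h '' (s \ {x | DifferentiableAt ℝ h x}) := by
        rw [← image_union, inter_union_sdiff]
      calc volume (h '' s) ≤ _ := measure_mono hsub
        _ ≤ _ := measure_union_le _ _
        _ = _ := by rw [lipschitz_image_null hh hnull, add_zero]
    · exact measure_mono (image_mono hts)
  rw [him, ← lintegral_abs_det_fderiv_eq_addHaar_image volume htm
    (fun x hx => (DifferentiableAt.hasFDerivAt hx.2).hasFDerivWithinAt) (hinj.mono hts)]
  rw [Measure.restrict_congr_set hae]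

/-- determinant of a linear map from coordinates -/
theorem det_eq (L : Euc k →L[ℝ] Euc k) (M : Matrix (Fin k) (Fin k) ℝ)
    (h : ∀ i j, (L (EuclideanSpace.single i 1)) j = M j i) : L.det = M.det := by
  have h1 : LinearMap.toMatrix (EuclideanSpace.basisFun (Fin k) ℝ).toBasis
      (EuclideanSpace.basisFun (Fin k) ℝ).toBasis (L : Euc k →ₗ[ℝ] Euc k) = M := by
    ext j i
    rw [LinearMap.toMatrix_apply]
    simp only [OrthonormalBasis.coe_toBasis, EuclideanSpace.basisFun_apply,
      ContinuousLinearMap.coe_coe, OrthonormalBasis.coe_toBasis_repr_apply,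
      EuclideanSpace.basisFun_repr]
    exact h i j
  rw [← h1, LinearMap.det_toMatrix]

/-- The vector valued function with coordinates `F i`. -/
def vec (F : Fin k → Euc k → ℝ) (x : Euc k) : Euc k := WithLp.toLp 2 fun i => F i x

@[simp] theorem vec_apply (F : Fin k → Euc k → ℝ) (x : Euc k) (i : Fin k) :
    vec F x i = F i x := rfl

theorem lipschitz_vec {F : Fin k → Euc k → ℝ} {C : ℝ≥0} (hF : ∀ i, LipschitzWith C (F i)) :
    LipschitzWith ((k : ℝ≥0) * C) (vec F) := by
  refine LipschitzWith.of_dist_le_mul fun x y => ?_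
  rw [EuclideanSpace.dist_eq]
  have h1 : ∀ i, dist (vec F x i) (vec F y i) ≤ C * dist x y := fun i => (hF i).dist_le_mul x y
  refine Real.sqrt_le_iff.2 ⟨by positivity, ?_⟩
  calc ∑ i, dist (vec F x i) (vec F y i) ^ 2
      ≤ ∑ _i : Fin k, ((C : ℝ) * dist x y) ^ 2 := by
        refine Finset.sum_le_sum fun i _ => ?_
        exact pow_le_pow_left₀ dist_nonneg (h1 i) 2
    _ = k * ((C : ℝ) * dist x y) ^ 2 := by simp
    _ ≤ (k : ℝ) ^ 2 * ((C : ℝ) * dist x y) ^ 2 := by
        gcongr
        rcases Nat.eq_zero_or_pos k with h0 | h0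
        · simp [h0]
        · have : (1 : ℝ) ≤ k := by exact_mod_cast h0
          nlinarith
    _ = (((k : ℝ≥0) * C : ℝ≥0) * dist x y) ^ 2 := by push_cast; ring

theorem hasFDerivAt_vec {F : Fin k → Euc k → ℝ} {z : Euc k}
    (h : ∀ i, DifferentiableAt ℝ (F i) z) : DifferentiableAt ℝ (vec F) z := by
  rw [differentiableAt_euclidean]
  intro i
  exact h i

theorem fderiv_vec_apply {F : Fin k → Euc k → ℝ} {z : Euc k}
    (h : ∀ i, DifferentiableAt ℝ (F i) z) (v : Euc k) (i : Fin k) :
    (fderiv ℝ (vec F) z v) i = fderiv ℝ (F i) z v := by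
  have h1 := (hasFDerivAt_vec h).hasFDerivAt
  have h2 : HasFDerivAt (fun x => (vec F x) i)
      ((EuclideanSpace.proj i : Euc k →L[ℝ] ℝ).comp (fderiv ℝ (vec F) z)) z :=
    (EuclideanSpace.proj i : Euc k →L[ℝ] ℝ).hasFDerivAt.comp z h1
  have h3 : (fun x => (vec F x) i) = F i := rfl
  rw [h3] at h2
  rw [h2.fderiv]
  rfl

theorem det_fderiv_vec {F : Fin k → Euc k → ℝ} {z : Euc k}
    (h : ∀ i, DifferentiableAt ℝ (F i) z) : (fderiv ℝ (vec F) z).det = (DM F z).det :=
  det_eq _ _ fun i j => fderiv_vec_apply h _ j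

/-- `x ↦ x + t F(x)` -/
def pert (F : Fin k → Euc k → ℝ) (t : ℝ) (x : Euc k) : Euc k := x + t • vec F x

theorem det_fderiv_pert {F : Fin k → Euc k → ℝ} {z : Euc k}
    (h : ∀ i, DifferentiableAt ℝ (F i) z) (t : ℝ) :
    (fderiv ℝ (pert F t) z).det = (1 + t • DM F z).det := by
  have h1 := (hasFDerivAt_vec h).hasFDerivAt
  have h2 : HasFDerivAt (pert F t) (ContinuousLinearMap.id ℝ (Euc k) +
      t • fderiv ℝ (vec F) z) z := (hasFDerivAt_id z).add (h1.const_smul t)
  rw [h2.fderiv]
  refine det_eq _ _ fun i j => ?_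
  simp only [add_apply, ContinuousLinearMap.id_apply, smul_apply, PiLp.add_apply,
    PiLp.smul_apply, Matrix.add_apply, Matrix.smul_apply, smul_eq_mul]
  rw [fderiv_vec_apply h, DM_apply]
  congr 1
  rw [Matrix.one_apply]
  simp

theorem lipschitz_pert {F : Fin k → Euc k → ℝ} {C : ℝ≥0} (hF : ∀ i, LipschitzWith C (F i))
    (t : ℝ) : LipschitzWith (1 + ‖t‖₊ * (k * C)) (pert F t) := by
  have h1 : LipschitzWith (‖t‖₊ * (k * C)) (fun x => t • vec F x) :=
    (lipschitzWith_smul t).comp (lipschitz_vec hF)
  exact LipschitzWith.id.add h1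

/-- For small `t`, `pert F t` is injective. -/
theorem injective_pert {F : Fin k → Euc k → ℝ} {C : ℝ≥0} (hF : ∀ i, LipschitzWith C (F i))
    {t : ℝ} (ht : |t| * (k * C) < 1) : Function.Injective (pert F t) := by
  intro x y hxy
  by_contra hne
  have hd : 0 < ‖x - y‖ := norm_pos_iff.2 (sub_ne_zero.2 hne)
  have h1 : x - y = -(t • (vec F x - vec F y)) := by
    simp only [pert] at hxy
    rw [smul_sub]
    have : x - y = t • vec F y - t • vec F x := by
      rw [sub_eq_sub_iff_add_eq_add, hxy, add_comm]
    rw [this]; abel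
  have h2 : ‖x - y‖ ≤ |t| * ((k * C) * ‖x - y‖) := by
    calc ‖x - y‖ = ‖t • (vec F x - vec F y)‖ := by conv_lhs => rw [h1, norm_neg]
      _ = |t| * ‖vec F x - vec F y‖ := by rw [norm_smul, Real.norm_eq_abs]
      _ ≤ |t| * ((k * C) * ‖x - y‖) := by
        gcongr
        have := (lipschitz_vec hF).dist_le_mul x y
        rw [dist_eq_norm, dist_eq_norm] at this
        simpa using this
  nlinarith

/-- For small `t`, `pert F t` is surjective. -/
theorem surjective_pert {F : Fin k → Euc k → ℝ} {C : ℝ≥0} (hF : ∀ i, LipschitzWith C (F i))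
    {t : ℝ} (ht : |t| * (k * C) < 1) : Function.Surjective (pert F t) := by
  intro y
  have hc : ContractingWith (‖t‖₊ * (k * C)) (fun x => y - t • vec F x) := by
    refine ⟨?_, ?_⟩
    · rw [← NNReal.coe_lt_coe]
      push_cast
      simpa using ht
    · have h1 : LipschitzWith (‖t‖₊ * (k * C)) (fun x => t • vec F x) :=
        (lipschitzWith_smul t).comp (lipschitz_vec hF)
      have := (LipschitzWith.const y).sub h1
      simpa using this
  refine ⟨ContractingWith.fixedPoint _ hc, ?_⟩
  have := hc.fixedPoint_isFixedPt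
  rw [Function.IsFixedPt] at this
  rw [pert]
  nth_rewrite 1 [← this]
  simp

theorem pert_image {F : Fin k → Euc k → ℝ} {C : ℝ≥0} (hF : ∀ i, LipschitzWith C (F i))
    {t : ℝ} (ht : |t| * (k * C) < 1) {B : Set (Euc k)} (hB : ∀ i, ∀ x ∉ B, F i x = 0) :
    pert F t '' B = B := by
  have hid : ∀ x ∉ B, pert F t x = x := by
    intro x hx
    have : vec F x = 0 := by
      ext i
      simp [hB i x hx]
    simp [pert, this]
  apply Subset.antisymm
  · rintro _ ⟨x, hx, rfl⟩
    by_contra hy
    have h1 := hid _ hy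
    have h2 : pert F t x = x := injective_pert hF ht h1
    exact hy (by rw [h2]; exact hx)
  · intro y hy
    obtain ⟨x, rfl⟩ := surjective_pert hF ht y
    refine ⟨x, ?_, rfl⟩
    by_contra hx
    rw [hid x hx] at hy
    exact hx hy

/-- the determinant is positive near the identity. -/
theorem exists_det_pos (k : ℕ) : ∃ δ > 0, ∀ M : Matrix (Fin k) (Fin k) ℝ,
    (∀ i j, |M i j| < δ) → 0 < (1 + M).det := by
  have hc : Continuous fun M : Fin k → Fin k → ℝ => (1 + Matrix.of M).det := by
    simp only [Matrix.det_apply']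
    refine continuous_finsetSum _ fun σ _ => ?_
    refine continuous_const.mul (continuous_finsetProd _ fun i _ => ?_)
    simp only [Matrix.add_apply, Matrix.of_apply]
    fun_prop
  have h0 : (0 : ℝ) < (1 + Matrix.of (0 : Fin k → Fin k → ℝ)).det := by
    have : (Matrix.of (0 : Fin k → Fin k → ℝ)) = 0 := rfl
    rw [this, add_zero, Matrix.det_one]
    exact one_pos
  have h1 := hc.continuousAt.eventually (lt_mem_nhds h0)
  obtain ⟨δ, hδ, h2⟩ := Metric.eventually_nhds_iff.1 h1
  refine ⟨δ, hδ, fun M hM => ?_⟩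
  refine h2 (y := fun i j => M i j) ?_
  rw [dist_pi_lt_iff hδ]
  intro i
  rw [dist_pi_lt_iff hδ]
  intro j
  simpa [Real.dist_eq] using hM i j

/-- key computation: the integral of `det (1 + t DF)` over a closed ball containing the supports
is the volume. -/
theorem exists_integral_det_one_add {F : Fin k → Euc k → ℝ} {C : ℝ≥0}
    (hF : ∀ i, LipschitzWith C (F i)) {R : ℝ}
    (hB : ∀ i, ∀ x ∉ closedBall (0 : Euc k) R, F i x = 0) :
    ∃ δ > 0, ∀ t : ℝ, |t| < δ →
      ∫ z in closedBall (0 : Euc k) R, (1 + t • DM F z).det =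
        (volume (closedBall (0 : Euc k) R)).toReal := by
  obtain ⟨δ, hδ, hpos⟩ := exists_det_pos k
  refine ⟨min (δ / (C + 1)) (1 / (k * C + 1)), by positivity, fun t ht => ?_⟩
  have ht1 : |t| * (k * C) < 1 := by
    have h1 : |t| < 1 / (k * C + 1) := lt_of_lt_of_le ht (min_le_right _ _)
    have h2 : |t| * (k * C + 1) < 1 := by
      rwa [lt_div_iff₀ (by positivity)] at h1
    nlinarith [abs_nonneg t]
  have ht2 : ∀ z i j, |(t • DM F z) i j| < δ := by
    intro z i j
    have h1 : |t| < δ / (C + 1) := lt_of_lt_of_le ht (min_le_left _ _)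
    rw [lt_div_iff₀ (by positivity)] at h1
    rw [Matrix.smul_apply, smul_eq_mul, abs_mul]
    have h3 := abs_DM_le hF z i j
    calc |t| * |DM F z i j| ≤ |t| * C := by gcongr
      _ ≤ |t| * (C + 1) := by gcongr; linarith
      _ < δ := h1
  have hdet : ∀ z, 0 < (1 + t • DM F z).det := fun z => hpos _ (ht2 z)
  have hae : ∀ᵐ z ∂(volume : Measure (Euc k)), ∀ i, DifferentiableAt ℝ (F i) z :=
    ae_all_iff.2 fun i => (hF i).ae_differentiableAt
  have h1 := area_eq (lipschitz_pert hF t) (measurableSet_closedBall (x := (0 : Euc k)) (ε := R))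
    (injective_pert hF ht1).injOn
  rw [pert_image hF ht1 hB] at h1
  have hm : Measurable fun z => (1 + t • DM F z).det := by
    refine measurable_det fun i j => ?_
    simp only [Matrix.add_apply, Matrix.smul_apply, smul_eq_mul]
    exact measurable_const.add ((measurable_DM F i j).const_mul t)
  rw [integral_eq_lintegral_of_nonneg_ae (Eventually.of_forall fun z => (hdet z).le)
    hm.aestronglyMeasurable]
  congr 1
  rw [← h1]
  refine lintegral_congr_ae ?_
  filter_upwards [ae_restrict_of_ae hae] with z hz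
  rw [det_fderiv_pert hz, abs_of_pos (hdet z)]

/-- The null Lagrangian property, all functions compactly supported. -/
theorem integral_det_eq_zero_of_support (hk : 0 < k) {F : Fin k → Euc k → ℝ} {C : ℝ≥0}
    (hF : ∀ i, LipschitzWith C (F i)) {R : ℝ}
    (hB : ∀ i, ∀ x ∉ closedBall (0 : Euc k) R, F i x = 0) :
    ∫ z in closedBall (0 : Euc k) R, (DM F z).det = 0 := by
  obtain ⟨δ, hδ, hint⟩ := exists_integral_det_one_add hF hB
  set s := Finset.range (k + 1) with hs
  set v : ℕ → ℝ := fun i => δ / (k + 1) * i with hv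
  have hcard : s.card = k + 1 := by simp [hs]
  have hvi : Set.InjOn v s := by
    intro a _ b _ hab
    have h1 : δ / (k + 1) ≠ 0 := by positivity
    have := mul_left_cancel₀ h1 hab
    exact_mod_cast this
  have hvs : ∀ i ∈ s, |v i| < δ := by
    intro i hi
    have hi' : (i : ℝ) ≤ k := by
      have := Finset.mem_range.1 hi
      exact_mod_cast Nat.lt_succ_iff.1 this
    rw [abs_of_nonneg (by positivity)]
    calc v i = δ / (k + 1) * i := rfl
      _ ≤ δ / (k + 1) * k := by gcongr
      _ < δ := by
        rw [div_mul_eq_mul_div, div_lt_iff₀ (by positivity)]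
        nlinarith
  have hw : ∀ A : Matrix (Fin k) (Fin k) ℝ, A.det =
      ∑ i ∈ s, (1 + v i • A).det / ∏ j ∈ s.erase i, (v i - v j) := by
    intro A
    set P : Polynomial ℝ := ((Polynomial.X : Polynomial ℝ) • A.map Polynomial.C +
      (1 : Matrix (Fin k) (Fin k) ℝ).map Polynomial.C : Matrix (Fin k) (Fin k) _).det with hP
    have hdeg : P.degree < s.card := by
      have h1 : P.natDegree ≤ Fintype.card (Fin k) := Polynomial.natDegree_det_X_add_C_le A 1
      rw [hcard]
      refine lt_of_le_of_lt Polynomial.degree_le_natDegree ?_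
      rw [Fintype.card_fin] at h1
      exact_mod_cast Nat.lt_succ_of_le h1
    have h2 := Lagrange.coeff_eq_sum hvi hdeg
    have h3 : P.coeff (s.card - 1) = A.det := by
      have := Polynomial.coeff_det_X_add_C_card A (1 : Matrix (Fin k) (Fin k) ℝ)
      rw [Fintype.card_fin] at this
      rw [hcard, Nat.add_sub_cancel, hP, this]
    rw [← h3, h2]
    refine Finset.sum_congr rfl fun i _ => ?_
    congr 1
    have h4 : ∀ r : ℝ, P.eval r = (1 + r • A).det := by
      intro r
      rw [hP, ← Polynomial.coe_evalRingHom, RingHom.map_det]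
      congr 1
      ext a b
      simp [Matrix.one_apply]
      ring_nf
      split_ifs <;> simp
    exact h4 _
  have hw1 : (0 : ℝ) = ∑ i ∈ s, 1 / ∏ j ∈ s.erase i, (v i - v j) := by
    have hdeg : (1 : Polynomial ℝ).degree < s.card := by
      rw [hcard, Polynomial.degree_one]
      exact_mod_cast Nat.succ_pos k
    have h2 := Lagrange.coeff_eq_sum hvi hdeg
    simp only [Polynomial.eval_one] at h2
    rw [← h2, hcard, Nat.add_sub_cancel, Polynomial.coeff_one, if_neg hk.ne']
  have hfin : volume (closedBall (0 : Euc k) R) ≠ ∞ := measure_closedBall_lt_top.ne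
  have hmeas : ∀ t : ℝ, Measurable fun z => (1 + t • DM F z).det := by
    intro t
    refine measurable_det fun i j => ?_
    simp only [Matrix.add_apply, Matrix.smul_apply, smul_eq_mul]
    exact measurable_const.add ((measurable_DM F i j).const_mul t)
  have hintb : ∀ t : ℝ, IntegrableOn (fun z => (1 + t • DM F z).det)
      (closedBall (0 : Euc k) R) := by
    intro t
    refine Measure.integrableOn_of_bounded (M := (k ! : ℝ) * (1 + |t| * C) ^ k) hfin
      (hmeas t).aestronglyMeasurable ?_
    refine Eventually.of_forall fun z => ?_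
    rw [Real.norm_eq_abs]
    refine abs_det_le fun i j => ?_
    rw [Matrix.add_apply, Matrix.smul_apply, smul_eq_mul]
    refine (abs_add_le _ _).trans ?_
    gcongr
    · rw [Matrix.one_apply]; split_ifs <;> simp
    · rw [abs_mul]
      gcongr
      exact abs_DM_le hF z i j
  calc ∫ z in closedBall (0 : Euc k) R, (DM F z).det
      = ∫ z in closedBall (0 : Euc k) R,
          ∑ i ∈ s, (1 + v i • DM F z).det / ∏ j ∈ s.erase i, (v i - v j) := by
        simp_rw [← hw]
    _ = ∑ i ∈ s, (∫ z in closedBall (0 : Euc k) R, (1 + v i • DM F z).det) /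
          ∏ j ∈ s.erase i, (v i - v j) := by
        rw [integral_finsetSum _ fun i _ => (hintb (v i)).div_const _]
        exact Finset.sum_congr rfl fun i _ => integral_div _ _
    _ = ∑ i ∈ s, (volume (closedBall (0 : Euc k) R)).toReal *
          (1 / ∏ j ∈ s.erase i, (v i - v j)) := by
        refine Finset.sum_congr rfl fun i hi => ?_
        rw [hint _ (hvs i hi), div_eq_mul_one_div]
    _ = 0 := by rw [← Finset.mul_sum, ← hw1, mul_zero]

end

end Crest.Agent.R241.B1Null
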