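import Crest.Agent.R241.B1Null

/-!
R241 / B1: weak-* continuity of Jacobian determinants of Lipschitz functions.
-/

set_option autoImplicit false

open MeasureTheory Filter Topology Metric Set Module
open scoped NNReal ENNReal Nat

namespace Crest.Agent.R241.B1Weak

open Crest.GeometryTopology.Submanifold (Euc)
open Crest.Agent.R241.B1Null

noncomputable section

variable {k : ℕ}

theorem fderiv_eq_zero_of_notMem {F : Euc k → ℝ} {z : Euc k} (hz : z ∉ tsupport F) :
    fderiv ℝ F z = 0 := by
  have h1 : z ∉ tsupport (fderiv ℝ F) := fun h => hz (tsupport_fderiv_subset ℝ h)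
  exact image_eq_zero_of_notMem_tsupport h1

theorem det_eq_zero_of_row {M : Matrix (Fin k) (Fin k) ℝ} (i : Fin k) (h : ∀ j, M i j = 0) :
    M.det = 0 := Matrix.det_eq_zero_of_row_eq_zero i h

/-- **Null Lagrangian**: one compactly supported function is enough. -/
theorem integral_det_eq_zero {F : Fin k → Euc k → ℝ} (hF : ∀ i, ∃ C : ℝ≥0, LipschitzWith C (F i))
    (i0 : Fin k) (hc : HasCompactSupport (F i0)) : ∫ z, (DM F z).det = 0 := by
  have hk : 0 < k := Nat.lt_of_le_of_lt (Nat.zero_le _) i0.2
  choose C' hC' using hF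
  set C : ℝ≥0 := ∑ i, C' i with hCdef
  have hC : ∀ i, LipschitzWith C (F i) := fun i =>
    (hC' i).weaken (Finset.single_le_sum (fun _ _ => zero_le) (Finset.mem_univ i))
  obtain ⟨R, hR⟩ := (hc.isBounded).subset_ball (0 : Euc k)
  have hR0 : (0 : ℝ) ≤ |R| := abs_nonneg R
  have hR' : tsupport (F i0) ⊆ ball (0 : Euc k) |R| := hR.trans (ball_subset_ball (le_abs_self R))
  -- a bound on the big ball
  set M : ℝ≥0 := ⟨∑ i, |F i 0| + C * (|R| + 1), by positivity⟩ with hM
  have hbound : ∀ i, ∀ x ∈ closedBall (0 : Euc k) (|R| + 1), |F i x| ≤ M := by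
    intro i x hx
    have h1 : |F i x - F i 0| ≤ C * ‖x‖ := by
      have := (hC i).dist_le_mul x 0
      rwa [Real.dist_eq, dist_zero_right] at this
    have h2 : ‖x‖ ≤ |R| + 1 := by simpa using hx
    have h3 : |F i 0| ≤ ∑ j, |F j 0| :=
      Finset.single_le_sum (f := fun j => |F j 0|) (fun _ _ => abs_nonneg _) (Finset.mem_univ i)
    have h4 : (C : ℝ) * ‖x‖ ≤ C * (|R| + 1) := by gcongr
    have h5 : |F i x| ≤ |F i 0| + |F i x - F i 0| := by
      have := abs_add_le (F i 0) (F i x - F i 0)
      simpa using this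
    show |F i x| ≤ ∑ i, |F i 0| + C * (|R| + 1)
    linarith
  set h : Euc k → ℝ := fun x => M * max 0 (|R| + 1 - ‖x‖) with hh
  have hh0 : ∀ x, 0 ≤ h x := fun x => by positivity
  have hhlip : LipschitzWith M h := by
    have h1 : LipschitzWith 1 (fun x : Euc k => |R| + 1 - ‖x‖) := by
      have := (LipschitzWith.const (|R| + 1)).sub (lipschitzWith_one_norm (E := Euc k))
      simpa using this
    have h2 : LipschitzWith 1 (fun x : Euc k => max 0 (|R| + 1 - ‖x‖)) := by
      have := (LipschitzWith.const (0 : ℝ)).max h1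
      simpa using this
    have h3 : LipschitzWith (‖(M : ℝ)‖₊ * 1) (fun x : Euc k => (M : ℝ) • max 0 (|R| + 1 - ‖x‖)) :=
      (lipschitzWith_smul (M : ℝ)).comp h2
    simpa using h3
  have hh1 : ∀ x ∈ ball (0 : Euc k) |R|, (M : ℝ) ≤ h x := by
    intro x hx
    have h1 : ‖x‖ < |R| := by simpa using hx
    have h2 : (1 : ℝ) ≤ max 0 (|R| + 1 - ‖x‖) := le_max_of_le_right (by linarith)
    calc (M : ℝ) = M * 1 := (mul_one _).symm
      _ ≤ M * max 0 (|R| + 1 - ‖x‖) := by gcongr
      _ = h x := rfl
  have hh2 : ∀ x ∉ closedBall (0 : Euc k) (|R| + 1), h x = 0 := by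
    intro x hx
    have h1 : |R| + 1 < ‖x‖ := by simpa using hx
    rw [hh]
    simp only
    rw [max_eq_left (by linarith), mul_zero]
  set G : Fin k → Euc k → ℝ := fun i x => min (max (F i x) (-h x)) (h x) with hG
  have hGlip : ∀ i, LipschitzWith (max (max C M) M) (G i) := by
    intro i
    have h1 : LipschitzWith M (fun x => - h x) := hhlip.neg
    exact ((hC i).max h1).min hhlip
  have hGsupp : ∀ i, ∀ x ∉ closedBall (0 : Euc k) (|R| + 1), G i x = 0 := by
    intro i x hx
    rw [hG]
    simp only [hh2 x hx, neg_zero]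
    exact min_eq_right (le_max_right _ _)
  have hGeq : ∀ i, ∀ x ∈ ball (0 : Euc k) |R|, G i x = F i x := by
    intro i x hx
    have h1 : |F i x| ≤ M := hbound i x (by
      have : ‖x‖ < |R| := by simpa using hx
      simp only [mem_closedBall, dist_zero_right]; linarith)
    have h2 := hh1 x hx
    have h3 := abs_le.1 (h1.trans h2)
    rw [hG]
    simp only
    rw [max_eq_left h3.1, min_eq_left h3.2]
  have hG0 : ∀ x ∉ tsupport (F i0), G i0 x = 0 := by
    intro x hx
    have h1 : F i0 x = 0 := image_eq_zero_of_notMem_tsupport hx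
    rw [hG]
    simp only [h1]
    rw [max_eq_left (by linarith [hh0 x]), min_eq_left (hh0 x)]
  have hdet : ∀ z, (DM F z).det = (DM G z).det := by
    intro z
    by_cases hz : z ∈ tsupport (F i0)
    · have hz' := hR' hz
      congr 1
      ext i j
      rw [DM_apply, DM_apply]
      have : F i =ᶠ[𝓝 z] G i := by
        filter_upwards [isOpen_ball.mem_nhds hz'] with x hx
        exact (hGeq i x hx).symm
      rw [this.fderiv_eq]
    · rw [det_eq_zero_of_row i0 (fun j => by rw [DM_apply, fderiv_eq_zero_of_notMem hz]; rfl),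
        det_eq_zero_of_row i0 (fun j => ?_)]
      have : G i0 =ᶠ[𝓝 z] fun _ => 0 := by
        filter_upwards [(isClosed_tsupport (F i0)).isOpen_compl.mem_nhds hz] with x hx
        exact hG0 x hx
      rw [DM_apply, this.fderiv_eq, fderiv_fun_const]
      rfl
  simp_rw [hdet]
  rw [← setIntegral_eq_integral_of_forall_compl_eq_zero (s := closedBall (0 : Euc k) (|R| + 1)),
    integral_det_eq_zero_of_support hk hGlip hGsupp]
  intro z hz
  refine det_eq_zero_of_row i0 (fun j => ?_)
  have : G i0 =ᶠ[𝓝 z] fun _ => 0 := by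
    filter_upwards [isClosed_closedBall.isOpen_compl.mem_nhds hz] with x hx
    exact hGsupp i0 x hx
  rw [DM_apply, this.fderiv_eq, fderiv_fun_const]
  rfl

/-- `DM` of an updated family. -/
theorem DM_update (F : Fin k → Euc k → ℝ) (i : Fin k) (u : Euc k → ℝ) (z : Euc k) :
    DM (Function.update F i u) z =
      (DM F z).updateRow i (fun j => fderiv ℝ u z (EuclideanSpace.single j 1)) := by
  ext a j
  rw [DM_apply, Matrix.updateRow_apply]
  by_cases h : a = i
  · subst h; simp
  · simp [h, DM_apply]

theorem det_DM_update_mul {F : Fin k → Euc k → ℝ} {g : Euc k → ℝ} {z : Euc k} (i : Fin k)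
    (hg : DifferentiableAt ℝ g z) (hFi : DifferentiableAt ℝ (F i) z) :
    (DM (Function.update F i (fun x => g x * F i x)) z).det =
      g z * (DM F z).det + F i z * (DM (Function.update F i g) z).det := by
  rw [DM_update, DM_update]
  have h1 : (fun j => fderiv ℝ (fun x => g x * F i x) z (EuclideanSpace.single j 1)) =
      g z • (fun j => DM F z i j) +
        F i z • (fun j => fderiv ℝ g z (EuclideanSpace.single j 1)) := by
    funext j
    rw [fderiv_fun_mul hg hFi]
    simp [DM_apply]
  rw [h1, Matrix.det_updateRow_add, Matrix.det_updateRow_smul, Matrix.det_updateRow_smul]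
  congr 2
  have : (DM F z).updateRow i (fun j => DM F z i j) = DM F z :=
    Matrix.updateRow_eq_self _ _
  rw [this]

/-- product of Lipschitz functions, one of them compactly supported -/
theorem exists_lipschitz_mul {g u : Euc k → ℝ} {Cg Cu : ℝ≥0} (hg : LipschitzWith Cg g)
    (hu : LipschitzWith Cu u) (hc : HasCompactSupport g) :
    ∃ C : ℝ≥0, LipschitzWith C (fun x => g x * u x) := by
  obtain ⟨Mg, hMg⟩ := hc.exists_bound_of_continuous hg.continuous
  obtain ⟨Mu, hMu⟩ := hc.isCompact.exists_bound_of_continuousOn hu.continuous.continuousOn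
  have key : ∀ x y, x ∈ tsupport g → dist (g x * u x) (g y * u y) ≤
      (Cg * |Mu| + |Mg| * Cu) * dist x y := by
    intro x y hx
    have e : g x * u x - g y * u y = (g x - g y) * u x + g y * (u x - u y) := by ring
    rw [Real.dist_eq, e]
    refine (abs_add_le _ _).trans ?_
    rw [abs_mul, abs_mul, add_mul]
    have h1 : |g x - g y| ≤ Cg * dist x y := by
      have := hg.dist_le_mul x y; rwa [Real.dist_eq] at this
    have h2 : |u x - u y| ≤ Cu * dist x y := by
      have := hu.dist_le_mul x y; rwa [Real.dist_eq] at this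
    have h3 : |u x| ≤ |Mu| := (hMu x hx).trans (le_abs_self _)
    have h4 : |g y| ≤ |Mg| := (hMg y).trans (le_abs_self _)
    have h5 : |g x - g y| * |u x| ≤ (Cg * dist x y) * |Mu| := by gcongr
    have h6 : |g y| * |u x - u y| ≤ |Mg| * (Cu * dist x y) := by gcongr
    nlinarith
  refine ⟨⟨Cg * |Mu| + |Mg| * Cu, by positivity⟩, LipschitzWith.of_dist_le_mul fun x y => ?_⟩
  show dist (g x * u x) (g y * u y) ≤ (Cg * |Mu| + |Mg| * Cu) * dist x y
  by_cases hx : x ∈ tsupport g
  · exact key x y hx
  by_cases hy : y ∈ tsupport g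
  · rw [dist_comm, dist_comm x y]
    exact key y x hy
  · rw [image_eq_zero_of_notMem_tsupport hx, image_eq_zero_of_notMem_tsupport hy]
    simp only [zero_mul, dist_self]
    positivity

theorem integrable_mul_det {g : Euc k → ℝ} (hg : Integrable g) {F : Fin k → Euc k → ℝ}
    (hF : ∀ i, ∃ C : ℝ≥0, LipschitzWith C (F i)) :
    Integrable (fun z => g z * (DM F z).det) := by
  choose C' hC' using hF
  have hC : ∀ i, LipschitzWith (∑ i, C' i) (F i) := fun i =>
    (hC' i).weaken (Finset.single_le_sum (fun _ _ => zero_le) (Finset.mem_univ i))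
  refine hg.mul_bdd (c := (k ! : ℝ) * ((∑ i, C' i : ℝ≥0) : ℝ) ^ k)
    (measurable_det_DM F).aestronglyMeasurable (Eventually.of_forall fun z => ?_)
  exact abs_det_DM_le hC z

theorem integrable_of_lipschitz {g : Euc k → ℝ} {C : ℝ≥0}
    (hg : LipschitzWith C g) (hc : HasCompactSupport g) : Integrable g :=
  hg.continuous.integrable_of_hasCompactSupport hc

/-- **Integration by parts** for Jacobians. -/
theorem integral_mul_det_eq {F : Fin k → Euc k → ℝ} (hF : ∀ i, ∃ C : ℝ≥0, LipschitzWith C (F i))
    (i : Fin k) {g : Euc k → ℝ} {Cg : ℝ≥0} (hg : LipschitzWith Cg g) (hc : HasCompactSupport g) :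
    ∫ z, g z * (DM F z).det = - ∫ z, F i z * (DM (Function.update F i g) z).det := by
  have hupd : ∀ u : Euc k → ℝ, (∃ C : ℝ≥0, LipschitzWith C u) →
      ∀ j, ∃ C : ℝ≥0, LipschitzWith C (Function.update F i u j) := by
    intro u hu j
    by_cases h : j = i
    · subst h; simpa using hu
    · simpa [h] using hF j
  obtain ⟨CF, hCF⟩ := hF i
  have hmul := exists_lipschitz_mul hg hCF hc
  have h0 : ∫ z, (DM (Function.update F i (fun x => g x * F i x)) z).det = 0 := by
    refine integral_det_eq_zero (hupd _ hmul) i ?_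
    rw [Function.update_self]
    exact hc.mul_right
  have hae : ∀ᵐ z ∂(volume : Measure (Euc k)),
      (DM (Function.update F i (fun x => g x * F i x)) z).det =
        g z * (DM F z).det + F i z * (DM (Function.update F i g) z).det := by
    filter_upwards [hg.ae_differentiableAt, hCF.ae_differentiableAt] with z h1 h2
    exact det_DM_update_mul i h1 h2
  have hint1 : Integrable (fun z => g z * (DM F z).det) :=
    integrable_mul_det (integrable_of_lipschitz hg hc) hF
  have hint2 : Integrable (fun z => F i z * (DM (Function.update F i g) z).det) := by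
    -- supported in the support of `g`, bounded there
    have hsupp : ∀ z ∉ tsupport g, F i z * (DM (Function.update F i g) z).det = 0 := by
      intro z hz
      rw [det_eq_zero_of_row i (fun j => ?_), mul_zero]
      rw [DM_apply, Function.update_self, fderiv_eq_zero_of_notMem hz]; rfl
    rw [← integrableOn_iff_integrable_of_support_subset (s := tsupport g)
      (fun z hz => by by_contra h; exact hz (hsupp z h))]
    obtain ⟨Mu, hMu⟩ := hc.isCompact.exists_bound_of_continuousOn hCF.continuous.continuousOn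
    choose C' hC' using hupd g ⟨Cg, hg⟩
    have hC : ∀ j, LipschitzWith (∑ i, C' i) (Function.update F i g j) := fun j =>
      (hC' j).weaken (Finset.single_le_sum (fun _ _ => zero_le) (Finset.mem_univ j))
    refine Measure.integrableOn_of_bounded
      (M := |Mu| * ((k ! : ℝ) * ((∑ i, C' i : ℝ≥0) : ℝ) ^ k))
      hc.isCompact.measure_lt_top.ne
      ((hCF.continuous.measurable.mul (measurable_det_DM _)).aestronglyMeasurable) ?_
    filter_upwards [ae_restrict_mem hc.isCompact.measurableSet] with z hz
    rw [norm_mul]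
    have h1 : ‖F i z‖ ≤ |Mu| := (hMu z hz).trans (le_abs_self _)
    have h2 := abs_det_DM_le hC z
    rw [← Real.norm_eq_abs] at h2
    gcongr
  have h1 := integral_congr_ae hae
  rw [h0, integral_add hint1 hint2] at h1
  linarith

/-- the family used in the multilinear expansion -/
def mix (F G : Fin k → Euc k → ℝ) (S : Finset (Fin k)) (i : Fin k) : Euc k → ℝ :=
  if i ∈ S then fun x => F i x - G i x else G i

theorem lipschitz_mix {F G : Fin k → Euc k → ℝ} {C : ℝ≥0} (hF : ∀ i, LipschitzWith C (F i))
    (hG : ∀ i, LipschitzWith C (G i)) (S : Finset (Fin k)) (i : Fin k) :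
    LipschitzWith (C + C) (mix F G S i) := by
  unfold mix
  split_ifs
  · exact (hF i).sub (hG i)
  · exact (hG i).weaken (le_add_of_nonneg_left zero_le)

theorem det_DM_eq_sum {F G : Fin k → Euc k → ℝ} {z : Euc k}
    (hF : ∀ i, DifferentiableAt ℝ (F i) z) (hG : ∀ i, DifferentiableAt ℝ (G i) z) :
    (DM F z).det = ∑ S : Finset (Fin k), (DM (mix F G S) z).det := by
  have h1 := (Matrix.detRowAlternating (n := Fin k) (R := ℝ)).toMultilinearMap.map_add_univ
    (fun i => DM F z i - DM G z i) (fun i => DM G z i)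
  have h2 : ((fun i => DM F z i - DM G z i) + fun i => DM G z i) = fun i => DM F z i := by
    funext i
    simp
  rw [h2] at h1
  have h3 : (DM F z).det = (Matrix.detRowAlternating (n := Fin k) (R := ℝ)).toMultilinearMap
      (fun i => DM F z i) := rfl
  rw [h3, h1]
  refine Finset.sum_congr rfl fun S _ => ?_
  have h4 : S.piecewise (fun i => DM F z i - DM G z i) (fun i => DM G z i) =
      fun i => DM (mix F G S) z i := by
    funext i j
    by_cases hi : i ∈ S
    · have e : mix F G S i = fun x => F i x - G i x := if_pos hi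
      rw [Finset.piecewise_eq_of_mem _ _ _ hi]
      show DM F z i j - DM G z i j = DM (mix F G S) z i j
      rw [DM_apply, DM_apply, DM_apply, e, fderiv_fun_sub (hF i) (hG i)]
      rfl
    · have e : mix F G S i = G i := if_neg hi
      rw [Finset.piecewise_eq_of_notMem _ _ _ hi]
      show DM G z i j = DM (mix F G S) z i j
      rw [DM_apply, DM_apply, e]
  rw [h4]
  rfl

/-- quantitative weak continuity -/
theorem exists_abs_integral_sub_le {g : Euc k → ℝ} {Cg : ℝ≥0} (hg : LipschitzWith Cg g)
    (hc : HasCompactSupport g) (C : ℝ≥0) : ∃ K : ℝ, 0 ≤ K ∧ ∀ (F G : Fin k → Euc k → ℝ) (ε : ℝ),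
      (∀ i, LipschitzWith C (F i)) → (∀ i, LipschitzWith C (G i)) → 0 ≤ ε →
      (∀ i x, |F i x - G i x| ≤ ε) →
      |(∫ z, g z * (DM F z).det) - ∫ z, g z * (DM G z).det| ≤ ε * K := by
  set V : ℝ := (volume (tsupport g)).toReal with hV
  set C2 : ℝ≥0 := max (C + C) Cg with hC2
  set K0 : ℝ := (k ! : ℝ) * (C2 : ℝ) ^ k * V with hK0
  have hK0' : 0 ≤ K0 := by positivity
  refine ⟨(Finset.univ : Finset (Finset (Fin k))).card * K0, by positivity, ?_⟩
  intro F G ε hF hG hε hFG
  have hgi := integrable_of_lipschitz hg hc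
  have hmixL := lipschitz_mix hF hG
  have hterm : ∀ S : Finset (Fin k), S.Nonempty →
      |∫ z, g z * (DM (mix F G S) z).det| ≤ ε * K0 := by
    intro S hS
    obtain ⟨i, hi⟩ := hS
    rw [integral_mul_det_eq (fun j => ⟨_, hmixL S j⟩) i hg hc, abs_neg]
    have hupd : ∀ j, LipschitzWith C2 (Function.update (mix F G S) i g j) := by
      intro j
      by_cases h : j = i
      · subst h; simpa using hg.weaken (le_max_right _ _)
      · simpa [h] using (hmixL S j).weaken (le_max_left _ _)
    have hzero : ∀ z ∉ tsupport g,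
        mix F G S i z * (DM (Function.update (mix F G S) i g) z).det = 0 := by
      intro z hz
      rw [det_eq_zero_of_row i (fun j => ?_), mul_zero]
      rw [DM_apply, Function.update_self, fderiv_eq_zero_of_notMem hz]; rfl
    rw [← setIntegral_eq_integral_of_forall_compl_eq_zero hzero, ← Real.norm_eq_abs]
    have h1 : ∀ z ∈ tsupport g, ‖mix F G S i z *
        (DM (Function.update (mix F G S) i g) z).det‖ ≤ ε * ((k ! : ℝ) * (C2 : ℝ) ^ k) := by
      intro z _
      rw [norm_mul, Real.norm_eq_abs, Real.norm_eq_abs]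
      have h2 : |mix F G S i z| ≤ ε := by
        have e : mix F G S i = fun x => F i x - G i x := if_pos hi
        rw [e]; exact hFG i z
      have h3 := abs_det_DM_le hupd z
      gcongr
    refine (norm_setIntegral_le_of_norm_le_const hc.isCompact.measure_lt_top h1).trans ?_
    rw [hK0, hV, Measure.real]
    exact le_of_eq (by ring)
  have hae : ∀ᵐ z ∂(volume : Measure (Euc k)), g z * (DM F z).det =
      ∑ S : Finset (Fin k), g z * (DM (mix F G S) z).det := by
    have h1 : ∀ᵐ z ∂(volume : Measure (Euc k)), ∀ i, DifferentiableAt ℝ (F i) z :=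
      ae_all_iff.2 fun i => (hF i).ae_differentiableAt
    have h2 : ∀ᵐ z ∂(volume : Measure (Euc k)), ∀ i, DifferentiableAt ℝ (G i) z :=
      ae_all_iff.2 fun i => (hG i).ae_differentiableAt
    filter_upwards [h1, h2] with z h1 h2
    rw [det_DM_eq_sum h1 h2, Finset.mul_sum]
  rw [integral_congr_ae hae,
    integral_finsetSum _ fun S _ => integrable_mul_det hgi (fun i => ⟨_, hmixL S i⟩)]
  have h0 : mix F G ∅ = G := by
    funext i
    simp [mix]
  rw [← Finset.sum_erase_add _ _ (Finset.mem_univ (∅ : Finset (Fin k))), h0, add_sub_cancel_right]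
  refine (Finset.abs_sum_le_sum_abs _ _).trans ?_
  calc ∑ S ∈ Finset.univ.erase (∅ : Finset (Fin k)), |∫ z, g z * (DM (mix F G S) z).det|
      ≤ ∑ _S ∈ Finset.univ.erase (∅ : Finset (Fin k)), ε * K0 :=
        Finset.sum_le_sum fun S hS =>
          hterm S (Finset.nonempty_iff_ne_empty.2 (Finset.ne_of_mem_erase hS))
    _ ≤ ∑ _S : Finset (Fin k), ε * K0 :=
        Finset.sum_le_sum_of_subset_of_nonneg (Finset.erase_subset _ _)
          (fun _ _ _ => by positivity)
    _ = ε * ((Finset.univ : Finset (Finset (Fin k))).card * K0) := by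
        rw [Finset.sum_const, nsmul_eq_mul]; ring

/-- **Weak-* continuity of Jacobians**: uniform convergence of uniformly Lipschitz functions. -/
theorem tendsto_integral_mul_det {g : Euc k → ℝ} (hg : Integrable g) {C : ℝ≥0}
    {F : ℕ → Fin k → Euc k → ℝ} {G : Fin k → Euc k → ℝ} {ε : ℕ → ℝ}
    (hF : ∀ n i, LipschitzWith C (F n i)) (hG : ∀ i, LipschitzWith C (G i))
    (hε : Tendsto ε atTop (𝓝 0)) (hFG : ∀ n i x, |F n i x - G i x| ≤ ε n) :
    Tendsto (fun n => ∫ z, g z * (DM (F n) z).det) atTop (𝓝 (∫ z, g z * (DM G z).det)) := by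
  rcases Nat.eq_zero_or_pos k with hk | hk
  · subst hk
    have : ∀ n, (∫ z, g z * (DM (F n) z).det) = ∫ z, g z * (DM G z).det := by
      intro n
      simp [Matrix.det_isEmpty]
    simp_rw [this]
    exact tendsto_const_nhds
  have hε0 : ∀ n, 0 ≤ ε n := fun n => (abs_nonneg _).trans (hFG n ⟨0, hk⟩ 0)
  rw [Metric.tendsto_atTop]
  intro η hη
  set D : ℝ := (k ! : ℝ) * (C : ℝ) ^ k with hD
  have hD0 : 0 ≤ D := by positivity
  obtain ⟨g', hc', hs', hg'⟩ := (memLp_one_iff_integrable.2 hg).exist_eLpNorm_sub_le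
    (by simp) le_rfl (ε := η / (4 * (D + 1))) (by positivity)
  obtain ⟨Cg, hCg⟩ := hs'.lipschitzWith_of_hasCompactSupport hc' (by simp)
  obtain ⟨K, hK0, hK⟩ := exists_abs_integral_sub_le hCg hc' C
  have hg'i := integrable_of_lipschitz hCg hc'
  have hdiff : ∫ z, |g z - g' z| ≤ η / (4 * (D + 1)) := by
    have h1 : eLpNorm (g - g') 1 volume = ENNReal.ofReal (∫ z, |g z - g' z|) := by
      rw [eLpNorm_one_eq_lintegral_enorm, ← ofReal_integral_norm_eq_lintegral_enorm
        (hg.sub hg'i)]
      rfl
    rw [h1] at hg'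
    exact (ENNReal.ofReal_le_ofReal_iff (by positivity)).1 hg'
  have happ : ∀ H : Fin k → Euc k → ℝ, (∀ i, LipschitzWith C (H i)) →
      |(∫ z, g z * (DM H z).det) - ∫ z, g' z * (DM H z).det| ≤ η / 4 := by
    intro H hH
    have hHe : ∀ i, ∃ C : ℝ≥0, LipschitzWith C (H i) := fun i => ⟨C, hH i⟩
    rw [← integral_sub (integrable_mul_det hg hHe) (integrable_mul_det hg'i hHe),
      ← Real.norm_eq_abs]
    refine (norm_integral_le_integral_norm _).trans ?_
    calc ∫ z, ‖g z * (DM H z).det - g' z * (DM H z).det‖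
        ≤ ∫ z, D * |g z - g' z| := by
          refine integral_mono_of_nonneg (Eventually.of_forall fun z => norm_nonneg _)
            ((hg.sub hg'i).abs.const_mul D) (Eventually.of_forall fun z => ?_)
          simp only
          rw [← sub_mul, norm_mul, Real.norm_eq_abs, Real.norm_eq_abs, mul_comm]
          have := abs_det_DM_le hH z
          gcongr
      _ = D * ∫ z, |g z - g' z| := integral_const_mul _ _
      _ ≤ D * (η / (4 * (D + 1))) := by gcongr
      _ ≤ η / 4 := by
          rw [mul_div_assoc', div_le_div_iff₀ (by positivity) (by positivity)]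
          nlinarith
  have hεK : Tendsto (fun n => ε n * K) atTop (𝓝 0) := by
    simpa using hε.mul_const K
  obtain ⟨N, hN⟩ := (Metric.tendsto_atTop.1 hεK) (η / 4) (by positivity)
  refine ⟨N, fun n hn => ?_⟩
  have h1 := happ (F n) (hF n)
  have h2 := happ G hG
  have h3 := hK (F n) G (ε n) (hF n) hG (hε0 n) (hFG n)
  have h4 := hN n hn
  rw [Real.dist_eq, sub_zero] at h4
  have h5 := lt_of_abs_lt h4
  rw [Real.dist_eq]
  rw [abs_le] at h1 h2 h3
  rw [abs_lt]
  constructor <;> linarith [h1.1, h1.2, h2.1, h2.2, h3.1, h3.2]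

end

end Crest.Agent.R241.B1Weak
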