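import Mathlib
import Crest.Prelude.Def_MetricCurrent
import Crest.Agent.R241.B1Density
import Crest.Agent.R241.B1Null

/-!
R241, block B1 (c) (helper958): calculus of chart actions.

* `chartR E φ θ`: chart action with a REAL density `θ : Euc k → ℝ`;
  `chartAction E φ θ = chartR E φ (fun z => (θ z : ℝ))` (`chartAction_eq`).
* `jac E φ π z`: the Jacobian determinant `det (∂_j (π i ∘ φ))` within `E`.
* a.e. changes, null sets, restriction to Borel subsets, countable splitting of `E`,
  push-forward under Lipschitz maps.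
-/

set_option autoImplicit false

open MeasureTheory Filter Topology Metric Set
open scoped NNReal ENNReal

namespace Crest.Agent.R241.B1c1

open Crest.GeometryTopology.MetricCurrent
open Crest.GeometryTopology.Submanifold (Euc)

universe u v

variable {X : Type u} [MetricSpace X] {Y : Type v} [MetricSpace Y] {k : ℕ}

/-- The Jacobian matrix of `π ∘ φ` within `E`. -/
noncomputable def jacM (E : Set (Euc k)) (φ : Euc k → X) (π : Fin k → X → ℝ) (z : Euc k) :
    Matrix (Fin k) (Fin k) ℝ :=
  Matrix.of fun i j => fderivWithin ℝ (fun w => π i (φ w)) E z (EuclideanSpace.single j 1)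

/-- The Jacobian determinant of `π ∘ φ` within `E`. -/
noncomputable def jac (E : Set (Euc k)) (φ : Euc k → X) (π : Fin k → X → ℝ) (z : Euc k) : ℝ :=
  (jacM E φ π z).det

/-- Chart action with a real density. -/
noncomputable def chartR (E : Set (Euc k)) (φ : Euc k → X) (θ : Euc k → ℝ) : Functional X k :=
  fun f π => by
    classical
    exact if IsTestPair f π then ∫ z in E, θ z * f (φ z) * jac E φ π z else 0

theorem chartAction_eq (E : Set (Euc k)) (φ : Euc k → X) (θ : Euc k → ℤ) :
    chartAction E φ θ = chartR E φ (fun z => (θ z : ℝ)) := rfl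

theorem chartR_apply {E : Set (Euc k)} {φ : Euc k → X} {θ : Euc k → ℝ} {f : X → ℝ}
    {π : Fin k → X → ℝ} (h : IsTestPair f π) :
    chartR E φ θ f π = ∫ z in E, θ z * f (φ z) * jac E φ π z := by
  simp [chartR, h]

theorem chartR_of_not {E : Set (Euc k)} {φ : Euc k → X} {θ : Euc k → ℝ} {f : X → ℝ}
    {π : Fin k → X → ℝ} (h : ¬ IsTestPair f π) : chartR E φ θ f π = 0 := by
  simp [chartR, h]

/-- McShane extension of `π ∘ φ` from `E`. -/
theorem exists_ext {E : Set (Euc k)} {φ : Euc k → X} {L K : ℝ≥0} (hφ : LipschitzOnWith L φ E)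
    {p : X → ℝ} (hp : LipschitzWith K p) :
    ∃ U : Euc k → ℝ, LipschitzWith (K * L) U ∧ EqOn (fun w => p (φ w)) U E :=
  (hp.comp_lipschitzOnWith hφ).extend_real

/-- The data attached to a test tuple on a Lipschitz chart: Lipschitz extensions `U i` of
`π i ∘ φ`; the Jacobian within `E` is a.e. on `E` the Jacobian of `U`. -/
theorem exists_ext_tuple {E : Set (Euc k)} (hE : MeasurableSet E) {φ : Euc k → X} {L K : ℝ≥0}
    (hφ : LipschitzOnWith L φ E) {π : Fin k → X → ℝ} (hπ : ∀ i, LipschitzWith K (π i)) :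
    ∃ U : Fin k → Euc k → ℝ, (∀ i, LipschitzWith (K * L) (U i)) ∧
      (∀ i, EqOn (fun w => π i (φ w)) (U i) E) ∧
      ∀ᵐ z ∂(volume.restrict E), jacM E φ π z = B1Null.DM U z := by
  choose U hU1 hU2 using fun i => exists_ext hφ (hπ i)
  refine ⟨U, hU1, hU2, ?_⟩
  have h : ∀ᵐ z ∂((volume : Measure (Euc k)).restrict E), ∀ i,
      fderivWithin ℝ (fun w => π i (φ w)) E z = fderiv ℝ (U i) z :=
    ae_all_iff.2 fun i => B1Density.ae_fderivWithin_eq_of_lipschitz volume hE (hU2 i) (hU1 i)
  filter_upwards [h] with z hz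
  ext i j
  simp only [jacM, Matrix.of_apply, B1Null.DM_apply, hz i]

/-- A common Lipschitz constant for a tuple. -/
theorem exists_common {π : Fin k → X → ℝ} (h : ∀ i, ∃ K : ℝ≥0, LipschitzWith K (π i)) :
    ∃ K : ℝ≥0, ∀ i, LipschitzWith K (π i) := by
  choose K hK using h
  exact ⟨Finset.univ.sup K, fun i => (hK i).weaken (Finset.le_sup (Finset.mem_univ i))⟩

theorem aemeasurable_jac {E : Set (Euc k)} (hE : MeasurableSet E) {φ : Euc k → X} {L K : ℝ≥0}
    (hφ : LipschitzOnWith L φ E) {π : Fin k → X → ℝ} (hπ : ∀ i, LipschitzWith K (π i)) :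
    AEMeasurable (jac E φ π) (volume.restrict E) := by
  obtain ⟨U, -, -, hU⟩ := exists_ext_tuple hE hφ hπ
  refine ⟨fun z => (B1Null.DM U z).det, B1Null.measurable_det_DM U, ?_⟩
  filter_upwards [hU] with z hz
  rw [jac, hz]

theorem ae_abs_jac_le {E : Set (Euc k)} (hE : MeasurableSet E) {φ : Euc k → X} {L K : ℝ≥0}
    (hφ : LipschitzOnWith L φ E) {π : Fin k → X → ℝ} (hπ : ∀ i, LipschitzWith K (π i)) :
    ∀ᵐ z ∂(volume.restrict E), |jac E φ π z| ≤ (k.factorial : ℝ) * ((K : ℝ) * L) ^ k := by
  obtain ⟨U, hU1, -, hU⟩ := exists_ext_tuple hE hφ hπ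
  filter_upwards [hU] with z hz
  rw [jac, hz]
  have := B1Null.abs_det_DM_le hU1 z
  simpa using this

theorem continuousOn_comp {E : Set (Euc k)} {φ : Euc k → X} {L K : ℝ≥0}
    (hφ : LipschitzOnWith L φ E) {f : X → ℝ} (hf : LipschitzWith K f) :
    ContinuousOn (fun z => f (φ z)) E :=
  (hf.comp_lipschitzOnWith hφ).continuousOn

/-- The integrand of a chart action is integrable. -/
theorem integrable_integrand {E : Set (Euc k)} (hE : MeasurableSet E) {φ : Euc k → X} {L : ℝ≥0}
    (hφ : LipschitzOnWith L φ E) {θ : Euc k → ℝ} (hθ : IntegrableOn θ E) {f : X → ℝ}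
    {π : Fin k → X → ℝ} (h : IsTestPair f π) :
    IntegrableOn (fun z => θ z * f (φ z) * jac E φ π z) E := by
  obtain ⟨⟨Kf, hKf⟩, ⟨C, hC⟩, hπ⟩ := h
  obtain ⟨K, hK⟩ := exists_common hπ
  have h1 : AEStronglyMeasurable (fun z => f (φ z)) (volume.restrict E) :=
    (continuousOn_comp hφ hKf).aestronglyMeasurable hE
  have h2 : Integrable (fun z => θ z * f (φ z)) (volume.restrict E) := by
    refine Integrable.mul_bdd (c := C) hθ h1 (Eventually.of_forall fun z => ?_)
    rw [Real.norm_eq_abs]; exact hC _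
  refine Integrable.mul_bdd (c := (k.factorial : ℝ) * ((K : ℝ) * L) ^ k) h2
    (aemeasurable_jac hE hφ hK).aestronglyMeasurable ?_
  filter_upwards [ae_abs_jac_le hE hφ hK] with z hz
  rw [Real.norm_eq_abs]; exact hz

/-- Change of the density on a null set. -/
theorem chartR_congr_ae {E : Set (Euc k)} {φ : Euc k → X} {θ θ' : Euc k → ℝ}
    (h : θ =ᵐ[volume.restrict E] θ') : chartR E φ θ = chartR E φ θ' := by
  funext f π
  by_cases hfp : IsTestPair f π
  · rw [chartR_apply hfp, chartR_apply hfp]
    refine integral_congr_ae ?_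
    filter_upwards [h] with z hz
    rw [hz]
  · rw [chartR_of_not hfp, chartR_of_not hfp]

/-- Only the values of `φ` on `E` matter. -/
theorem chartR_congr_on {E : Set (Euc k)} (hE : MeasurableSet E) {φ φ' : Euc k → X}
    {θ : Euc k → ℝ} (h : EqOn φ φ' E) : chartR E φ θ = chartR E φ' θ := by
  funext f π
  by_cases hfp : IsTestPair f π
  · rw [chartR_apply hfp, chartR_apply hfp]
    refine setIntegral_congr_fun hE fun z hz => ?_
    have h1 : jac E φ π z = jac E φ' π z := by
      unfold jac jacM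
      congr 1
      ext i j
      simp only [Matrix.of_apply]
      rw [fderivWithin_congr (fun w hw => by rw [h hw]) (by rw [h hz])]
    simp only [h hz, h1]
  · rw [chartR_of_not hfp, chartR_of_not hfp]

/-- Restriction of the domain: Jacobians within a measurable subset agree a.e. -/
theorem ae_jacM_mono {E E' : Set (Euc k)} (hE : MeasurableSet E) (hE' : MeasurableSet E')
    (hsub : E' ⊆ E) {φ : Euc k → X} {L K : ℝ≥0} (hφ : LipschitzOnWith L φ E)
    {π : Fin k → X → ℝ} (hπ : ∀ i, LipschitzWith K (π i)) :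
    ∀ᵐ z ∂(volume.restrict E'), jacM E' φ π z = jacM E φ π z := by
  obtain ⟨U, hU1, hU2, hU3⟩ := exists_ext_tuple hE hφ hπ
  have h : ∀ᵐ z ∂((volume : Measure (Euc k)).restrict E'), ∀ i,
      fderivWithin ℝ (fun w => π i (φ w)) E' z = fderiv ℝ (U i) z :=
    ae_all_iff.2 fun i => B1Density.ae_fderivWithin_eq_of_lipschitz volume hE'
      ((hU2 i).mono hsub) (hU1 i)
  have h3 := ae_mono (Measure.restrict_mono_set volume hsub) hU3
  filter_upwards [h, h3] with z hz hz3
  rw [hz3]
  ext i j
  simp only [jacM, Matrix.of_apply, B1Null.DM_apply, hz i]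

theorem chartR_restrict {E E' : Set (Euc k)} (hE : MeasurableSet E) (hE' : MeasurableSet E')
    (hsub : E' ⊆ E) {φ : Euc k → X} {L : ℝ≥0} (hφ : LipschitzOnWith L φ E) (θ : Euc k → ℝ) :
    chartR E' φ θ = chartR E φ (E'.indicator θ) := by
  funext f π
  by_cases hfp : IsTestPair f π
  · rw [chartR_apply hfp, chartR_apply hfp]
    obtain ⟨K, hK⟩ := exists_common hfp.2.2
    have h1 : ∀ z, E'.indicator θ z * f (φ z) * jac E φ π z =
        E'.indicator (fun z => θ z * f (φ z) * jac E φ π z) z := by
      intro z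
      by_cases hz : z ∈ E' <;> simp [hz]
    simp only [h1]
    rw [setIntegral_indicator hE', inter_eq_self_of_subset_right hsub]
    refine integral_congr_ae ?_
    filter_upwards [ae_jacM_mono hE hE' hsub hφ hK] with z hz
    simp only [jac, hz]
  · rw [chartR_of_not hfp, chartR_of_not hfp]

/-- A chart action on a null set vanishes. -/
theorem chartR_null {E : Set (Euc k)} (h : volume E = 0) (φ : Euc k → X) (θ : Euc k → ℝ) :
    chartR E φ θ = 0 := by
  funext f π
  by_cases hfp : IsTestPair f π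
  · rw [chartR_apply hfp, Measure.restrict_eq_zero.2 h, integral_zero_measure]; rfl
  · rw [chartR_of_not hfp]; rfl

/-- Linearity in the density. -/
theorem chartR_add {E : Set (Euc k)} (hE : MeasurableSet E) {φ : Euc k → X} {L : ℝ≥0}
    (hφ : LipschitzOnWith L φ E) {θ θ' : Euc k → ℝ} (hθ : IntegrableOn θ E)
    (hθ' : IntegrableOn θ' E) :
    chartR E φ (fun z => θ z + θ' z) = chartR E φ θ + chartR E φ θ' := by
  funext f π
  by_cases hfp : IsTestPair f π
  · rw [Pi.add_apply, Pi.add_apply, chartR_apply hfp, chartR_apply hfp, chartR_apply hfp,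
      ← integral_add (integrable_integrand hE hφ hθ hfp) (integrable_integrand hE hφ hθ' hfp)]
    refine integral_congr_ae (Eventually.of_forall fun z => ?_)
    simp only; ring
  · rw [Pi.add_apply, Pi.add_apply, chartR_of_not hfp, chartR_of_not hfp, chartR_of_not hfp,
      add_zero]

theorem chartR_smul (c : ℝ) (E : Set (Euc k)) (φ : Euc k → X) (θ : Euc k → ℝ) :
    chartR E φ (fun z => c * θ z) = c • chartR E φ θ := by
  funext f π
  by_cases hfp : IsTestPair f π
  · rw [Pi.smul_apply, Pi.smul_apply, chartR_apply hfp, chartR_apply hfp, smul_eq_mul,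
      ← integral_const_mul]
    refine integral_congr_ae (Eventually.of_forall fun z => ?_)
    simp only; ring
  · rw [Pi.smul_apply, Pi.smul_apply, chartR_of_not hfp, chartR_of_not hfp, smul_zero]

/-- Countable splitting of the domain. -/
theorem hasSum_chartR {E : Set (Euc k)} (hE : MeasurableSet E) {φ : Euc k → X} {L : ℝ≥0}
    (hφ : LipschitzOnWith L φ E) {θ : Euc k → ℝ} (hθ : IntegrableOn θ E)
    {ι : Type*} [Countable ι] {P : ι → Set (Euc k)} (hP : ∀ i, MeasurableSet (P i))
    (hPd : Pairwise (Function.onFun Disjoint P)) (hPU : ⋃ i, P i = E) (f : X → ℝ)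
    (π : Fin k → X → ℝ) :
    HasSum (fun i => chartR (P i) φ θ f π) (chartR E φ θ f π) := by
  by_cases hfp : IsTestPair f π
  · obtain ⟨K, hK⟩ := exists_common hfp.2.2
    rw [chartR_apply hfp]
    have h1 : ∀ i, chartR (P i) φ θ f π = ∫ z in P i, θ z * f (φ z) * jac E φ π z := by
      intro i
      rw [chartR_apply hfp]
      refine integral_congr_ae ?_
      have hsub : P i ⊆ E := hPU ▸ subset_iUnion P i
      filter_upwards [ae_jacM_mono hE (hP i) hsub hφ hK] with z hz
      simp only [jac, hz]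
    simp only [h1]
    rw [← hPU]
    refine hasSum_integral_iUnion hP hPd ?_
    rw [hPU]
    exact integrable_integrand hE hφ hθ hfp
  · simp only [chartR_of_not hfp]
    exact hasSum_zero

/-- Push-forward of a functional under a map. -/
noncomputable def push (F : X → Y) (T : Functional X k) : Functional Y k :=
  fun f π => by
    classical
    exact if IsTestPair f π then T (fun x => f (F x)) (fun i x => π i (F x)) else 0

theorem isTestPair_comp {F : X → Y} {L : ℝ≥0} (hF : LipschitzWith L F) {f : Y → ℝ}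
    {π : Fin k → Y → ℝ} (h : IsTestPair f π) :
    IsTestPair (fun x => f (F x)) (fun i x => π i (F x)) := by
  obtain ⟨⟨K, hK⟩, ⟨C, hC⟩, hπ⟩ := h
  refine ⟨⟨K * L, hK.comp hF⟩, ⟨C, fun x => hC _⟩, fun i => ?_⟩
  obtain ⟨Ki, hKi⟩ := hπ i
  exact ⟨Ki * L, hKi.comp hF⟩

omit [MetricSpace X] in
theorem push_apply {F : X → Y} {T : Functional X k} {f : Y → ℝ} {π : Fin k → Y → ℝ}
    (h : IsTestPair f π) : push F T f π = T (fun x => f (F x)) (fun i x => π i (F x)) := by
  simp [push, h]

omit [MetricSpace X] in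
theorem push_of_not {F : X → Y} {T : Functional X k} {f : Y → ℝ} {π : Fin k → Y → ℝ}
    (h : ¬ IsTestPair f π) : push F T f π = 0 := by
  simp [push, h]

/-- Push-forward of a chart action. -/
theorem push_chartR {F : X → Y} {L : ℝ≥0} (hF : LipschitzWith L F) (E : Set (Euc k))
    (φ : Euc k → X) (θ : Euc k → ℝ) :
    push F (chartR E φ θ) = chartR E (fun z => F (φ z)) θ := by
  funext f π
  by_cases hfp : IsTestPair f π
  · rw [push_apply hfp, chartR_apply (isTestPair_comp hF hfp), chartR_apply hfp]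
    rfl
  · rw [push_of_not hfp, chartR_of_not hfp]

end Crest.Agent.R241.B1c1
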