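import Mathlib
import Crest.Agent.R241.B1c1

/-!
R241, block B1 (c3) (helper958): change of variables for chart actions under injective Lipschitz
maps (possibly with degenerate Jacobian) and under bi-Lipschitz maps.
-/

set_option autoImplicit false

open MeasureTheory Filter Topology Metric Set
open scoped NNReal ENNReal

namespace Crest.Agent.R241.B1c2

open Crest.GeometryTopology.MetricCurrent
open Crest.GeometryTopology.Submanifold (Euc)
open Crest.Agent.R241.B1c1

universe u v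

variable {X : Type u} [MetricSpace X] {k : ℕ}

theorem det_comp (A B : Euc k →L[ℝ] Euc k) : (A.comp B).det = A.det * B.det := by
  simp only [ContinuousLinearMap.det]
  exact LinearMap.det_comp _ _

/-- Chain rule for determinants of partial derivatives. -/
theorem det_DM_comp {ψ : Euc k → Euc k} {U : Fin k → Euc k → ℝ} {z : Euc k}
    (hψ : DifferentiableAt ℝ ψ z) (hU : ∀ i, DifferentiableAt ℝ (U i) (ψ z)) :
    (B1Null.DM (fun i w => U i (ψ w)) z).det
      = (B1Null.DM U (ψ z)).det * (fderiv ℝ ψ z).det := by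
  have h1 : ∀ i, DifferentiableAt ℝ (fun w => U i (ψ w)) z := fun i => (hU i).comp z hψ
  rw [← B1Null.det_fderiv_vec h1, ← B1Null.det_fderiv_vec hU, ← det_comp]
  congr 1
  exact fderiv_comp z (B1Null.hasFDerivAt_vec hU) hψ

/-- If `Dψ(z)` is degenerate, then so is the derivative of `U ∘ ψ` for Lipschitz `U`, even if `U`
is not differentiable at `ψ z`. -/
theorem det_DM_comp_eq_zero {ψ : Euc k → Euc k} {U : Fin k → Euc k → ℝ} {C : ℝ≥0}
    (hU : ∀ i, LipschitzWith C (U i)) {z : Euc k} (hψ : DifferentiableAt ℝ ψ z)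
    (h0 : (fderiv ℝ ψ z).det = 0) (hd : ∀ i, DifferentiableAt ℝ (fun w => U i (ψ w)) z) :
    (B1Null.DM (fun i w => U i (ψ w)) z).det = 0 := by
  obtain ⟨v, hv, hv0⟩ : ∃ v : Euc k, v ≠ 0 ∧ fderiv ℝ ψ z v = 0 := by
    have h1 := LinearMap.bot_lt_ker_of_det_eq_zero (f := (fderiv ℝ ψ z : Euc k →ₗ[ℝ] Euc k)) h0
    obtain ⟨v, hv, hv0⟩ := Submodule.exists_mem_ne_zero_of_ne_bot h1.ne'
    exact ⟨v, hv0, hv⟩
  have key : ∀ i, fderiv ℝ (fun w => U i (ψ w)) z v = 0 := by
    intro i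
    have h1 := ((hd i).hasFDerivAt.hasLineDerivAt v).tendsto_slope_zero
    have h2 := (hψ.hasFDerivAt.hasLineDerivAt v).tendsto_slope_zero
    rw [hv0] at h2
    have h3 : Tendsto (fun t : ℝ => (C : ℝ) * ‖t⁻¹ • (ψ (z + t • v) - ψ z)‖) (𝓝[≠] 0)
        (𝓝 ((C : ℝ) * ‖(0 : Euc k)‖)) := h2.norm.const_mul _
    rw [norm_zero, mul_zero] at h3
    refine tendsto_nhds_unique h1 (squeeze_zero_norm (fun t => ?_) h3)
    rw [norm_smul, norm_smul]
    have h4 := (hU i).dist_le_mul (ψ (z + t • v)) (ψ z)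
    rw [dist_eq_norm, dist_eq_norm] at h4
    calc ‖t⁻¹‖ * ‖U i (ψ (z + t • v)) - U i (ψ z)‖
        ≤ ‖t⁻¹‖ * (C * ‖ψ (z + t • v) - ψ z‖) := by gcongr
      _ = C * (‖t⁻¹‖ * ‖ψ (z + t • v) - ψ z‖) := by ring
  rw [← B1Null.det_fderiv_vec hd]
  have h5 : fderiv ℝ (B1Null.vec fun i w => U i (ψ w)) z v = 0 := by
    ext i
    rw [B1Null.fderiv_vec_apply hd]
    exact key i
  by_contra hne
  have h6 : IsUnit (LinearMap.det (fderiv ℝ (B1Null.vec fun i w => U i (ψ w)) z : Euc k →ₗ[ℝ] Euc k)) :=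
    isUnit_iff_ne_zero.2 hne
  have h7 := (LinearMap.equivOfIsUnitDet (M := Euc k) (f := (fderiv ℝ
    (B1Null.vec fun i w => U i (ψ w)) z : Euc k →ₗ[ℝ] Euc k)) h6).injective
  have h8 : (LinearMap.equivOfIsUnitDet (M := Euc k) (f := (fderiv ℝ
    (B1Null.vec fun i w => U i (ψ w)) z : Euc k →ₗ[ℝ] Euc k)) h6) v = 0 := by
    rw [LinearMap.equivOfIsUnitDet_apply]; exact h5
  exact hv (h7 (h8.trans (map_zero _).symm))

/-- Almost everywhere chain rule for the Jacobians within sets. -/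
theorem ae_jac_comp {E E' : Set (Euc k)} (hE : MeasurableSet E) (hE' : MeasurableSet E')
    {φ : Euc k → X} {L K M : ℝ≥0} (hφ : LipschitzOnWith L φ E) {ψ : Euc k → Euc k}
    (hψ : LipschitzWith M ψ) (hmaps : MapsTo ψ E' E) (hinj : InjOn ψ E')
    {π : Fin k → X → ℝ} (hπ : ∀ i, LipschitzWith K (π i)) :
    ∀ᵐ z ∂(volume.restrict E'),
      jac E' (fun w => φ (ψ w)) π z = jac E φ π (ψ z) * (fderiv ℝ ψ z).det := by
  obtain ⟨U, hU1, hU2, hU3⟩ := exists_ext_tuple hE hφ hπ
  -- the bad null set in `E`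
  have hUd : ∀ᵐ w ∂(volume : Measure (Euc k)), ∀ i, DifferentiableAt ℝ (U i) w :=
    ae_all_iff.2 fun i => (hU1 i).ae_differentiableAt
  have hbad : ∀ᵐ w ∂(volume : Measure (Euc k)),
      w ∈ E → (jacM E φ π w = B1Null.DM U w ∧ ∀ i, DifferentiableAt ℝ (U i) w) := by
    filter_upwards [(ae_restrict_iff' hE).1 hU3, hUd] with w h1 h2 hw
    exact ⟨h1 hw, h2⟩
  obtain ⟨N, hNsub, hNm, hN0⟩ := exists_measurable_superset_of_null (ae_iff.1 hbad)
  have hdet0 : ∀ᵐ z ∂(volume.restrict (E' ∩ ψ ⁻¹' N)), (fderiv ℝ ψ z).det = 0 := by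
    have hm : MeasurableSet (E' ∩ ψ ⁻¹' N) := hE'.inter (hψ.continuous.measurable hNm)
    have h1 := B1Null.area_eq hψ hm (hinj.mono inter_subset_left)
    have h2 : volume (ψ '' (E' ∩ ψ ⁻¹' N)) = 0 := by
      refine measure_mono_null ?_ hN0
      rintro _ ⟨z, hz, rfl⟩
      exact hz.2
    rw [h2, lintegral_eq_zero_iff] at h1
    · filter_upwards [h1] with z hz
      have : ENNReal.ofReal |(fderiv ℝ ψ z).det| = 0 := hz
      rw [ENNReal.ofReal_eq_zero] at this
      exact abs_eq_zero.1 (le_antisymm this (abs_nonneg _))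
    · have : Measurable fun z => (fderiv ℝ ψ z).det :=
        ContinuousLinearMap.continuous_det.measurable.comp (measurable_fderiv ℝ ψ)
      exact this.abs.ennreal_ofReal
  have hdet0' : ∀ᵐ z ∂(volume.restrict E'), ψ z ∈ N → (fderiv ℝ ψ z).det = 0 := by
    have hm : MeasurableSet (E' ∩ ψ ⁻¹' N) := hE'.inter (hψ.continuous.measurable hNm)
    rw [ae_restrict_iff' hm] at hdet0
    rw [ae_restrict_iff' hE']
    filter_upwards [hdet0] with z hz h1 h2
    exact hz ⟨h1, h2⟩
  -- derivatives of the composition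
  have hc : ∀ᵐ z ∂((volume : Measure (Euc k)).restrict E'), ∀ i,
      fderivWithin ℝ (fun w => π i (φ (ψ w))) E' z = fderiv ℝ (fun w => U i (ψ w)) z :=
    ae_all_iff.2 fun i => B1Density.ae_fderivWithin_eq_of_lipschitz volume hE'
      (fun w hw => hU2 i (hmaps hw)) ((hU1 i).comp hψ)
  have hcd : ∀ᵐ z ∂((volume : Measure (Euc k)).restrict E'), ∀ i,
      DifferentiableAt ℝ (fun w => U i (ψ w)) z :=
    ae_all_iff.2 fun i => ae_restrict_of_ae ((hU1 i).comp hψ).ae_differentiableAt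
  have hψd : ∀ᵐ z ∂((volume : Measure (Euc k)).restrict E'), DifferentiableAt ℝ ψ z :=
    ae_restrict_of_ae hψ.ae_differentiableAt
  filter_upwards [hdet0', hc, hcd, hψd, ae_restrict_mem hE'] with z h0 h1 h2 h3 hz
  have h4 : jacM E' (fun w => φ (ψ w)) π z = B1Null.DM (fun i w => U i (ψ w)) z := by
    ext i j
    simp only [jacM, Matrix.of_apply, B1Null.DM_apply, h1 i]
  rw [jac, h4]
  by_cases hN : ψ z ∈ N
  · rw [h0 hN, mul_zero]
    exact det_DM_comp_eq_zero hU1 h3 (h0 hN) h2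
  · have h5 : jacM E φ π (ψ z) = B1Null.DM U (ψ z) ∧ ∀ i, DifferentiableAt ℝ (U i) (ψ z) := by
      by_contra hcon
      exact hN (hNsub fun h => hcon (h (hmaps hz)))
    rw [jac, h5.1, det_DM_comp h3 h5.2]

theorem measurableSet_image {E' : Set (Euc k)} (hE' : MeasurableSet E') {ψ : Euc k → Euc k}
    {M : ℝ≥0} (hψ : LipschitzWith M ψ) (hinj : InjOn ψ E') : MeasurableSet (ψ '' E') :=
  hE'.image_of_continuousOn_injOn hψ.continuous.continuousOn hinj

/-- Change of variables in the Lebesgue integral for injective Lipschitz maps. -/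
theorem integral_image {E' : Set (Euc k)} (hE' : MeasurableSet E') {ψ : Euc k → Euc k} {M : ℝ≥0}
    (hψ : LipschitzWith M ψ) (hinj : InjOn ψ E') (G : Euc k → ℝ) :
    ∫ w in ψ '' E', G w = ∫ z in E', |(fderiv ℝ ψ z).det| * G (ψ z) := by
  set t := E' ∩ {x | DifferentiableAt ℝ ψ x} with ht
  have hdiff : ∀ᵐ x ∂(volume : Measure (Euc k)), DifferentiableAt ℝ ψ x := hψ.ae_differentiableAt
  have htm : MeasurableSet t := hE'.inter (measurableSet_of_differentiableAt ℝ ψ)
  have hae : t =ᵐ[volume] E' := by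
    filter_upwards [hdiff] with x hx
    simp only [eq_iff_iff]
    exact ⟨fun h1 => h1.1, fun h1 => ⟨h1, hx⟩⟩
  have hnull : volume (E' \ {x | DifferentiableAt ℝ ψ x}) = 0 :=
    measure_mono_null (fun x hx => hx.2) (ae_iff.mp hdiff)
  have him : (ψ '' t : Set (Euc k)) =ᵐ[volume] ψ '' E' := by
    refine ae_eq_set.2 ⟨?_, ?_⟩
    · rw [sdiff_eq_empty.2 (image_mono inter_subset_left), measure_empty]
    · refine measure_mono_null ?_ (B1Null.lipschitz_image_null hψ hnull)
      rintro _ ⟨⟨z, hz, rfl⟩, hzt⟩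
      exact ⟨z, ⟨hz, fun hd => hzt ⟨z, ⟨hz, hd⟩, rfl⟩⟩, rfl⟩
  rw [← setIntegral_congr_set him, ← setIntegral_congr_set hae,
    integral_image_eq_integral_abs_det_fderiv_smul volume htm
      (fun x hx => (DifferentiableAt.hasFDerivAt hx.2).hasFDerivWithinAt)
      (hinj.mono inter_subset_left)]
  simp only [smul_eq_mul]

/-- Integrability under change of variables for injective Lipschitz maps. -/
theorem integrableOn_image {E' : Set (Euc k)} (hE' : MeasurableSet E') {ψ : Euc k → Euc k}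
    {M : ℝ≥0} (hψ : LipschitzWith M ψ) (hinj : InjOn ψ E') (G : Euc k → ℝ) :
    IntegrableOn G (ψ '' E') ↔ IntegrableOn (fun z => |(fderiv ℝ ψ z).det| * G (ψ z)) E' := by
  set t := E' ∩ {x | DifferentiableAt ℝ ψ x} with ht
  have hdiff : ∀ᵐ x ∂(volume : Measure (Euc k)), DifferentiableAt ℝ ψ x := hψ.ae_differentiableAt
  have htm : MeasurableSet t := hE'.inter (measurableSet_of_differentiableAt ℝ ψ)
  have hae : t =ᵐ[volume] E' := by
    filter_upwards [hdiff] with x hx
    simp only [eq_iff_iff]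
    exact ⟨fun h1 => h1.1, fun h1 => ⟨h1, hx⟩⟩
  have hnull : volume (E' \ {x | DifferentiableAt ℝ ψ x}) = 0 :=
    measure_mono_null (fun x hx => hx.2) (ae_iff.mp hdiff)
  have him : (ψ '' t : Set (Euc k)) =ᵐ[volume] ψ '' E' := by
    refine ae_eq_set.2 ⟨?_, ?_⟩
    · rw [sdiff_eq_empty.2 (image_mono inter_subset_left), measure_empty]
    · refine measure_mono_null ?_ (B1Null.lipschitz_image_null hψ hnull)
      rintro _ ⟨⟨z, hz, rfl⟩, hzt⟩
      exact ⟨z, ⟨hz, fun hd => hzt ⟨z, ⟨hz, hd⟩, rfl⟩⟩, rfl⟩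
  rw [← integrableOn_congr_set_ae him, ← integrableOn_congr_set_ae hae,
    integrableOn_image_iff_integrableOn_abs_det_fderiv_smul volume htm
      (fun x hx => (DifferentiableAt.hasFDerivAt hx.2).hasFDerivWithinAt)
      (hinj.mono inter_subset_left)]
  simp only [smul_eq_mul]

/-- **Change of variables for chart actions** under an injective Lipschitz map `ψ` (the Jacobian
may degenerate): `chartR (ψ '' E') φ Θ = chartR E' (φ ∘ ψ) (sign (det Dψ) * Θ ∘ ψ)`. -/
theorem chartR_image {E' : Set (Euc k)} (hE' : MeasurableSet E') {ψ : Euc k → Euc k} {M : ℝ≥0}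
    (hψ : LipschitzWith M ψ) (hinj : InjOn ψ E') {φ : Euc k → X} {L : ℝ≥0}
    (hφ : LipschitzOnWith L φ (ψ '' E')) (Θ : Euc k → ℝ) :
    chartR (ψ '' E') φ Θ = chartR E' (fun z => φ (ψ z))
      (fun z => (SignType.sign (fderiv ℝ ψ z).det : ℝ) * Θ (ψ z)) := by
  funext f π
  by_cases hfp : IsTestPair f π
  · rw [chartR_apply hfp, chartR_apply hfp, integral_image hE' hψ hinj]
    obtain ⟨K, hK⟩ := exists_common hfp.2.2
    refine integral_congr_ae ?_
    filter_upwards [ae_jac_comp (measurableSet_image hE' hψ hinj) hE' hφ hψ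
      (mapsTo_image ψ E') hinj hK] with z hz
    rw [hz]
    have h1 : |(fderiv ℝ ψ z).det| =
        (SignType.sign (fderiv ℝ ψ z).det : ℝ) * (fderiv ℝ ψ z).det :=
      (sign_mul_self _).symm
    rw [h1]
    ring
  · rw [chartR_of_not hfp, chartR_of_not hfp]

/-- Integer version of `chartR_image`. -/
theorem chartAction_image {E' : Set (Euc k)} (hE' : MeasurableSet E') {ψ : Euc k → Euc k}
    {M : ℝ≥0} (hψ : LipschitzWith M ψ) (hinj : InjOn ψ E') {φ : Euc k → X} {L : ℝ≥0}
    (hφ : LipschitzOnWith L φ (ψ '' E')) (Θ : Euc k → ℤ) :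
    chartAction (ψ '' E') φ Θ = chartAction E' (fun z => φ (ψ z))
      (fun z => (SignType.sign (fderiv ℝ ψ z).det : ℤ) * Θ (ψ z)) := by
  rw [chartAction_eq, chartAction_eq, chartR_image hE' hψ hinj hφ]
  congr 1
  funext z
  push_cast
  rfl

/-- The inverse direction: a chart action on `E'` through `φ ∘ ψ` with an arbitrary density `θ`
is a chart action on `ψ '' E'`. -/
theorem chartR_comp {E' : Set (Euc k)} (hE' : MeasurableSet E') {ψ : Euc k → Euc k} {M : ℝ≥0}
    (hψ : LipschitzWith M ψ) (hinj : InjOn ψ E') {φ : Euc k → X} {L : ℝ≥0}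
    (hφ : LipschitzOnWith L φ (ψ '' E')) (θ : Euc k → ℝ) :
    chartR E' (fun z => φ (ψ z)) θ = chartR (ψ '' E') φ
      (fun w => (SignType.sign (fderiv ℝ ψ (Function.invFunOn ψ E' w)).det : ℝ)
        * θ (Function.invFunOn ψ E' w)) := by
  rw [chartR_image hE' hψ hinj hφ]
  funext f π
  by_cases hfp : IsTestPair f π
  · rw [chartR_apply hfp, chartR_apply hfp]
    obtain ⟨K, hK⟩ := exists_common hfp.2.2
    refine integral_congr_ae ?_
    filter_upwards [ae_jac_comp (measurableSet_image hE' hψ hinj) hE' hφ hψ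
      (mapsTo_image ψ E') hinj hK, ae_restrict_mem hE'] with z hz hzE
    rw [hinj.leftInvOn_invFunOn hzE]
    by_cases h0 : (fderiv ℝ ψ z).det = 0
    · have : jac E' (fun w => φ (ψ w)) π z = 0 := by rw [hz, h0, mul_zero]
      rw [this]; ring
    · have h2 : (SignType.sign (fderiv ℝ ψ z).det : ℝ) * (SignType.sign (fderiv ℝ ψ z).det : ℝ)
          = 1 := by
        rcases lt_or_gt_of_ne h0 with h | h
        · simp [sign_neg h]
        · simp [sign_pos h]
      rw [← mul_assoc, h2, one_mul]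
  · rw [chartR_of_not hfp, chartR_of_not hfp]

theorem abs_det_fderiv_le {ψ : Euc k → Euc k} {M : ℝ≥0} (hψ : LipschitzWith M ψ) :
    ∀ᵐ z ∂(volume : Measure (Euc k)),
      |(fderiv ℝ ψ z).det| ≤ (k.factorial : ℝ) * (M : ℝ) ^ k := by
  filter_upwards [hψ.ae_differentiableAt (μ := (volume : Measure (Euc k)))] with z hz
  have hcomp : ∀ i, LipschitzWith M (fun w => ψ w i) := by
    intro i
    refine LipschitzWith.of_dist_le_mul fun a b => ?_
    refine le_trans ?_ (hψ.dist_le_mul a b)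
    rw [dist_eq_norm, dist_eq_norm, ← PiLp.sub_apply]
    exact PiLp.norm_apply_le (ψ a - ψ b) i
  have hd : ∀ i, DifferentiableAt ℝ (fun w => ψ w i) z := fun i =>
    (EuclideanSpace.proj (𝕜 := ℝ) i).differentiableAt.comp z hz
  have h1 : (fderiv ℝ ψ z).det = (B1Null.DM (fun i w => ψ w i) z).det := by
    rw [← B1Null.det_fderiv_vec hd]; rfl
  rw [h1]
  exact B1Null.abs_det_DM_le hcomp z

/-- The transported density of `chartR_comp` is integrable. -/
theorem integrableOn_comp_density {E' : Set (Euc k)} (hE' : MeasurableSet E')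
    {ψ : Euc k → Euc k} {M : ℝ≥0} (hψ : LipschitzWith M ψ) (hinj : InjOn ψ E')
    {θ : Euc k → ℝ} (hθ : IntegrableOn θ E') :
    IntegrableOn (fun w => (SignType.sign (fderiv ℝ ψ (Function.invFunOn ψ E' w)).det : ℝ)
        * θ (Function.invFunOn ψ E' w)) (ψ '' E') := by
  rw [integrableOn_image hE' hψ hinj]
  have h1 : IntegrableOn (fun z => (fderiv ℝ ψ z).det * θ z) E' := by
    have hm : Measurable fun z => (fderiv ℝ ψ z).det :=
      ContinuousLinearMap.continuous_det.measurable.comp (measurable_fderiv ℝ ψ)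
    refine Integrable.bdd_mul (c := (k.factorial : ℝ) * (M : ℝ) ^ k) hθ
      hm.aestronglyMeasurable ?_
    filter_upwards [ae_restrict_of_ae (abs_det_fderiv_le hψ)] with z hz
    rw [Real.norm_eq_abs]; exact hz
  refine h1.congr ?_
  filter_upwards [ae_restrict_mem hE'] with z hz
  rw [hinj.leftInvOn_invFunOn hz, ← mul_assoc, mul_comm |_|, sign_mul_abs]

/-- Lower bound of the Jacobian of a map which is bi-Lipschitz on `E'`. -/
theorem exists_le_abs_det {E' : Set (Euc k)} (hE' : MeasurableSet E') {ψ : Euc k → Euc k}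
    {M : ℝ≥0} (hψ : LipschitzWith M ψ) {C : ℝ}
    (hC : ∀ z ∈ E', ∀ w ∈ E', dist z w ≤ C * dist (ψ z) (ψ w)) :
    ∃ c > 0, ∀ᵐ z ∂((volume : Measure (Euc k)).restrict E'), c ≤ |(fderiv ℝ ψ z).det| := by
  have hinj : InjOn ψ E' := fun z hz w hw h => by
    have := hC z hz w hw
    rw [h, dist_self, mul_zero] at this
    exact dist_le_zero.1 this
  -- the inverse map and its Lipschitz extension
  have hg : LipschitzOnWith (Real.toNNReal C) (Function.invFunOn ψ E') (ψ '' E') := by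
    refine LipschitzOnWith.of_dist_le_mul ?_
    rintro _ ⟨z, hz, rfl⟩ _ ⟨w, hw, rfl⟩
    rw [hinj.leftInvOn_invFunOn hz, hinj.leftInvOn_invFunOn hw]
    refine (hC z hz w hw).trans ?_
    gcongr
    exact Real.le_coe_toNNReal C
  obtain ⟨G, hG1, hG2⟩ := hg.extend_finite_dimension
  set K : ℝ≥0 := lipschitzExtensionConstant (Euc k) * Real.toNNReal C with hK
  have hGψ : ∀ z ∈ E', G (ψ z) = z := fun z hz => by
    rw [← hG2 (mem_image_of_mem ψ hz), hinj.leftInvOn_invFunOn hz]
  set U : Fin k → Euc k → ℝ := fun i w => G w i with hU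
  have hU1 : ∀ i, LipschitzWith K (U i) := by
    intro i
    refine LipschitzWith.of_dist_le_mul fun a b => ?_
    refine le_trans ?_ (hG1.dist_le_mul a b)
    rw [dist_eq_norm, dist_eq_norm, hU]
    simp only
    rw [← PiLp.sub_apply]
    exact PiLp.norm_apply_le (G a - G b) i
  have hGd : ∀ᵐ w ∂(volume : Measure (Euc k)), DifferentiableAt ℝ G w :=
    hG1.ae_differentiableAt
  set N : Set (Euc k) := {w | ¬ DifferentiableAt ℝ G w} with hN
  have hN0 : volume N = 0 := hGd
  have hGN : volume (G '' N) = 0 := B1Null.lipschitz_image_null hG1 hN0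
  have h1 : ∀ᵐ z ∂((volume : Measure (Euc k)).restrict E'), DifferentiableAt ℝ G (ψ z) := by
    have h2 : ∀ᵐ z ∂((volume : Measure (Euc k)).restrict E'), z ∉ G '' N :=
      ae_restrict_of_ae (measure_eq_zero_iff_ae_notMem.1 hGN)
    filter_upwards [h2, ae_restrict_mem hE'] with z hz hzE
    by_contra hcon
    exact hz ⟨ψ z, hcon, hGψ z hzE⟩
  have h3 : ∀ᵐ z ∂((volume : Measure (Euc k)).restrict E'),
      fderivWithin ℝ (fun w : Euc k => w) E' z = fderiv ℝ (fun w => G (ψ w)) z :=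
    B1Density.ae_fderivWithin_eq volume hE' (fun w hw => (hGψ w hw).symm)
      (hG1.comp hψ).ae_differentiableAt
  set c : ℝ := (k.factorial : ℝ) * (K : ℝ) ^ k + 1 with hc
  have hc0 : 0 < c := by positivity
  refine ⟨1 / c, by positivity, ?_⟩
  have h4 : ∀ᵐ z ∂((volume : Measure (Euc k)).restrict E'), DifferentiableAt ℝ ψ z :=
    ae_restrict_of_ae hψ.ae_differentiableAt
  filter_upwards [h1, h3, h4, B1Density.ae_uniqueDiffWithinAt volume hE'] with z h1 h3 h4 h5
  have h6 : fderiv ℝ (fun w => G (ψ w)) z = (fderiv ℝ G (ψ z)).comp (fderiv ℝ ψ z) :=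
    fderiv_comp z h1 h4
  rw [fderivWithin_fun_id h5, h6] at h3
  have h7 : (fderiv ℝ G (ψ z)).det * (fderiv ℝ ψ z).det = 1 := by
    rw [← det_comp, ← h3]
    simp [ContinuousLinearMap.det]
  have h8 : |(fderiv ℝ G (ψ z)).det| ≤ (k.factorial : ℝ) * (K : ℝ) ^ k := by
    have hd : ∀ i, DifferentiableAt ℝ (U i) (ψ z) := fun i =>
      (EuclideanSpace.proj (𝕜 := ℝ) i).differentiableAt.comp (ψ z) h1
    have h9 : (fderiv ℝ G (ψ z)).det = (B1Null.DM U (ψ z)).det := by
      rw [← B1Null.det_fderiv_vec hd]; rfl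
    rw [h9]
    exact B1Null.abs_det_DM_le hU1 _
  have h10 : |(fderiv ℝ G (ψ z)).det| * |(fderiv ℝ ψ z).det| = 1 := by
    rw [← abs_mul, h7, abs_one]
  rw [div_le_iff₀ hc0]
  calc (1 : ℝ) = |(fderiv ℝ G (ψ z)).det| * |(fderiv ℝ ψ z).det| := h10.symm
    _ ≤ c * |(fderiv ℝ ψ z).det| := by
        gcongr
        rw [hc]; linarith
    _ = |(fderiv ℝ ψ z).det| * c := mul_comm _ _

/-- For maps which are bi-Lipschitz on `E'`, the pulled back density of `chartR_image` is
integrable. -/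
theorem integrableOn_image_density {E' : Set (Euc k)} (hE' : MeasurableSet E')
    {ψ : Euc k → Euc k} {M : ℝ≥0} (hψ : LipschitzWith M ψ) {C : ℝ}
    (hC : ∀ z ∈ E', ∀ w ∈ E', dist z w ≤ C * dist (ψ z) (ψ w)) {Θ : Euc k → ℝ}
    (hΘ : IntegrableOn Θ (ψ '' E')) :
    IntegrableOn (fun z => (SignType.sign (fderiv ℝ ψ z).det : ℝ) * Θ (ψ z)) E' := by
  have hinj : InjOn ψ E' := fun z hz w hw h => by
    have := hC z hz w hw
    rw [h, dist_self, mul_zero] at this
    exact dist_le_zero.1 this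
  obtain ⟨c, hc, hcl⟩ := exists_le_abs_det hE' hψ hC
  rw [integrableOn_image hE' hψ hinj] at hΘ
  have hm : Measurable fun z => (fderiv ℝ ψ z).det :=
    ContinuousLinearMap.continuous_det.measurable.comp (measurable_fderiv ℝ ψ)
  have h1 : IntegrableOn (fun z => ((SignType.sign (fderiv ℝ ψ z).det : ℝ) *
      |(fderiv ℝ ψ z).det|⁻¹) * (|(fderiv ℝ ψ z).det| * Θ (ψ z))) E' := by
    refine Integrable.bdd_mul (c := c⁻¹) hΘ ?_ ?_
    · refine Measurable.aestronglyMeasurable ?_
      refine Measurable.mul ?_ hm.abs.inv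
      have : Measurable fun x : ℝ => (SignType.sign x : ℝ) := by
        have h : (fun x : ℝ => (SignType.sign x : ℝ)) =
            fun x : ℝ => if 0 < x then (1 : ℝ) else if x < 0 then -1 else 0 := by
          funext x
          rcases lt_trichotomy x 0 with h | h | h
          · simp [sign_neg h, h, not_lt.2 h.le]
          · simp [h]
          · simp [sign_pos h, h]
        rw [h]
        exact Measurable.ite measurableSet_Ioi measurable_const
          (Measurable.ite measurableSet_Iio measurable_const measurable_const)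
      exact this.comp hm
    · filter_upwards [hcl] with z hz
      have h0 : 0 < |(fderiv ℝ ψ z).det| := lt_of_lt_of_le hc hz
      rw [norm_mul, norm_inv, Real.norm_eq_abs, Real.norm_eq_abs, abs_abs]
      have h2 : |(SignType.sign (fderiv ℝ ψ z).det : ℝ)| ≤ 1 := by
        rcases lt_trichotomy (fderiv ℝ ψ z).det 0 with h | h | h
        · simp [sign_neg h]
        · simp [h]
        · simp [sign_pos h]
      calc |(SignType.sign (fderiv ℝ ψ z).det : ℝ)| * |(fderiv ℝ ψ z).det|⁻¹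
          ≤ 1 * |(fderiv ℝ ψ z).det|⁻¹ := by gcongr
        _ = |(fderiv ℝ ψ z).det|⁻¹ := one_mul _
        _ ≤ c⁻¹ := by gcongr
  refine h1.congr ?_
  filter_upwards [hcl] with z hz
  have h0 : |(fderiv ℝ ψ z).det| ≠ 0 := (lt_of_lt_of_le hc hz).ne'
  field_simp

/-- Version of `chartR_image` for `ψ` Lipschitz on `E'` only. -/
theorem chartR_image_on {E' : Set (Euc k)} (hE' : MeasurableSet E') {ψ : Euc k → Euc k} {M : ℝ≥0}
    (hψ : LipschitzOnWith M ψ E') (hinj : InjOn ψ E') {φ : Euc k → X} {L : ℝ≥0}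
    (hφ : LipschitzOnWith L φ (ψ '' E')) (Θ : Euc k → ℝ) :
    chartR (ψ '' E') φ Θ = chartR E' (fun z => φ (ψ z))
      (fun z => (SignType.sign (fderivWithin ℝ ψ E' z).det : ℝ) * Θ (ψ z)) := by
  obtain ⟨Ψ, hΨ1, hΨ2⟩ := hψ.extend_finite_dimension
  have himg : ψ '' E' = Ψ '' E' := image_congr hΨ2
  have hinj' : InjOn Ψ E' := fun a ha b hb h => hinj ha hb (by rw [hΨ2 ha, hΨ2 hb, h])
  rw [himg] at hφ ⊢
  rw [chartR_image hE' hΨ1 hinj' hφ, chartR_congr_on hE' (φ' := fun z => φ (ψ z))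
    (fun z hz => congrArg φ (hΨ2 hz).symm)]
  refine chartR_congr_ae ?_
  filter_upwards [B1Density.ae_fderivWithin_eq volume hE' hΨ2 hΨ1.ae_differentiableAt,
    ae_restrict_mem hE'] with z hz hzE
  rw [hz, hΨ2 hzE]

/-- Version of `chartAction_image` for `ψ` Lipschitz on `E'` only. -/
theorem chartAction_image_on {E' : Set (Euc k)} (hE' : MeasurableSet E') {ψ : Euc k → Euc k}
    {M : ℝ≥0} (hψ : LipschitzOnWith M ψ E') (hinj : InjOn ψ E') {φ : Euc k → X} {L : ℝ≥0}
    (hφ : LipschitzOnWith L φ (ψ '' E')) (Θ : Euc k → ℤ) :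
    chartAction (ψ '' E') φ Θ = chartAction E' (fun z => φ (ψ z))
      (fun z => (SignType.sign (fderivWithin ℝ ψ E' z).det : ℤ) * Θ (ψ z)) := by
  rw [chartAction_eq, chartAction_eq, chartR_image_on hE' hψ hinj hφ]
  congr 1
  funext z
  push_cast
  rfl

end Crest.Agent.R241.B1c2
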