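import Mathlib

/-!
# R241, block B3a: metric differential of a Lipschitz map, abstract form

`U : ι → F → ℝ` is a countable family of `L`-Lipschitz functions on a finite-dimensional space.
`N U z v = ⨆ j, |fderiv ℝ (U j) z v|` is the metric differential of the pseudo-distance
`⨆ j, |U j w - U j w'|`; we prove Kirchheim's strong metric differentiability.
-/

set_option autoImplicit false

open MeasureTheory Measure Filter Set Metric
open scoped NNReal ENNReal Topology

namespace Crest.Agent.R241.B3a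

variable {F : Type*} [NormedAddCommGroup F] [NormedSpace ℝ F]
variable {ι : Type*} {L : ℝ≥0} {U : ι → F → ℝ}

/-- the metric differential of the family `U` at `z`, in direction `v`. -/
noncomputable def N (U : ι → F → ℝ) (z v : F) : ℝ := ⨆ j, |fderiv ℝ (U j) z v|

lemma abs_fderiv_le (hU : ∀ j, LipschitzWith L (U j)) (z v : F) (j : ι) :
    |fderiv ℝ (U j) z v| ≤ L * ‖v‖ := by
  have h := (fderiv ℝ (U j) z).le_opNorm v
  have h2 : ‖fderiv ℝ (U j) z‖ ≤ L := norm_fderiv_le_of_lipschitz ℝ (hU j)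
  rw [Real.norm_eq_abs] at h
  exact h.trans (mul_le_mul_of_nonneg_right h2 (norm_nonneg v))

lemma bddAbove_N (hU : ∀ j, LipschitzWith L (U j)) (z v : F) :
    BddAbove (range fun j => |fderiv ℝ (U j) z v|) :=
  ⟨L * ‖v‖, by rintro _ ⟨j, rfl⟩; exact abs_fderiv_le hU z v j⟩

lemma le_N (hU : ∀ j, LipschitzWith L (U j)) (z v : F) (j : ι) :
    |fderiv ℝ (U j) z v| ≤ N U z v := le_ciSup (bddAbove_N hU z v) j

lemma N_nonneg (z v : F) : 0 ≤ N U z v := Real.iSup_nonneg fun _ => abs_nonneg _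

lemma N_le (hU : ∀ j, LipschitzWith L (U j)) (z v : F) : N U z v ≤ L * ‖v‖ :=
  Real.iSup_le (fun j => abs_fderiv_le hU z v j) (by positivity)

lemma N_zero (z : F) : N U z 0 = 0 := by simp [N]

lemma N_neg (z v : F) : N U z (-v) = N U z v := by simp [N]

lemma N_smul (z v : F) (t : ℝ) : N U z (t • v) = |t| * N U z v := by
  simp only [N, map_smul, smul_eq_mul, abs_mul]
  rw [Real.mul_iSup_of_nonneg (abs_nonneg t)]

lemma N_add_le (hU : ∀ j, LipschitzWith L (U j)) (z v w : F) :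
    N U z (v + w) ≤ N U z v + N U z w := by
  refine Real.iSup_le (fun j => ?_) (add_nonneg (N_nonneg _ _) (N_nonneg _ _))
  rw [map_add]
  exact (abs_add_le _ _).trans (add_le_add (le_N hU z v j) (le_N hU z w j))

lemma N_le_add (hU : ∀ j, LipschitzWith L (U j)) (z v w : F) :
    N U z v ≤ N U z w + L * ‖v - w‖ := by
  have h := N_add_le hU z w (v - w)
  rw [add_sub_cancel] at h
  exact h.trans (add_le_add le_rfl (N_le hU _ _))

lemma measurable_N [MeasurableSpace F] [BorelSpace F] [Countable ι] (v : F) :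
    Measurable fun z => N U z v := by
  unfold N
  refine Measurable.iSup fun j => ?_
  have h : Measurable fun z => fderiv ℝ (U j) z v := measurable_fderiv_apply_const ℝ (U j) v
  exact h.abs

lemma ae_dir_real [Countable ι] {g : ι → ℝ → ℝ} (hg : ∀ j, LipschitzWith L (g j)) :
    ∀ᵐ s : ℝ, ∀ ε > 0, ∃ δ > 0, ∀ t, |t| < δ → ∀ j,
      |g j (s + t) - g j s| ≤ ((⨆ j, |deriv (g j) s|) + ε) * |t| := by
  set n : ℝ → ℝ := fun s => ⨆ j, |deriv (g j) s| with hn
  have hd : ∀ j s, |deriv (g j) s| ≤ L := fun j s => by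
    have := norm_deriv_le_of_lipschitz (hg j) (x₀ := s)
    rwa [Real.norm_eq_abs] at this
  have hbdd : ∀ s, BddAbove (range fun j => |deriv (g j) s|) := fun s =>
    ⟨L, by rintro _ ⟨j, rfl⟩; exact hd j s⟩
  have hn0 : ∀ s, 0 ≤ n s := fun s => Real.iSup_nonneg fun _ => abs_nonneg _
  have hnL : ∀ s, n s ≤ L := fun s => Real.iSup_le (fun j => hd j s) L.2
  have hnm : Measurable n := Measurable.iSup fun j => (measurable_deriv (g j)).abs
  have hloc : LocallyIntegrable n volume := by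
    refine MemLp.locallyIntegrable (p := ⊤) (memLp_top_of_bound hnm.aestronglyMeasurable L
      (.of_forall fun s => ?_)) le_top
    rw [Real.norm_eq_abs, abs_of_nonneg (hn0 s)]; exact hnL s
  filter_upwards [_root_.LocallyIntegrable.ae_hasDerivAt_integral hloc] with s hs ε hε
  have h1 := (hs s)
  rw [hasDerivAt_iff_isLittleO_nhds_zero] at h1
  have h2 := h1.def hε
  rw [Metric.eventually_nhds_iff] at h2
  obtain ⟨δ, hδ, h3⟩ := h2
  refine ⟨δ, hδ, fun t ht j => ?_⟩
  have h4 := h3 (y := t) (by simpa using ht)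
  simp only [intervalIntegral.integral_same, sub_zero, smul_eq_mul, Real.norm_eq_abs] at h4
  have hint : ∀ a b : ℝ, IntervalIntegrable n volume a b := fun a b =>
    intervalIntegrable_iff.mpr
      ((hloc.integrableOn_isCompact isCompact_uIcc).mono_set uIoc_subset_uIcc)
  have hac : AbsolutelyContinuousOnInterval (g j) s (s + t) :=
    ((hg j).lipschitzOnWith (s := uIcc s (s + t))).absolutelyContinuousOnInterval
  have h5 : ∫ x in s..(s + t), deriv (g j) x = g j (s + t) - g j s :=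
    hac.integral_deriv_eq_sub
  have h6 : |∫ x in s..(s + t), deriv (g j) x| ≤ |∫ x in s..(s + t), n x| := by
    rw [← Real.norm_eq_abs]
    refine intervalIntegral.norm_integral_le_abs_of_norm_le ?_ (hint _ _)
    refine ae_of_all _ fun x => ?_
    rw [Real.norm_eq_abs]
    exact le_ciSup (hbdd x) j
  rw [← h5]
  refine h6.trans ?_
  have h7 : |∫ x in s..(s + t), n x| ≤ |(∫ x in s..(s + t), n x) - t * n s| + |t * n s| := by
    have := abs_add_le ((∫ x in s..(s + t), n x) - t * n s) (t * n s)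
    simpa using this
  rw [abs_mul t, abs_of_nonneg (hn0 s)] at h7
  have : (n s + ε) * |t| = ε * |t| + |t| * n s := by ring
  rw [this]
  linarith

lemma lineDeriv_shift (f : F → ℝ) (p v : F) (s : ℝ) :
    lineDeriv ℝ f (p + s • v) v = deriv (fun t => f (p + t • v)) s := by
  unfold lineDeriv
  have h : (fun t : ℝ => f (p + s • v + t • v)) = fun t => (fun t => f (p + t • v)) (s + t) := by
    funext t
    simp only [add_smul, add_assoc]
  rw [h, deriv_comp_const_add (fun t : ℝ => f (p + t • v)) s 0, add_zero]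

variable [FiniteDimensional ℝ F] [MeasurableSpace F] [BorelSpace F] {μ : Measure F}
  [IsAddHaarMeasure μ]

/-- the countable version of "good in direction `v`". -/
private def AQ (U : ι → F → ℝ) (v : F) : Set F :=
  ⋂ m : ℕ, ⋃ k : ℕ, ⋂ t : ℚ, ⋂ j : ι, {z | |(t : ℝ)| < 1 / ((k : ℝ) + 1) →
      |U j (z + (t : ℝ) • v) - U j z| ≤
        ((⨆ i, |lineDeriv ℝ (U i) z v|) + 1 / ((m : ℝ) + 1)) * |(t : ℝ)|}

omit [FiniteDimensional ℝ F] in
private lemma measurableSet_AQ [Countable ι] (hU : ∀ j, LipschitzWith L (U j)) (v : F) :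
    MeasurableSet (AQ U v) := by
  unfold AQ
  refine MeasurableSet.iInter fun m => MeasurableSet.iUnion fun k => MeasurableSet.iInter fun t =>
    MeasurableSet.iInter fun j => ?_
  by_cases ht : |(t : ℝ)| < 1 / ((k : ℝ) + 1)
  · simp only [ht, forall_const]
    refine measurableSet_le ?_ ?_
    · exact (((hU j).continuous.comp (continuous_add_const _)).sub (hU j).continuous).abs.measurable
    · refine Measurable.mul ?_ measurable_const
      refine Measurable.add ?_ measurable_const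
      exact Measurable.iSup fun i => (measurable_lineDeriv (hU i).continuous).abs
  · convert MeasurableSet.univ
    exact eq_univ_of_forall fun z h => absurd h ht

lemma ae_dir [Countable ι] (hU : ∀ j, LipschitzWith L (U j)) (v : F) :
    ∀ᵐ z ∂μ, ∀ ε > 0, ∃ δ > 0, ∀ t, |t| < δ → ∀ j,
      |U j (z + t • v) - U j z| ≤ ((⨆ i, |lineDeriv ℝ (U i) z v|) + ε) * |t| := by
  have key : ∀ᵐ z ∂μ, z ∈ AQ U v := by
    let l : ℝ →L[ℝ] F := ContinuousLinearMap.smulRight (1 : ℝ →L[ℝ] ℝ) v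
    refine ae_mem_of_ae_add_linearMap_mem l.toLinearMap volume μ (measurableSet_AQ hU v) fun p => ?_
    have hl : ∀ s : ℝ, l s = s • v := fun s => by simp [l]
    have hg : ∀ j, LipschitzWith (L * ‖v‖₊) (fun s : ℝ => U j (p + s • v)) := fun j => by
      refine LipschitzWith.of_dist_le_mul fun a b => ?_
      refine ((hU j).dist_le_mul _ _).trans ?_
      rw [dist_add_left, dist_eq_norm, ← sub_smul, norm_smul, dist_eq_norm, NNReal.coe_mul,
        coe_nnnorm]
      exact le_of_eq (by ring)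
    filter_upwards [ae_dir_real hg] with s hs
    change p + l s ∈ AQ U v
    rw [hl]
    simp only [AQ, mem_iInter, mem_iUnion, mem_ofPred_eq]
    intro m
    obtain ⟨δ, hδ, h⟩ := hs (1 / ((m : ℝ) + 1)) (by positivity)
    obtain ⟨k, hk⟩ := exists_nat_one_div_lt hδ
    refine ⟨k, fun t j ht => ?_⟩
    have h2 := h t (ht.trans hk) j
    simp only [lineDeriv_shift]
    have e : p + s • v + (t : ℝ) • v = p + (s + t) • v := by rw [add_smul, add_assoc]
    rw [e]
    exact h2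
  filter_upwards [key] with z hz ε hε
  simp only [AQ, mem_iInter, mem_iUnion, mem_ofPred_eq] at hz
  obtain ⟨m, hm⟩ := exists_nat_one_div_lt hε
  obtain ⟨k, hk⟩ := hz m
  refine ⟨1 / ((k : ℝ) + 1), by positivity, fun t ht j => ?_⟩
  -- pass to the limit from rationals
  have hcl : IsClosed {t : ℝ | |U j (z + t • v) - U j z| ≤
      ((⨆ i, |lineDeriv ℝ (U i) z v|) + 1 / ((m : ℝ) + 1)) * |t|} := by
    refine isClosed_le ?_ ?_
    · exact (((hU j).continuous.comp (by fun_prop)).sub continuous_const).abs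
    · fun_prop
  have hopen : IsOpen {t : ℝ | |t| < 1 / ((k : ℝ) + 1)} :=
    isOpen_lt continuous_abs continuous_const
  have hden : t ∈ closure ({t : ℝ | |t| < 1 / ((k : ℝ) + 1)} ∩ range ((↑) : ℚ → ℝ)) := by
    have := Rat.denseRange_cast (𝕜 := ℝ)
    exact (Dense.open_subset_closure_inter this hopen) ht
  have hmem : t ∈ {t : ℝ | |U j (z + t • v) - U j z| ≤
      ((⨆ i, |lineDeriv ℝ (U i) z v|) + 1 / ((m : ℝ) + 1)) * |t|} := by
    refine (closure_minimal ?_ hcl) hden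
    rintro _ ⟨h1, q, rfl⟩
    exact hk q j h1
  refine le_trans hmem ?_
  have := abs_nonneg t
  nlinarith

/-- `z` is a (weak) density point of `K`. -/
def Dens {F : Type*} [NormedAddCommGroup F] (K : Set F) (z : F) : Prop :=
  ∀ ε > 0, ∃ δ > 0, ∀ w, ‖w - z‖ < δ → ∃ y ∈ K, ‖y - w‖ ≤ ε * ‖w - z‖

/-- almost every point of any set is a density point. -/
lemma ae_dens (K : Set F) : ∀ᵐ z ∂μ, z ∈ K → Dens K z := by
  have h : ∀ m : ℕ, ∀ᵐ z ∂μ, z ∈ K → ∃ δ > 0, ∀ w, ‖w - z‖ < δ → w ≠ z → 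
      ∃ y ∈ K, ‖y - w‖ ≤ (1 / ((m : ℝ) + 1)) * ‖w - z‖ := by
    intro m
    refine ae_imp_of_ae_restrict ?_
    filter_upwards [IsUnifLocDoublingMeasure.ae_tendsto_measure_inter_div
      (μ := μ) K ((m : ℝ) + 1)] with z hz
    have hm : (0 : ℝ) < (m : ℝ) + 1 := by positivity
    have h1 : Tendsto (fun w : F => (1 / ((m : ℝ) + 1)) * ‖w - z‖) (𝓝[≠] z) (𝓝[>] 0) := by
      refine tendsto_nhdsWithin_iff.2 ⟨?_, ?_⟩
      · have : Tendsto (fun w : F => (1 / ((m : ℝ) + 1)) * ‖w - z‖) (𝓝 z)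
            (𝓝 ((1 / ((m : ℝ) + 1)) * ‖z - z‖)) := by
          apply Continuous.tendsto
          fun_prop
        rw [sub_self, norm_zero, mul_zero] at this
        exact this.mono_left nhdsWithin_le_nhds
      · filter_upwards [self_mem_nhdsWithin] with w hw
        have : 0 < ‖w - z‖ := norm_pos_iff.2 (sub_ne_zero.2 hw)
        simp only [mem_Ioi]
        positivity
    have h2 := hz (l := 𝓝[≠] z) (fun w => w) (fun w => (1 / ((m : ℝ) + 1)) * ‖w - z‖) h1
      (Eventually.of_forall fun w => by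
        rw [mem_closedBall, dist_comm, dist_eq_norm, ← mul_assoc, mul_one_div_cancel hm.ne', one_mul])
    have h3 : ∀ᶠ w in 𝓝[≠] z, (K ∩ closedBall w ((1 / ((m : ℝ) + 1)) * ‖w - z‖)).Nonempty := by
      filter_upwards [h2.eventually_ne one_ne_zero] with w hw
      by_contra hcon
      rw [not_nonempty_iff_eq_empty] at hcon
      apply hw
      rw [hcon]
      simp
    rw [eventually_nhdsWithin_iff, Metric.eventually_nhds_iff] at h3
    obtain ⟨δ, hδ, h4⟩ := h3
    refine ⟨δ, hδ, fun w hw hne => ?_⟩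
    obtain ⟨y, hyK, hy⟩ := h4 (by rwa [dist_eq_norm]) hne
    exact ⟨y, hyK, by rwa [mem_closedBall, dist_eq_norm] at hy⟩
  filter_upwards [ae_all_iff.2 h] with z hz hzK ε hε
  obtain ⟨m, hm⟩ := exists_nat_one_div_lt hε
  obtain ⟨δ, hδ, h2⟩ := hz m hzK
  refine ⟨δ, hδ, fun w hw => ?_⟩
  rcases eq_or_ne w z with rfl | hne
  · exact ⟨w, hzK, by simp⟩
  obtain ⟨y, hy, hyw⟩ := h2 w hw hne
  exact ⟨y, hy, hyw.trans (mul_le_mul_of_nonneg_right hm.le (norm_nonneg _))⟩

omit [MeasurableSpace F] [BorelSpace F] in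
/-- finite nets of the unit sphere in the dense sequence -/
lemma exists_net {η : ℝ} (hη : 0 < η) : ∃ T : Finset ℕ, ∀ ω : F, ‖ω‖ = 1 →
    ∃ i ∈ T, ‖ω - TopologicalSpace.denseSeq F i‖ < η := by
  have hc : IsCompact (sphere (0 : F) 1) := isCompact_sphere 0 1
  obtain ⟨T, hT⟩ := hc.elim_finite_subcover
    (fun i : ℕ => ball (TopologicalSpace.denseSeq F i) η) (fun i => isOpen_ball) (by
      intro ω _
      obtain ⟨_, ⟨i, rfl⟩, hi⟩ :=
        Metric.mem_closure_iff.1 ((TopologicalSpace.denseRange_denseSeq F) ω) η hη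
      exact mem_iUnion.2 ⟨i, hi⟩)
  refine ⟨T, fun ω hω => ?_⟩
  have h2 := hT (show ω ∈ sphere (0 : F) 1 by simpa using hω)
  simp only [mem_iUnion, exists_prop] at h2
  obtain ⟨i, hi, hb⟩ := h2
  exact ⟨i, hi, by rwa [mem_ball, dist_eq_norm] at hb⟩

omit [MeasurableSpace F] [BorelSpace F] [FiniteDimensional ℝ F] in
/-- reduction to the unit sphere -/
lemma exists_unit {h : F} (hh : h ≠ 0) : ∃ ω : F, ‖ω‖ = 1 ∧ h = ‖h‖ • ω := by
  have h0 : ‖h‖ ≠ 0 := norm_ne_zero_iff.2 hh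
  refine ⟨‖h‖⁻¹ • h, ?_, ?_⟩
  · rw [norm_smul, norm_inv, norm_norm, inv_mul_cancel₀ h0]
  · rw [smul_smul, mul_inv_cancel₀ h0, one_smul]

/-- one-point upper bound. -/
lemma ae_one_point [Countable ι] (hU : ∀ j, LipschitzWith L (U j)) :
    ∀ᵐ z ∂μ, ∀ ε > 0, ∃ δ > 0, ∀ h : F, ‖h‖ < δ → ∀ j,
      |U j (z + h) - U j z| ≤ N U z h + ε * ‖h‖ := by
  have h1 : ∀ᵐ z ∂μ, ∀ i : ℕ, ∀ ε > 0, ∃ δ > 0, ∀ t, |t| < δ → ∀ j,
      |U j (z + t • TopologicalSpace.denseSeq F i) - U j z| ≤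
        ((⨆ l, |lineDeriv ℝ (U l) z (TopologicalSpace.denseSeq F i)|) + ε) * |t| :=
    ae_all_iff.2 fun i => ae_dir hU _
  have h2 : ∀ᵐ z ∂μ, ∀ j, DifferentiableAt ℝ (U j) z :=
    ae_all_iff.2 fun j => (hU j).ae_differentiableAt
  filter_upwards [h1, h2] with z hz hzd ε hε
  have hN : ∀ v, (⨆ l, |lineDeriv ℝ (U l) z v|) = N U z v := fun v => by
    unfold N
    congr 1
    funext l
    rw [(hzd l).lineDeriv_eq_fderiv]
  simp only [hN] at hz
  have hL : (0 : ℝ) ≤ L := L.2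
  set η : ℝ := ε / (2 * L + 1) with hη
  have hηpos : 0 < η := by positivity
  obtain ⟨T, hT⟩ := exists_net (F := F) hηpos
  choose δ hδpos hδ using fun i => hz i η hηpos
  obtain ⟨δ', hδ'pos, hδ'⟩ : ∃ δ' > 0, ∀ i ∈ T, δ' ≤ δ i := by
    rcases T.eq_empty_or_nonempty with rfl | hne
    · exact ⟨1, one_pos, by simp⟩
    · refine ⟨T.inf' hne δ, (Finset.lt_inf'_iff hne).2 fun i _ => hδpos i, fun i hi =>
        Finset.inf'_le δ hi⟩
  refine ⟨δ', hδ'pos, fun h hh j => ?_⟩
  rcases eq_or_ne h 0 with rfl | hne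
  · simp [N_zero]
  obtain ⟨ω, hω, hhω⟩ := exists_unit hne
  obtain ⟨i, hi, hiω⟩ := hT ω hω
  set ρ := ‖h‖ with hρ
  set d := TopologicalSpace.denseSeq F i with hd
  have hρ0 : 0 ≤ ρ := norm_nonneg h
  have e1 := hδ i ρ (by rw [abs_of_nonneg hρ0]; exact hh.trans_le (hδ' i hi)) j
  rw [abs_of_nonneg hρ0, ← hd] at e1
  have e2 : |U j (z + h) - U j (z + ρ • d)| ≤ L * (ρ * η) := by
    have := (hU j).dist_le_mul (z + h) (z + ρ • d)
    rw [Real.dist_eq, dist_add_left, dist_eq_norm] at this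
    refine this.trans (mul_le_mul_of_nonneg_left ?_ hL)
    have e : h - ρ • d = ρ • (ω - d) := by rw [smul_sub, ← hhω]
    rw [e, norm_smul, Real.norm_eq_abs, abs_of_nonneg hρ0]
    exact mul_le_mul_of_nonneg_left hiω.le hρ0
  have e3 : N U z d ≤ N U z ω + L * η := by
    refine (N_le_add hU z d ω).trans ?_
    rw [norm_sub_rev]
    gcongr
  have e4 : N U z h = ρ * N U z ω := by
    rw [hhω, N_smul, abs_of_nonneg hρ0]
  have e5 : |U j (z + h) - U j z| ≤ |U j (z + h) - U j (z + ρ • d)| + |U j (z + ρ • d) - U j z| :=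
    abs_sub_le _ _ _
  have e6 : (2 * L + 1) * η = ε := by
    rw [hη]; field_simp
  rw [e4]
  calc |U j (z + h) - U j z| ≤ L * (ρ * η) + (N U z d + η) * ρ := e5.trans (add_le_add e2 e1)
    _ ≤ L * (ρ * η) + (N U z ω + L * η + η) * ρ := by gcongr
    _ = ρ * N U z ω + ((2 * L + 1) * η) * ρ := by ring
    _ = ρ * N U z ω + ε * ρ := by rw [e6]

/-- the pseudo-distance of the family `U`. -/
noncomputable def S (U : ι → F → ℝ) (w w' : F) : ℝ := ⨆ j, |U j w - U j w'|

omit [FiniteDimensional ℝ F] [MeasurableSpace F] [BorelSpace F] [NormedSpace ℝ F] in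
lemma abs_sub_le' (hU : ∀ j, LipschitzWith L (U j)) (w w' : F) (j : ι) :
    |U j w - U j w'| ≤ L * ‖w - w'‖ := by
  have := (hU j).dist_le_mul w w'
  rwa [Real.dist_eq, dist_eq_norm] at this

omit [FiniteDimensional ℝ F] [MeasurableSpace F] [BorelSpace F] [NormedSpace ℝ F] in
lemma bddAbove_S (hU : ∀ j, LipschitzWith L (U j)) (w w' : F) :
    BddAbove (range fun j => |U j w - U j w'|) :=
  ⟨L * ‖w - w'‖, by rintro _ ⟨j, rfl⟩; exact abs_sub_le' hU w w' j⟩

omit [FiniteDimensional ℝ F] [MeasurableSpace F] [BorelSpace F] [NormedSpace ℝ F] in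
lemma le_S (hU : ∀ j, LipschitzWith L (U j)) (w w' : F) (j : ι) :
    |U j w - U j w'| ≤ S U w w' := le_ciSup (bddAbove_S hU w w') j

omit [FiniteDimensional ℝ F] [MeasurableSpace F] [BorelSpace F] [NormedSpace ℝ F]
  [NormedAddCommGroup F] in
lemma S_nonneg (w w' : F) : 0 ≤ S U w w' := Real.iSup_nonneg fun _ => abs_nonneg _

/-- the set of points where the one-point upper bound holds uniformly. -/
private def G (U : ι → F → ℝ) (m k : ℕ) : Set F :=
  {y | ∀ h : F, ‖h‖ < 1 / ((k : ℝ) + 1) → ∀ j, |U j (y + h) - U j y| ≤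
    N U y h + (1 / ((m : ℝ) + 1)) * ‖h‖}

private def KK (U : ι → F → ℝ) (m k : ℕ) (T : Finset (ℕ × ℚ)) : Set F :=
  G U m k ∩ {y | ∀ p ∈ T, N U y (TopologicalSpace.denseSeq F p.1) < p.2}

/-- two-point upper bound. -/
lemma ae_two_point [Countable ι] (hU : ∀ j, LipschitzWith L (U j)) :
    ∀ᵐ z ∂μ, ∀ ε > 0, ∃ δ > 0, ∀ w w' : F, ‖w - z‖ < δ → ‖w' - z‖ < δ → ∀ j,
      |U j w - U j w'| ≤ N U z (w - w') + ε * (‖w - z‖ + ‖w' - z‖) := by
  have h1 : ∀ᵐ z ∂μ, ∀ m k : ℕ, ∀ T : Finset (ℕ × ℚ), z ∈ KK U m k T → Dens (KK U m k T) z :=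
    ae_all_iff.2 fun m => ae_all_iff.2 fun k => ae_all_iff.2 fun T => ae_dens _
  filter_upwards [h1, ae_one_point hU] with z hz hop ε hε
  have hL : (0 : ℝ) ≤ L := L.2
  set η : ℝ := min 1 (ε / (6 * L + 4)) with hη
  have hηpos : 0 < η := lt_min one_pos (by positivity)
  have hη1 : η ≤ 1 := min_le_left _ _
  have hηε : (6 * L + 4) * η ≤ ε := by
    have : η ≤ ε / (6 * L + 4) := min_le_right _ _
    rw [le_div_iff₀ (by positivity)] at this
    linarith
  obtain ⟨m, hm⟩ := exists_nat_one_div_lt hηpos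
  obtain ⟨δ₁, hδ₁, hop1⟩ := hop (1 / ((m : ℝ) + 1)) (by positivity)
  obtain ⟨k, hk⟩ := exists_nat_one_div_lt hδ₁
  have hzG : z ∈ G U m k := fun h hh j => hop1 h (hh.trans hk) j
  obtain ⟨T₀, hT₀⟩ := exists_net (F := F) hηpos
  have hq : ∀ i : ℕ, ∃ q : ℚ, N U z (TopologicalSpace.denseSeq F i) < q ∧
      (q : ℝ) < N U z (TopologicalSpace.denseSeq F i) + η := fun i =>
    exists_rat_btwn (by linarith)
  choose q hq1 hq2 using hq
  set T : Finset (ℕ × ℚ) := T₀.image fun i => (i, q i) with hT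
  have hzK : z ∈ KK U m k T := by
    refine ⟨hzG, fun p hp => ?_⟩
    rw [hT, Finset.mem_image] at hp
    obtain ⟨i, _, rfl⟩ := hp
    exact hq1 i
  obtain ⟨δ₂, hδ₂, hd⟩ := hz m k T hzK η hηpos
  have hk0 : (0 : ℝ) < 1 / ((k : ℝ) + 1) := by positivity
  refine ⟨min δ₂ ((1 / ((k : ℝ) + 1)) / 3), lt_min hδ₂ (by positivity), fun w w' hw hw' j => ?_⟩
  obtain ⟨y, hyK, hyw⟩ := hd w (hw.trans_le (min_le_left _ _))
  set a := ‖w - z‖ with ha
  set b := ‖w' - z‖ with hb
  have ha0 : 0 ≤ a := norm_nonneg _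
  have hb0 : 0 ≤ b := norm_nonneg _
  have hw'y : ‖w' - y‖ ≤ b + (1 + η) * a := by
    have e : w' - y = (w' - z) + ((z - w) + (w - y)) := by abel
    rw [e]
    refine (norm_add_le _ _).trans (add_le_add le_rfl ?_)
    refine (norm_add_le _ _).trans ?_
    rw [norm_sub_rev z w, norm_sub_rev w y]
    linarith
  have hsmall : ‖w' - y‖ < 1 / ((k : ℝ) + 1) := by
    have h1 : a < (1 / ((k : ℝ) + 1)) / 3 := hw.trans_le (min_le_right _ _)
    have h2 : b < (1 / ((k : ℝ) + 1)) / 3 := hw'.trans_le (min_le_right _ _)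
    have h3 : η * a ≤ a := mul_le_of_le_one_left ha0 hη1
    nlinarith
  -- comparison of `N U y` and `N U z`
  have hcomp : ∀ u : F, N U y u ≤ N U z u + (2 * L + 1) * η * ‖u‖ := by
    intro u
    rcases eq_or_ne u 0 with rfl | hne
    · simp [N_zero]
    obtain ⟨ω, hω, huω⟩ := exists_unit hne
    obtain ⟨i, hi, hiω⟩ := hT₀ ω hω
    have g1 : N U y ω ≤ N U y (TopologicalSpace.denseSeq F i) + L * η :=
      (N_le_add hU y ω _).trans (by gcongr)
    have g2 : N U y (TopologicalSpace.denseSeq F i) < q i :=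
      hyK.2 (i, q i) (by rw [hT]; exact Finset.mem_image_of_mem _ hi)
    have g3 : N U z (TopologicalSpace.denseSeq F i) ≤ N U z ω + L * η := by
      refine (N_le_add hU z _ ω).trans ?_
      rw [norm_sub_rev]
      gcongr
    have g4 : N U y ω ≤ N U z ω + (2 * L + 1) * η := by
      have := hq2 i
      linarith
    have e1 : N U y u = ‖u‖ * N U y ω := by
      conv_lhs => rw [huω, N_smul, abs_norm]
    have e2 : N U z u = ‖u‖ * N U z ω := by
      conv_lhs => rw [huω, N_smul, abs_norm]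
    rw [e1, e2]
    nlinarith [norm_nonneg u]
  have f1 : |U j w - U j y| ≤ L * (η * a) := by
    refine (abs_sub_le' hU w y j).trans (mul_le_mul_of_nonneg_left ?_ hL)
    rwa [norm_sub_rev]
  have f2 : |U j y - U j w'| ≤ N U y (w' - y) + (1 / ((m : ℝ) + 1)) * ‖w' - y‖ := by
    have := hyK.1 (w' - y) hsmall j
    rwa [add_sub_cancel, abs_sub_comm] at this
  have f3 : N U z (w' - y) ≤ N U z (w - w') + L * (η * a) := by
    have h := N_le_add hU z (w' - y) (w' - w)
    have e : w' - y - (w' - w) = w - y := by abel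
    rw [e, norm_sub_rev w y] at h
    have e2 : N U z (w' - w) = N U z (w - w') := by
      rw [← N_neg, neg_sub]
    rw [e2] at h
    exact h.trans (by gcongr)
  have f4 := hcomp (w' - y)
  have f5 : |U j w - U j w'| ≤ |U j w - U j y| + |U j y - U j w'| := abs_sub_le _ _ _
  have f6 : (1 / ((m : ℝ) + 1)) * ‖w' - y‖ ≤ η * ‖w' - y‖ := by gcongr
  have f7 : (1 + η) * a ≤ 2 * a := by nlinarith
  have f8 : ‖w' - y‖ ≤ 2 * (a + b) := by linarith
  have f9 : ((2 * L + 1) * η + η) * ‖w' - y‖ ≤ ((2 * L + 1) * η + η) * (2 * (a + b)) :=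
    mul_le_mul_of_nonneg_left f8 (by positivity)
  have f10 : (6 * L + 4) * η * (a + b) ≤ ε * (a + b) :=
    mul_le_mul_of_nonneg_right hηε (by positivity)
  have f11 : L * (η * a) ≤ L * η * (a + b) := by
    rw [← mul_assoc]
    exact mul_le_mul_of_nonneg_left (by linarith) (by positivity)
  nlinarith

omit [MeasurableSpace F] [BorelSpace F] in
/-- lower bound: uses only finitely many functions. -/
lemma lower [Countable ι] (hU : ∀ j, LipschitzWith L (U j)) {z : F}
    (hd : ∀ j, DifferentiableAt ℝ (U j) z) {ε : ℝ} (hε : 0 < ε) :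
    ∃ δ > 0, ∀ w w' : F, ‖w - z‖ < δ → ‖w' - z‖ < δ →
      N U z (w - w') ≤ S U w w' + ε * (‖w - z‖ + ‖w' - z‖) := by
  rcases isEmpty_or_nonempty ι with hι | hι
  · refine ⟨1, one_pos, fun w w' _ _ => ?_⟩
    have : N U z (w - w') = 0 := by simp [N, Real.iSup_of_isEmpty]
    rw [this]
    exact add_nonneg (S_nonneg _ _) (by positivity)
  have hL : (0 : ℝ) ≤ L := L.2
  set η : ℝ := ε / (2 * L + 3) with hη
  have hηpos : 0 < η := by positivity
  have hηε : (2 * L + 3) * η = ε := by rw [hη]; field_simp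
  -- for every direction of the net choose a good index
  have hJ : ∀ i : ℕ, ∃ j : ι, N U z (TopologicalSpace.denseSeq F i) <
      |fderiv ℝ (U j) z (TopologicalSpace.denseSeq F i)| + η := by
    intro i
    have : N U z (TopologicalSpace.denseSeq F i) - η < N U z (TopologicalSpace.denseSeq F i) := by
      linarith
    obtain ⟨j, hj⟩ := exists_lt_of_lt_ciSup this
    exact ⟨j, by linarith⟩
  choose J hJ using hJ
  obtain ⟨T, hT⟩ := exists_net (F := F) hηpos
  have hD : ∀ i : ℕ, ∃ δ > 0, ∀ w : F, ‖w - z‖ < δ →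
      |U (J i) w - U (J i) z - fderiv ℝ (U (J i)) z (w - z)| ≤ η * ‖w - z‖ := by
    intro i
    have h := (hd (J i)).hasFDerivAt
    rw [hasFDerivAt_iff_isLittleO] at h
    have h2 := h.def hηpos
    rw [Metric.eventually_nhds_iff] at h2
    obtain ⟨δ, hδ, h3⟩ := h2
    exact ⟨δ, hδ, fun w hw => h3 (by rwa [dist_eq_norm])⟩
  choose δ hδpos hδ using hD
  obtain ⟨δ', hδ'pos, hδ'⟩ : ∃ δ' > 0, ∀ i ∈ T, δ' ≤ δ i := by
    rcases T.eq_empty_or_nonempty with rfl | hne
    · exact ⟨1, one_pos, by simp⟩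
    · refine ⟨T.inf' hne δ, (Finset.lt_inf'_iff hne).2 fun i _ => hδpos i, fun i hi =>
        Finset.inf'_le δ hi⟩
  refine ⟨δ', hδ'pos, fun w w' hw hw' => ?_⟩
  rcases eq_or_ne w w' with rfl | hne
  · rw [sub_self, N_zero]
    exact add_nonneg (S_nonneg _ _) (by positivity)
  obtain ⟨ω, hω, huω⟩ := exists_unit (sub_ne_zero.2 hne)
  obtain ⟨i, hi, hiω⟩ := hT ω hω
  set d := TopologicalSpace.denseSeq F i with hdd
  set u := w - w' with hu
  set A := fderiv ℝ (U (J i)) z with hA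
  have g1 : N U z ω ≤ N U z d + L * η := (N_le_add hU z ω _).trans (by gcongr)
  have g2 : |A d| ≤ |A ω| + L * η := by
    have e : A d = A ω + A (d - ω) := by rw [← map_add, add_sub_cancel]
    rw [e]
    refine (abs_add_le _ _).trans (add_le_add le_rfl ?_)
    refine (abs_fderiv_le hU z (d - ω) (J i)).trans ?_
    rw [norm_sub_rev]
    gcongr
  have g3 := hJ i
  rw [← hdd, ← hA] at g3
  have g4 : N U z ω ≤ |A ω| + (2 * L + 1) * η := by linarith
  have e1 : N U z u = ‖u‖ * N U z ω := by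
    conv_lhs => rw [huω, N_smul, abs_norm]
  have e2 : |A u| = ‖u‖ * |A ω| := by
    conv_lhs => rw [huω, map_smul, smul_eq_mul, abs_mul, abs_norm]
  have g5 : N U z u ≤ |A u| + (2 * L + 1) * η * ‖u‖ := by
    rw [e1, e2]
    nlinarith [norm_nonneg u]
  have g6 := hδ i w (hw.trans_le (hδ' i hi))
  have g7 := hδ i w' (hw'.trans_le (hδ' i hi))
  rw [← hA] at g6 g7
  have e3 : A u = A (w - z) - A (w' - z) := by
    rw [← map_sub, hu]; congr 1; abel
  have g8 : |A u| ≤ |U (J i) w - U (J i) w'| + η * (‖w - z‖ + ‖w' - z‖) := by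
    rw [abs_le] at g6 g7
    rw [e3]
    rcases abs_cases (A (w - z) - A (w' - z)) with ⟨h, _⟩ | ⟨h, _⟩ <;>
    rcases abs_cases (U (J i) w - U (J i) w') with ⟨h', _⟩ | ⟨h', _⟩ <;>
    rw [h, h'] <;> linarith [g6.1, g6.2, g7.1, g7.2]
  have g9 : ‖u‖ ≤ ‖w - z‖ + ‖w' - z‖ := by
    have e : u = (w - z) - (w' - z) := by rw [hu]; abel
    rw [e]
    exact norm_sub_le _ _
  have g10 : (2 * L + 1) * η * ‖u‖ ≤ (2 * L + 1) * η * (‖w - z‖ + ‖w' - z‖) :=
    mul_le_mul_of_nonneg_left g9 (by positivity)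
  have g11 := le_S hU w w' (J i)
  have e4 : ε * (‖w - z‖ + ‖w' - z‖) = (2 * L + 3) * η * (‖w - z‖ + ‖w' - z‖) := by rw [hηε]
  rw [e4]
  have : 0 ≤ η * (‖w - z‖ + ‖w' - z‖) := by positivity
  nlinarith

/-- **Strong metric differentiability** (Kirchheim), abstract form. -/
theorem ae_strong_md [Countable ι] (hU : ∀ j, LipschitzWith L (U j)) :
    ∀ᵐ z ∂μ, (∀ j, DifferentiableAt ℝ (U j) z) ∧ ∀ ε > 0, ∃ δ > 0, ∀ w w' : F,
      ‖w - z‖ < δ → ‖w' - z‖ < δ →
        |S U w w' - N U z (w - w')| ≤ ε * (‖w - z‖ + ‖w' - z‖) := by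
  have h2 : ∀ᵐ z ∂μ, ∀ j, DifferentiableAt ℝ (U j) z :=
    ae_all_iff.2 fun j => (hU j).ae_differentiableAt
  filter_upwards [h2, ae_two_point hU] with z hd htp
  refine ⟨hd, fun ε hε => ?_⟩
  obtain ⟨δ₁, hδ₁, h1⟩ := htp ε hε
  obtain ⟨δ₂, hδ₂, h2⟩ := lower hU hd hε
  refine ⟨min δ₁ δ₂, lt_min hδ₁ hδ₂, fun w w' hw hw' => ?_⟩
  have g1 := h1 w w' (hw.trans_le (min_le_left _ _)) (hw'.trans_le (min_le_left _ _))
  have g2 := h2 w w' (hw.trans_le (min_le_right _ _)) (hw'.trans_le (min_le_right _ _))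
  have g3 : S U w w' ≤ N U z (w - w') + ε * (‖w - z‖ + ‖w' - z‖) :=
    Real.iSup_le g1 (add_nonneg (N_nonneg _ _) (by positivity))
  rw [abs_le]
  constructor <;> linarith

end Crest.Agent.R241.B3a
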