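import Crest.Agent.R241.B3a
import Crest.Agent.R241.B1Density

/-!
# R241, block B3b: metric differential of a Lipschitz map into a metric space
-/

set_option autoImplicit false

open MeasureTheory Measure Filter Set Metric
open scoped NNReal ENNReal Topology

namespace Crest.Agent.R241.B3b

open Crest.Agent.R241.B3a

variable {F : Type*} [NormedAddCommGroup F] [NormedSpace ℝ F]
variable {X : Type*} [MetricSpace X]

/-- `N` is the (strong, two-point) metric differential of `φ` on `E` at `z`. -/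
def IsMD (E : Set F) (φ : F → X) (z : F) (N : F → ℝ) : Prop :=
  ∀ ε > 0, ∃ δ > 0, ∀ w ∈ E, ∀ w' ∈ E, ‖w - z‖ < δ → ‖w' - z‖ < δ →
    |dist (φ w) (φ w') - N (w - w')| ≤ ε * (‖w - z‖ + ‖w' - z‖)

/-- bounded seminorms. -/
structure IsSN (L : ℝ≥0) (N : F → ℝ) : Prop where
  nonneg : ∀ v, 0 ≤ N v
  le : ∀ v, N v ≤ L * ‖v‖
  add_le : ∀ v w, N (v + w) ≤ N v + N w
  smul : ∀ (t : ℝ) v, N (t • v) = |t| * N v

namespace IsSN

variable {L : ℝ≥0} {N : F → ℝ}

lemma zero (h : IsSN L N) : N 0 = 0 := by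
  have := h.smul 0 0
  simpa using this

lemma neg (h : IsSN L N) (v : F) : N (-v) = N v := by
  have := h.smul (-1) v
  simpa using this

lemma sub_comm (h : IsSN L N) (v w : F) : N (v - w) = N (w - v) := by
  rw [← h.neg, neg_sub]

lemma le_add (h : IsSN L N) (v w : F) : N v ≤ N w + L * ‖v - w‖ := by
  have h1 := h.add_le w (v - w)
  rw [add_sub_cancel] at h1
  exact h1.trans (add_le_add le_rfl (h.le _))

lemma abs_sub_le (h : IsSN L N) (v w : F) : |N v - N w| ≤ L * ‖v - w‖ := by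
  rw [abs_le]
  have h1 := h.le_add v w
  have h2 := h.le_add w v
  rw [norm_sub_rev] at h2
  constructor <;> linarith

lemma lipschitz (h : IsSN L N) : LipschitzWith L N :=
  LipschitzWith.of_dist_le_mul fun v w => by
    rw [Real.dist_eq, dist_eq_norm]; exact h.abs_sub_le v w

lemma continuous (h : IsSN L N) : Continuous N := h.lipschitz.continuous

end IsSN

lemma isSN_N {ι : Type*} {L : ℝ≥0} {U : ι → F → ℝ} (hU : ∀ j, LipschitzWith L (U j)) (z : F) :
    IsSN L (N U z) :=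
  ⟨N_nonneg z, N_le hU z, N_add_le hU z, fun t v => N_smul z v t⟩

/-! ### blow-up sequences at density points -/

/-- a blow-up sequence of `E` at `z`: `z + d n v ∈ E`, `n • d n v → v`. -/
structure BlowUp (E : Set F) (z : F) (d : ℕ → F → F) : Prop where
  mem : ∀ n v, z + d n v ∈ E
  zero : ∀ n, d n 0 = 0
  lim : ∀ v, Tendsto (fun n : ℕ => (n : ℝ) • d n v) atTop (𝓝 v)

omit [NormedSpace ℝ F] in
lemma Dens.nonempty {E : Set F} {z : F} (h : Dens E z) : E.Nonempty := by
  obtain ⟨δ, hδ, h⟩ := h 1 one_pos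
  obtain ⟨y, hy, _⟩ := h z (by simpa using hδ)
  exact ⟨y, hy⟩

lemma exists_blowUp {E : Set F} {z : F} (h : Dens E z) (hz : z ∈ E) : ∃ d, BlowUp E z d := by
  classical
  suffices H : ∃ d : ℕ → F → F, (∀ n v, z + d n v ∈ E) ∧
      ∀ v, Tendsto (fun n : ℕ => (n : ℝ) • d n v) atTop (𝓝 v) by
    obtain ⟨d, h1, h2⟩ := H
    refine ⟨fun n u => if u = 0 then 0 else d n u, fun n u => ?_, fun n => by simp, fun u => ?_⟩
    · by_cases h0 : u = 0
      · simpa [h0] using hz
      · simpa [h0] using h1 n u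
    · by_cases h0 : u = 0
      · simp [h0]
      · simpa [h0] using h2 u
  have hne := Dens.nonempty h
  -- for every `v` and `n` choose an almost nearest point
  have H : ∀ (n : ℕ) (v : F), ∃ y ∈ E, dist (z + (1 / (n : ℝ)) • v) y <
      infDist (z + (1 / (n : ℝ)) • v) E + 1 / ((n : ℝ) + 1) ^ 2 := fun n v =>
    (infDist_lt_iff hne).1 (by
      have : (0 : ℝ) < 1 / ((n : ℝ) + 1) ^ 2 := by positivity
      linarith)
  choose y hyE hy using H
  refine ⟨fun n v => y n v - z, fun n v => by simpa using hyE n v, fun v => ?_⟩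
  rw [Metric.tendsto_atTop]
  intro ε hε
  obtain ⟨δ, hδ, hd⟩ := h (ε / (2 * (‖v‖ + 1))) (by positivity)
  have h1 : Tendsto (fun n : ℕ => (1 / (n : ℝ)) * ‖v‖) atTop (𝓝 0) := by
    have := tendsto_one_div_atTop_nhds_zero_nat (𝕜 := ℝ)
    simpa using this.mul_const ‖v‖
  have h2 := (tendsto_order.1 h1).2 δ hδ
  have h3 := (tendsto_order.1 (tendsto_one_div_atTop_nhds_zero_nat (𝕜 := ℝ))).2 (ε / 2)
    (by positivity)
  obtain ⟨n₀, hn₀⟩ := eventually_atTop.1 (h2.and (h3.and (eventually_ge_atTop 1)))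
  refine ⟨n₀, fun n hn => ?_⟩
  obtain ⟨g2, g3, g4⟩ := hn₀ n hn
  have hnpos : (0 : ℝ) < n := by exact_mod_cast g4
  have e1 : ‖z + (1 / (n : ℝ)) • v - z‖ = (1 / (n : ℝ)) * ‖v‖ := by
    rw [add_sub_cancel_left, norm_smul, Real.norm_eq_abs, abs_of_pos (by positivity)]
  obtain ⟨p, hpE, hp⟩ := hd (z + (1 / (n : ℝ)) • v) (by rw [e1]; exact g2)
  rw [e1] at hp
  have e2 : infDist (z + (1 / (n : ℝ)) • v) E ≤ ε / (2 * (‖v‖ + 1)) * (1 / (n : ℝ) * ‖v‖) := by
    refine (infDist_le_dist_of_mem hpE).trans ?_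
    rw [dist_comm, dist_eq_norm]; exact hp
  have e3 := hy n v
  have e4 : (n : ℝ) • (y n v - z) - v = (n : ℝ) • (y n v - (z + (1 / (n : ℝ)) • v)) := by
    rw [smul_sub, smul_sub, smul_add, smul_smul, mul_one_div_cancel hnpos.ne', one_smul]
    abel
  rw [dist_eq_norm, e4, norm_smul, Real.norm_eq_abs, abs_of_pos hnpos, ← dist_eq_norm, dist_comm]
  calc (n : ℝ) * dist (z + (1 / (n : ℝ)) • v) (y n v)
      < n * (ε / (2 * (‖v‖ + 1)) * (1 / (n : ℝ) * ‖v‖) + 1 / ((n : ℝ) + 1) ^ 2) := by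
        refine mul_lt_mul_of_pos_left ?_ hnpos
        linarith
    _ = (ε / 2) * (‖v‖ / (‖v‖ + 1)) + n * (1 / ((n : ℝ) + 1) ^ 2) := by
        field_simp
    _ ≤ ε / 2 * 1 + 1 / n := by
        gcongr
        · rw [div_le_one (by positivity)]; linarith
        · rw [mul_one_div, div_le_div_iff₀ (by positivity) hnpos]
          nlinarith
    _ < ε := by linarith

lemma BlowUp.norm_bound {E : Set F} {z : F} {d : ℕ → F → F} (h : BlowUp E z d) (v : F) :
    ∀ᶠ n : ℕ in atTop, (n : ℝ) * ‖d n v‖ ≤ ‖v‖ + 1 := by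
  have h1 := (h.lim v).norm
  have h2 := (tendsto_order.1 h1).2 (‖v‖ + 1) (by linarith)
  filter_upwards [h2] with n hn
  rw [norm_smul, Real.norm_eq_abs, abs_of_nonneg (Nat.cast_nonneg n)] at hn
  exact hn.le

lemma BlowUp.tendsto_zero {E : Set F} {z : F} {d : ℕ → F → F} (h : BlowUp E z d) (v : F) :
    Tendsto (fun n => d n v) atTop (𝓝 0) := by
  have h1 : Tendsto (fun n : ℕ => (1 / (n : ℝ)) * (‖v‖ + 1)) atTop (𝓝 0) := by
    have := tendsto_one_div_atTop_nhds_zero_nat (𝕜 := ℝ)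
    simpa using this.mul_const (‖v‖ + 1)
  refine squeeze_zero_norm' ?_ h1
  filter_upwards [h.norm_bound v, eventually_ge_atTop 1] with n hn h1n
  have hnpos : (0 : ℝ) < n := by exact_mod_cast h1n
  rw [one_div, ← div_eq_inv_mul, le_div_iff₀ hnpos, mul_comm]
  exact hn

/-- distances in the blow-up converge to the metric differential. -/
lemma IsMD.lim {E : Set F} {φ : F → X} {z : F} {N : F → ℝ} {L : ℝ≥0} (h : IsMD E φ z N)
    (hN : IsSN L N) {d : ℕ → F → F} (hd : BlowUp E z d) (v v' : F) :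
    Tendsto (fun n : ℕ => (n : ℝ) * dist (φ (z + d n v)) (φ (z + d n v'))) atTop
      (𝓝 (N (v - v'))) := by
  have h1 : Tendsto (fun n : ℕ => N ((n : ℝ) • d n v - (n : ℝ) • d n v')) atTop
      (𝓝 (N (v - v'))) := (hN.continuous.tendsto _).comp ((hd.lim v).sub (hd.lim v'))
  have h2 : Tendsto (fun n : ℕ => (n : ℝ) * dist (φ (z + d n v)) (φ (z + d n v')) -
      N ((n : ℝ) • d n v - (n : ℝ) • d n v')) atTop (𝓝 0) := by
    rw [Metric.tendsto_atTop]
    intro ε hε
    set C := ‖v‖ + 1 + (‖v'‖ + 1) with hC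
    have hCpos : 0 < C := by positivity
    obtain ⟨δ, hδ, hmd⟩ := h (ε / (2 * C)) (by positivity)
    have e1 : ∀ᶠ n : ℕ in atTop, ‖d n v‖ < δ := by
      have := (tendsto_order.1 (hd.tendsto_zero v).norm).2 δ (by simpa using hδ)
      exact this
    have e2 : ∀ᶠ n : ℕ in atTop, ‖d n v'‖ < δ := by
      have := (tendsto_order.1 (hd.tendsto_zero v').norm).2 δ (by simpa using hδ)
      exact this
    obtain ⟨n₀, hn₀⟩ := eventually_atTop.1
      (e1.and (e2.and ((hd.norm_bound v).and (hd.norm_bound v'))))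
    refine ⟨n₀, fun n hn => ?_⟩
    obtain ⟨g1, g2, g3, g4⟩ := hn₀ n hn
    have hn0 : (0 : ℝ) ≤ n := Nat.cast_nonneg n
    have g5 := hmd _ (hd.mem n v) _ (hd.mem n v') (by simpa using g1) (by simpa using g2)
    rw [add_sub_add_left_eq_sub, add_sub_cancel_left, add_sub_cancel_left] at g5
    rw [dist_zero_right, ← smul_sub, hN.smul, abs_of_nonneg hn0, ← mul_sub, Real.norm_eq_abs,
      abs_mul, abs_of_nonneg hn0]
    calc (n : ℝ) * |dist (φ (z + d n v)) (φ (z + d n v')) - N (d n v - d n v')|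
        ≤ n * (ε / (2 * C) * (‖d n v‖ + ‖d n v'‖)) := by gcongr
      _ = ε / (2 * C) * (n * ‖d n v‖ + n * ‖d n v'‖) := by ring
      _ ≤ ε / (2 * C) * C := mul_le_mul_of_nonneg_left (add_le_add g3 g4) (by positivity)
      _ = ε / 2 := by field_simp
      _ < ε := by linarith
  simpa using h2.add h1

lemma IsMD.lim' {E : Set F} {φ : F → X} {z : F} {N : F → ℝ} {L : ℝ≥0} (h : IsMD E φ z N)
    (hN : IsSN L N) {d : ℕ → F → F} (hd : BlowUp E z d) (v : F) :
    Tendsto (fun n : ℕ => (n : ℝ) * dist (φ (z + d n v)) (φ z)) atTop (𝓝 (N v)) := by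
  have := h.lim hN hd v 0
  simpa [hd.zero] using this

/-! ### facts at good points -/

section good

variable {E : Set F} {φ : F → X} {z : F} {N N' : F → ℝ} {L L' : ℝ≥0} {d : ℕ → F → F}

/-- chain inequality: derivatives of `f ∘ φ` are bounded by the metric differential. -/
lemma IsMD.abs_le (h : IsMD E φ z N) (hN : IsSN L N) (hd : BlowUp E z d) {f : X → ℝ} {K : ℝ≥0}
    (hf : LipschitzOnWith K f (φ '' E)) (hz : z ∈ E) {A : F →L[ℝ] ℝ}
    (hA : HasFDerivWithinAt (fun w => f (φ w)) A E z) (v : F) : |A v| ≤ K * N v := by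
  have h1 : Tendsto (fun n : ℕ => (n : ℝ) • (f (φ (z + d n v)) - f (φ z))) atTop (𝓝 (A v)) := by
    exact hA.lim (c := fun n : ℕ => (n : ℝ)) (d := fun n => d n v) (hd.tendsto_zero v)
      (Eventually.of_forall fun n => hd.mem n v) (hd.lim v)
  have h2 := h.lim' hN hd v
  refine le_of_tendsto_of_tendsto h1.abs (h2.const_mul (K : ℝ)) (Eventually.of_forall fun n => ?_)
  have h3 := hf.dist_le_mul _ (mem_image_of_mem φ (hd.mem n v)) _ (mem_image_of_mem φ hz)
  rw [Real.dist_eq] at h3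
  change |(n : ℝ) • (f (φ (z + d n v)) - f (φ z))| ≤ K * (n * dist (φ (z + d n v)) (φ z))
  rw [smul_eq_mul, abs_mul, Nat.abs_cast]
  calc (n : ℝ) * |f (φ (z + d n v)) - f (φ z)| ≤ n * (K * dist (φ (z + d n v)) (φ z)) := by gcongr
    _ = K * (n * dist (φ (z + d n v)) (φ z)) := by ring

/-- co-Lipschitz maps have nondegenerate metric differential. -/
lemma IsMD.norm_le (h : IsMD E φ z N) (hN : IsSN L N) (hd : BlowUp E z d) (hz : z ∈ E) {C : ℝ}
    (hC : ∀ w ∈ E, ∀ w' ∈ E, dist w w' ≤ C * dist (φ w) (φ w')) (v : F) : ‖v‖ ≤ C * N v := by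
  have h2 := (h.lim' hN hd v).const_mul C
  refine le_of_tendsto_of_tendsto (hd.lim v).norm h2 (Eventually.of_forall fun n => ?_)
  have h3 := hC _ (hd.mem n v) _ hz
  rw [dist_eq_norm, add_sub_cancel_left] at h3
  change ‖(n : ℝ) • d n v‖ ≤ _
  rw [norm_smul, Real.norm_eq_abs, Nat.abs_cast]
  calc (n : ℝ) * ‖d n v‖ ≤ n * (C * dist (φ (z + d n v)) (φ z)) := by gcongr
    _ = C * (n * dist (φ (z + d n v)) (φ z)) := by ring

/-- Lipschitz bound for the metric differential. -/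
lemma IsMD.le_lip (h : IsMD E φ z N) (hN : IsSN L N) (hd : BlowUp E z d) (hz : z ∈ E)
    (hφ : LipschitzOnWith L' φ E) (v : F) : N v ≤ L' * ‖v‖ := by
  have h2 := (h.lim' hN hd v)
  refine le_of_tendsto_of_tendsto h2 ((hd.lim v).norm.const_mul (L' : ℝ))
    (Eventually.of_forall fun n => ?_)
  have h3 := hφ.dist_le_mul _ (hd.mem n v) _ hz
  rw [dist_eq_norm, add_sub_cancel_left] at h3
  change (n : ℝ) * dist (φ (z + d n v)) (φ z) ≤ L' * ‖(n : ℝ) • d n v‖
  rw [norm_smul, Real.norm_eq_abs, Nat.abs_cast]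
  calc (n : ℝ) * dist (φ (z + d n v)) (φ z) ≤ n * (L' * ‖d n v‖) := by gcongr
    _ = L' * (n * ‖d n v‖) := by ring

/-- uniqueness of the metric differential at density points. -/
lemma IsMD.unique (h : IsMD E φ z N) (hN : IsSN L N) (h' : IsMD E φ z N') (hN' : IsSN L' N')
    (hd : BlowUp E z d) : N = N' := by
  funext v
  exact tendsto_nhds_unique (h.lim' hN hd v) (h'.lim' hN' hd v)

omit [NormedSpace ℝ F] in
/-- monotonicity in the set. -/
lemma IsMD.mono (h : IsMD E φ z N) {E' : Set F} (hE : E' ⊆ E) : IsMD E' φ z N := by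
  intro ε hε
  obtain ⟨δ, hδ, h2⟩ := h ε hε
  exact ⟨δ, hδ, fun w hw w' hw' => h2 w (hE hw) w' (hE hw')⟩

omit [NormedSpace ℝ F] in
/-- `φ` may be changed outside of `E`. -/
lemma IsMD.congr (h : IsMD E φ z N) {φ' : F → X} (hE : EqOn φ φ' E) : IsMD E φ' z N := by
  intro ε hε
  obtain ⟨δ, hδ, h2⟩ := h ε hε
  exact ⟨δ, hδ, fun w hw w' hw' => by rw [← hE hw, ← hE hw']; exact h2 w hw w' hw'⟩

/-- the quadrilateral inequality of `X` passes to the metric differential, and gives the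
parallelogram law. -/
lemma IsMD.parallelogram (h : IsMD E φ z N) (hN : IsSN L N) (hd : BlowUp E z d)
    (hX : ∀ a b c e : X, dist a c ^ 2 + dist b e ^ 2 ≤
      dist a b ^ 2 + dist b c ^ 2 + dist c e ^ 2 + dist e a ^ 2) (v w : F) :
    N (v + w) ^ 2 + N (v - w) ^ 2 = 2 * N v ^ 2 + 2 * N w ^ 2 := by
  have key : ∀ v w : F, N (v + w) ^ 2 + N (v - w) ^ 2 ≤ 2 * N v ^ 2 + 2 * N w ^ 2 := by
    intro v w
    -- quadrilateral `0, v, v + w, w`
    have t1 := (h.lim hN hd 0 (v + w)).pow 2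
    have t2 := (h.lim hN hd v w).pow 2
    have t3 := (h.lim hN hd 0 v).pow 2
    have t4 := (h.lim hN hd v (v + w)).pow 2
    have t5 := (h.lim hN hd (v + w) w).pow 2
    have t6 := (h.lim hN hd w 0).pow 2
    have hle := le_of_tendsto_of_tendsto (t1.add t2) (((t3.add t4).add t5).add t6)
      (Eventually.of_forall fun n => by
        have := hX (φ (z + d n 0)) (φ (z + d n v)) (φ (z + d n (v + w))) (φ (z + d n w))
        simp only [mul_pow]
        have hn : (0 : ℝ) ≤ (n : ℝ) ^ 2 := by positivity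
        nlinarith)
    have e1 : N (0 - (v + w)) = N (v + w) := by rw [zero_sub, hN.neg]
    have e3 : N (0 - v) = N v := by rw [zero_sub, hN.neg]
    have e4 : N (v - (v + w)) = N w := by rw [sub_add_cancel_left, hN.neg]
    have e5 : N (v + w - w) = N v := by rw [add_sub_cancel_right]
    have e6 : N (w - 0) = N w := by rw [sub_zero]
    rw [e1, e3, e4, e5, e6] at hle
    linarith
  refine le_antisymm (key v w) ?_
  have h2 := key (v + w) (v - w)
  have e1 : v + w + (v - w) = (2 : ℝ) • v := by rw [two_smul]; abel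
  have e2 : v + w - (v - w) = (2 : ℝ) • w := by rw [two_smul]; abel
  rw [e1, e2, hN.smul, hN.smul, abs_two] at h2
  nlinarith

end good

/-! ### existence -/

omit [NormedSpace ℝ F] in
lemma exists_seq_dense {E : Set F} {φ : F → X} [TopologicalSpace.SeparableSpace F]
    (hφ : ContinuousOn φ E) (hE : E.Nonempty) : ∃ x : ℕ → X, (∀ j, x j ∈ φ '' E) ∧
      φ '' E ⊆ closure (range x) := by
  have : SecondCountableTopology F := UniformSpace.secondCountable_of_separable F
  have : Nonempty E := hE.to_subtype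
  have h1 : TopologicalSpace.SeparableSpace E := inferInstance
  let e : ℕ → E := TopologicalSpace.denseSeq E
  have he : DenseRange e := TopologicalSpace.denseRange_denseSeq E
  refine ⟨fun j => φ (e j), fun j => mem_image_of_mem φ (e j).2, ?_⟩
  rintro _ ⟨w, hw, rfl⟩
  have hc : Continuous (E.domRestrict φ) := continuousOn_iff_continuous_domRestrict.1 hφ
  have h2 : (⟨w, hw⟩ : E) ∈ closure (range e) := he _
  have h3 := image_closure_subset_closure_image hc (mem_image_of_mem (E.domRestrict φ) h2)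
  refine closure_mono ?_ h3
  rintro _ ⟨_, ⟨j, rfl⟩, rfl⟩
  exact ⟨j, rfl⟩

lemma dist_eq_iSup {x : ℕ → X} {p q : X} (hp : p ∈ closure (range x)) :
    dist p q = ⨆ j, |dist (x j) p - dist (x j) q| := by
  have hb : ∀ j, |dist (x j) p - dist (x j) q| ≤ dist p q := fun j => by
    rw [dist_comm (x j) p, dist_comm (x j) q]
    exact abs_dist_sub_le p q (x j)
  refine le_antisymm ?_ (Real.iSup_le hb dist_nonneg)
  refine le_of_forall_pos_le_add fun ε hε => ?_
  obtain ⟨_, ⟨j, rfl⟩, hj⟩ := Metric.mem_closure_iff.1 hp (ε / 2) (by positivity)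
  have h1 : |dist (x j) p - dist (x j) q| ≤ ⨆ j, |dist (x j) p - dist (x j) q| :=
    le_ciSup (f := fun j => |dist (x j) p - dist (x j) q|)
      ⟨dist p q, by rintro _ ⟨j, rfl⟩; exact hb j⟩ j
  have h2 : dist p q ≤ dist p (x j) + dist (x j) q := dist_triangle _ _ _
  have h3 := neg_abs_le (dist (x j) p - dist (x j) q)
  rw [dist_comm p (x j)] at h2 hj
  linarith

variable [FiniteDimensional ℝ F] [MeasurableSpace F] [BorelSpace F]

/-- **Metric differentiability** of Lipschitz maps, concrete form. -/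
theorem exists_md_seq (μ : Measure F) [IsAddHaarMeasure μ] {E : Set F} {φ : F → X} {L : ℝ≥0}
    (hφ : LipschitzOnWith L φ E) {x : ℕ → X} (hx : φ '' E ⊆ closure (range x)) :
    ∃ U : ℕ → F → ℝ, (∀ j, LipschitzWith L (U j)) ∧
      (∀ j, EqOn (fun w => dist (x j) (φ w)) (U j) E) ∧
      ∀ᵐ z ∂μ, (∀ j, DifferentiableAt ℝ (U j) z) ∧ IsMD E φ z (N U z) := by
  have h1 : ∀ j, LipschitzOnWith L (fun w => dist (x j) (φ w)) E := fun j => by
    have := (LipschitzWith.dist_right (x j)).comp_lipschitzOnWith hφ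
    rw [one_mul] at this
    exact this
  choose U hU hUe using fun j => (h1 j).extend_real
  refine ⟨U, hU, hUe, ?_⟩
  filter_upwards [ae_strong_md (μ := μ) hU] with z hz
  refine ⟨hz.1, fun ε hε => ?_⟩
  obtain ⟨δ, hδ, h⟩ := hz.2 ε hε
  refine ⟨δ, hδ, fun w hw w' hw' h1 h2 => ?_⟩
  have h3 := h w w' h1 h2
  have h4 : S U w w' = dist (φ w) (φ w') := by
    rw [dist_eq_iSup (hx (mem_image_of_mem φ hw))]
    unfold S
    congr 1
    funext j
    rw [← hUe j hw, ← hUe j hw']
  rwa [h4] at h3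

/-- **Metric differentiability** of Lipschitz maps (Kirchheim). -/
theorem exists_md (μ : Measure F) [IsAddHaarMeasure μ] {E : Set F} {φ : F → X} {L : ℝ≥0}
    (hφ : LipschitzOnWith L φ E) :
    ∃ N : F → F → ℝ, (∀ z, IsSN L (N z)) ∧ (∀ v, Measurable fun z => N z v) ∧
      ∀ᵐ z ∂μ, IsMD E φ z (N z) := by
  rcases E.eq_empty_or_nonempty with rfl | hE
  · refine ⟨fun _ _ => 0, fun z => ⟨fun v => le_rfl, fun v => by positivity, fun v w => by simp,
      fun t v => by simp⟩, fun v => measurable_const, ae_of_all _ fun z => ?_⟩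
    intro ε hε
    exact ⟨1, one_pos, fun w hw => absurd hw (notMem_empty w)⟩
  obtain ⟨x, -, hx⟩ := exists_seq_dense hφ.continuousOn hE
  obtain ⟨U, hU, -, h⟩ := exists_md_seq μ hφ hx
  refine ⟨fun z => N U z, fun z => isSN_N hU z, fun v => measurable_N v, ?_⟩
  filter_upwards [h] with z hz using hz.2

end Crest.Agent.R241.B3b
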