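import Crest.Agent.R241.B3b
import Crest.Prelude.Def_MetricCurrent

/-!
# R241, block B3c: the Gram matrix of the metric differential in `CAT(0)` spaces
-/

set_option autoImplicit false

open MeasureTheory Measure Filter Set Metric Matrix
open scoped NNReal ENNReal Topology

namespace Crest.Agent.R241.B3c

open Crest.Agent.R241.B3a Crest.Agent.R241.B3b
open Crest.GeometryTopology.Submanifold (Euc)

section bilin

variable {F : Type*} [NormedAddCommGroup F] [NormedSpace ℝ F] {L : ℝ≥0} {N : F → ℝ}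

/-- polarisation. -/
noncomputable def pol (N : F → ℝ) (v w : F) : ℝ := (N (v + w) ^ 2 - N (v - w) ^ 2) / 4

lemma pol_comm (hN : IsSN L N) (v w : F) : pol N v w = pol N w v := by
  unfold pol; rw [add_comm v w, hN.sub_comm v w]

lemma pol_self (hN : IsSN L N) (v : F) : pol N v v = N v ^ 2 := by
  unfold pol
  rw [sub_self, hN.zero, ← two_smul ℝ v, hN.smul, abs_two]
  ring

lemma pol_neg (hN : IsSN L N) (v w : F) : pol N (-v) w = -pol N v w := by
  unfold pol
  have e1 : -v + w = -(v - w) := by abel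
  have e2 : -v - w = -(v + w) := by abel
  rw [e1, e2, hN.neg, hN.neg]
  ring

lemma pol_add (hN : IsSN L N)
    (hp : ∀ v w, N (v + w) ^ 2 + N (v - w) ^ 2 = 2 * N v ^ 2 + 2 * N w ^ 2) (v v' w : F) :
    pol N (v + v') w = pol N v w + pol N v' w := by
  have key : ∀ v v' : F, pol N (v + v') w + pol N (v - v') w = 2 * pol N v w := by
    intro v v'
    have h1 := hp (v + w) v'
    have h2 := hp (v - w) v'
    unfold pol
    have e1 : v + v' + w = v + w + v' := by abel
    have e2 : v + v' - w = v - w + v' := by abel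
    have e3 : v - v' + w = v + w - v' := by abel
    have e4 : v - v' - w = v - w - v' := by abel
    rw [e1, e2, e3, e4]
    linarith
  have h1 := key v v'
  have h2 := key v' v
  have e : v' - v = -(v - v') := by abel
  rw [e, pol_neg hN, add_comm v' v] at h2
  linarith

lemma continuous_pol (hN : IsSN L N) (w : F) : Continuous fun v => pol N v w := by
  unfold pol
  exact (((hN.continuous.comp (continuous_add_const w)).pow 2).sub
    ((hN.continuous.comp (continuous_sub_right w)).pow 2)).div_const 4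

lemma pol_smul (hN : IsSN L N)
    (hp : ∀ v w, N (v + w) ^ 2 + N (v - w) ^ 2 = 2 * N v ^ 2 + 2 * N w ^ 2) (t : ℝ) (v w : F) :
    pol N (t • v) w = t * pol N v w := by
  let f : F →+ ℝ := AddMonoidHom.mk' (fun v => pol N v w) (fun a b => pol_add hN hp a b w)
  have h := (f.toRealLinearMap (continuous_pol hN w)).map_smul t v
  exact h

/-- the bilinear form. -/
noncomputable def bil (hN : IsSN L N)
    (hp : ∀ v w, N (v + w) ^ 2 + N (v - w) ^ 2 = 2 * N v ^ 2 + 2 * N w ^ 2) : F →ₗ[ℝ] F →ₗ[ℝ] ℝ :=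
  LinearMap.mk₂ ℝ (pol N) (fun a b w => pol_add hN hp a b w) (fun t v w => pol_smul hN hp t v w)
    (fun v a b => by rw [pol_comm hN, pol_add hN hp, pol_comm hN a, pol_comm hN b])
    (fun t v w => by rw [pol_comm hN, smul_eq_mul, pol_smul hN hp, pol_comm hN w])

end bilin

variable {k : ℕ}

/-- the Gram matrix of a (Euclidean) seminorm. -/
noncomputable def gram (N : Euc k → ℝ) : Matrix (Fin k) (Fin k) ℝ :=
  Matrix.of fun i j => pol N (EuclideanSpace.single i 1) (EuclideanSpace.single j 1)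

variable {L : ℝ≥0} {N : Euc k → ℝ}

lemma sum_single (v : Euc k) : v = ∑ i, v i • (EuclideanSpace.single i 1 : Euc k) := by
  have := (EuclideanSpace.basisFun (Fin k) ℝ).sum_repr v
  simp only [EuclideanSpace.basisFun_repr, EuclideanSpace.basisFun_apply] at this
  exact this.symm

lemma pol_eq_gram (hN : IsSN L N)
    (hp : ∀ v w, N (v + w) ^ 2 + N (v - w) ^ 2 = 2 * N v ^ 2 + 2 * N w ^ 2) (v w : Euc k) :
    pol N v w = v.ofLp ⬝ᵥ (gram N *ᵥ w.ofLp) := by
  have h : pol N v w = bil hN hp v w := rfl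
  rw [h]
  conv_lhs => rw [sum_single v, sum_single w]
  simp only [_root_.map_sum, LinearMap.sum_apply, map_smul, LinearMap.smul_apply, smul_eq_mul]
  simp only [dotProduct, mulVec, gram, Matrix.of_apply, Finset.mul_sum]
  refine (Finset.sum_comm).trans ?_
  refine Finset.sum_congr rfl fun i _ => Finset.sum_congr rfl fun j _ => ?_
  change w j * (v i * pol N _ _) = v i * (pol N _ _ * w j)
  ring

lemma sq_eq_gram (hN : IsSN L N)
    (hp : ∀ v w, N (v + w) ^ 2 + N (v - w) ^ 2 = 2 * N v ^ 2 + 2 * N w ^ 2) (v : Euc k) :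
    N v ^ 2 = v.ofLp ⬝ᵥ (gram N *ᵥ v.ofLp) := by
  rw [← pol_self hN, pol_eq_gram hN hp]

lemma gram_posSemidef (hN : IsSN L N)
    (hp : ∀ v w, N (v + w) ^ 2 + N (v - w) ^ 2 = 2 * N v ^ 2 + 2 * N w ^ 2) :
    (gram N).PosSemidef := by
  rw [Matrix.posSemidef_iff_dotProduct_mulVec]
  refine ⟨?_, fun v => ?_⟩
  · ext i j
    simp only [Matrix.conjTranspose_apply, gram, Matrix.of_apply, star_trivial]
    exact pol_comm hN _ _
  · have := sq_eq_gram hN hp (WithLp.toLp 2 v)
    simp only [star_trivial]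
    change 0 ≤ (WithLp.toLp 2 v).ofLp ⬝ᵥ (gram N *ᵥ (WithLp.toLp 2 v).ofLp)
    rw [← this]
    positivity

/-- the seminorm of a Gram matrix. -/
noncomputable def sn (G : Matrix (Fin k) (Fin k) ℝ) (v : Euc k) : ℝ :=
  √(v.ofLp ⬝ᵥ (G *ᵥ v.ofLp))

lemma eq_sn_gram (hN : IsSN L N)
    (hp : ∀ v w, N (v + w) ^ 2 + N (v - w) ^ 2 = 2 * N v ^ 2 + 2 * N w ^ 2) : N = sn (gram N) := by
  funext v
  unfold sn
  rw [← sq_eq_gram hN hp, Real.sqrt_sq (hN.nonneg v)]

lemma sn_sq {G : Matrix (Fin k) (Fin k) ℝ} (hG : G.PosSemidef) (v : Euc k) :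
    sn G v ^ 2 = v.ofLp ⬝ᵥ (G *ᵥ v.ofLp) := by
  unfold sn
  rw [Real.sq_sqrt]
  have := ((Matrix.posSemidef_iff_dotProduct_mulVec).1 hG).2 v.ofLp
  simpa using this


/-! ### existence of the Gram matrix -/

section exist

open Crest.GeometryTopology.MetricCurrent

variable {X : Type*} [MetricSpace X]

/-- the quadrilateral inequality in `CAT(0)` spaces. -/
lemma quadrilateral (h : IsCATZero X) (a b c e : X) :
    dist a c ^ 2 + dist b e ^ 2 ≤ dist a b ^ 2 + dist b c ^ 2 + dist c e ^ 2 + dist e a ^ 2 := by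
  obtain ⟨γ, h0, h1, hγ⟩ := h.1 a c
  have hm1 : dist a (γ (1 / 2)) = dist a c / 2 := by
    have := hγ 0 (by simp) (1 / 2) (by constructor <;> norm_num)
    rw [h0] at this
    rw [this]
    rw [show |(0 : ℝ) - 1 / 2| = 1 / 2 by norm_num [abs_of_neg]]
    ring
  have hm2 : dist c (γ (1 / 2)) = dist a c / 2 := by
    have := hγ 1 (by simp) (1 / 2) (by constructor <;> norm_num)
    rw [h1] at this
    rw [this]
    rw [show |(1 : ℝ) - 1 / 2| = 1 / 2 by norm_num]
    ring
  have e1 := h.2 b a c _ hm1 hm2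
  have e2 := h.2 e a c _ hm1 hm2
  have e3 : dist b e ≤ dist b (γ (1 / 2)) + dist e (γ (1 / 2)) := by
    rw [dist_comm e]; exact dist_triangle _ _ _
  have e4 : dist b e ^ 2 ≤ (dist b (γ (1 / 2)) + dist e (γ (1 / 2))) ^ 2 := by
    gcongr
  have e5 : 0 ≤ (dist b (γ (1 / 2)) - dist e (γ (1 / 2))) ^ 2 := sq_nonneg _
  rw [dist_comm a b, dist_comm c e]
  nlinarith

/-- squared form of metric differentiability. -/
lemma _root_.Crest.Agent.R241.B3b.IsMD.sq {F : Type*} [NormedAddCommGroup F] [NormedSpace ℝ F]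
    {E : Set F} {φ : F → X} {z : F} {L : ℝ≥0} {N : F → ℝ} (h : IsMD E φ z N) (hN : IsSN L N)
    {ε : ℝ} (hε : 0 < ε) : ∃ δ > 0, ∀ w ∈ E, ∀ w' ∈ E, ‖w - z‖ < δ → ‖w' - z‖ < δ →
      |dist (φ w) (φ w') ^ 2 - N (w - w') ^ 2| ≤ ε * (‖w - z‖ + ‖w' - z‖) ^ 2 := by
  have hL : (0 : ℝ) ≤ L := L.2
  set η : ℝ := min 1 (ε / (2 * L + 1)) with hη
  have hηpos : 0 < η := lt_min one_pos (by positivity)
  have hη1 : η ≤ 1 := min_le_left _ _
  have hηε : η * (2 * L + 1) ≤ ε := by
    have : η ≤ ε / (2 * L + 1) := min_le_right _ _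
    rwa [le_div_iff₀ (by positivity)] at this
  obtain ⟨δ, hδ, h2⟩ := h η hηpos
  refine ⟨δ, hδ, fun w hw w' hw' h3 h4 => ?_⟩
  have h5 := h2 w hw w' hw' h3 h4
  set s := ‖w - z‖ + ‖w' - z‖ with hs
  have hs0 : 0 ≤ s := by positivity
  have h6 : N (w - w') ≤ L * s := by
    refine (hN.le _).trans (mul_le_mul_of_nonneg_left ?_ hL)
    have e : w - w' = (w - z) - (w' - z) := by abel
    rw [e]
    exact norm_sub_le _ _
  have h7 := hN.nonneg (w - w')
  have h8 : dist (φ w) (φ w') ≤ N (w - w') + η * s := by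
    have := (abs_le.1 h5).2
    linarith
  have h9 : |dist (φ w) (φ w') + N (w - w')| ≤ (2 * L + 1) * s := by
    rw [abs_of_nonneg (by positivity)]
    have : η * s ≤ 1 * s := mul_le_mul_of_nonneg_right hη1 hs0
    linarith
  rw [sq_sub_sq, abs_mul]
  calc |dist (φ w) (φ w') + N (w - w')| * |dist (φ w) (φ w') - N (w - w')|
      ≤ ((2 * L + 1) * s) * (η * s) := by gcongr
    _ = (η * (2 * L + 1)) * s ^ 2 := by ring
    _ ≤ ε * s ^ 2 := by gcongr

/-- **Metric differential in `CAT(0)` spaces**: it is Euclidean, given by a measurable field of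
positive semidefinite matrices. -/
theorem exists_gram (hX : ∀ a b c e : X, dist a c ^ 2 + dist b e ^ 2 ≤
      dist a b ^ 2 + dist b c ^ 2 + dist c e ^ 2 + dist e a ^ 2)
    {E : Set (Euc k)} (hE : MeasurableSet E) {φ : Euc k → X} {L : ℝ≥0}
    (hφ : LipschitzOnWith L φ E) :
    ∃ G : Euc k → Matrix (Fin k) (Fin k) ℝ, (∀ i j, Measurable fun z => G z i j) ∧
      (∀ z, (G z).PosSemidef) ∧ (∀ z, IsSN L (sn (G z))) ∧
      ∀ᵐ z ∂(volume.restrict E), IsMD E φ z (sn (G z)) := by
  classical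
  obtain ⟨N, hN, hNm, hmd⟩ := exists_md (volume : Measure (Euc k)) hφ
  have hpar : ∀ᵐ z ∂(volume : Measure (Euc k)), z ∈ E →
      ∀ v w, N z (v + w) ^ 2 + N z (v - w) ^ 2 = 2 * N z v ^ 2 + 2 * N z w ^ 2 := by
    filter_upwards [hmd, ae_dens (μ := (volume : Measure (Euc k))) E] with z hz hd hzE v w
    obtain ⟨d, hd⟩ := exists_blowUp (hd hzE) hzE
    exact hz.parallelogram (hN z) hd hX v w
  -- the measurable set of good points
  set B : Set (Euc k) := toMeasurable volume {z | ¬ (z ∈ E →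
    ∀ v w, N z (v + w) ^ 2 + N z (v - w) ^ 2 = 2 * N z v ^ 2 + 2 * N z w ^ 2)} with hB
  have hB0 : volume B = 0 := by rw [hB, measure_toMeasurable]; exact hpar
  set T : Set (Euc k) := E \ B with hT
  have hTm : MeasurableSet T := hE.diff (measurableSet_toMeasurable _ _)
  have hTgood : ∀ z ∈ T, ∀ v w,
      N z (v + w) ^ 2 + N z (v - w) ^ 2 = 2 * N z v ^ 2 + 2 * N z w ^ 2 := by
    intro z hz
    have h1 : z ∉ {z | ¬ (z ∈ E →
        ∀ v w, N z (v + w) ^ 2 + N z (v - w) ^ 2 = 2 * N z v ^ 2 + 2 * N z w ^ 2)} :=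
      fun h => hz.2 (subset_toMeasurable _ _ h)
    simp only [mem_ofPred_eq, not_not] at h1
    exact h1 hz.1
  refine ⟨fun z => if z ∈ T then gram (N z) else 0, fun i j => ?_, fun z => ?_, fun z => ?_, ?_⟩
  · have h1 : (fun z => (if z ∈ T then gram (N z) else 0 : Matrix (Fin k) (Fin k) ℝ) i j) =
        fun z => if z ∈ T then gram (N z) i j else 0 := by
      funext z
      split_ifs <;> rfl
    rw [h1]
    refine Measurable.ite hTm ?_ measurable_const
    simp only [gram, Matrix.of_apply, pol]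
    exact (((hNm _).pow_const 2).sub ((hNm _).pow_const 2)).div_const 4
  · by_cases hz : z ∈ T
    · simpa [hz] using gram_posSemidef (hN z) (hTgood z hz)
    · simpa [hz] using Matrix.PosSemidef.zero
  · by_cases hz : z ∈ T
    · have := eq_sn_gram (hN z) (hTgood z hz)
      simp only [hz, if_true]
      rw [← this]
      exact hN z
    · simp only [hz, if_false]
      have h0 : sn (0 : Matrix (Fin k) (Fin k) ℝ) = fun _ => 0 := by
        funext v; simp [sn]
      rw [h0]
      exact ⟨fun v => le_rfl, fun v => by positivity, fun v w => by simp, fun t v => by simp⟩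
  · have hB' : ∀ᵐ z ∂(volume.restrict E), z ∉ B :=
      ae_restrict_of_ae (measure_eq_zero_iff_ae_notMem.1 hB0)
    filter_upwards [ae_restrict_of_ae hmd, ae_restrict_mem hE, hB'] with z hz hzE hzB
    have hzT : z ∈ T := ⟨hzE, hzB⟩
    simp only [hzT, if_true]
    rw [← eq_sn_gram (hN z) (hTgood z hzT)]
    exact hz

end exist

end Crest.Agent.R241.B3c
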