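import Crest.Agent.R241.B4Ext
import Crest.Agent.R241.B6
import Crest.Agent.R241.B10Complete

/-!
R241 / B4: reparametrisation of pieces, sums on one chart, disjointification.
-/

set_option autoImplicit false

open MeasureTheory Filter Topology Metric Set Module
open scoped NNReal ENNReal

namespace Crest.Agent.R241.B4Disj

open Crest.GeometryTopology.Submanifold (Euc)
open Crest.GeometryTopology.MetricCurrent
open Crest.Agent.R241.G1 (BL BM LipT ext ctrl)
open Crest.Agent.R241.B1c1 (jac chartR)
open Crest.Agent.R241.B4Ext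

noncomputable section

universe u

variable {X : Type u} [MetricSpace X] {k : ℕ} [MeasurableSpace X] [BorelSpace X]

omit [MeasurableSpace X] [BorelSpace X] in
/-- A piece whose image is contained in the image of another one can be reparametrised by the
chart of the latter. -/
theorem exists_reparam (p q : Pc X k) (h : q.im ⊆ p.im) :
    ∃ r : Pc X k, r.φ = p.φ ∧ r.P ⊆ p.P ∧ r.C = p.C ∧ r.im = q.im ∧ r.cur = q.cur := by
  classical
  set ψ : Euc k → Euc k := fun z => Function.invFunOn p.φ p.P (q.φ z) with hψ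
  have hmem : ∀ z ∈ q.P, ψ z ∈ p.P ∧ p.φ (ψ z) = q.φ z := by
    intro z hz
    have h1 : q.φ z ∈ p.φ '' p.P := h (mem_image_of_mem _ hz)
    exact ⟨Function.invFunOn_mem h1, Function.invFunOn_eq h1⟩
  have hlip : LipschitzOnWith (p.C * q.L) ψ q.P := by
    refine LipschitzOnWith.of_dist_le_mul fun z hz w hw => ?_
    refine (p.colip _ (hmem z hz).1 _ (hmem w hw).1).trans ?_
    rw [(hmem z hz).2, (hmem w hw).2, NNReal.coe_mul, mul_assoc]
    gcongr
    exact q.lip.dist_le_mul z hz w hw
  obtain ⟨Ψ, hΨ1, hΨ2⟩ := hlip.extend_finite_dimension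
  have hmem' : ∀ z ∈ q.P, Ψ z ∈ p.P ∧ p.φ (Ψ z) = q.φ z := by
    intro z hz
    rw [← hΨ2 hz]
    exact hmem z hz
  have hinj : InjOn Ψ q.P := by
    intro z hz w hw hzw
    apply q.injOn hz hw
    rw [← (hmem' z hz).2, ← (hmem' w hw).2, hzw]
  have hsub : Ψ '' q.P ⊆ p.P := by
    rintro _ ⟨z, hz, rfl⟩
    exact (hmem' z hz).1
  refine ⟨{ P := Ψ '' q.P
            φ := p.φ
            θ := fun w => (SignType.sign (fderiv ℝ Ψ (Function.invFunOn Ψ q.P w)).det : ℤ)
              * q.θ (Function.invFunOn Ψ q.P w)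
            meas := B1c2.measurableSet_image q.meas hΨ1 hinj
            bdd := p.bdd.subset hsub
            L := p.L
            lip := p.lip.mono hsub
            C := p.C
            colip := fun z hz w hw => p.colip z (hsub hz) w (hsub hw)
            int := ?_ }, rfl, hsub, rfl, ?_, ?_⟩
  · have := B1c2.integrableOn_comp_density q.meas hΨ1 hinj q.int
    refine this.congr (Eventually.of_forall fun w => ?_)
    simp only
    push_cast
    rfl
  · show p.φ '' (Ψ '' q.P) = q.φ '' q.P
    rw [image_image]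
    exact image_congr fun z hz => (hmem' z hz).2
  · show chartAction (Ψ '' q.P) p.φ _ = chartAction q.P q.φ q.θ
    rw [B1c1.chartAction_eq, B1c1.chartAction_eq,
      B1c1.chartR_congr_on q.meas (φ' := fun z => p.φ (Ψ z)) (fun z hz => ((hmem' z hz).2).symm),
      B1c2.chartR_comp q.meas hΨ1 hinj (p.lip.mono hsub)]
    congr 1
    funext w
    push_cast
    rfl

/-- Sums of pieces on the same chart. -/
theorem exists_sum (p : Pc X k) (r : ℕ → Pc X k) (hφ : ∀ b, (r b).φ = p.φ)
    (hP : ∀ b, (r b).P ⊆ p.P) (hs : Summable fun b => ∫ z in (r b).P, |((r b).θ z : ℝ)|) :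
    ∃ θ : Euc k → ℤ, IntegrableOn (fun z => (θ z : ℝ)) p.P ∧ ∀ f π, IsTestPair f π →
      HasSum (fun b => (r b).cur f π) (chartAction p.P p.φ θ f π) := by
  classical
  have hv : ∀ b, ∃ θ' : Euc k → ℤ, Measurable θ' ∧
      (r b).θ =ᵐ[volume.restrict (r b).P] θ' := fun b =>
    exists_measurable_int (r b).int.aestronglyMeasurable.aemeasurable
  choose θ' hθ'm hθ' using hv
  set Θ : ℕ → Euc k → ℤ := fun b => (r b).P.indicator (θ' b) with hΘ
  have hΘm : ∀ b, Measurable (Θ b) := fun b => (hθ'm b).indicator (r b).meas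
  have hcast : ∀ b z, (Θ b z : ℝ) = (r b).P.indicator (fun z => (θ' b z : ℝ)) z := by
    intro b z
    by_cases hz : z ∈ (r b).P
    · simp [hΘ, hz]
    · simp [hΘ, hz]
  have hθ'i : ∀ b, IntegrableOn (fun z => (θ' b z : ℝ)) (r b).P := fun b =>
    (r b).int.congr (by filter_upwards [hθ' b] with z hz; rw [hz])
  have hΘi : ∀ b, Integrable (fun z => (Θ b z : ℝ)) (volume.restrict p.P) := by
    intro b
    have h1 : Integrable ((r b).P.indicator fun z => (θ' b z : ℝ)) :=
      (integrable_indicator_iff (r b).meas).2 (hθ'i b)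
    refine (h1.mono_measure Measure.restrict_le_self).congr (Eventually.of_forall fun z => ?_)
    simp only
    rw [hcast]
  have habs : ∀ b, ∫ z in p.P, |(Θ b z : ℝ)| = ∫ z in (r b).P, |((r b).θ z : ℝ)| := by
    intro b
    have h1 : ∀ z, |(Θ b z : ℝ)| = (r b).P.indicator (fun z => |(θ' b z : ℝ)|) z := by
      intro z
      rw [hcast]
      by_cases hz : z ∈ (r b).P
      · simp [hz]
      · simp [hz]
    simp_rw [h1]
    rw [setIntegral_indicator (r b).meas, inter_eq_self_of_subset_right (hP b)]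
    refine integral_congr_ae ?_
    filter_upwards [hθ' b] with z hz
    rw [hz]
  obtain ⟨T, hTm, hTi, -, -, -, hTG⟩ := B6.sum_int (μ := volume.restrict p.P) hΘm hΘi
    (by simp_rw [habs]; exact hs)
  refine ⟨T, hTi, fun f π hfπ => ?_⟩
  obtain ⟨hf, hπ⟩ := G1.isTestPair_iff.1 hfπ
  obtain ⟨K, hK⟩ := B1c1.exists_common hπ
  obtain ⟨Cf, hCf⟩ := hf.2
  have hjm := B1c1.aemeasurable_jac p.meas p.lip hK
  have hjb := B1c1.ae_abs_jac_le p.meas p.lip hK
  set D : ℝ := |Cf| * ((k.factorial : ℝ) * ((K : ℝ) * p.L) ^ k) with hD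
  have hD0 : 0 ≤ D := by positivity
  have hgm : AEMeasurable (fun z => f (p.φ z) * jac p.P p.φ π z) (volume.restrict p.P) :=
    (aemeasurable_comp p.meas p.lip hf.measurable).mul hjm
  have hgb : ∀ᵐ z ∂(volume.restrict p.P), |f (p.φ z) * jac p.P p.φ π z| ≤ D := by
    filter_upwards [hjb] with z hz
    rw [abs_mul, hD]
    exact mul_le_mul ((hCf _).trans (le_abs_self _)) hz (abs_nonneg _) (abs_nonneg _)
  set G : Euc k → ℝ := fun z => max (-D) (min D (hgm.mk _ z)) with hG
  have hGm : Measurable G := measurable_const.max (measurable_const.min hgm.measurable_mk)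
  have hGb : ∀ z, |G z| ≤ D := fun z => G1.abs_clamp_le hD0
  have hGe : ∀ᵐ z ∂(volume.restrict p.P), G z = f (p.φ z) * jac p.P p.φ π z := by
    filter_upwards [hgm.ae_eq_mk, hgb] with z h1 h2
    rw [hG]
    simp only
    rw [← h1]
    exact G1.clamp_eq h2
  have key := hTG G hGm ⟨D, hGb⟩
  have h1 : (∫ z in p.P, G z * (T z : ℝ)) = chartAction p.P p.φ T f π := by
    rw [B1c1.chartAction_eq, B1c1.chartR_apply hfπ]
    refine integral_congr_ae ?_
    filter_upwards [hGe] with z hz
    rw [hz]; ring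
  have h2 : ∀ b, (∫ z in p.P, G z * (Θ b z : ℝ)) = (r b).cur f π := by
    intro b
    rw [Pc.cur_eq, B1c1.chartR_apply hfπ, hφ b]
    have h3 : ∀ z, G z * (Θ b z : ℝ) =
        (r b).P.indicator (fun z => G z * (θ' b z : ℝ)) z := by
      intro z
      rw [hcast]
      by_cases hz : z ∈ (r b).P
      · simp [hz]
      · simp [hz]
    simp_rw [h3]
    rw [setIntegral_indicator (r b).meas, inter_eq_self_of_subset_right (hP b)]
    have h4 := B1c1.ae_jacM_mono p.meas (r b).meas (hP b) p.lip hK
    have h5 := ae_restrict_of_ae_restrict_of_subset (hP b) hGe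
    refine integral_congr_ae ?_
    filter_upwards [hθ' b, h4, h5] with z h6 h7 h8
    rw [h8, h6, jac, jac, h7]
    ring
  rw [← h1]
  simp_rw [← h2]
  exact key

omit [MetricSpace X] [BorelSpace X] in
/-- The family obtained by restricting to disjoint Borel sets. -/
theorem summable_measure_inter {μ : ℕ → Measure X} [∀ i, IsFiniteMeasure (μ i)]
    (hs : Summable fun i => (μ i univ).toReal) {M : ℕ → Set X} (hM : ∀ a, MeasurableSet (M a))
    (hd : Pairwise (Function.onFun Disjoint M)) :
    Summable fun x : ℕ × ℕ => (μ x.1 (M x.2)).toReal := by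
  have h1 : ∀ b, ∑' a, μ b (M a) ≤ μ b univ := fun b =>
    (measure_iUnion hd hM (μ := μ b)).symm.le.trans (measure_mono (subset_univ _))
  have hfin : ∀ b, ∑' a, μ b (M a) ≠ ∞ := fun b =>
    ((h1 b).trans_lt (measure_lt_top _ _)).ne
  refine (summable_prod_of_nonneg (fun x => ENNReal.toReal_nonneg)).2 ⟨fun b => ?_, ?_⟩
  · exact ENNReal.summable_toReal (hfin b)
  · refine Summable.of_nonneg_of_le (fun b => tsum_nonneg fun a => ENNReal.toReal_nonneg)
      (fun b => ?_) hs
    have h2 : ∑' a, (μ b (M a)).toReal = (∑' a, μ b (M a)).toReal :=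
      (ENNReal.tsum_toReal_eq fun a => (measure_lt_top _ _).ne).symm
    simp only
    rw [h2]
    exact ENNReal.toReal_mono (measure_lt_top _ _).ne (h1 b)

theorem abs_cur_le {T : Functional X k} (hT : IsCurrent T) {μ : Measure X} [IsFiniteMeasure μ]
    (hμ : Controls T μ) {f : X → ℝ} {π : Fin k → X → ℝ} {K : ℝ≥0} {Cf : ℝ}
    (hf : BL f) (hCf : ∀ x, |f x| ≤ Cf) (hK : ∀ i, LipschitzWith K (π i)) :
    |T f π| ≤ ((K : ℝ) ^ k * Cf) * (μ univ).toReal := by
  have h1 := G1.abs_le_of_controls hT hμ hf (K := fun _ => K) hK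
  rw [Finset.prod_const, Finset.card_univ, Fintype.card_fin] at h1
  refine h1.trans ?_
  rw [mul_assoc]
  gcongr
  calc ∫ x, |f x| ∂μ ≤ ∫ _x, Cf ∂μ :=
        integral_mono (hf.abs.integrable μ) (integrable_const _) hCf
    _ = Cf * (μ univ).toReal := by
        rw [integral_const, smul_eq_mul, Measure.real, mul_comm]

/-- **Disjointification.** -/
theorem disjointify (p : ℕ → Pc X k) (μ : ℕ → Measure X) [∀ i, IsFiniteMeasure (μ i)]
    (hμ : ∀ i, Controls (p i).cur (μ i)) (hs : Summable fun i => (μ i univ).toReal) :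
    ∃ r : ℕ → Pc X k, (∀ i j, i ≠ j → Disjoint (r i).im (r j).im) ∧
      (∀ i, Controls (r i).cur ((Measure.sum μ).restrict (r i).im)) ∧
      ∀ f π, IsTestPair f π → ∃ s, HasSum (fun i => (p i).cur f π) s ∧
        HasSum (fun i => (r i).cur f π) s := by
  classical
  set W : ℕ → Set X := fun i => (p i).im with hW
  have hWm : ∀ i, MeasurableSet (W i) := fun i => (p i).measurableSet_im
  set M : ℕ → Set X := disjointed W with hM
  have hMm : ∀ i, MeasurableSet (M i) := fun i => MeasurableSet.disjointed hWm i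
  have hMW : ∀ i, M i ⊆ W i := fun i => disjointed_subset W i
  have hMd : Pairwise (Function.onFun Disjoint M) := disjoint_disjointed W
  set q : ℕ → ℕ → Pc X k := fun a b => (p b).restr (hMm a) with hq
  set p' : ℕ → Pc X k := fun a => (p a).restr (hMm a) with hp'
  have hp'im : ∀ a, (p' a).im = M a := by
    intro a
    rw [hp']
    simp only
    rw [Pc.restr_im]
    exact inter_eq_self_of_subset_right (hMW a)
  have hqim : ∀ a b, (q a b).im ⊆ (p' a).im := by
    intro a b
    rw [hp'im a, hq]
    simp only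
    rw [Pc.restr_im]
    exact inter_subset_right
  choose s hs1 hs2 hs3 hs4 hs5 using fun a b => exists_reparam (p' a) (q a b) (hqim a b)
  have hqc : ∀ a b, Controls (q a b).cur ((μ b).restrict (M a)) := fun a b =>
    (p b).controls_restr (hMm a) (hμ b)
  have hint : ∀ a b, ∫ z in (s a b).P, |((s a b).θ z : ℝ)| ≤
      ((p' a).C : ℝ) ^ k * (μ b univ).toReal := by
    intro a b
    have h1 : Controls (s a b).cur ((μ b).restrict (M a)) := by rw [hs5 a b]; exact hqc a b
    refine ((s a b).integral_abs_le h1).trans ?_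
    rw [hs3 a b, Measure.restrict_apply_univ]
    gcongr
    · exact (measure_lt_top _ _).ne
    · exact subset_univ _
  have hsum : ∀ a, Summable fun b => ∫ z in (s a b).P, |((s a b).θ z : ℝ)| := fun a =>
    Summable.of_nonneg_of_le (fun b => integral_nonneg fun z => abs_nonneg _) (hint a)
      (hs.mul_left _)
  choose θ hθi hθs using fun a => exists_sum (p' a) (s a) (hs1 a) (hs2 a) (hsum a)
  set r : ℕ → Pc X k := fun a => { p' a with θ := θ a, int := hθi a } with hr
  have hrim : ∀ a, (r a).im = M a := fun a => hp'im a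
  have hrsum : ∀ a f π, IsTestPair f π → HasSum (fun b => (q a b).cur f π) ((r a).cur f π) := by
    intro a f π hfπ
    have := hθs a f π hfπ
    simp_rw [hs5 a] at this
    exact this
  refine ⟨r, fun i j hij => ?_, fun a => ?_, fun f π hfπ => ?_⟩
  · rw [hrim, hrim]
    exact hMd hij
  · rw [hrim, Measure.restrict_sum _ (hMm a)]
    have h1 : ∀ b, ((μ b).restrict (M a) univ).toReal ≤ (μ b univ).toReal := by
      intro b
      refine ENNReal.toReal_mono (measure_lt_top _ _).ne ?_
      rw [Measure.restrict_apply_univ]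
      exact measure_mono (subset_univ _)
    exact (B10.controls_of_hasSum (fun b => inferInstance) (hqc a)
      (Summable.of_nonneg_of_le (fun b => ENNReal.toReal_nonneg) h1 hs) (hrsum a)).2.1
  · obtain ⟨hf, hπ⟩ := G1.isTestPair_iff.1 hfπ
    obtain ⟨K, hK⟩ := B1c1.exists_common hπ
    obtain ⟨Cf, hCf⟩ := hf.2
    have hcol : ∀ b, HasSum (fun a => (q a b).cur f π) ((p b).cur f π) := by
      intro b
      have h1 := B1c1.hasSum_chartR (p b).meas (p b).lip (p b).int
        (P := fun a => (p b).P ∩ (p b).φ ⁻¹' M a)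
        (fun a => measurableSet_inter_preimage (p b).meas (p b).lip.continuousOn (hMm a))
        (fun i j hij => ?_) ?_ f π
      · exact h1
      · refine Disjoint.mono inter_subset_right inter_subset_right ?_
        exact (hMd hij).preimage _
      · rw [← inter_iUnion, ← preimage_iUnion, hM, iUnion_disjointed]
        refine inter_eq_self_of_subset_left fun z hz => ?_
        exact mem_iUnion.2 ⟨b, mem_image_of_mem _ hz⟩
    have hbd : ∀ x : ℕ × ℕ, ‖(q x.2 x.1).cur f π‖ ≤
        ((K : ℝ) ^ k * Cf) * (μ x.1 (M x.2)).toReal := by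
      intro x
      have := abs_cur_le (q x.2 x.1).isCurrent (hqc x.2 x.1) hf hCf hK
      rw [Measure.restrict_apply_univ] at this
      exact this
    have hS : Summable fun x : ℕ × ℕ => (q x.2 x.1).cur f π :=
      Summable.of_norm_bounded ((summable_measure_inter hs hMm hMd).mul_left _) hbd
    refine ⟨_, hS.hasSum.prod_fiberwise fun b => hcol b, ?_⟩
    have h2 : HasSum (fun x : ℕ × ℕ => (q x.1 x.2).cur f π)
        (∑' x : ℕ × ℕ, (q x.2 x.1).cur f π) := by
      have := (Equiv.prodComm ℕ ℕ).hasSum_iff.2 hS.hasSum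
      exact this
    exact h2.prod_fiberwise fun a => hrsum a f π hfπ

end

end Crest.Agent.R241.B4Disj
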