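import Crest.Agent.R241.B4Split
import Crest.Agent.R241.B1c2
import Crest.Agent.R241.G1c

/-!
R241 / B4: the extension of a chart action to bounded Borel functions, pieces (bi-Lipschitz charts),
restriction to Borel sets, mass lower bound.
-/

set_option autoImplicit false

open MeasureTheory Filter Topology Metric Set Module
open scoped NNReal ENNReal

namespace Crest.Agent.R241.B4Ext

open Crest.GeometryTopology.Submanifold (Euc)
open Crest.GeometryTopology.MetricCurrent
open Crest.Agent.R241.G1 (BL BM LipT ext ctrl)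
open Crest.Agent.R241.B1c1 (jac chartR)

noncomputable section

universe u

variable {X : Type u} [MetricSpace X] {k : ℕ}

theorem chartR_eq_cur (E : Set (Euc k)) (φ : Euc k → X) (ρ : Euc k → ℝ) :
    chartR E φ ρ = B1Cur.chartR E φ ρ := rfl

variable [MeasurableSpace X] [BorelSpace X]

theorem isCurrent_chartR {E : Set (Euc k)} {φ : Euc k → X} {L : ℝ≥0} {ρ : Euc k → ℝ}
    (hE : MeasurableSet E) (hφ : LipschitzOnWith L φ E) (hρ : IntegrableOn ρ E) :
    IsCurrent (chartR E φ ρ) := B1Cur.isCurrent_chartR hE hφ hρ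

theorem aemeasurable_comp {E : Set (Euc k)} {φ : Euc k → X} {L : ℝ≥0} (hE : MeasurableSet E)
    (hφ : LipschitzOnWith L φ E) {f : X → ℝ} (hf : Measurable f) :
    AEMeasurable (fun z => f (φ z)) (volume.restrict E) :=
  hf.comp_aemeasurable (hφ.continuousOn.aemeasurable hE)

/-- The extension of a chart action to bounded Borel functions. -/
theorem chart_ext {E : Set (Euc k)} {φ : Euc k → X} {L : ℝ≥0} {ρ : Euc k → ℝ}
    (hE : MeasurableSet E) (hφ : LipschitzOnWith L φ E) (hρ : IntegrableOn ρ E)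
    {f : X → ℝ} (hf : BM f) {π : Fin k → X → ℝ} (hπ : LipT π) :
    ext (chartR E φ ρ) f π = ∫ z in E, ρ z * f (φ z) * jac E φ π z := by
  have hT := isCurrent_chartR hE hφ hρ
  obtain ⟨K, hK⟩ := B1c1.exists_common hπ
  have hjm := B1c1.aemeasurable_jac hE hφ hK
  have hjb := B1c1.ae_abs_jac_le hE hφ hK
  set r : Euc k → ℝ := fun z => ρ z * jac E φ π z with hr
  have hri : IntegrableOn r E := hρ.mul_bdd hjm.aestronglyMeasurable hjb
  set ν : Measure X := Measure.map φ ((volume.restrict E).withDensity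
    fun z => ENNReal.ofReal |r z|) with hν
  have hfin1 : IsFiniteMeasure ((volume.restrict E).withDensity
      fun z => ENNReal.ofReal |r z|) := isFiniteMeasure_withDensity_ofReal hri.abs.2
  have hfin : IsFiniteMeasure ν := by rw [hν]; infer_instance
  obtain ⟨C, hC⟩ := hf.2
  obtain ⟨g, hg1, hg2, hg3⟩ := G1.exists_seq_BL (ctrl (chartR E φ ρ) + ν) hf.1 hC
  have hgm : ∀ n, BM (g n) := fun n => (hg1 n).bm
  have hint : ∀ n (σ : Measure X) [IsFiniteMeasure σ], Integrable (fun x => |f x - g n x|) σ :=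
    fun n σ _ => (hf.sub (hgm n)).abs.integrable σ
  have hs1 : Tendsto (fun n => ∫ x, |f x - g n x| ∂(ctrl (chartR E φ ρ))) atTop (𝓝 0) := by
    refine squeeze_zero (fun n => integral_nonneg fun x => abs_nonneg _) (fun n => ?_) hg3
    exact integral_mono_measure (Measure.le_add_right le_rfl)
      (Eventually.of_forall fun x => abs_nonneg _) (hint n _)
  have hs2 : Tendsto (fun n => ∫ x, |f x - g n x| ∂ν) atTop (𝓝 0) := by
    refine squeeze_zero (fun n => integral_nonneg fun x => abs_nonneg _) (fun n => ?_) hg3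
    exact integral_mono_measure (Measure.le_add_left le_rfl)
      (Eventually.of_forall fun x => abs_nonneg _) (hint n _)
  have hlim1 := G1.ext_tendsto_L1 hf hgm hs1 π
  have hφm : AEMeasurable φ (volume.restrict E) := hφ.continuousOn.aemeasurable hE
  have hφm' : AEMeasurable φ ((volume.restrict E).withDensity fun z => ENNReal.ofReal |r z|) :=
    hφm.mono_ac (withDensity_absolutelyContinuous _ _)
  have hν_int : ∀ h : X → ℝ, Measurable h → ∫ x, h x ∂ν = ∫ z in E, |r z| * h (φ z) := by
    intro h hh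
    rw [hν, integral_map hφm' hh.aestronglyMeasurable,
      integral_withDensity_eq_integral_toReal_smul₀]
    · refine integral_congr_ae (Eventually.of_forall fun z => ?_)
      simp only [smul_eq_mul]
      rw [ENNReal.toReal_ofReal (abs_nonneg _)]
    · exact hri.abs.aestronglyMeasurable.aemeasurable.ennreal_ofReal
    · exact Eventually.of_forall fun z => ENNReal.ofReal_lt_top
  have hintB : ∀ h : X → ℝ, BM h → IntegrableOn (fun z => ρ z * h (φ z) * jac E φ π z) E := by
    intro h hh
    obtain ⟨D, hD⟩ := hh.2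
    have h1 : IntegrableOn (fun z => r z * h (φ z)) E :=
      hri.mul_bdd (c := D) (aemeasurable_comp hE hφ hh.1).aestronglyMeasurable
        (Eventually.of_forall fun z => hD _)
    refine h1.congr (Eventually.of_forall fun z => ?_)
    simp only [hr]; ring
  have hlim2 : Tendsto (fun n => ∫ z in E, ρ z * g n (φ z) * jac E φ π z) atTop
      (𝓝 (∫ z in E, ρ z * f (φ z) * jac E φ π z)) := by
    rw [tendsto_iff_dist_tendsto_zero]
    refine squeeze_zero (fun n => dist_nonneg) (fun n => ?_) hs2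
    have hmabs : Measurable fun x => |f x - g n x| := by
      exact (hf.1.sub (hgm n).1).abs
    rw [hν_int (fun x => |f x - g n x|) hmabs, dist_comm, Real.dist_eq, ← integral_sub (hintB f hf) (hintB (g n) (hgm n)), ← Real.norm_eq_abs]
    refine (norm_integral_le_integral_norm _).trans (le_of_eq ?_)
    refine integral_congr_ae (Eventually.of_forall fun z => ?_)
    simp only [hr, Real.norm_eq_abs]
    rw [← abs_mul]
    congr 1; ring
  refine tendsto_nhds_unique hlim1 (hlim2.congr fun n => ?_)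
  rw [G1.ext_eq hT hπ (hg1 n), B1c1.chartR_apply ((hg1 n).isTestPair hπ)]

/-- A bi-Lipschitz chart with integer density. -/
structure Pc (X : Type u) [MetricSpace X] (k : ℕ) where
  P : Set (Euc k)
  φ : Euc k → X
  θ : Euc k → ℤ
  meas : MeasurableSet P
  bdd : Bornology.IsBounded P
  L : ℝ≥0
  lip : LipschitzOnWith L φ P
  C : ℝ≥0
  colip : ∀ z ∈ P, ∀ w ∈ P, dist z w ≤ C * dist (φ z) (φ w)
  int : IntegrableOn (fun z => (θ z : ℝ)) P

namespace Pc

variable (p : Pc X k)

/-- the current of a piece -/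
def cur : Functional X k := chartAction p.P p.φ p.θ

omit [MeasurableSpace X] [BorelSpace X] in
theorem cur_eq : p.cur = chartR p.P p.φ (fun z => (p.θ z : ℝ)) := rfl

theorem isCurrent : IsCurrent p.cur := isCurrent_chartR p.meas p.lip p.int

omit [MeasurableSpace X] [BorelSpace X] in
theorem injOn : InjOn p.φ p.P := by
  intro z hz w hw h
  have := p.colip z hz w hw
  rw [h, dist_self, mul_zero] at this
  exact dist_le_zero.1 this

/-- the image -/
def im : Set X := p.φ '' p.P

theorem measurableSet_im : MeasurableSet p.im :=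
  p.meas.image_of_continuousOn_injOn p.lip.continuousOn p.injOn

theorem measurableSet_image {Q : Set (Euc k)} (hQ : MeasurableSet Q) (h : Q ⊆ p.P) :
    MeasurableSet (p.φ '' Q) :=
  hQ.image_of_continuousOn_injOn (p.lip.continuousOn.mono h) (p.injOn.mono h)

theorem _root_.Crest.Agent.R241.B4Ext.measurableSet_inter_preimage {E : Set (Euc k)}
    (hE : MeasurableSet E) {φ : Euc k → X} (hφ : ContinuousOn φ E) {B : Set X}
    (hB : MeasurableSet B) : MeasurableSet (E ∩ φ ⁻¹' B) := by
  have h1 : Measurable (E.domRestrict φ) := (continuousOn_iff_continuous_domRestrict.1 hφ).measurable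
  have h2 : E ∩ φ ⁻¹' B = Subtype.val '' ((E.domRestrict φ) ⁻¹' B) := by
    ext z
    simp only [mem_inter_iff, mem_preimage, mem_image, Subtype.exists, exists_and_right,
      exists_eq_right, domRestrict_apply]
    exact ⟨fun h => ⟨h.1, h.2⟩, fun ⟨h, h'⟩ => ⟨h, h'⟩⟩
  rw [h2]
  exact hE.subtype_image (h1 hB)

/-- restriction to a Borel set of `X` -/
def restr {B : Set X} (hB : MeasurableSet B) : Pc X k where
  P := p.P ∩ p.φ ⁻¹' B
  φ := p.φ
  θ := p.θ
  meas := measurableSet_inter_preimage p.meas p.lip.continuousOn hB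
  bdd := p.bdd.subset inter_subset_left
  L := p.L
  lip := p.lip.mono inter_subset_left
  C := p.C
  colip := fun z hz w hw => p.colip z hz.1 w hw.1
  int := p.int.mono_set inter_subset_left

theorem restr_im {B : Set X} (hB : MeasurableSet B) : (p.restr hB).im = p.im ∩ B := by
  unfold im restr
  simp only
  rw [image_inter_preimage]

theorem ext_cur {f : X → ℝ} (hf : BM f) {π : Fin k → X → ℝ} (hπ : LipT π) :
    ext p.cur f π = ∫ z in p.P, (p.θ z : ℝ) * f (p.φ z) * jac p.P p.φ π z :=
  chart_ext p.meas p.lip p.int hf hπ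

theorem ext_restr {B : Set X} (hB : MeasurableSet B) {f : X → ℝ} (hf : BM f)
    {π : Fin k → X → ℝ} (hπ : LipT π) :
    ext (p.restr hB).cur f π = ext p.cur (B.indicator f) π := by
  rw [ext_cur _ hf hπ, ext_cur _ (hf.indicator hB) hπ]
  obtain ⟨K, hK⟩ := B1c1.exists_common hπ
  have h1 := B1c1.ae_jacM_mono p.meas (p.restr hB).meas (inter_subset_left) p.lip hK
  have h2 : (∫ z in (p.restr hB).P, ((p.restr hB).θ z : ℝ) * f ((p.restr hB).φ z) *
      jac (p.restr hB).P (p.restr hB).φ π z) =
      ∫ z in p.P ∩ p.φ ⁻¹' B, (p.θ z : ℝ) * f (p.φ z) * jac p.P p.φ π z := by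
    refine integral_congr_ae ?_
    filter_upwards [h1] with z hz
    have : jac (p.restr hB).P (p.restr hB).φ π z = jac p.P p.φ π z := by
      show (B1c1.jacM (p.restr hB).P p.φ π z).det = _
      rw [hz]
      rfl
    rw [this]
    rfl
  rw [h2]
  have h3 : ∀ z ∈ p.P, (p.θ z : ℝ) * B.indicator f (p.φ z) * jac p.P p.φ π z =
      (p.P ∩ p.φ ⁻¹' B).indicator (fun z => (p.θ z : ℝ) * f (p.φ z) * jac p.P p.φ π z) z := by
    intro z hz
    by_cases hzB : p.φ z ∈ B
    · rw [indicator_of_mem hzB, indicator_of_mem (show z ∈ p.P ∩ p.φ ⁻¹' B from ⟨hz, hzB⟩)]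
    · rw [indicator_of_notMem hzB, indicator_of_notMem (fun h => hzB h.2)]
      ring
  have hm : MeasurableSet (p.P ∩ p.φ ⁻¹' B) := (p.restr hB).meas
  rw [setIntegral_congr_fun p.meas h3, setIntegral_indicator hm]
  congr 2
  exact (inter_eq_self_of_subset_right inter_subset_left).symm

/-- control of the restriction -/
theorem controls_restr {B : Set X} (hB : MeasurableSet B) {μ : Measure X} [IsFiniteMeasure μ]
    (hμ : Controls p.cur μ) : Controls (p.restr hB).cur (μ.restrict B) := by
  intro f π hfπ hπ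
  obtain ⟨hf, hπ'⟩ := G1.isTestPair_iff.1 hfπ
  rw [← G1.ext_eq (p.restr hB).isCurrent hπ' hf, p.ext_restr hB hf.bm hπ']
  have h1 := G1.abs_ext_le p.isCurrent hμ (hf.bm.indicator hB) (K := fun _ => 1) hπ
  simp only [NNReal.coe_one, Finset.prod_const_one, one_mul] at h1
  refine h1.trans (le_of_eq ?_)
  rw [← integral_indicator hB]
  refine integral_congr_ae (Eventually.of_forall fun x => ?_)
  simp only
  by_cases hx : x ∈ B
  · rw [indicator_of_mem hx, indicator_of_mem hx]
  · rw [indicator_of_notMem hx, indicator_of_notMem hx, abs_zero]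

omit [MeasurableSpace X] [BorelSpace X] in
/-- Lipschitz functions inverting the chart -/
theorem exists_inverse : ∃ π : Fin k → X → ℝ, (∀ i, LipschitzWith p.C (π i)) ∧
    ∀ i, ∀ z ∈ p.P, π i (p.φ z) = z i := by
  have h : ∀ i : Fin k, ∃ g : X → ℝ, LipschitzWith p.C g ∧
      EqOn (fun x => (Function.invFunOn p.φ p.P x) i) g (p.φ '' p.P) := by
    intro i
    refine LipschitzOnWith.extend_real (LipschitzOnWith.of_dist_le_mul ?_)
    rintro _ ⟨z, hz, rfl⟩ _ ⟨w, hw, rfl⟩
    rw [p.injOn.leftInvOn_invFunOn hz, p.injOn.leftInvOn_invFunOn hw]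
    refine le_trans ?_ (p.colip z hz w hw)
    rw [dist_eq_norm, dist_eq_norm, ← PiLp.sub_apply]
    exact PiLp.norm_apply_le (z - w) i
  choose g hg1 hg2 using h
  refine ⟨g, hg1, fun i z hz => ?_⟩
  rw [← hg2 i (mem_image_of_mem _ hz)]
  simp only
  rw [p.injOn.leftInvOn_invFunOn hz]

omit [MeasurableSpace X] [BorelSpace X] in
theorem ae_jac_inverse {π : Fin k → X → ℝ} (hπ : ∀ i, ∀ z ∈ p.P, π i (p.φ z) = z i) :
    ∀ᵐ z ∂(volume.restrict p.P), jac p.P p.φ π z = 1 := by
  filter_upwards [B1Density.ae_uniqueDiffWithinAt volume p.meas, ae_restrict_mem p.meas]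
    with z hz hzP
  have h1 : ∀ i, fderivWithin ℝ (fun w => π i (p.φ w)) p.P z =
      (EuclideanSpace.proj i : Euc k →L[ℝ] ℝ) := by
    intro i
    have h2 : EqOn (fun w => π i (p.φ w)) (EuclideanSpace.proj i : Euc k →L[ℝ] ℝ) p.P := by
      intro w hw
      exact hπ i w hw
    rw [fderivWithin_congr h2 (h2 hzP)]
    exact (EuclideanSpace.proj i : Euc k →L[ℝ] ℝ).hasFDerivAt.hasFDerivWithinAt.fderivWithin hz
  have h3 : B1c1.jacM p.P p.φ π z = 1 := by
    ext i j
    rw [B1c1.jacM, Matrix.of_apply, h1 i, Matrix.one_apply]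
    simp
  rw [jac, h3, Matrix.det_one]

theorem _root_.Crest.Agent.R241.B4Ext.exists_measurable_int {α : Type*} [MeasurableSpace α]
    {μ : Measure α} {θ : α → ℤ} (h : AEMeasurable (fun z => (θ z : ℝ)) μ) :
    ∃ θ' : α → ℤ, Measurable θ' ∧ θ =ᵐ[μ] θ' := by
  refine ⟨fun z => ⌊h.mk _ z⌋, Int.measurable_floor.comp h.measurable_mk, ?_⟩
  filter_upwards [h.ae_eq_mk] with z hz
  rw [← hz, Int.floor_intCast]

/-- Mass lower bound: the density is controlled by any controlling measure. -/
theorem integral_abs_le {μ : Measure X} [IsFiniteMeasure μ] (hμ : Controls p.cur μ) :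
    ∫ z in p.P, |(p.θ z : ℝ)| ≤ (p.C : ℝ) ^ k * (μ univ).toReal := by
  obtain ⟨π, hπ1, hπ2⟩ := p.exists_inverse
  have hπ : LipT π := fun i => ⟨_, hπ1 i⟩
  obtain ⟨θ', hθ'm, hθ'⟩ := exists_measurable_int p.int.aestronglyMeasurable.aemeasurable
  set Pp : Set (Euc k) := p.P ∩ θ' ⁻¹' (Ioi 0) with hPp
  set Pn : Set (Euc k) := p.P ∩ θ' ⁻¹' (Iio 0) with hPn
  have hPpm : MeasurableSet Pp := p.meas.inter (hθ'm measurableSet_Ioi)
  have hPnm : MeasurableSet Pn := p.meas.inter (hθ'm measurableSet_Iio)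
  have hIp := p.measurableSet_image hPpm inter_subset_left
  have hIn := p.measurableSet_image hPnm inter_subset_left
  set f : X → ℝ := fun x => (p.φ '' Pp).indicator (fun _ => (1 : ℝ)) x -
    (p.φ '' Pn).indicator (fun _ => (1 : ℝ)) x with hf
  have hfm : Measurable f := (measurable_const.indicator hIp).sub (measurable_const.indicator hIn)
  have hmem : ∀ z ∈ p.P, ∀ Q ⊆ p.P, (p.φ z ∈ p.φ '' Q ↔ z ∈ Q) := by
    intro z hz Q hQ
    refine ⟨fun ⟨w, hw, h⟩ => ?_, fun h => mem_image_of_mem _ h⟩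
    rw [← p.injOn (hQ hw) hz h]; exact hw
  have hfφ : ∀ z ∈ p.P, (θ' z : ℝ) * f (p.φ z) = |(θ' z : ℝ)| := by
    intro z hz
    have h1 := hmem z hz Pp inter_subset_left
    have h2 := hmem z hz Pn inter_subset_left
    rcases lt_trichotomy (θ' z) 0 with h | h | h
    · have hn : z ∈ Pn := ⟨hz, h⟩
      have hnp : z ∉ Pp := fun h' => absurd (mem_Ioi.1 h'.2) (not_lt.2 h.le)
      have : f (p.φ z) = -1 := by
        simp only [hf]
        rw [indicator_of_notMem (fun h' => hnp (h1.1 h')), indicator_of_mem (h2.2 hn)]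
        norm_num
      rw [this, abs_of_neg (by exact_mod_cast h)]; ring
    · rw [h]; simp
    · have hp : z ∈ Pp := ⟨hz, h⟩
      have hnn : z ∉ Pn := fun h' => absurd (mem_Iio.1 h'.2) (not_lt.2 h.le)
      have : f (p.φ z) = 1 := by
        simp only [hf]
        rw [indicator_of_mem (h1.2 hp), indicator_of_notMem (fun h' => hnn (h2.1 h'))]
        norm_num
      rw [this, abs_of_pos (by exact_mod_cast h)]; ring
  have hfb : ∀ x, |f x| ≤ 1 := by
    intro x
    simp only [hf]
    by_cases h1 : x ∈ p.φ '' Pp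
    · have h2 : x ∉ p.φ '' Pn := by
        obtain ⟨z, hz, rfl⟩ := h1
        intro h2
        have := (hmem z hz.1 Pn inter_subset_left).1 h2
        exact absurd (mem_Ioi.1 hz.2) (not_lt.2 (show θ' z < 0 from this.2).le)
      rw [indicator_of_mem h1, indicator_of_notMem h2]; norm_num
    · rw [indicator_of_notMem h1]
      by_cases h2 : x ∈ p.φ '' Pn
      · rw [indicator_of_mem h2]; norm_num
      · rw [indicator_of_notMem h2]; norm_num
  have hfBM : BM f := ⟨hfm, 1, hfb⟩
  have h1 := G1.abs_ext_le p.isCurrent hμ hfBM hπ1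
  rw [p.ext_cur hfBM hπ] at h1
  have h2 : (∫ z in p.P, (p.θ z : ℝ) * f (p.φ z) * jac p.P p.φ π z) =
      ∫ z in p.P, |(p.θ z : ℝ)| := by
    refine integral_congr_ae ?_
    filter_upwards [p.ae_jac_inverse hπ2, hθ', ae_restrict_mem p.meas] with z h3 h4 h5
    rw [h3, mul_one, h4, hfφ z h5]
  rw [h2, Finset.prod_const, Finset.card_univ, Fintype.card_fin] at h1
  refine (le_abs_self _).trans (h1.trans ?_)
  gcongr
  calc ∫ x, |f x| ∂μ ≤ ∫ _x, (1 : ℝ) ∂μ :=
        integral_mono (hfBM.abs.integrable μ) (integrable_const _) hfb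
    _ = (μ univ).toReal := by simp [Measure.real]

end Pc

end

end Crest.Agent.R241.B4Ext
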