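import Crest.Agent.R241.B4Disj

/-!
R241 / B4: the normal form theorem and closure properties of integer rectifiable currents.
-/

set_option autoImplicit false

open MeasureTheory Filter Topology Metric Set Module
open scoped NNReal ENNReal

namespace Crest.Agent.R241.B4Norm

open Crest.GeometryTopology.Submanifold (Euc)
open Crest.GeometryTopology.MetricCurrent
open Crest.Agent.R241.G1 (BL BM LipT ext ctrl)
open Crest.Agent.R241.B1c1 (jac chartR)
open Crest.Agent.R241.B4Ext Crest.Agent.R241.B4Disj

noncomputable section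

universe u

variable {X : Type u} [MetricSpace X] {k : ℕ} [MeasurableSpace X] [BorelSpace X]

/-- finite sum measure -/
theorem isFiniteMeasure_sum {α : Type*} [MeasurableSpace α] {μ : ℕ → Measure α}
    [∀ i, IsFiniteMeasure (μ i)] (hs : Summable fun i => (μ i univ).toReal) :
    IsFiniteMeasure (Measure.sum μ) := by
  refine ⟨?_⟩
  rw [Measure.sum_apply _ MeasurableSet.univ]
  have h1 : ∀ i, μ i univ = ENNReal.ofReal ((μ i univ).toReal) := fun i =>
    (ENNReal.ofReal_toReal (measure_lt_top _ _).ne).symm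
  rw [tsum_congr h1, ← ENNReal.ofReal_tsum_of_nonneg (fun i => ENNReal.toReal_nonneg) hs]
  exact ENNReal.ofReal_lt_top

theorem integral_sum_measure {μ : ℕ → Measure X} [∀ i, IsFiniteMeasure (μ i)]
    [IsFiniteMeasure (Measure.sum μ)] {f : X → ℝ} (hf : BM f) :
    HasSum (fun i => ∫ x, f x ∂(μ i)) (∫ x, f x ∂(Measure.sum μ)) :=
  hasSum_integral_measure (hf.integrable _)

/-- The extension to bounded Borel functions is additive over mass-summable series. -/
theorem hasSum_ext {T : Functional X k} (hT : IsCurrent T) {S : ℕ → Functional X k}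
    (hS : ∀ i, IsCurrent (S i)) {σ : ℕ → Measure X} [∀ i, IsFiniteMeasure (σ i)]
    (hσ : ∀ i, Controls (S i) (σ i)) (hs : Summable fun i => (σ i univ).toReal)
    (hsum : ∀ f π, IsTestPair f π → HasSum (fun i => S i f π) (T f π))
    {g : X → ℝ} (hg : BM g) {π : Fin k → X → ℝ} (hπ : LipT π) :
    HasSum (fun i => ext (S i) g π) (ext T g π) := by
  have hfin := isFiniteMeasure_sum hs
  obtain ⟨K, hK⟩ := B1c1.exists_common hπ
  obtain ⟨C, hC⟩ := hg.2
  obtain ⟨h, hh1, hh2, hh3⟩ := G1.exists_seq_BL (ctrl T + Measure.sum σ) hg.1 hC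
  have hhm : ∀ n, BM (h n) := fun n => (hh1 n).bm
  have hint : ∀ n (ν : Measure X) [IsFiniteMeasure ν], Integrable (fun x => |g x - h n x|) ν :=
    fun n ν _ => (hg.sub (hhm n)).abs.integrable ν
  have hs1 : Tendsto (fun n => ∫ x, |g x - h n x| ∂(ctrl T)) atTop (𝓝 0) := by
    refine squeeze_zero (fun n => integral_nonneg fun x => abs_nonneg _) (fun n => ?_) hh3
    exact integral_mono_measure (Measure.le_add_right le_rfl)
      (Eventually.of_forall fun x => abs_nonneg _) (hint n _)
  have hs2 : Tendsto (fun n => ∫ x, |g x - h n x| ∂(Measure.sum σ)) atTop (𝓝 0) := by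
    refine squeeze_zero (fun n => integral_nonneg fun x => abs_nonneg _) (fun n => ?_) hh3
    exact integral_mono_measure (Measure.le_add_left le_rfl)
      (Eventually.of_forall fun x => abs_nonneg _) (hint n _)
  have hlim1 := G1.ext_tendsto_L1 hg hhm hs1 π
  set P : ℝ := ∏ _i : Fin k, (K : ℝ) with hP
  have hP0 : 0 ≤ P := Finset.prod_nonneg fun _ _ => K.coe_nonneg
  -- summability
  have hbound : ∀ (f : X → ℝ), BM f → ∀ i, |ext (S i) f π| ≤ P * ∫ x, |f x| ∂(σ i) :=
    fun f hf i => G1.abs_ext_le (hS i) (hσ i) hf hK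
  have hsumm : ∀ (f : X → ℝ), BM f → Summable fun i => ext (S i) f π := by
    intro f hf
    refine Summable.of_norm_bounded (g := fun i => P * ∫ x, |f x| ∂(σ i))
      ((integral_sum_measure hf.abs).summable.mul_left P) (hbound f hf)
  have hlim2 : Tendsto (fun n => ∑' i, ext (S i) (h n) π) atTop
      (𝓝 (∑' i, ext (S i) g π)) := by
    rw [tendsto_iff_dist_tendsto_zero]
    have hz : Tendsto (fun n => P * ∫ x, |g x - h n x| ∂(Measure.sum σ)) atTop (𝓝 0) := by
      simpa using hs2.const_mul P
    refine squeeze_zero (fun n => dist_nonneg) (fun n => ?_) hz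
    rw [dist_comm, Real.dist_eq, ← (hsumm g hg).tsum_sub (hsumm _ (hhm n))]
    have h1 : ∀ i, ext (S i) g π - ext (S i) (h n) π = ext (S i) (g - h n) π := fun i =>
      (G1.ext_sub hg (hhm n) π).symm
    simp_rw [h1]
    have hgh : BM (g - h n) := hg.sub (hhm n)
    have h2 := integral_sum_measure (μ := σ) hgh.abs
    have h3 : ‖∑' i, ext (S i) (g - h n) π‖ ≤ ∑' i, P * ∫ x, |(g - h n) x| ∂(σ i) :=
      tsum_of_norm_bounded (h2.summable.mul_left P).hasSum (hbound _ hgh)
    rw [tsum_mul_left, h2.tsum_eq] at h3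
    exact h3
  have hlim3 : Tendsto (fun n => ∑' i, ext (S i) (h n) π) atTop (𝓝 (ext T g π)) := by
    refine hlim1.congr fun n => ?_
    rw [G1.ext_eq hT hπ (hh1 n)]
    have h4 : ∀ i, ext (S i) (h n) π = S i (h n) π := fun i => G1.ext_eq (hS i) hπ (hh1 n)
    simp_rw [h4]
    exact (hsum _ _ ((hh1 n).isTestPair hπ)).tsum_eq.symm
  rw [← tendsto_nhds_unique hlim2 hlim3]
  exact (hsumm g hg).hasSum

/-- In a decomposition into pieces with disjoint images every piece is a restriction of the total
current: it is controlled by the restriction of any controlling measure. -/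
theorem controls_piece {T : Functional X k} (hT : IsCurrent T) {ν : Measure X}
    [IsFiniteMeasure ν] (hν : Controls T ν) {r : ℕ → Pc X k}
    (hd : ∀ i j, i ≠ j → Disjoint (r i).im (r j).im)
    {σ : ℕ → Measure X} [∀ i, IsFiniteMeasure (σ i)]
    (hσ : ∀ i, Controls (r i).cur (σ i)) (hs : Summable fun i => (σ i univ).toReal)
    (hsum : ∀ f π, IsTestPair f π → HasSum (fun i => (r i).cur f π) (T f π)) (a : ℕ) :
    Controls (r a).cur (ν.restrict (r a).im) := by
  intro f π hfπ hπ1
  obtain ⟨hf, hπ⟩ := G1.isTestPair_iff.1 hfπ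
  have him := (r a).measurableSet_im
  have hfi : BM ((r a).im.indicator f) := hf.bm.indicator him
  have h1 := hasSum_ext hT (fun i => (r i).isCurrent) hσ hs hsum hfi hπ
  have hzero : ∀ i, i ≠ a → ext (r i).cur ((r a).im.indicator f) π = 0 := by
    intro i hi
    rw [Pc.ext_cur _ hfi hπ]
    rw [setIntegral_congr_fun (r i).meas (g := fun _ => (0 : ℝ)) ?_, integral_zero]
    intro z hz
    show ((r i).θ z : ℝ) * (r a).im.indicator f ((r i).φ z) * jac (r i).P (r i).φ π z = 0
    rw [indicator_of_notMem, mul_zero, zero_mul]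
    exact fun h => (hd i a hi).le_bot ⟨mem_image_of_mem _ hz, h⟩
  have hself : ext (r a).cur ((r a).im.indicator f) π = (r a).cur f π := by
    rw [Pc.ext_cur _ hfi hπ, Pc.cur_eq, B1c1.chartR_apply hfπ]
    refine setIntegral_congr_fun (r a).meas fun z hz => ?_
    show ((r a).θ z : ℝ) * (r a).im.indicator f ((r a).φ z) * jac (r a).P (r a).φ π z = _
    rw [indicator_of_mem (show (r a).φ z ∈ (r a).im from mem_image_of_mem _ hz)]
  have h2 : ext T ((r a).im.indicator f) π = (r a).cur f π := by
    rw [← hself]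
    exact h1.unique (hasSum_single a hzero)
  rw [← h2]
  have h3 := G1.abs_ext_le hT hν hfi (K := fun _ => 1) hπ1
  simp only [NNReal.coe_one, Finset.prod_const_one, one_mul] at h3
  refine h3.trans (le_of_eq ?_)
  rw [← integral_indicator him]
  refine integral_congr_ae (Eventually.of_forall fun x => ?_)
  simp only
  by_cases hx : x ∈ (r a).im
  · rw [indicator_of_mem hx, indicator_of_mem hx]
  · rw [indicator_of_notMem hx, indicator_of_notMem hx, abs_zero]

/-- A normal form of `T` relative to the measure `ν`. -/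
def NF (T : Functional X k) (ν : Measure X) (r : ℕ → Pc X k) : Prop :=
  (∀ i j, i ≠ j → Disjoint (r i).im (r j).im) ∧
  (∀ i, Controls (r i).cur (ν.restrict (r i).im)) ∧
  ∀ f π, IsTestPair f π → HasSum (fun i => (r i).cur f π) (T f π)

theorem NF.summable_restrict {T : Functional X k} {ν : Measure X} [IsFiniteMeasure ν]
    {r : ℕ → Pc X k} (h : NF T ν r) :
    Summable fun i => (ν.restrict (r i).im univ).toReal := by
  simp_rw [Measure.restrict_apply_univ]
  refine ENNReal.summable_toReal ?_
  have h1 : ∑' i, ν (r i).im = ν (⋃ i, (r i).im) :=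
    (measure_iUnion (fun i j hij => h.1 i j hij) fun i => (r i).measurableSet_im).symm
  rw [h1]
  exact (measure_lt_top _ _).ne

theorem NF.tsum_restrict_le {T : Functional X k} {ν : Measure X} [IsFiniteMeasure ν]
    {r : ℕ → Pc X k} (h : NF T ν r) :
    ∑' i, (ν.restrict (r i).im univ).toReal ≤ (ν univ).toReal := by
  simp_rw [Measure.restrict_apply_univ]
  rw [← ENNReal.tsum_toReal_eq fun i => (measure_lt_top _ _).ne]
  refine ENNReal.toReal_mono (measure_lt_top _ _).ne ?_
  rw [← measure_iUnion (fun i j hij => h.1 i j hij) fun i => (r i).measurableSet_im]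
  exact measure_mono (subset_univ _)

/-- From a normal form to the official definition. -/
theorem NF.rect {T : Functional X k} {ν : Measure X} [IsFiniteMeasure ν]
    {r : ℕ → Pc X k} (h : NF T ν r) : IsIntegerRectifiable T := by
  refine ⟨fun i => (r i).P, fun i => (r i).φ, fun i => (r i).θ,
    fun i => ⟨(r i).meas, (r i).bdd⟩, fun i => ⟨_, (r i).lip⟩, fun i => ⟨_, (r i).colip⟩,
    fun i => (r i).int, h.1, fun i => (r i).isCurrent, ?_, fun f π hfπ => (h.2.2 f π hfπ).tsum_eq.symm⟩
  refine Summable.of_nonneg_of_le (fun i => B10.mass_nonneg _) (fun i => ?_) h.summable_restrict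
  exact B10.mass_le (h.2.1 i)

omit [BorelSpace X] in
/-- Existence of a controlling measure with almost minimal mass. -/
theorem exists_controls_le {T : Functional X k} (hT : IsCurrent T) {ε : ℝ} (hε : 0 < ε) :
    ∃ μ : Measure X, IsFiniteMeasure μ ∧ Controls T μ ∧ (μ univ).toReal ≤ mass T + ε := by
  obtain ⟨μ, h1, h2, h3⟩ := B10.exists_controls_lt hT (c := mass T + ε) (by linarith)
  exact ⟨μ, h1, h2, h3.le⟩

/-- The official definition gives a normal form relative to any controlling measure. -/
theorem exists_NF_of_rect {T : Functional X k} (hT : IsCurrent T) (hr : IsIntegerRectifiable T)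
    {ν : Measure X} [IsFiniteMeasure ν] (hν : Controls T ν) :
    ∃ r : ℕ → Pc X k, NF T ν r := by
  obtain ⟨E, φ, θ, h1, h2, h3, h4, h5, h6, h7, h8⟩ := hr
  choose L hL using h2
  choose C hC using h3
  set r : ℕ → Pc X k := fun i =>
    { P := E i
      φ := φ i
      θ := θ i
      meas := (h1 i).1
      bdd := (h1 i).2
      L := L i
      lip := hL i
      C := Real.toNNReal (C i)
      colip := fun z hz w hw => (hC i z hz w hw).trans
        (mul_le_mul_of_nonneg_right (Real.le_coe_toNNReal _) dist_nonneg)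
      int := h4 i } with hr
  have hsum : ∀ f π, IsTestPair f π → HasSum (fun i => (r i).cur f π) (T f π) := by
    intro f π hfπ
    rw [h8 f π hfπ]
    exact (B10.summable_apply h6 h7 hfπ).hasSum
  obtain ⟨ε, hε, c, hεs, hεc⟩ := posSumOfEncodable one_pos ℕ
  choose σ hσ1 hσ2 hσ3 using fun i => exists_controls_le (r i).isCurrent (hε i)
  refine ⟨r, h5, fun a => ?_, hsum⟩
  refine controls_piece (r := r) hT hν h5 hσ2 ?_ hsum a
  exact Summable.of_nonneg_of_le (fun i => ENNReal.toReal_nonneg) hσ3 (h7.add hεs.summable)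

/-- annuli -/
def ann (n : ℕ) : Set (Euc k) := disjointed (fun m : ℕ => closedBall (0 : Euc k) m) n

omit [MeasurableSpace X] [BorelSpace X] in
theorem measurableSet_ann (n : ℕ) : MeasurableSet (ann (k := k) n) :=
  MeasurableSet.disjointed (fun _ => measurableSet_closedBall) n

theorem bdd_ann (n : ℕ) : Bornology.IsBounded (ann (k := k) n) :=
  isBounded_closedBall.subset (disjointed_subset _ n)

theorem iUnion_ann : (⋃ n, ann (k := k) n) = univ := by
  unfold ann
  rw [iUnion_disjointed, eq_univ_iff_forall]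
  intro z
  obtain ⟨n, hn⟩ := exists_nat_ge ‖z‖
  exact mem_iUnion.2 ⟨n, by simpa using hn⟩

/-- Normal form of a single Lipschitz chart. -/
theorem exists_NF_chart [TopologicalSpace.SeparableSpace X] {E : Set (Euc k)}
    (hE : MeasurableSet E) {φ : Euc k → X} {L : ℝ≥0} (hφ : LipschitzOnWith L φ E)
    {θ : Euc k → ℤ} (hθ : IntegrableOn (fun z => (θ z : ℝ)) E)
    {ν : Measure X} [IsFiniteMeasure ν] (hν : Controls (chartAction E φ θ) ν) :
    ∃ r : ℕ → Pc X k, NF (chartAction E φ θ) ν r := by
  obtain ⟨P, hPm, hPE, hPd, hPC, hPz⟩ := B4Split.exists_split hE hφ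
  choose C hC0 hC using hPC
  set Q : ℕ → Set (Euc k) := fun n => P (Nat.unpair n).1 ∩ ann (Nat.unpair n).2 with hQ
  have hQm : ∀ n, MeasurableSet (Q n) := fun n => (hPm _).inter (measurableSet_ann _)
  have hQE : ∀ n, Q n ⊆ E := fun n => inter_subset_left.trans (hPE _)
  have hQd : Pairwise (Function.onFun Disjoint Q) := by
    intro i j hij
    by_cases h : (Nat.unpair i).1 = (Nat.unpair j).1
    · have h2 : (Nat.unpair i).2 ≠ (Nat.unpair j).2 := by
        intro h2
        apply hij
        rw [← Nat.pair_unpair i, ← Nat.pair_unpair j, h, h2]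
      exact Disjoint.mono inter_subset_right inter_subset_right
        ((disjoint_disjointed _) h2)
    · exact Disjoint.mono inter_subset_left inter_subset_left (hPd h)
  have hQU : (⋃ n, Q n) = ⋃ j, P j := by
    apply Subset.antisymm
    · exact iUnion_subset fun n => inter_subset_left.trans (subset_iUnion P _)
    · intro z hz
      obtain ⟨j, hj⟩ := mem_iUnion.1 hz
      obtain ⟨m, hm⟩ := mem_iUnion.1 (iUnion_ann (k := k) ▸ mem_univ z)
      refine mem_iUnion.2 ⟨Nat.pair j m, ?_⟩
      show z ∈ P (Nat.unpair (Nat.pair j m)).1 ∩ ann (Nat.unpair (Nat.pair j m)).2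
      rw [Nat.unpair_pair]
      exact ⟨hj, hm⟩
  set p : ℕ → Pc X k := fun n =>
    { P := Q n
      φ := φ
      θ := θ
      meas := hQm n
      bdd := (bdd_ann _).subset inter_subset_right
      L := L
      lip := hφ.mono (hQE n)
      C := ⟨C (Nat.unpair n).1, hC0 _⟩
      colip := fun z hz w hw => hC _ z hz.1 w hw.1
      int := hθ.mono_set (hQE n) } with hp
  have hfin : ∀ n, IsFiniteMeasure (B1Cur.ctrl (Q n) φ L (fun z => (θ z : ℝ))) := fun n =>
    B1Cur.isFiniteMeasure_ctrl (hθ.mono_set (hQE n))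
  have hctrl : ∀ n, Controls (p n).cur (B1Cur.ctrl (Q n) φ L (fun z => (θ z : ℝ))) := fun n =>
    B1Cur.controls_chartAction (hQm n) (hφ.mono (hQE n)) (hθ.mono_set (hQE n))
  have hmass : ∀ n, ((B1Cur.ctrl (Q n) φ L (fun z => (θ z : ℝ))) univ).toReal =
      (L : ℝ) ^ k * ∫ z in Q n, |(θ z : ℝ)| := by
    intro n
    have h1 := B1Cur.integral_ctrl (hQm n) (hφ.mono (hQE n)) (hθ.mono_set (hQE n))
      (f := fun _ => (1 : ℝ)) continuous_const
    rw [integral_const, smul_eq_mul, mul_one] at h1
    rw [← Measure.real, h1, ← integral_const_mul]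
    refine integral_congr_ae (Eventually.of_forall fun z => ?_)
    simp only
    ring
  have hsum : Summable fun n => ((B1Cur.ctrl (Q n) φ L (fun z => (θ z : ℝ))) univ).toReal := by
    simp_rw [hmass]
    refine Summable.mul_left _ ?_
    have habs : IntegrableOn (fun z => |(θ z : ℝ)|) E := Integrable.abs hθ
    have h1 : HasSum (fun n => ∫ z in Q n, |(θ z : ℝ)|) (∫ z in ⋃ n, Q n, |(θ z : ℝ)|) :=
      hasSum_integral_iUnion hQm hQd (habs.mono_set (iUnion_subset hQE))
    exact h1.summable
  obtain ⟨r, hr1, hr2, hr3⟩ := disjointify p _ hctrl hsum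
  have hUm : MeasurableSet (⋃ j, P j) := MeasurableSet.iUnion hPm
  have hUE : (⋃ j, P j) ⊆ E := iUnion_subset hPE
  -- the sum of the pieces is the chart action
  have hp_sum : ∀ f π, IsTestPair f π → HasSum (fun n => (p n).cur f π)
      (chartAction E φ θ f π) := by
    intro f π hfπ
    have h1 := B1c1.hasSum_chartR hUm (hφ.mono hUE) (θ := fun z => (θ z : ℝ))
      (hθ.mono_set hUE) hQm hQd hQU f π
    have h2 : chartR (⋃ j, P j) φ (fun z => (θ z : ℝ)) f π = chartAction E φ θ f π := by
      rw [B1c1.chartAction_eq, B1c1.chartR_apply hfπ, B1c1.chartR_apply hfπ]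
      obtain ⟨K, hK⟩ := B1c1.exists_common hfπ.2.2
      have h3 := B1c1.integrable_integrand hE hφ hθ hfπ
      have h4 : (∫ z in E \ ⋃ j, P j, (θ z : ℝ) * f (φ z) * jac E φ π z) = 0 := by
        rw [integral_congr_ae (g := fun _ => (0 : ℝ)), integral_zero]
        filter_upwards [hPz π hfπ.2.2] with z hz
        have : jac E φ π z = 0 := hz
        rw [this, mul_zero]
      have h5 : (∫ z in ⋃ j, P j, (θ z : ℝ) * f (φ z) * jac (⋃ j, P j) φ π z) =
          ∫ z in ⋃ j, P j, (θ z : ℝ) * f (φ z) * jac E φ π z := by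
        refine integral_congr_ae ?_
        filter_upwards [B1c1.ae_jacM_mono hE hUm hUE hφ hK] with z hz
        rw [jac, jac, hz]
      rw [h5]
      have h6 := integral_inter_add_sdiff hUm h3
      rw [h4, add_zero, inter_eq_self_of_subset_right hUE] at h6
      exact h6
    rw [← h2]
    exact h1
  have hr_sum : ∀ f π, IsTestPair f π → HasSum (fun n => (r n).cur f π)
      (chartAction E φ θ f π) := by
    intro f π hfπ
    obtain ⟨s, hs1, hs2⟩ := hr3 f π hfπ
    rw [(hp_sum f π hfπ).unique hs1]
    exact hs2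
  have hfinsum := isFiniteMeasure_sum hsum
  have hNF0 : NF (chartAction E φ θ)
      (Measure.sum fun n => B1Cur.ctrl (Q n) φ L (fun z => (θ z : ℝ))) r := ⟨hr1, hr2, hr_sum⟩
  refine ⟨r, hr1, fun a => ?_, hr_sum⟩
  exact controls_piece (B1Cur.isCurrent_chartAction hE hφ hθ) hν hr1
    hNF0.2.1 hNF0.summable_restrict hr_sum a

/-- Normal form of a mass-summable series of currents with normal forms. -/
theorem exists_NF_of_hasSum {T : ℕ → Functional X k} {S : Functional X k} {ν : ℕ → Measure X}
    [∀ i, IsFiniteMeasure (ν i)] (hs : Summable fun i => (ν i univ).toReal)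
    (hT : ∀ i, ∃ r : ℕ → Pc X k, NF (T i) (ν i) r)
    (hsum : ∀ f π, IsTestPair f π → HasSum (fun i => T i f π) (S f π)) :
    ∃ (σ : Measure X) (r : ℕ → Pc X k), IsFiniteMeasure σ ∧ NF S σ r := by
  choose r hr using hT
  set p : ℕ → Pc X k := fun n => r (Nat.unpair n).1 (Nat.unpair n).2 with hp
  set μ : ℕ → Measure X := fun n =>
    (ν (Nat.unpair n).1).restrict (r (Nat.unpair n).1 (Nat.unpair n).2).im with hμ
  have hμc : ∀ n, Controls (p n).cur (μ n) := fun n => (hr _).2.1 _
  have hprod : Summable fun x : ℕ × ℕ => ((ν x.1).restrict (r x.1 x.2).im univ).toReal := by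
    refine (summable_prod_of_nonneg (fun x => ENNReal.toReal_nonneg)).2 ⟨fun i => ?_, ?_⟩
    · exact (hr i).summable_restrict
    · exact Summable.of_nonneg_of_le (fun i => tsum_nonneg fun a => ENNReal.toReal_nonneg)
        (fun i => (hr i).tsum_restrict_le) hs
  have hμs : Summable fun n => (μ n univ).toReal := by
    have := Nat.pairEquiv.symm.summable_iff.2 hprod
    exact this
  obtain ⟨q, hq1, hq2, hq3⟩ := disjointify p μ hμc hμs
  have hfin := isFiniteMeasure_sum hμs
  refine ⟨Measure.sum μ, q, hfin, hq1, hq2, fun f π hfπ => ?_⟩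
  obtain ⟨s, hs1, hs2⟩ := hq3 f π hfπ
  have h1 : HasSum (fun x : ℕ × ℕ => (r x.1 x.2).cur f π) s := by
    have h2 : HasSum ((fun n => (p n).cur f π) ∘ Nat.pairEquiv) s :=
      Nat.pairEquiv.hasSum_iff.2 hs1
    convert h2 using 1
    funext x
    show (r x.1 x.2).cur f π = (r (Nat.unpair (Nat.pair x.1 x.2)).1
      (Nat.unpair (Nat.pair x.1 x.2)).2).cur f π
    rw [Nat.unpair_pair]
  have h3 := h1.prod_fiberwise fun i => (hr i).2.2 f π hfπ
  rw [(hsum f π hfπ).unique h3]
  exact hs2

/-- **Mass-summable series of integer rectifiable currents are integer rectifiable.** -/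
theorem rect_of_hasSum {T : ℕ → Functional X k} {S : Functional X k} (hT : ∀ i, IsCurrent (T i))
    (hr : ∀ i, IsIntegerRectifiable (T i)) (hm : Summable fun i => mass (T i))
    (hsum : ∀ f π, IsTestPair f π → HasSum (fun i => T i f π) (S f π)) :
    IsIntegerRectifiable S := by
  obtain ⟨ε, hε, c, hεs, hεc⟩ := posSumOfEncodable one_pos ℕ
  choose ν hν1 hν2 hν3 using fun i => exists_controls_le (hT i) (hε i)
  have hs : Summable fun i => (ν i univ).toReal :=
    Summable.of_nonneg_of_le (fun i => ENNReal.toReal_nonneg) hν3 (hm.add hεs.summable)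
  obtain ⟨σ, r, hσ, hNF⟩ := exists_NF_of_hasSum hs
    (fun i => exists_NF_of_rect (hT i) (hr i) (hν2 i)) hsum
  exact hNF.rect

/-- Every Lipschitz chart action is integer rectifiable. -/
theorem rect_chartAction [TopologicalSpace.SeparableSpace X] {E : Set (Euc k)}
    (hE : MeasurableSet E) {φ : Euc k → X} {L : ℝ≥0} (hφ : LipschitzOnWith L φ E)
    {θ : Euc k → ℤ} (hθ : IntegrableOn (fun z => (θ z : ℝ)) E) :
    IsIntegerRectifiable (chartAction E φ θ) := by
  have hfin := B1Cur.isFiniteMeasure_ctrl (φ := φ) (L := L) hθ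
  obtain ⟨r, hr⟩ := exists_NF_chart hE hφ hθ (B1Cur.controls_chartAction hE hφ hθ)
  exact hr.rect

/-- Mass-summable series of Lipschitz chart actions are integer rectifiable. -/
theorem rect_of_charts [TopologicalSpace.SeparableSpace X] {E : ℕ → Set (Euc k)}
    (hE : ∀ i, MeasurableSet (E i)) {φ : ℕ → Euc k → X}
    (hφ : ∀ i, ∃ L : ℝ≥0, LipschitzOnWith L (φ i) (E i))
    {θ : ℕ → Euc k → ℤ} (hθ : ∀ i, IntegrableOn (fun z => (θ i z : ℝ)) (E i))
    (hm : Summable fun i => mass (chartAction (E i) (φ i) (θ i))) {S : Functional X k}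
    (hsum : ∀ f π, IsTestPair f π →
      HasSum (fun i => chartAction (E i) (φ i) (θ i) f π) (S f π)) :
    IsIntegerRectifiable S := by
  choose L hL using hφ
  exact rect_of_hasSum (fun i => B1Cur.isCurrent_chartAction (hE i) (hL i) (hθ i))
    (fun i => rect_chartAction (hE i) (hL i) (hθ i)) hm hsum

end

end Crest.Agent.R241.B4Norm
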