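import Crest.Agent.R241.B1Cur

/-!
R241 / B4: a Lipschitz chart `φ : E → X` splits into countably many bi-Lipschitz pieces and a
degenerate part on which all Jacobians vanish.
-/

set_option autoImplicit false

open MeasureTheory Filter Topology Metric Set Module
open scoped NNReal ENNReal

namespace Crest.Agent.R241.B4Split

open Crest.GeometryTopology.Submanifold (Euc)
open Crest.GeometryTopology.MetricCurrent
open Crest.Agent.R241.B1Null Crest.Agent.R241.B1Weak Crest.Agent.R241.B1Density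
open Crest.Agent.R241.B1Cur

noncomputable section

universe u

variable {k : ℕ}

/-- A family of Lipschitz functions with invertible Jacobian matrix splits a set into pieces where
it is co-Lipschitz. -/
theorem exists_partition_antilipschitz {F : Fin k → Euc k → ℝ} {s : Set (Euc k)}
    (hF : ∀ i, ∀ z ∈ s, DifferentiableAt ℝ (F i) z) (hdet : ∀ z ∈ s, (DM F z).det ≠ 0) :
    ∃ t : ℕ → Set (Euc k), (∀ n, MeasurableSet (t n)) ∧ s ⊆ ⋃ n, t n ∧
      ∀ n, ∃ C : ℝ, 0 ≤ C ∧ ∀ z ∈ s ∩ t n, ∀ w ∈ s ∩ t n,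
        dist z w ≤ C * dist (vec F z) (vec F w) := by
  classical
  rcases s.eq_empty_or_nonempty with hs | hs
  · subst hs
    exact ⟨fun _ => univ, fun _ => MeasurableSet.univ, by simp, fun _ => ⟨0, le_rfl, by simp⟩⟩
  set r : (Euc k →L[ℝ] Euc k) → ℝ≥0 := fun A =>
    if h : A.det ≠ 0 then
      (if ‖((A.toContinuousLinearEquivOfDetNeZero h).symm : Euc k →L[ℝ] Euc k)‖₊ = 0 then 1 else
        ‖((A.toContinuousLinearEquivOfDetNeZero h).symm : Euc k →L[ℝ] Euc k)‖₊⁻¹ / 2)
    else 1 with hr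
  have rpos : ∀ A, r A ≠ 0 := by
    intro A
    simp only [hr]
    split_ifs with h1 h2
    · exact one_ne_zero
    · exact div_ne_zero (inv_ne_zero h2) two_ne_zero
    · exact one_ne_zero
  obtain ⟨t, A, _, htm, hts, happ, hA⟩ :=
    exists_partition_approximatesLinearOn_of_hasFDerivWithinAt (vec F) s
      (fun z => fderiv ℝ (vec F) z)
      (fun z hz => (hasFDerivAt_vec fun i => hF i z hz).hasFDerivAt.hasFDerivWithinAt) r rpos
  refine ⟨t, htm, hts, fun n => ?_⟩
  obtain ⟨y, hy, hAy⟩ := hA hs n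
  have hdetA : (A n).det ≠ 0 := by
    rw [hAy, det_fderiv_vec (fun i => hF i y hy)]
    exact hdet y hy
  set e := (A n).toContinuousLinearEquivOfDetNeZero hdetA with he
  have hcoe : (e : Euc k →L[ℝ] Euc k) = A n := (A n).coe_toContinuousLinearEquivOfDetNeZero hdetA
  have happ' : ApproximatesLinearOn (vec F) (e : Euc k →L[ℝ] Euc k) (s ∩ t n) (r (A n)) := by
    rw [hcoe]; exact happ n
  have hc : Subsingleton (Euc k) ∨ r (A n) < ‖(e.symm : Euc k →L[ℝ] Euc k)‖₊⁻¹ := by
    rcases e.subsingleton_or_nnnorm_symm_pos with h | h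
    · exact Or.inl h
    · right
      have : r (A n) = ‖(e.symm : Euc k →L[ℝ] Euc k)‖₊⁻¹ / 2 := by
        simp only [hr]
        rw [dif_pos hdetA, if_neg h.ne']
      rw [this]
      exact half_lt_self (inv_pos.2 h)
  have hanti := happ'.antilipschitz hc
  refine ⟨((‖(e.symm : Euc k →L[ℝ] Euc k)‖₊⁻¹ - r (A n))⁻¹ : ℝ≥0), NNReal.coe_nonneg _, ?_⟩
  intro z hz w hw
  exact hanti.le_mul_dist ⟨z, hz⟩ ⟨w, hw⟩

variable {X : Type u} [MetricSpace X]

/-- Finite minima of `g (x m) + C dist (x m) ·`. -/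
def lowerApprox (x : ℕ → X) (g : X → ℝ) (C : ℝ) : ℕ → X → ℝ
  | 0 => fun y => g (x 0) + C * dist (x 0) y
  | (N + 1) => fun y => min (lowerApprox x g C N y) (g (x (N + 1)) + C * dist (x (N + 1)) y)

theorem lipschitz_cone (g0 : ℝ) (C : ℝ≥0) (x : X) :
    LipschitzWith C (fun y => g0 + C * dist x y) := by
  refine LipschitzWith.of_dist_le_mul fun a b => ?_
  rw [Real.dist_eq, add_sub_add_left_eq_sub, ← mul_sub, abs_mul, NNReal.abs_eq]
  gcongr
  rw [dist_comm x a, dist_comm x b]
  exact abs_dist_sub_le a b x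

theorem lipschitz_lowerApprox (x : ℕ → X) (g : X → ℝ) (C : ℝ≥0) (N : ℕ) :
    LipschitzWith C (lowerApprox x g C N) := by
  induction N with
  | zero => exact lipschitz_cone _ C _
  | succ N ih =>
    have := ih.min (lipschitz_cone (g (x (N + 1))) C (x (N + 1)))
    rw [max_self] at this
    exact this

theorem le_lowerApprox (x : ℕ → X) {g : X → ℝ} {C : ℝ≥0} (hg : LipschitzWith C g) (N : ℕ)
    (y : X) : g y ≤ lowerApprox x g C N y := by
  have h1 : ∀ m, g y ≤ g (x m) + C * dist (x m) y := by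
    intro m
    have := hg.dist_le_mul (x m) y
    rw [Real.dist_eq] at this
    linarith [neg_abs_le (g (x m) - g y)]
  induction N with
  | zero => exact h1 0
  | succ N ih => exact le_min ih (h1 _)

theorem lowerApprox_le (x : ℕ → X) (g : X → ℝ) (C : ℝ) {N m : ℕ} (h : m ≤ N) (y : X) :
    lowerApprox x g C N y ≤ g (x m) + C * dist (x m) y := by
  induction N with
  | zero =>
    have : m = 0 := Nat.le_zero.1 h
    subst this; exact le_rfl
  | succ N ih =>
    rcases Nat.lt_or_ge m (N + 1) with h1 | h1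
    · exact (min_le_left _ _).trans (ih (Nat.lt_succ_iff.1 h1))
    · have : m = N + 1 := le_antisymm h h1
      subst this; exact min_le_right _ _

theorem tendsto_lowerApprox {x : ℕ → X} (hx : DenseRange x) {g : X → ℝ} {C : ℝ≥0}
    (hg : LipschitzWith C g) (y : X) :
    Tendsto (fun N => lowerApprox x g C N y) atTop (𝓝 (g y)) := by
  rw [Metric.tendsto_atTop]
  intro ε hε
  obtain ⟨m, hm⟩ := hx.exists_dist_lt y (ε := ε / (2 * (C + 1))) (by positivity)
  refine ⟨m, fun N hN => ?_⟩
  have h1 := le_lowerApprox x hg N y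
  have h2 := lowerApprox_le x g C hN y
  have h3 := hg.dist_le_mul (x m) y
  rw [Real.dist_eq] at h3
  have h4 : dist y (x m) * (2 * (C + 1)) < ε := by rwa [lt_div_iff₀ (by positivity)] at hm
  rw [Real.dist_eq, abs_of_nonneg (by linarith)]
  have h5 := le_abs_self (g (x m) - g y)
  rw [dist_comm] at h4
  have h6 : 0 ≤ dist (x m) y := dist_nonneg
  nlinarith [C.2]

/-- The same minima at the level of extensions. -/
def lowerApproxE (c : ℕ → ℝ) (C : ℝ) (v : ℕ → Euc k → ℝ) : ℕ → Euc k → ℝ
  | 0 => fun z => c 0 + C * v 0 z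
  | (N + 1) => fun z => min (lowerApproxE c C v N z) (c (N + 1) + C * v (N + 1) z)

theorem lipschitz_lowerApproxE (c : ℕ → ℝ) (C : ℝ≥0) {v : ℕ → Euc k → ℝ} {L : ℝ≥0}
    (hv : ∀ m, LipschitzWith L (v m)) (N : ℕ) :
    LipschitzWith (C * L) (lowerApproxE c C v N) := by
  have h1 : ∀ m, LipschitzWith (C * L) (fun z => c m + C * v m z) := by
    intro m
    refine LipschitzWith.of_dist_le_mul fun a b => ?_
    rw [Real.dist_eq, add_sub_add_left_eq_sub, ← mul_sub, abs_mul, NNReal.abs_eq, NNReal.coe_mul,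
      mul_assoc]
    gcongr
    have := (hv m).dist_le_mul a b
    rwa [Real.dist_eq] at this
  induction N with
  | zero => exact h1 0
  | succ N ih =>
    have := ih.min (h1 (N + 1))
    rw [max_self] at this
    exact this

/-- a.e. the derivative of the minimum is one of the derivatives. -/
theorem ae_fderiv_lowerApproxE (c : ℕ → ℝ) (C : ℝ≥0) {v : ℕ → Euc k → ℝ} {L : ℝ≥0}
    (hv : ∀ m, LipschitzWith L (v m)) (N : ℕ) :
    ∀ᵐ z ∂(volume : Measure (Euc k)), ∃ m,
      fderiv ℝ (lowerApproxE c C v N) z = (C : ℝ) • fderiv ℝ (v m) z := by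
  have hone : ∀ m, ∀ z, DifferentiableAt ℝ (v m) z →
      fderiv ℝ (fun z => c m + C * v m z) z = (C : ℝ) • fderiv ℝ (v m) z := by
    intro m z hz
    have h1 : HasFDerivAt (fun z => c m + C * v m z) ((C : ℝ) • fderiv ℝ (v m) z) z := by
      have := (hz.hasFDerivAt.const_mul (C : ℝ)).const_add (c m)
      simpa using this
    exact h1.fderiv
  induction N with
  | zero =>
    filter_upwards [(hv 0).ae_differentiableAt] with z hz
    exact ⟨0, hone 0 z hz⟩
  | succ N ih =>
    set a : Euc k → ℝ := lowerApproxE c C v N with ha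
    set b : Euc k → ℝ := fun z => c (N + 1) + C * v (N + 1) z with hb
    have hmin : lowerApproxE c C v (N + 1) = fun z => min (a z) (b z) := rfl
    have hal := lipschitz_lowerApproxE c C hv N
    have hl := lipschitz_lowerApproxE c C hv (N + 1)
    have hbd : ∀ᵐ z ∂(volume : Measure (Euc k)), DifferentiableAt ℝ b z := by
      filter_upwards [(hv (N + 1)).ae_differentiableAt] with z hz
      exact (hz.const_mul (C : ℝ)).const_add _
    have hbm : Measurable b := by
      have := (hv (N + 1)).continuous.measurable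
      exact (this.const_mul _).const_add _
    have ham : Measurable a := hal.continuous.measurable
    set s : Set (Euc k) := {z | a z ≤ b z} with hs
    have hsm : MeasurableSet s := measurableSet_le ham hbm
    have h1 := ae_fderiv_eq_of_eqOn volume hsm (u := lowerApproxE c C v (N + 1)) (v := a)
      (fun z hz => by rw [hmin]; exact min_eq_left hz) hl.ae_differentiableAt
      hal.ae_differentiableAt
    have h2 := ae_fderiv_eq_of_eqOn volume hsm.compl (u := lowerApproxE c C v (N + 1)) (v := b)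
      (fun z hz => by rw [hmin]; exact min_eq_right (not_le.1 (show ¬ a z ≤ b z from hz)).le) hl.ae_differentiableAt hbd
    rw [ae_restrict_iff' hsm] at h1
    rw [ae_restrict_iff' hsm.compl] at h2
    filter_upwards [ih, h1, h2, (hv (N + 1)).ae_differentiableAt] with z hz h1 h2 hz'
    by_cases hzs : z ∈ s
    · obtain ⟨m, hm⟩ := hz
      exact ⟨m, by rw [h1 hzs, hm]⟩
    · exact ⟨N + 1, by rw [h2 hzs, hone _ z hz']⟩

/-- Comparison `lowerApprox` on `E`. -/
theorem lowerApprox_eqOn {E : Set (Euc k)} {φ : Euc k → X} {x : ℕ → X} {v : ℕ → Euc k → ℝ}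
    (hv : ∀ m, EqOn (fun w => dist (x m) (φ w)) (v m) E) (g : X → ℝ) (C : ℝ) (N : ℕ) :
    EqOn (fun w => lowerApprox x g C N (φ w)) (lowerApproxE (fun m => g (x m)) C v N) E := by
  intro z hz
  induction N with
  | zero =>
    show g (x 0) + C * dist (x 0) (φ z) = g (x 0) + C * v 0 z
    rw [← hv 0 hz]
  | succ N ih =>
    show min (lowerApprox x g C N (φ z)) (g (x (N + 1)) + C * dist (x (N + 1)) (φ z)) =
      min (lowerApproxE (fun m => g (x m)) C v N z) (g (x (N + 1)) + C * v (N + 1) z)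
    rw [← hv (N + 1) hz, ← ih]

/-- If all Jacobians of tuples of distance functions vanish a.e. on `Z`, then all Jacobians
vanish a.e. on `Z`. -/
theorem ae_jac_eq_zero_of_dist {E : Set (Euc k)} (hE : MeasurableSet E) {φ : Euc k → X}
    {L : ℝ≥0} (hφ : LipschitzOnWith L φ E) {x : ℕ → X} (hx : DenseRange x)
    {v : ℕ → Euc k → ℝ} (hvl : ∀ m, LipschitzWith L (v m))
    (hv : ∀ m, EqOn (fun w => dist (x m) (φ w)) (v m) E)
    {Z : Set (Euc k)} (hZ : MeasurableSet Z) (hZE : Z ⊆ E)
    (hdeg : ∀ J : Fin k → ℕ, ∀ᵐ z ∂(volume.restrict Z), (DM (fun i => v (J i)) z).det = 0)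
    {π : Fin k → X → ℝ} (hπ : ∀ i, ∃ C : ℝ≥0, LipschitzWith C (π i)) :
    ∀ᵐ z ∂(volume.restrict Z), jac E φ π z = 0 := by
  choose C' hC' using hπ
  set C : ℝ≥0 := ∑ i, C' i with hCdef
  have hC : ∀ i, LipschitzWith C (π i) := fun i =>
    (hC' i).weaken (Finset.single_le_sum (fun _ _ => zero_le) (Finset.mem_univ i))
  have hdegall : ∀ᵐ z ∂(volume.restrict Z), ∀ J : Fin k → ℕ,
      (DM (fun i => v (J i)) z).det = 0 := ae_all_iff.2 hdeg
  -- the approximations have zero Jacobian on `Z`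
  have happ : ∀ N, ∀ᵐ z ∂(volume.restrict Z), jac E φ (fun i => lowerApprox x (π i) C N) z = 0 := by
    intro N
    have h1 := ae_jac_eq hE (φ := φ) (π := fun i => lowerApprox x (π i) C N)
      (F := fun i => lowerApproxE (fun m => π i (x m)) C v N)
      (fun i => ⟨_, lipschitz_lowerApproxE _ C hvl N⟩)
      (fun i => lowerApprox_eqOn hv (π i) C N)
    have h1' := ae_restrict_of_ae_restrict_of_subset hZE h1
    have h2 : ∀ᵐ z ∂(volume : Measure (Euc k)), ∀ i, ∃ m,
        fderiv ℝ (lowerApproxE (fun m => π i (x m)) C v N) z = (C : ℝ) • fderiv ℝ (v m) z :=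
      ae_all_iff.2 fun i => ae_fderiv_lowerApproxE _ C hvl N
    filter_upwards [h1', ae_restrict_of_ae h2, hdegall] with z hz1 hz2 hz3
    rw [hz1]
    choose J hJ using hz2
    have h4 : DM (fun i => lowerApproxE (fun m => π i (x m)) C v N) z =
        (C : ℝ) • DM (fun i => v (J i)) z := by
      ext i j
      rw [DM_apply, hJ i, Matrix.smul_apply, DM_apply]
      rfl
    rw [h4, Matrix.det_smul, hz3 J, mul_zero]
  -- pass to the limit
  have hjm := aemeasurable_jac hE hφ (fun i => ⟨C, hC i⟩)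
  obtain ⟨D, hD⟩ : ∃ D : ℝ, ∀ᵐ z ∂(volume.restrict E), |jac E φ π z| ≤ D :=
    ⟨_, ae_abs_jac_le hE hφ hC⟩
  have hball : ∀ R : ℕ, ∀ᵐ z ∂(volume.restrict (Z ∩ closedBall 0 R)), jac E φ π z = 0 := by
    intro R
    set ZR : Set (Euc k) := Z ∩ closedBall 0 R with hZR
    have hZRm : MeasurableSet ZR := hZ.inter measurableSet_closedBall
    have hZRE : ZR ⊆ E := inter_subset_left.trans hZE
    have hfin : volume ZR ≠ ∞ :=
      (lt_of_le_of_lt (measure_mono inter_subset_right) measure_closedBall_lt_top).ne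
    have hjR : AEStronglyMeasurable (jac E φ π) (volume.restrict ZR) :=
      (hjm.mono_measure (Measure.restrict_mono hZRE le_rfl)).aestronglyMeasurable
    have hDR : ∀ᵐ z ∂(volume.restrict ZR), |jac E φ π z| ≤ D :=
      ae_restrict_of_ae_restrict_of_subset hZRE hD
    have : IsFiniteMeasure (volume.restrict ZR) := ⟨by
      rw [Measure.restrict_apply_univ]; exact hfin.lt_top⟩
    have hgR : IntegrableOn (jac E φ π) ZR := Integrable.of_bound hjR D hDR
    have hgR2 : IntegrableOn (fun z => jac E φ π z * jac E φ π z) ZR :=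
      hgR.mul_bdd hjR hDR
    set g : Euc k → ℝ := ZR.indicator (jac E φ π) with hg
    have hgi : IntegrableOn g E := ((integrable_indicator_iff hZRm).2 hgR).integrableOn
    have hlim := tendsto_general hE hφ hgi (π := π) (πs := fun N i => lowerApprox x (π i) C N)
      (C := C) hC (fun N i => lipschitz_lowerApprox x (π i) C N)
      (fun i y => tendsto_lowerApprox hx (hC i) y)
    have hind : ∀ σ : Euc k → ℝ, ∫ z in E, g z * σ z = ∫ z in ZR, jac E φ π z * σ z := by
      intro σ
      have h1 : (fun z => g z * σ z) = ZR.indicator (fun z => jac E φ π z * σ z) := by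
        funext z
        by_cases hz : z ∈ ZR
        · simp [hg, hz]
        · simp [hg, hz]
      rw [h1, setIntegral_indicator hZRm, inter_eq_self_of_subset_right hZRE]
    have hzero : ∀ N, ∫ z in E, g z * jac E φ (fun i => lowerApprox x (π i) C N) z = 0 := by
      intro N
      rw [hind]
      have h1 : ∀ᵐ z ∂(volume.restrict ZR),
          jac E φ (fun i => lowerApprox x (π i) C N) z = 0 :=
        ae_restrict_of_ae_restrict_of_subset inter_subset_left (happ N)
      rw [integral_congr_ae (g := fun _ => (0 : ℝ)), integral_zero]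
      filter_upwards [h1] with z hz
      rw [hz, mul_zero]
    simp_rw [hzero] at hlim
    have hsq : ∫ z in ZR, jac E φ π z * jac E φ π z = 0 := by
      rw [← hind]
      exact (tendsto_nhds_unique hlim tendsto_const_nhds)
    rw [integral_eq_zero_iff_of_nonneg (fun z => mul_self_nonneg _) hgR2] at hsq
    filter_upwards [hsq] with z hz
    exact mul_self_eq_zero.1 hz
  have hcover : Z = ⋃ R : ℕ, Z ∩ closedBall 0 R := by
    ext z
    simp only [mem_iUnion, mem_inter_iff, exists_and_left, mem_closedBall, dist_zero_right]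
    exact ⟨fun h => ⟨h, exists_nat_ge _⟩, fun h => h.1⟩
  rw [hcover, ae_restrict_iUnion_iff]
  exact hball

theorem dist_vec_le {F : Fin k → Euc k → ℝ} {z w : Euc k} {D : ℝ} (hD : 0 ≤ D)
    (h : ∀ i, |F i z - F i w| ≤ D) : dist (vec F z) (vec F w) ≤ k * D := by
  rw [EuclideanSpace.dist_eq]
  refine Real.sqrt_le_iff.2 ⟨by positivity, ?_⟩
  calc ∑ i, dist (vec F z i) (vec F w i) ^ 2
      ≤ ∑ _i : Fin k, D ^ 2 := by
        refine Finset.sum_le_sum fun i _ => ?_
        refine pow_le_pow_left₀ dist_nonneg ?_ 2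
        rw [Real.dist_eq]
        exact h i
    _ = k * D ^ 2 := by simp
    _ ≤ (k : ℝ) ^ 2 * D ^ 2 := by
        gcongr
        rcases Nat.eq_zero_or_pos k with h0 | h0
        · simp [h0]
        · have : (1 : ℝ) ≤ k := by exact_mod_cast h0
          nlinarith
    _ = (k * D) ^ 2 := by ring

/-- **Splitting theorem.** -/
theorem exists_split [TopologicalSpace.SeparableSpace X] {E : Set (Euc k)} (hE : MeasurableSet E)
    {φ : Euc k → X} {L : ℝ≥0} (hφ : LipschitzOnWith L φ E) :
    ∃ P : ℕ → Set (Euc k), (∀ j, MeasurableSet (P j)) ∧ (∀ j, P j ⊆ E) ∧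
      Pairwise (Function.onFun Disjoint P) ∧
      (∀ j, ∃ C : ℝ, 0 ≤ C ∧ ∀ z ∈ P j, ∀ w ∈ P j, dist z w ≤ C * dist (φ z) (φ w)) ∧
      ∀ π : Fin k → X → ℝ, (∀ i, ∃ C : ℝ≥0, LipschitzWith C (π i)) →
        ∀ᵐ z ∂(volume.restrict (E \ ⋃ j, P j)), jac E φ π z = 0 := by
  classical
  have hne : Nonempty X := ⟨φ 0⟩
  set x : ℕ → X := TopologicalSpace.denseSeq X with hxdef
  have hx : DenseRange x := TopologicalSpace.denseRange_denseSeq X
  have hext : ∀ m, ∃ v : Euc k → ℝ, LipschitzWith L v ∧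
      EqOn (fun w => dist (x m) (φ w)) v E := by
    intro m
    have h1 : LipschitzWith 1 (fun y => dist (x m) y) := LipschitzWith.dist_right (x m)
    have := exists_ext hφ h1
    simpa using this
  choose v hvl hv using hext
  set A : Set (Euc k) := E ∩ ⋂ m, {z | DifferentiableAt ℝ (v m) z} with hA
  have hAm : MeasurableSet A :=
    hE.inter (MeasurableSet.iInter fun m => measurableSet_of_differentiableAt ℝ (v m))
  set F : (Fin k → ℕ) → Fin k → Euc k → ℝ := fun J i => v (J i) with hF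
  set D : (Fin k → ℕ) → Set (Euc k) := fun J => A ∩ {z | (DM (F J) z).det ≠ 0} with hD
  have hDm : ∀ J, MeasurableSet (D J) := fun J =>
    hAm.inter ((measurable_det_DM (F J)) (measurableSet_singleton 0).compl)
  have hpart : ∀ J, ∃ t : ℕ → Set (Euc k), (∀ n, MeasurableSet (t n)) ∧ D J ⊆ ⋃ n, t n ∧
      ∀ n, ∃ C : ℝ, 0 ≤ C ∧ ∀ z ∈ D J ∩ t n, ∀ w ∈ D J ∩ t n,
        dist z w ≤ C * dist (vec (F J) z) (vec (F J) w) := by
    intro J
    refine exists_partition_antilipschitz (fun i z hz => ?_) (fun z hz => hz.2)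
    exact mem_iInter.1 hz.1.2 (J i)
  choose t htm hts htC using hpart
  obtain ⟨e, he⟩ := exists_surjective_nat ((Fin k → ℕ) × ℕ)
  set Q : ℕ → Set (Euc k) := fun n => D (e n).1 ∩ t (e n).1 (e n).2 with hQ
  have hQm : ∀ n, MeasurableSet (Q n) := fun n => (hDm _).inter (htm _ _)
  have hQE : ∀ n, Q n ⊆ E := fun n z hz => hz.1.1.1
  refine ⟨disjointed Q, fun j => MeasurableSet.disjointed hQm j,
    fun j => (disjointed_subset Q j).trans (hQE j), disjoint_disjointed Q, fun j => ?_, ?_⟩
  · obtain ⟨C, hC0, hC⟩ := htC (e j).1 (e j).2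
    refine ⟨C * k, by positivity, fun z hz w hw => ?_⟩
    have hz' := disjointed_subset Q j hz
    have hw' := disjointed_subset Q j hw
    refine (hC z hz' w hw').trans ?_
    rw [mul_assoc]
    gcongr
    refine dist_vec_le dist_nonneg fun i => ?_
    have h1 : F (e j).1 i z = dist (x ((e j).1 i)) (φ z) := (hv _ (hQE j hz')).symm
    have h2 : F (e j).1 i w = dist (x ((e j).1 i)) (φ w) := (hv _ (hQE j hw')).symm
    rw [h1, h2, dist_comm _ (φ z), dist_comm _ (φ w)]
    exact abs_dist_sub_le _ _ _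
  · intro π hπ
    rw [iUnion_disjointed]
    have hUm : MeasurableSet (⋃ n, Q n) := MeasurableSet.iUnion hQm
    refine ae_jac_eq_zero_of_dist hE hφ hx hvl hv (hE.diff hUm) sdiff_subset (fun J => ?_) hπ
    have h1 : ∀ᵐ z ∂(volume : Measure (Euc k)), ∀ m, DifferentiableAt ℝ (v m) z :=
      ae_all_iff.2 fun m => (hvl m).ae_differentiableAt
    filter_upwards [ae_restrict_of_ae h1, ae_restrict_mem (hE.diff hUm)] with z hz1 hz2
    by_contra hne
    have hzA : z ∈ A := ⟨hz2.1, mem_iInter.2 hz1⟩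
    have hzD : z ∈ D J := ⟨hzA, hne⟩
    obtain ⟨n, hn⟩ := mem_iUnion.1 (hts J hzD)
    obtain ⟨m, hm⟩ := he (J, n)
    refine hz2.2 (mem_iUnion.2 ⟨m, ?_⟩)
    show z ∈ D (e m).1 ∩ t (e m).1 (e m).2
    rw [hm]
    exact ⟨hzD, hn⟩

end

end Crest.Agent.R241.B4Split
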