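import Crest.Agent.R241.B8LinAlg
import Crest.Agent.R241.B3c

/-!
# R241, block B5a1: the Jacobian `√det G` is the supremum of the determinants of `k`-tuples of
covectors taken from a norming family.
-/

set_option autoImplicit false

open Filter Topology Matrix Set
open scoped NNReal MatrixOrder

namespace Crest.Agent.R241.B5a1

variable {k : ℕ} {ι : Type*}

/-- Euclidean case. -/
lemma exists_tuple_one [Nonempty ι] (ℓ : ι → Fin k → ℝ)
    (hbd : ∀ j v, |ℓ j ⬝ᵥ v| ≤ √(v ⬝ᵥ v))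
    (hsup : ∀ v : Fin k → ℝ, √(v ⬝ᵥ v) ≤ ⨆ j, |ℓ j ⬝ᵥ v|) {c : ℝ} (hc : c < 1) :
    ∃ J : Fin k → ι, c < |(Matrix.of fun i => ℓ (J i)).det| := by
  classical
  -- for each coordinate vector choose a sequence of almost optimal covectors
  have H : ∀ (n : ℕ) (i : Fin k), ∃ j : ι, 1 - 1 / ((n : ℝ) + 1) < |ℓ j ⬝ᵥ Pi.single i 1| := by
    intro n i
    have h1 := hsup (Pi.single i 1)
    have h2 : √((Pi.single i 1 : Fin k → ℝ) ⬝ᵥ Pi.single i 1) = 1 := by simp
    rw [h2] at h1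
    have h3 : 1 - 1 / ((n : ℝ) + 1) < ⨆ j, |ℓ j ⬝ᵥ (Pi.single i 1 : Fin k → ℝ)| := by
      have : 0 < 1 / ((n : ℝ) + 1) := by positivity
      linarith
    exact exists_lt_of_lt_ciSup h3
  choose J hJ using H
  -- signs
  set s : ℕ → Fin k → ℝ := fun n i => SignType.sign (ℓ (J n i) i) with hs
  have hsabs : ∀ n i, s n i * ℓ (J n i) i = |ℓ (J n i) i| := fun n i => sign_mul_self _
  have hlast : ∀ (n : ℕ) (i : Fin k), 1 - 1 / ((n : ℝ) + 1) < |ℓ (J n i) i| := fun n i => by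
    have := hJ n i
    simpa using this
  have hrow : ∀ j, ∑ l, ℓ j l ^ 2 ≤ 1 := by
    intro j
    have h := hbd j (ℓ j)
    have e : ℓ j ⬝ᵥ ℓ j = ∑ l, ℓ j l ^ 2 := by simp [dotProduct, sq]
    rw [e] at h
    have h0 : 0 ≤ ∑ l, ℓ j l ^ 2 := Finset.sum_nonneg fun _ _ => sq_nonneg _
    rw [abs_of_nonneg h0] at h
    have h2 := Real.sq_sqrt h0
    have h3 := Real.sqrt_nonneg (∑ l, ℓ j l ^ 2)
    by_contra hcon
    push Not at hcon
    nlinarith
  -- the matrices with signs converge to the identity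
  set M : ℕ → Matrix (Fin k) (Fin k) ℝ := fun n => Matrix.of fun i l => s n i * ℓ (J n i) l with hM
  have hlim : ∀ i l, Tendsto (fun n => M n i l) atTop (𝓝 ((1 : Matrix (Fin k) (Fin k) ℝ) i l)) := by
    intro i l
    have hone : Tendsto (fun n : ℕ => 1 - 1 / ((n : ℝ) + 1)) atTop (𝓝 1) := by
      have := tendsto_one_div_add_atTop_nhds_zero_nat (𝕜 := ℝ)
      simpa using (tendsto_const_nhds (x := (1 : ℝ))).sub this
    rcases eq_or_ne i l with rfl | hne
    · rw [Matrix.one_apply_eq]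
      refine tendsto_of_tendsto_of_tendsto_of_le_of_le hone tendsto_const_nhds (fun n => ?_)
        fun n => ?_
      · change 1 - 1 / ((n : ℝ) + 1) ≤ s n i * ℓ (J n i) i
        rw [hsabs]; exact (hlast n i).le
      · change s n i * ℓ (J n i) i ≤ 1
        rw [hsabs]
        have h1 := hrow (J n i)
        have h2 : ℓ (J n i) i ^ 2 ≤ ∑ l, ℓ (J n i) l ^ 2 :=
          Finset.single_le_sum (f := fun l => ℓ (J n i) l ^ 2) (fun _ _ => sq_nonneg _)
            (Finset.mem_univ i)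
        rw [abs_le_one_iff_mul_self_le_one]
        nlinarith
    · rw [Matrix.one_apply_ne hne]
      -- `ℓ_l² ≤ 1 - ℓ_i²`
      have hsq : Tendsto (fun n : ℕ => 1 - (1 - 1 / ((n : ℝ) + 1)) ^ 2) atTop (𝓝 0) := by
        have := (tendsto_const_nhds (x := (1 : ℝ))).sub (hone.pow 2)
        simpa using this
      have h0 : Tendsto (fun n => (M n i l) ^ 2) atTop (𝓝 0) := by
        refine squeeze_zero (fun n => sq_nonneg _) (fun n => ?_) hsq
        change (s n i * ℓ (J n i) l) ^ 2 ≤ _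
        have h1 := hrow (J n i)
        have h2 : ℓ (J n i) i ^ 2 + ℓ (J n i) l ^ 2 ≤ ∑ l, ℓ (J n i) l ^ 2 := by
          rw [← Finset.sum_pair (f := fun l => ℓ (J n i) l ^ 2) hne]
          exact Finset.sum_le_sum_of_subset_of_nonneg (Finset.subset_univ _)
            fun _ _ _ => sq_nonneg _
        have h3 : (1 - 1 / ((n : ℝ) + 1)) ^ 2 ≤ ℓ (J n i) i ^ 2 := by
          rw [← sq_abs (ℓ (J n i) i)]
          have h4 : 0 ≤ 1 - 1 / ((n : ℝ) + 1) := by
            rw [sub_nonneg, div_le_one (by positivity)]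
            have : (0 : ℝ) ≤ n := Nat.cast_nonneg n
            linarith
          exact pow_le_pow_left₀ h4 (hlast n i).le 2
        have h5 : (s n i) ^ 2 ≤ 1 := by
          have : |s n i| ≤ 1 := by
            simp only [hs]
            rcases SignType.trichotomy (SignType.sign (ℓ (J n i) i)) with h | h | h <;>
              rw [h] <;> simp
          rw [← sq_abs]
          exact pow_le_one₀ (abs_nonneg _) this
        rw [mul_pow]
        have h6 : (0 : ℝ) ≤ ℓ (J n i) l ^ 2 := sq_nonneg _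
        nlinarith
      have h1 : Tendsto (fun n => |M n i l|) atTop (𝓝 0) := by
        have := h0.sqrt
        simp only [Real.sqrt_sq_eq_abs, Real.sqrt_zero] at this
        exact this
      exact (tendsto_zero_iff_abs_tendsto_zero _).2 h1
  have hMlim : Tendsto M atTop (𝓝 (1 : Matrix (Fin k) (Fin k) ℝ)) := by
    refine tendsto_pi_nhds.2 fun i => ?_
    refine tendsto_pi_nhds.2 fun l => ?_
    exact hlim i l
  have hdet : Tendsto (fun n => (M n).det) atTop (𝓝 1) := by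
    have hc : Continuous fun A : Matrix (Fin k) (Fin k) ℝ => A.det := continuous_id.matrix_det
    have := (hc.tendsto (1 : Matrix (Fin k) (Fin k) ℝ)).comp hMlim
    rw [Matrix.det_one] at this
    exact this
  have hdet2 : ∀ n, (M n).det ≤ |(Matrix.of fun i => ℓ (J n i)).det| := by
    intro n
    have h1 : M n = Matrix.diagonal (s n) * Matrix.of fun i => ℓ (J n i) := by
      ext i l
      rw [Matrix.diagonal_mul]
      rfl
    rw [h1, Matrix.det_mul, Matrix.det_diagonal]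
    refine (le_abs_self _).trans ?_
    rw [abs_mul, Finset.abs_prod]
    refine mul_le_of_le_one_left (abs_nonneg _) (Finset.prod_le_one (fun _ _ => abs_nonneg _) ?_)
    intro i _
    simp only [hs]
    rcases SignType.trichotomy (SignType.sign (ℓ (J n i) i)) with h | h | h <;>
      rw [h] <;> simp
  obtain ⟨n, hn⟩ := ((tendsto_order.1 hdet).1 c hc).exists
  exact ⟨J n, hn.trans_le (hdet2 n)⟩

/-- general case. -/
theorem exists_tuple [Nonempty ι] {G : Matrix (Fin k) (Fin k) ℝ} (hG : G.PosSemidef)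
    (ℓ : ι → Fin k → ℝ) (hbd : ∀ j v, |ℓ j ⬝ᵥ v| ≤ √(v ⬝ᵥ (G *ᵥ v)))
    (hsup : ∀ v : Fin k → ℝ, √(v ⬝ᵥ (G *ᵥ v)) ≤ ⨆ j, |ℓ j ⬝ᵥ v|) {c : ℝ} (hc : c < √G.det) :
    ∃ J : Fin k → ι, c < |(Matrix.of fun i => ℓ (J i)).det| := by
  classical
  rcases lt_or_ge c 0 with hc0 | hc0
  · exact ⟨fun _ => Classical.arbitrary ι, hc0.trans_le (abs_nonneg _)⟩
  have hdet : G.det ≠ 0 := by
    intro h
    rw [h, Real.sqrt_zero] at hc
    exact absurd hc (not_lt.2 hc0)
  obtain ⟨B, hB⟩ := CStarAlgebra.nonneg_iff_eq_star_mul_self.mp hG.nonneg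
  have hB' : G = Bᵀ * B := by
    rw [hB, Matrix.star_eq_conjTranspose, Matrix.conjTranspose_eq_transpose_of_trivial]
  have hdetG : G.det = B.det ^ 2 := by
    rw [hB', Matrix.det_mul, Matrix.det_transpose]; ring
  have hBdet : B.det ≠ 0 := by
    intro h0
    apply hdet
    rw [hdetG, h0]; ring
  have hBu : IsUnit B.det := isUnit_iff_ne_zero.2 hBdet
  have hquad : ∀ u : Fin k → ℝ, (B⁻¹ *ᵥ u) ⬝ᵥ (G *ᵥ (B⁻¹ *ᵥ u)) = u ⬝ᵥ u := by
    intro u
    have hBv : B *ᵥ (B⁻¹ *ᵥ u) = u := by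
      rw [Matrix.mulVec_mulVec, Matrix.mul_nonsing_inv _ hBu, Matrix.one_mulVec]
    rw [hB', ← Matrix.mulVec_mulVec, Matrix.dotProduct_mulVec, Matrix.vecMul_transpose, hBv]
  set ℓ' : ι → Fin k → ℝ := fun j => ℓ j ᵥ* B⁻¹ with hℓ'
  have hdot : ∀ j u, ℓ' j ⬝ᵥ u = ℓ j ⬝ᵥ (B⁻¹ *ᵥ u) := fun j u => by
    rw [hℓ', Matrix.dotProduct_mulVec]
  have h1 : ∀ j v, |ℓ' j ⬝ᵥ v| ≤ √(v ⬝ᵥ v) := fun j v => by
    rw [hdot, ← hquad]; exact hbd j _
  have h2 : ∀ v : Fin k → ℝ, √(v ⬝ᵥ v) ≤ ⨆ j, |ℓ' j ⬝ᵥ v| := fun v => by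
    rw [← hquad]; simp only [hdot]; exact hsup _
  have hBpos : 0 < |B.det| := abs_pos.2 hBdet
  have hc' : c / |B.det| < 1 := by
    rw [div_lt_one hBpos]
    rwa [hdetG, Real.sqrt_sq_eq_abs] at hc
  obtain ⟨J, hJ⟩ := exists_tuple_one ℓ' h1 h2 hc'
  refine ⟨J, ?_⟩
  have hmul : (Matrix.of fun i => ℓ' (J i)) = (Matrix.of fun i => ℓ (J i)) * B⁻¹ := by
    ext i l
    rfl
  rw [hmul, Matrix.det_mul, abs_mul, Matrix.det_nonsing_inv, Ring.inverse_eq_inv', abs_inv,
    ← div_eq_mul_inv, div_lt_div_iff_of_pos_right hBpos] at hJ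
  exact hJ

end Crest.Agent.R241.B5a1
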