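import Crest.Agent.R241.B5a1
import Crest.Agent.R241.B1Cur
import Crest.Agent.R241.G1c

/-!
# R241, block B5a2: mass of chart actions in terms of the metric differential: one chart
-/

set_option autoImplicit false

open MeasureTheory Measure Filter Topology Matrix Set
open scoped NNReal ENNReal MatrixOrder

namespace Crest.Agent.R241.B5a

open Crest.GeometryTopology.MetricCurrent
open Crest.GeometryTopology.Submanifold (Euc)
open Crest.Agent.R241.B3a Crest.Agent.R241.B3b Crest.Agent.R241.B3c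
open Crest.Agent.R241.B1Cur (jac chartR)

universe u

variable {k : ℕ}

/-! ### linear algebra -/

lemma row_dot (A : Euc k →L[ℝ] ℝ) (v : Fin k → ℝ) :
    (fun l => A (EuclideanSpace.single l 1)) ⬝ᵥ v = A (WithLp.toLp 2 v) := by
  conv_rhs => rw [sum_single (WithLp.toLp 2 v)]
  simp only [_root_.map_sum, map_smul, smul_eq_mul, dotProduct]
  refine Finset.sum_congr rfl fun i _ => ?_
  rw [mul_comm]

/-- `sn G` is a bounded seminorm. -/
lemma exists_isSN {G : Matrix (Fin k) (Fin k) ℝ} (hG : G.PosSemidef) :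
    ∃ L : ℝ≥0, IsSN L (sn G) := by
  obtain ⟨B, hB⟩ := CStarAlgebra.nonneg_iff_eq_star_mul_self.mp hG.nonneg
  have hB' : G = Bᵀ * B := by
    rw [hB, Matrix.star_eq_conjTranspose, Matrix.conjTranspose_eq_transpose_of_trivial]
  let A : Euc k →L[ℝ] Euc k := LinearMap.toContinuousLinearMap
    (Matrix.toEuclideanLin B)
  have hA : ∀ v : Euc k, sn G v = ‖A v‖ := by
    intro v
    unfold sn
    rw [EuclideanSpace.norm_eq]
    congr 1
    rw [hB', ← Matrix.mulVec_mulVec, Matrix.dotProduct_mulVec, Matrix.vecMul_transpose]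
    simp only [dotProduct, Real.norm_eq_abs, sq_abs]
    refine Finset.sum_congr rfl fun i _ => ?_
    have : (A v) i = (B *ᵥ v.ofLp) i := rfl
    rw [this, sq]
  refine ⟨‖A‖₊, fun v => ?_, fun v => ?_, fun v w => ?_, fun t v => ?_⟩
  · rw [hA]; exact norm_nonneg _
  · rw [hA]; exact A.le_opNorm v
  · rw [hA, hA, hA, map_add]; exact norm_add_le _ _
  · rw [hA, hA, map_smul, norm_smul, Real.norm_eq_abs]

lemma measurable_det {α : Type*} [MeasurableSpace α] {G : α → Matrix (Fin k) (Fin k) ℝ}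
    (hG : ∀ a b, Measurable fun z => G z a b) : Measurable fun z => (G z).det := by
  simp only [Matrix.det_apply]
  refine Finset.measurable_sum _ fun σ _ => ?_
  exact (Finset.measurable_prod _ fun i _ => hG _ _).const_smul _

/-! ### one chart -/

variable {X : Type u} [MetricSpace X]

/-- a chart with its (Euclidean) metric differential. -/
structure MChart (E : Set (Euc k)) (φ : Euc k → X) (G : Euc k → Matrix (Fin k) (Fin k) ℝ) :
    Prop where
  measE : MeasurableSet E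
  lip : ∃ L : ℝ≥0, LipschitzOnWith L φ E
  measG : ∀ a b, Measurable fun z => G z a b
  psd : ∀ z, (G z).PosSemidef
  md : ∀ᵐ z ∂(volume.restrict E), IsMD E φ z (sn (G z))

variable {E : Set (Euc k)} {φ : Euc k → X} {G : Euc k → Matrix (Fin k) (Fin k) ℝ}

/-- existence of blow-ups at almost every point. -/
lemma ae_blowUp (hE : MeasurableSet E) :
    ∀ᵐ z ∂(volume.restrict E), z ∈ E ∧ ∃ d, BlowUp E z d := by
  filter_upwards [ae_restrict_mem hE, ae_restrict_of_ae (ae_dens (μ := volume) E)] with z hz h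
  exact ⟨hz, exists_blowUp (h hz) hz⟩

namespace MChart

/-- derivatives of Lipschitz functions along the chart. -/
lemma ae_abs_fderivWithin_le (h : MChart E φ G) {f : X → ℝ} {K : ℝ≥0} (hf : LipschitzWith K f) :
    ∀ᵐ z ∂(volume.restrict E), ∀ v, |fderivWithin ℝ (fun w => f (φ w)) E z v| ≤
      K * sn (G z) v := by
  obtain ⟨L, hL⟩ := h.lip
  filter_upwards [ae_blowUp h.measE, h.md, B1Cur.ae_good h.measE hL ⟨K, hf⟩] with z hz hmd hg v
  obtain ⟨hzE, d, hd⟩ := hz
  obtain ⟨L', hL'⟩ := exists_isSN (h.psd z)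
  exact hmd.abs_le hL' hd (hf.lipschitzOnWith) hzE hg.2.hasFDerivWithinAt v

lemma ae_jac_le (h : MChart E φ G) {π : Fin k → X → ℝ} (hπ : ∀ i, LipschitzWith 1 (π i)) :
    ∀ᵐ z ∂(volume.restrict E), |jac E φ π z| ≤ √(G z).det := by
  have h1 : ∀ᵐ z ∂(volume.restrict E), ∀ i, ∀ v,
      |fderivWithin ℝ (fun w => π i (φ w)) E z v| ≤ (1 : ℝ≥0) * sn (G z) v :=
    ae_all_iff.2 fun i => h.ae_abs_fderivWithin_le (hπ i)
  filter_upwards [h1] with z hz
  refine B8LinAlg.abs_det_le_sqrt_det _ _ (h.psd z) fun i v => ?_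
  have h2 := hz i (WithLp.toLp 2 v)
  rw [← row_dot, NNReal.coe_one, one_mul] at h2
  have h3 : sn (G z) (WithLp.toLp 2 v) ^ 2 = v ⬝ᵥ (G z *ᵥ v) := sn_sq (h.psd z) _
  rw [← h3, ← sq_abs]
  exact pow_le_pow_left₀ (abs_nonneg _) h2 2

/-- the Jacobian is the supremum of the Jacobians of tuples of distance functions. -/
lemma ae_exists_jac (h : MChart E φ G) {x : ℕ → X} (hx : φ '' E ⊆ closure (range x)) :
    ∀ᵐ z ∂(volume.restrict E), ∀ c < √(G z).det, ∃ J : Fin k → ℕ,
      c < |jac E φ (fun i p => dist (x (J i)) p) z| := by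
  obtain ⟨L, hL⟩ := h.lip
  obtain ⟨U, hU, hUe, hmd⟩ := exists_md_seq (volume : Measure (Euc k)) hL hx
  have h1 : ∀ᵐ z ∂(volume.restrict E), ∀ j,
      fderivWithin ℝ (fun w => dist (x j) (φ w)) E z = fderiv ℝ (U j) z :=
    ae_all_iff.2 fun j => B1Density.ae_fderivWithin_eq_of_lipschitz volume h.measE (hUe j) (hU j)
  filter_upwards [ae_blowUp h.measE, h.md, ae_restrict_of_ae hmd, h1] with z hz hm1 hm2 hfd c hc
  obtain ⟨hzE, d, hd⟩ := hz
  obtain ⟨L', hL'⟩ := exists_isSN (h.psd z)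
  have hNeq : sn (G z) = N U z := hm1.unique hL' hm2.2 (isSN_N hU z) hd
  set ℓ : ℕ → Fin k → ℝ := fun j l =>
    fderivWithin ℝ (fun w => dist (x j) (φ w)) E z (EuclideanSpace.single l 1) with hℓ
  have hdot : ∀ j v, ℓ j ⬝ᵥ v = fderiv ℝ (U j) z (WithLp.toLp 2 v) := fun j v => by
    rw [← hfd j, ← row_dot]
  have hsn : ∀ v : Fin k → ℝ, √(v ⬝ᵥ (G z *ᵥ v)) = N U z (WithLp.toLp 2 v) := fun v => by
    rw [← hNeq]; rfl
  obtain ⟨J, hJ⟩ := B5a1.exists_tuple (h.psd z) ℓ (fun j v => by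
    rw [hsn, hdot]; exact le_N hU z _ j) (fun v => by
    rw [hsn]; simp only [hdot]; exact le_rfl) hc
  exact ⟨J, hJ⟩

lemma exists_seq (h : MChart E φ G) (hE : E.Nonempty) : ∃ x : ℕ → X,
    φ '' E ⊆ closure (range x) := by
  obtain ⟨L, hL⟩ := h.lip
  obtain ⟨x, -, hx⟩ := exists_seq_dense hL.continuousOn hE
  exact ⟨x, hx⟩

lemma ae_sqrt_det_le (h : MChart E φ G) {L : ℝ≥0} (hL : LipschitzOnWith L φ E) :
    ∀ᵐ z ∂(volume.restrict E), √(G z).det ≤ (L : ℝ) ^ k := by
  rcases E.eq_empty_or_nonempty with rfl | hE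
  · simp
  obtain ⟨x, hx⟩ := h.exists_seq hE
  have h1 : ∀ᵐ z ∂(volume.restrict E), ∀ J : Fin k → ℕ,
      |jac E φ (fun i p => dist (x (J i)) p) z| ≤ (L : ℝ) ^ k := by
    refine ae_all_iff.2 fun J => ?_
    have := B1Cur.ae_abs_jac_le h.measE hL (π := fun i p => dist (x (J i)) p) (C := fun _ => 1)
      (fun i => LipschitzWith.dist_right _)
    simpa using this
  filter_upwards [h1, h.ae_exists_jac hx] with z h2 h3
  by_contra hcon
  push Not at hcon
  obtain ⟨J, hJ⟩ := h3 _ hcon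
  exact absurd hJ (not_lt.2 (h2 J))

lemma measurable_J (h : MChart E φ G) : Measurable fun z => √(G z).det :=
  (measurable_det h.measG).sqrt

lemma integrable (h : MChart E φ G) {ρ : Euc k → ℝ} (hρ : IntegrableOn ρ E) :
    IntegrableOn (fun z => |ρ z| * √(G z).det) E := by
  obtain ⟨L, hL⟩ := h.lip
  have := hρ.abs.mul_bdd (c := (L : ℝ) ^ k) (g := fun z => √(G z).det)
    h.measurable_J.aestronglyMeasurable (by
      filter_upwards [h.ae_sqrt_det_le hL] with z hz
      rwa [Real.norm_eq_abs, abs_of_nonneg (Real.sqrt_nonneg _)])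
  exact this

lemma aemeasurable (h : MChart E φ G) [MeasurableSpace X] [BorelSpace X] :
    AEMeasurable φ (volume.restrict E) := by
  obtain ⟨L, hL⟩ := h.lip
  exact hL.continuousOn.aemeasurable h.measE

end MChart

end Crest.Agent.R241.B5a
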