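import Crest.Agent.R241.B5a2

/-!
# R241, block B5a3: the mass measure of a sum of chart actions
-/

set_option autoImplicit false

open MeasureTheory Measure Filter Topology Matrix Set
open scoped NNReal ENNReal MatrixOrder

namespace Crest.Agent.R241.B5a

open Crest.GeometryTopology.MetricCurrent
open Crest.GeometryTopology.Submanifold (Euc)
open Crest.Agent.R241.B3a Crest.Agent.R241.B3b Crest.Agent.R241.B3c
open Crest.Agent.R241.B1Cur (jac chartR)

universe u

/-! ### pure measure theory -/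

section pure

variable {α : Type*} [MeasurableSpace α] {lam m : Measure α}

lemma withDensity_sup_le {f g : α → ℝ≥0∞} (hf : Measurable f) (hg : Measurable g)
    (h1 : lam.withDensity f ≤ m) (h2 : lam.withDensity g ≤ m) :
    lam.withDensity (f ⊔ g) ≤ m := by
  refine Measure.le_iff.2 fun s hs => ?_
  set t : Set α := {z | g z ≤ f z} with ht
  have htm : MeasurableSet t := measurableSet_le hg hf
  rw [withDensity_apply _ hs, ← lintegral_inter_add_sdiff _ s htm]
  have e1 : ∫⁻ z in s ∩ t, (f ⊔ g) z ∂lam = ∫⁻ z in s ∩ t, f z ∂lam :=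
    setLIntegral_congr_fun (hs.inter htm) fun z hz => sup_eq_left.2 hz.2
  have e2 : ∫⁻ z in s \ t, (f ⊔ g) z ∂lam = ∫⁻ z in s \ t, g z ∂lam :=
    setLIntegral_congr_fun (hs.diff htm) fun z hz => sup_eq_right.2 (le_of_lt (not_le.1 hz.2))
  rw [e1, e2, ← withDensity_apply _ (hs.inter htm), ← withDensity_apply _ (hs.diff htm)]
  calc lam.withDensity f (s ∩ t) + lam.withDensity g (s \ t) ≤ m (s ∩ t) + m (s \ t) :=
        add_le_add (h1 _) (h2 _)
    _ = m s := measure_inter_add_sdiff s htm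

lemma withDensity_iSup_le {g : ℕ → α → ℝ≥0∞} (hg : ∀ n, Measurable (g n))
    (h : ∀ n, lam.withDensity (g n) ≤ m) : lam.withDensity (fun z => ⨆ n, g n z) ≤ m := by
  have hm : ∀ n, Measurable (partialSups g n) := by
    intro n
    induction n with
    | zero => simpa using hg 0
    | succ n ih => rw [partialSups_add_one]; exact ih.sup (hg _)
  have h1 : ∀ n, lam.withDensity (partialSups g n) ≤ m := by
    intro n
    induction n with
    | zero => simpa using h 0
    | succ n ih => rw [partialSups_add_one]; exact withDensity_sup_le (hm n) (hg _) ih (h _)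
  have e : (fun z => ⨆ n, g n z) = fun z => ⨆ n, partialSups g n z := by
    have h2 := iSup_partialSups_eq g
    funext z
    have h3 := congrFun h2 z
    rw [iSup_apply, iSup_apply] at h3
    exact h3.symm
  rw [e]
  refine Measure.le_iff.2 fun s hs => ?_
  rw [withDensity_apply _ hs, lintegral_iSup hm fun a b hab => (partialSups g).monotone hab]
  refine iSup_le fun n => ?_
  rw [← withDensity_apply _ hs]
  exact h1 n s

lemma withDensity_le_of_ae_le_iSup {ι : Type*} [Countable ι] [Nonempty ι] {g : ι → α → ℝ≥0∞}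
    (hg : ∀ n, AEMeasurable (g n) lam) (h : ∀ n, lam.withDensity (g n) ≤ m) {f : α → ℝ≥0∞}
    (hf : ∀ᵐ z ∂lam, f z ≤ ⨆ n, g n z) : lam.withDensity f ≤ m := by
  obtain ⟨e, he⟩ := exists_surjective_nat ι
  have h1 : lam.withDensity (fun z => ⨆ n, (hg (e n)).mk (g (e n)) z) ≤ m := by
    refine withDensity_iSup_le (fun n => (hg (e n)).measurable_mk) fun n => ?_
    rw [← withDensity_congr_ae (hg (e n)).ae_eq_mk]
    exact h (e n)
  refine le_trans (withDensity_mono ?_) h1
  have h2 : ∀ᵐ z ∂lam, ∀ n, g (e n) z = (hg (e n)).mk (g (e n)) z :=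
    ae_all_iff.2 fun n => (hg (e n)).ae_eq_mk
  filter_upwards [hf, h2] with z hz h2z
  refine hz.trans ?_
  rw [← he.iSup_comp (g := fun n => g n z)]
  exact iSup_mono fun n => (h2z n).le

end pure

variable {k : ℕ} {X : Type u} [MetricSpace X] [MeasurableSpace X] [BorelSpace X]

/-- the mass measure of one chart. -/
noncomputable def nu (E : Set (Euc k)) (φ : Euc k → X) (ρ : Euc k → ℝ)
    (G : Euc k → Matrix (Fin k) (Fin k) ℝ) : Measure X :=
  ((volume.restrict E).withDensity fun z => ENNReal.ofReal (|ρ z| * √(G z).det)).map φ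

section one

variable {E : Set (Euc k)} {φ : Euc k → X} {G : Euc k → Matrix (Fin k) (Fin k) ℝ} {ρ : Euc k → ℝ}

omit [BorelSpace X] in
lemma MChart.isFinite (h : MChart E φ G) (hρ : IntegrableOn ρ E) :
    IsFiniteMeasure (nu E φ ρ G) := by
  have h1 : IsFiniteMeasure ((volume.restrict E).withDensity
      fun z => ENNReal.ofReal (|ρ z| * √(G z).det)) := by
    refine isFiniteMeasure_withDensity_ofReal ?_
    exact (h.integrable hρ).2
  unfold nu
  infer_instance

lemma MChart.integral_nu (h : MChart E φ G) (hρ : IntegrableOn ρ E) {f : X → ℝ}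
    (hf : Measurable f) :
    ∫ y, f y ∂(nu E φ ρ G) = ∫ z in E, |ρ z| * √(G z).det * f (φ z) := by
  have hint := h.integrable hρ
  have h1 : AEMeasurable (fun z => ENNReal.ofReal (|ρ z| * √(G z).det)) (volume.restrict E) :=
    hint.aestronglyMeasurable.aemeasurable.ennreal_ofReal
  have h2 : AEMeasurable φ ((volume.restrict E).withDensity
      fun z => ENNReal.ofReal (|ρ z| * √(G z).det)) :=
    h.aemeasurable.mono_ac (withDensity_absolutelyContinuous _ _)
  unfold nu
  rw [integral_map h2 hf.aestronglyMeasurable,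
    integral_withDensity_eq_integral_toReal_smul₀ h1 (ae_of_all _ fun z => ENNReal.ofReal_lt_top)]
  refine integral_congr_ae (ae_of_all _ fun z => ?_)
  change (ENNReal.ofReal _).toReal • f (φ z) = _
  rw [ENNReal.toReal_ofReal (by positivity), smul_eq_mul]

lemma MChart.nu_univ (h : MChart E φ G) (hρ : IntegrableOn ρ E) :
    (nu E φ ρ G).real univ = ∫ z in E, |ρ z| * √(G z).det := by
  have := h.integral_nu hρ (f := fun _ => 1) measurable_const
  simpa [integral_const] using this

/-- the basic upper bound, for bounded measurable functions. -/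
lemma MChart.abs_integral_le (h : MChart E φ G) (hρ : IntegrableOn ρ E) {f : X → ℝ}
    (hf : G1.BM f) {π : Fin k → X → ℝ} (hπ : ∀ i, LipschitzWith 1 (π i)) :
    |∫ z in E, ρ z * f (φ z) * jac E φ π z| ≤ ∫ y, |f y| ∂(nu E φ ρ G) := by
  rw [h.integral_nu hρ hf.1.abs, ← Real.norm_eq_abs]
  obtain ⟨C, hC⟩ := hf.2
  have hfφ : AEMeasurable (fun z => f (φ z)) (volume.restrict E) := hf.1.comp_aemeasurable
    h.aemeasurable
  refine norm_integral_le_of_norm_le ?_ ?_
  · refine (h.integrable hρ).mul_bdd (c := C) (g := fun z => |f (φ z)|)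
      hfφ.aestronglyMeasurable.norm (ae_of_all _ fun z => ?_)
    rw [Real.norm_eq_abs, abs_abs]; exact hC _
  · filter_upwards [h.ae_jac_le hπ] with z hz
    rw [Real.norm_eq_abs, abs_mul, abs_mul]
    calc |ρ z| * |f (φ z)| * |jac E φ π z| ≤ |ρ z| * |f (φ z)| * √(G z).det := by gcongr
      _ = |ρ z| * √(G z).det * |f (φ z)| := by ring

lemma MChart.integrable_integrand (h : MChart E φ G) (hρ : IntegrableOn ρ E) {f : X → ℝ}
    (hf : G1.BM f) {π : Fin k → X → ℝ} (hπ : ∀ i, LipschitzWith 1 (π i)) :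
    IntegrableOn (fun z => ρ z * f (φ z) * jac E φ π z) E := by
  obtain ⟨C, hC⟩ := hf.2
  have hfφ : AEMeasurable (fun z => f (φ z)) (volume.restrict E) := hf.1.comp_aemeasurable
    h.aemeasurable
  obtain ⟨L, hL⟩ := h.lip
  have h1 : IntegrableOn (fun z => ρ z * f (φ z)) E :=
    hρ.mul_bdd (c := C) hfφ.aestronglyMeasurable (ae_of_all _ fun z => hC _)
  refine h1.mul_bdd (c := (L : ℝ) ^ k)
    (B1Cur.aemeasurable_jac h.measE hL fun i => ⟨1, hπ i⟩).aestronglyMeasurable ?_
  filter_upwards [h.ae_jac_le hπ, h.ae_sqrt_det_le hL] with z h1 h2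
  rw [Real.norm_eq_abs]
  exact h1.trans h2

/-- transfer of almost everywhere properties (for arbitrary, not necessarily measurable,
properties; uses injectivity). -/
lemma MChart.ae_nu_of_ae (h : MChart E φ G) (hinj : InjOn φ E) {p : X → Prop}
    (hp : ∀ᵐ z ∂(volume.restrict E), p (φ z)) : ∀ᵐ y ∂(nu E φ ρ G), p y := by
  obtain ⟨L, hL⟩ := h.lip
  -- a Borel null set containing the bad points
  set B : Set (Euc k) := toMeasurable (volume.restrict E) {z | ¬ p (φ z)} with hB
  have hB0 : (volume.restrict E) B = 0 := by rw [hB, measure_toMeasurable]; exact hp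
  have hBm : MeasurableSet B := measurableSet_toMeasurable _ _
  have hA : MeasurableSet (φ '' (E \ B)) :=
    (h.measE.diff hBm).image_of_continuousOn_injOn (hL.continuousOn.mono sdiff_subset)
      (hinj.mono sdiff_subset)
  have hsub : {y | ¬ p y} ⊆ (φ '' (E \ B))ᶜ := by
    rintro y hy ⟨z, hz, rfl⟩
    exact hz.2 (subset_toMeasurable _ _ hy)
  refine measure_mono_null hsub ?_
  have h2 : AEMeasurable φ ((volume.restrict E).withDensity
      fun z => ENNReal.ofReal (|ρ z| * √(G z).det)) :=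
    h.aemeasurable.mono_ac (withDensity_absolutelyContinuous _ _)
  unfold nu
  rw [map_apply_of_aemeasurable h2 hA.compl]
  refine withDensity_absolutelyContinuous _ _ ?_
  refine measure_mono_null (t := B ∪ Eᶜ) ?_ ?_
  · intro z hz
    by_cases hzE : z ∈ E
    · by_cases hzB : z ∈ B
      · exact Or.inl hzB
      · exact absurd (mem_image_of_mem φ (show z ∈ E \ B from ⟨hzE, hzB⟩)) hz
    · exact Or.inr hzE
  · refine measure_union_null hB0 ?_
    rw [restrict_apply h.measE.compl]
    simp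

end one

/-! ### families of charts -/

section family

variable {ι : Type*} [Countable ι] {E : ι → Set (Euc k)} {φ : ι → Euc k → X}
  {G : ι → Euc k → Matrix (Fin k) (Fin k) ℝ} {ρ : ι → Euc k → ℝ}

/-- the mass measure of a family of charts. -/
noncomputable def nuS (E : ι → Set (Euc k)) (φ : ι → Euc k → X) (ρ : ι → Euc k → ℝ)
    (G : ι → Euc k → Matrix (Fin k) (Fin k) ℝ) : Measure X :=
  Measure.sum fun i => nu (E i) (φ i) (ρ i) (G i)

omit [MetricSpace X] [BorelSpace X] [Countable ι] in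
lemma nu_le_nuS (i : ι) : nu (E i) (φ i) (ρ i) (G i) ≤ nuS E φ ρ G :=
  Measure.le_sum (fun i => nu (E i) (φ i) (ρ i) (G i)) i

/-- the extension of the functional to bounded measurable functions. -/
noncomputable def RR (E : ι → Set (Euc k)) (φ : ι → Euc k → X) (ρ : ι → Euc k → ℝ)
    (f : X → ℝ) (π : Fin k → X → ℝ) : ℝ :=
  ∑' i, ∫ z in E i, ρ i z * f (φ i z) * jac (E i) (φ i) π z

omit [Countable ι] in
lemma hasSum_integral_nuS [IsFiniteMeasure (nuS E φ ρ G)] {f : X → ℝ} (hf : G1.BM f) :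
    HasSum (fun i => ∫ y, |f y| ∂(nu (E i) (φ i) (ρ i) (G i))) (∫ y, |f y| ∂(nuS E φ ρ G)) :=
  hasSum_integral_measure (show Integrable (fun y => |f y|) (nuS E φ ρ G) from
    hf.abs.integrable _)

omit [Countable ι] in
lemma summable_RR (h : ∀ i, MChart (E i) (φ i) (G i)) (hρ : ∀ i, IntegrableOn (ρ i) (E i))
    [IsFiniteMeasure (nuS E φ ρ G)] {f : X → ℝ} (hf : G1.BM f) {π : Fin k → X → ℝ}
    (hπ : ∀ i, LipschitzWith 1 (π i)) :
    Summable fun i => ∫ z in E i, ρ i z * f (φ i z) * jac (E i) (φ i) π z :=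
  Summable.of_norm_bounded (hasSum_integral_nuS (E := E) (φ := φ) (ρ := ρ) (G := G) hf).summable
    fun i => (h i).abs_integral_le (hρ i) hf hπ

omit [Countable ι] in
lemma abs_RR_le (h : ∀ i, MChart (E i) (φ i) (G i)) (hρ : ∀ i, IntegrableOn (ρ i) (E i))
    [IsFiniteMeasure (nuS E φ ρ G)] {f : X → ℝ} (hf : G1.BM f) {π : Fin k → X → ℝ}
    (hπ : ∀ i, LipschitzWith 1 (π i)) :
    |RR E φ ρ f π| ≤ ∫ y, |f y| ∂(nuS E φ ρ G) := by
  unfold RR
  rw [← Real.norm_eq_abs]
  exact tsum_of_norm_bounded (hasSum_integral_nuS (E := E) (φ := φ) (ρ := ρ) (G := G) hf)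
    fun i => (h i).abs_integral_le (hρ i) hf hπ

omit [Countable ι] in
lemma RR_sub (h : ∀ i, MChart (E i) (φ i) (G i)) (hρ : ∀ i, IntegrableOn (ρ i) (E i))
    [IsFiniteMeasure (nuS E φ ρ G)] {f g : X → ℝ} (hf : G1.BM f) (hg : G1.BM g)
    {π : Fin k → X → ℝ} (hπ : ∀ i, LipschitzWith 1 (π i)) :
    RR E φ ρ (f - g) π = RR E φ ρ f π - RR E φ ρ g π := by
  unfold RR
  rw [← (summable_RR h hρ hf hπ).tsum_sub (summable_RR h hρ hg hπ)]
  refine tsum_congr fun i => ?_
  rw [← integral_sub ((h i).integrable_integrand (hρ i) hf hπ)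
    ((h i).integrable_integrand (hρ i) hg hπ)]
  refine integral_congr_ae (ae_of_all _ fun z => ?_)
  simp only [Pi.sub_apply]
  ring

omit [Countable ι] [MeasurableSpace X] [BorelSpace X] in
/-- the functional represented by the charts agrees with `RR`. -/
lemma tsum_chartR_eq {f : X → ℝ} {π : Fin k → X → ℝ} (h : IsTestPair f π) :
    ∑' i, chartR (E i) (φ i) (ρ i) f π = RR E φ ρ f π :=
  tsum_congr fun _ => B1Cur.chartR_of_test h

omit [Countable ι] in
/-- **upper bound**: the mass measure controls the functional. -/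
theorem controls_nuS {T : Functional X k} (h : ∀ i, MChart (E i) (φ i) (G i))
    (hρ : ∀ i, IntegrableOn (ρ i) (E i)) [IsFiniteMeasure (nuS E φ ρ G)]
    (hT : ∀ f π, IsTestPair f π → T f π = ∑' i, chartR (E i) (φ i) (ρ i) f π) :
    Controls T (nuS E φ ρ G) := by
  intro f π hfπ hπ
  rw [hT f π hfπ, tsum_chartR_eq hfπ]
  exact abs_RR_le h hρ (G1.isTestPair_iff.1 hfπ).1.bm hπ

omit [Countable ι] in
/-- any controlling measure controls the extension to bounded measurable functions. -/
lemma abs_RR_le_of_controls {T : Functional X k} (h : ∀ i, MChart (E i) (φ i) (G i))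
    (hρ : ∀ i, IntegrableOn (ρ i) (E i)) [IsFiniteMeasure (nuS E φ ρ G)]
    (hT : ∀ f π, IsTestPair f π → T f π = ∑' i, chartR (E i) (φ i) (ρ i) f π)
    {μ : Measure X} [IsFiniteMeasure μ] (hμ : Controls T μ)
    {f : X → ℝ} (hf : G1.BM f) {π : Fin k → X → ℝ} (hπ : ∀ i, LipschitzWith 1 (π i)) :
    |RR E φ ρ f π| ≤ ∫ y, |f y| ∂μ := by
  obtain ⟨C, hC⟩ := hf.2
  obtain ⟨g, hg1, hg2, hg3⟩ := G1.exists_seq_BL (μ + nuS E φ ρ G) hf.1 hC
  have hgm : ∀ n, G1.BM (g n) := fun n => (hg1 n).bm
  have hLip : G1.LipT π := fun i => ⟨1, hπ i⟩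
  have key : ∀ n, |RR E φ ρ f π| ≤ (∫ y, |f y| ∂μ) + ∫ y, |f y - g n y| ∂(μ + nuS E φ ρ G) := by
    intro n
    have h1 : |RR E φ ρ f π| ≤ |RR E φ ρ (f - g n) π| + |RR E φ ρ (g n) π| := by
      rw [RR_sub h hρ hf (hgm n) hπ]
      have := abs_add_le (RR E φ ρ f π - RR E φ ρ (g n) π) (RR E φ ρ (g n) π)
      rwa [sub_add_cancel] at this
    have h2 : |RR E φ ρ (f - g n) π| ≤ ∫ y, |f y - g n y| ∂(nuS E φ ρ G) :=
      abs_RR_le h hρ (hf.sub (hgm n)) hπ
    have h3 : |RR E φ ρ (g n) π| ≤ ∫ y, |g n y| ∂μ := by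
      have ht : IsTestPair (g n) π := (hg1 n).isTestPair hLip
      rw [← tsum_chartR_eq ht, ← hT _ _ ht]
      exact hμ _ _ ht hπ
    have h4 : ∫ y, |g n y| ∂μ ≤ (∫ y, |f y| ∂μ) + ∫ y, |f y - g n y| ∂μ := by
      have hi : Integrable (fun y => |f y - g n y|) μ := (hf.sub (hgm n)).abs.integrable μ
      rw [← integral_add (hf.abs.integrable μ) hi]
      refine integral_mono ((hgm n).abs.integrable μ) ((hf.abs.integrable μ).add hi) fun y => ?_
      have := abs_sub_abs_le_abs_sub (g n y) (f y)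
      rw [abs_sub_comm (g n y)] at this
      beta_reduce
      linarith
    have h5 : ∫ y, |f y - g n y| ∂(μ + nuS E φ ρ G) =
        (∫ y, |f y - g n y| ∂μ) + ∫ y, |f y - g n y| ∂(nuS E φ ρ G) :=
      integral_add_measure ((hf.sub (hgm n)).abs.integrable μ)
        ((hf.sub (hgm n)).abs.integrable _)
    rw [h5]
    linarith
  have hlim : Tendsto (fun n => (∫ y, |f y| ∂μ) + ∫ y, |f y - g n y| ∂(μ + nuS E φ ρ G)) atTop
      (𝓝 ((∫ y, |f y| ∂μ) + 0)) := tendsto_const_nhds.add hg3
  rw [add_zero] at hlim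
  exact ge_of_tendsto hlim (Eventually.of_forall key)

omit [Countable ι] [MeasurableSpace X] [BorelSpace X] in
/-- restriction to a piece of one chart. -/
lemma RR_indicator {i : ι} (h : ∀ i, MChart (E i) (φ i) (G i)) (hinj : InjOn (φ i) (E i))
    (hdisj : ∀ i j, i ≠ j → Disjoint (φ i '' E i) (φ j '' E j)) {B : Set (Euc k)}
    (hBm : MeasurableSet B) (hB : B ⊆ E i) (π : Fin k → X → ℝ) :
    RR E φ ρ ((φ i '' B).indicator fun _ => 1) π = ∫ z in B, ρ i z * jac (E i) (φ i) π z := by
  classical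
  unfold RR
  rw [tsum_eq_single i]
  · have e1 : (∫ z in E i, ρ i z * (φ i '' B).indicator (fun _ => (1 : ℝ)) (φ i z) *
        jac (E i) (φ i) π z) =
        ∫ z in E i, B.indicator (fun z => ρ i z * jac (E i) (φ i) π z) z := by
      refine setIntegral_congr_fun (h i).measE fun z hz => ?_
      by_cases hzB : z ∈ B
      · have : φ i z ∈ φ i '' B := mem_image_of_mem _ hzB
        simp [this, hzB]
      · have : φ i z ∉ φ i '' B := by
          rintro ⟨z', hz', he⟩
          rw [hinj (hB hz') hz he] at hz'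
          exact hzB hz'
        simp [this, hzB]
    rw [e1, setIntegral_indicator hBm, inter_eq_right.2 hB]
  · intro j hj
    have e1 : ∀ z ∈ E j, ρ j z * (φ i '' B).indicator (fun _ => (1 : ℝ)) (φ j z) *
        jac (E j) (φ j) π z = 0 := by
      intro z hz
      have : φ j z ∉ φ i '' B := fun hcon =>
        (Set.disjoint_left.1 (hdisj j i hj)) (mem_image_of_mem _ hz) (image_mono hB hcon)
      simp [this]
    rw [setIntegral_congr_fun (h j).measE e1]
    simp

end family

end Crest.Agent.R241.B5a
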