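import Crest.Agent.R241.B5a3

/-!
# R241, block B5a4: the mass measure is the least controlling measure; mass formula
-/

set_option autoImplicit false

open MeasureTheory Measure Filter Topology Matrix Set
open scoped NNReal ENNReal MatrixOrder

namespace Crest.Agent.R241.B5a

open Crest.GeometryTopology.MetricCurrent
open Crest.GeometryTopology.Submanifold (Euc)
open Crest.Agent.R241.B3a Crest.Agent.R241.B3b Crest.Agent.R241.B3c
open Crest.Agent.R241.B1Cur (jac chartR)

universe u

variable {k : ℕ} {X : Type u} [MetricSpace X] [MeasurableSpace X] [BorelSpace X]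

section pull

variable {E : Set (Euc k)} {φ : Euc k → X}

/-- pull back of a measure under a chart. -/
noncomputable def pull (E : Set (Euc k)) (φ : Euc k → X) (μ : Measure X) : Measure (Euc k) :=
  (μ.comap (E.domRestrict φ)).map Subtype.val

lemma pull_apply (hE : MeasurableSet E) (hc : ContinuousOn φ E) (hinj : InjOn φ E) (μ : Measure X)
    {B : Set (Euc k)} (hB : MeasurableSet B) : pull E φ μ B = μ (φ '' (E ∩ B)) := by
  have he := hc.measurableEmbedding hE hinj
  unfold pull
  rw [map_apply measurable_subtype_coe hB, he.comap_apply]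
  congr 1
  ext y
  constructor
  · rintro ⟨⟨z, hz⟩, hzB, rfl⟩
    exact ⟨z, ⟨hz, hzB⟩, rfl⟩
  · rintro ⟨z, ⟨hz, hzB⟩, rfl⟩
    exact ⟨⟨z, hz⟩, hzB, rfl⟩

lemma map_pull (hE : MeasurableSet E) (hc : ContinuousOn φ E) (hinj : InjOn φ E) (μ : Measure X) :
    AEMeasurable φ (pull E φ μ) ∧ (pull E φ μ).map φ = μ.restrict (φ '' E) := by
  have he := hc.measurableEmbedding hE hinj
  have hv : MeasurableEmbedding (Subtype.val : E → Euc k) := MeasurableEmbedding.subtype_coe hE
  have h1 : AEMeasurable φ (pull E φ μ) := by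
    unfold pull
    rw [hv.aemeasurable_map_iff]
    exact he.measurable.aemeasurable
  refine ⟨h1, ?_⟩
  have h2 : (pull E φ μ).map φ = (μ.comap (E.domRestrict φ)).map (φ ∘ Subtype.val) :=
    AEMeasurable.map_map_of_aemeasurable h1 measurable_subtype_coe.aemeasurable
  rw [h2]
  have h3 : φ ∘ (Subtype.val : E → Euc k) = E.domRestrict φ := rfl
  rw [h3, he.map_comap]
  congr 1
  ext y
  constructor
  · rintro ⟨⟨z, hz⟩, rfl⟩
    exact ⟨z, hz, rfl⟩
  · rintro ⟨z, hz, rfl⟩
    exact ⟨⟨z, hz⟩, rfl⟩

end pull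

section family

variable {ι : Type*} [Countable ι] {E : ι → Set (Euc k)} {φ : ι → Euc k → X}
  {G : ι → Euc k → Matrix (Fin k) (Fin k) ℝ} {ρ : ι → Euc k → ℝ}

omit [Countable ι] in
lemma withDensity_jac_le {T : Functional X k} (h : ∀ i, MChart (E i) (φ i) (G i))
    (hρ : ∀ i, IntegrableOn (ρ i) (E i)) [IsFiniteMeasure (nuS E φ ρ G)]
    (hdisj : ∀ i j, i ≠ j → Disjoint (φ i '' E i) (φ j '' E j))
    (hT : ∀ f π, IsTestPair f π → T f π = ∑' i, chartR (E i) (φ i) (ρ i) f π)
    {μ : Measure X} [IsFiniteMeasure μ] (hμ : Controls T μ) {i : ι} (hinj : InjOn (φ i) (E i))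
    {π : Fin k → X → ℝ} (hπ : ∀ i, LipschitzWith 1 (π i)) :
    (volume.restrict (E i)).withDensity
      (fun z => ENNReal.ofReal |ρ i z * jac (E i) (φ i) π z|) ≤ pull (E i) (φ i) μ := by
  obtain ⟨L, hL⟩ := (h i).lip
  have hE := (h i).measE
  set g : Euc k → ℝ := fun z => ρ i z * jac (E i) (φ i) π z with hg
  have hgint : IntegrableOn g (E i) := by
    have := (h i).integrable_integrand (hρ i) (G1.BM.const (X := X) 1) hπ
    simpa [hg] using this
  set g' := hgint.aestronglyMeasurable.mk g with hg'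
  have hg'm : StronglyMeasurable g' := hgint.aestronglyMeasurable.stronglyMeasurable_mk
  have hgg' : g =ᵐ[volume.restrict (E i)] g' := hgint.aestronglyMeasurable.ae_eq_mk
  -- basic estimate on a Borel piece
  have key : ∀ B : Set (Euc k), MeasurableSet B → B ⊆ E i →
      |∫ z in B, g z| ≤ (μ (φ i '' B)).toReal := by
    intro B hBm hB
    have himg : MeasurableSet (φ i '' B) :=
      hBm.image_of_continuousOn_injOn (hL.continuousOn.mono hB) (hinj.mono hB)
    have h1 := abs_RR_le_of_controls h hρ hT hμ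
      (f := (φ i '' B).indicator fun _ => 1) ((G1.BM.const 1).indicator himg) hπ
    rw [RR_indicator h hinj hdisj hBm hB π] at h1
    refine h1.trans (le_of_eq ?_)
    have h2 : (fun y => |(φ i '' B).indicator (fun _ => (1 : ℝ)) y|) =
        (φ i '' B).indicator fun _ => (1 : ℝ) := by
      funext y
      by_cases hy : y ∈ φ i '' B <;> simp [hy]
    rw [h2, integral_indicator himg]
    simp [Measure.real]
  -- pieces where `g` has constant sign
  have key2 : ∀ B : Set (Euc k), MeasurableSet B →
      ((∀ z ∈ B, 0 ≤ g' z) ∨ (∀ z ∈ B, g' z ≤ 0)) →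
      ∫⁻ z in B, ENNReal.ofReal |g z| ∂(volume.restrict (E i)) ≤ pull (E i) (φ i) μ B := by
    intro B hBm hs
    rw [pull_apply hE hL.continuousOn hinj μ hBm, restrict_restrict hBm]
    have hBE : MeasurableSet (B ∩ E i) := hBm.inter hE
    have hint : IntegrableOn g (B ∩ E i) := hgint.mono_set inter_subset_right
    have h1 := key (B ∩ E i) hBE inter_subset_right
    have h2 : |∫ z in B ∩ E i, g z| = ∫ z in B ∩ E i, |g z| := by
      have hgg2 : g =ᵐ[volume.restrict (B ∩ E i)] g' :=
        ae_restrict_of_ae_restrict_of_subset inter_subset_right hgg'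
      rcases hs with hs | hs
      · have e : (fun z => |g z|) =ᵐ[volume.restrict (B ∩ E i)] g := by
          filter_upwards [hgg2, ae_restrict_mem hBE] with z hz hzB
          rw [hz, abs_of_nonneg (hs z hzB.1)]
        rw [integral_congr_ae e, abs_of_nonneg]
        rw [← integral_congr_ae e]
        exact integral_nonneg fun z => abs_nonneg _
      · have e : (fun z => |g z|) =ᵐ[volume.restrict (B ∩ E i)] fun z => -g z := by
          filter_upwards [hgg2, ae_restrict_mem hBE] with z hz hzB
          rw [hz, abs_of_nonpos (hs z hzB.1)]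
        rw [integral_congr_ae e, integral_neg, abs_of_nonpos]
        have h3 : 0 ≤ ∫ z in B ∩ E i, -g z := by
          rw [← integral_congr_ae e]
          exact integral_nonneg fun z => abs_nonneg _
        rw [integral_neg] at h3
        linarith
    rw [h2] at h1
    rw [← ofReal_integral_eq_lintegral_ofReal hint.abs (ae_of_all _ fun z => abs_nonneg _),
      inter_comm (E i)]
    exact ENNReal.ofReal_le_of_le_toReal h1
  refine Measure.le_iff.2 fun B hBm => ?_
  set P : Set (Euc k) := {z | 0 ≤ g' z} with hP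
  have hPm : MeasurableSet P := measurableSet_le measurable_const hg'm.measurable
  rw [withDensity_apply _ hBm, ← lintegral_inter_add_sdiff _ B hPm,
    ← measure_inter_add_sdiff B hPm]
  refine add_le_add (key2 _ (hBm.inter hPm) (Or.inl fun z hz => hz.2))
    (key2 _ (hBm.diff hPm) (Or.inr fun z hz => ?_))
  exact le_of_lt (not_le.1 hz.2)

omit [Countable ι] in
/-- **lower bound** on one chart. -/
theorem nu_le_restrict {T : Functional X k} (h : ∀ i, MChart (E i) (φ i) (G i))
    (hρ : ∀ i, IntegrableOn (ρ i) (E i)) [IsFiniteMeasure (nuS E φ ρ G)]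
    (hdisj : ∀ i j, i ≠ j → Disjoint (φ i '' E i) (φ j '' E j))
    (hT : ∀ f π, IsTestPair f π → T f π = ∑' i, chartR (E i) (φ i) (ρ i) f π)
    {μ : Measure X} [IsFiniteMeasure μ] (hμ : Controls T μ) {i : ι} (hinj : InjOn (φ i) (E i)) :
    nu (E i) (φ i) (ρ i) (G i) ≤ μ.restrict (φ i '' E i) := by
  obtain ⟨L, hL⟩ := (h i).lip
  have hE := (h i).measE
  rcases (E i).eq_empty_or_nonempty with hem | hne
  · have : nu (E i) (φ i) (ρ i) (G i) = 0 := by
      unfold nu
      rw [hem]
      simp
    rw [this]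
    exact Measure.zero_le _
  obtain ⟨x, hx⟩ := (h i).exists_seq hne
  have h1 : (volume.restrict (E i)).withDensity
      (fun z => ENNReal.ofReal (|ρ i z| * √(G i z).det)) ≤ pull (E i) (φ i) μ := by
    refine withDensity_le_of_ae_le_iSup (ι := Fin k → ℕ)
      (g := fun J z => ENNReal.ofReal |ρ i z * jac (E i) (φ i) (fun l p => dist (x (J l)) p) z|)
      (fun J => ?_) (fun J => ?_) ?_
    · have hm : AEMeasurable (fun z => ρ i z * jac (E i) (φ i) (fun l p => dist (x (J l)) p) z)
          (volume.restrict (E i)) :=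
        (hρ i).aestronglyMeasurable.aemeasurable.mul
          (B1Cur.aemeasurable_jac hE hL fun l => ⟨1, LipschitzWith.dist_right _⟩)
      exact (hm.abs).ennreal_ofReal
    · exact withDensity_jac_le h hρ hdisj hT hμ hinj fun l => LipschitzWith.dist_right _
    · filter_upwards [(h i).ae_exists_jac hx] with z hz
      by_contra hcon
      push Not at hcon
      set s : ℝ≥0∞ := ⨆ J : Fin k → ℕ,
        ENNReal.ofReal |ρ i z * jac (E i) (φ i) (fun l p => dist (x (J l)) p) z| with hs
      have hs_top : s ≠ ⊤ := (hcon.trans ENNReal.ofReal_lt_top).ne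
      have h2 : s.toReal < |ρ i z| * √(G i z).det := by
        rw [← ENNReal.ofReal_toReal hs_top] at hcon
        exact (ENNReal.ofReal_lt_ofReal_iff_of_nonneg ENNReal.toReal_nonneg).1 hcon
      have hρpos : 0 < |ρ i z| := by
        rcases (abs_nonneg (ρ i z)).lt_or_eq with h3 | h3
        · exact h3
        · rw [← h3, zero_mul] at h2
          exact absurd h2 (not_lt.2 ENNReal.toReal_nonneg)
      have h3 : s.toReal / |ρ i z| < √(G i z).det := by
        rw [div_lt_iff₀ hρpos, mul_comm]; exact h2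
      obtain ⟨J, hJ⟩ := hz _ h3
      rw [div_lt_iff₀ hρpos, mul_comm, ← abs_mul] at hJ
      have h4 : s < ENNReal.ofReal
          |ρ i z * jac (E i) (φ i) (fun l p => dist (x (J l)) p) z| := by
        conv_lhs => rw [← ENNReal.ofReal_toReal hs_top]
        exact (ENNReal.ofReal_lt_ofReal_iff_of_nonneg ENNReal.toReal_nonneg).2 hJ
      exact absurd (le_iSup (fun J : Fin k → ℕ =>
        ENNReal.ofReal |ρ i z * jac (E i) (φ i) (fun l p => dist (x (J l)) p) z|) J)
        (not_le.2 h4)
  have h2 := map_pull hE hL.continuousOn hinj μ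
  unfold nu
  rw [← h2.2]
  exact Measure.map_mono_of_aemeasurable h1 h2.1

/-- **lower bound**: the mass measure is the least controlling measure. -/
theorem nuS_le {T : Functional X k} (h : ∀ i, MChart (E i) (φ i) (G i))
    (hρ : ∀ i, IntegrableOn (ρ i) (E i)) [IsFiniteMeasure (nuS E φ ρ G)]
    (hdisj : ∀ i j, i ≠ j → Disjoint (φ i '' E i) (φ j '' E j))
    (hinj : ∀ i, InjOn (φ i) (E i))
    (hT : ∀ f π, IsTestPair f π → T f π = ∑' i, chartR (E i) (φ i) (ρ i) f π)
    {μ : Measure X} [IsFiniteMeasure μ] (hμ : Controls T μ) : nuS E φ ρ G ≤ μ := by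
  refine Measure.le_iff.2 fun A hA => ?_
  unfold nuS
  rw [Measure.sum_apply _ hA]
  have himg : ∀ i, MeasurableSet (φ i '' E i) := fun i => by
    obtain ⟨L, hL⟩ := (h i).lip
    exact (h i).measE.image_of_continuousOn_injOn hL.continuousOn (hinj i)
  calc ∑' i, nu (E i) (φ i) (ρ i) (G i) A ≤ ∑' i, μ (A ∩ φ i '' E i) := by
        refine ENNReal.tsum_le_tsum fun i => ?_
        have := nu_le_restrict h hρ hdisj hT hμ (hinj i) A
        rwa [restrict_apply hA] at this
    _ = μ (⋃ i, A ∩ φ i '' E i) := by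
        rw [measure_iUnion (fun i j hij => ?_) fun i => hA.inter (himg i)]
        exact (hdisj i j hij).mono inter_subset_right inter_subset_right
    _ ≤ μ A := measure_mono (iUnion_subset fun i => inter_subset_left)

/-- **mass formula**. -/
theorem mass_eq {T : Functional X k} (h : ∀ i, MChart (E i) (φ i) (G i))
    (hρ : ∀ i, IntegrableOn (ρ i) (E i)) [hfin : IsFiniteMeasure (nuS E φ ρ G)]
    (hdisj : ∀ i j, i ≠ j → Disjoint (φ i '' E i) (φ j '' E j))
    (hinj : ∀ i, InjOn (φ i) (E i))
    (hT : ∀ f π, IsTestPair f π → T f π = ∑' i, chartR (E i) (φ i) (ρ i) f π) :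
    mass T = (nuS E φ ρ G).real univ := by
  unfold mass
  refine le_antisymm (csInf_le ⟨0, ?_⟩ ⟨nuS E φ ρ G, hfin, controls_nuS h hρ hT, rfl⟩)
    (le_csInf ⟨_, nuS E φ ρ G, hfin, controls_nuS h hρ hT, rfl⟩ ?_)
  · rintro r ⟨μ, -, -, rfl⟩
    exact ENNReal.toReal_nonneg
  · rintro r ⟨μ, hμf, hμ, rfl⟩
    exact ENNReal.toReal_mono (measure_ne_top _ _) (nuS_le h hρ hdisj hinj hT hμ univ)

end family

section single

variable {E : Set (Euc k)} {φ : Euc k → X} {G : Euc k → Matrix (Fin k) (Fin k) ℝ} {ρ : Euc k → ℝ}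

/-- mass of one chart action. -/
theorem mass_chartR (h : MChart E φ G) (hρ : IntegrableOn ρ E) (hinj : InjOn φ E) :
    mass (chartR E φ ρ) = ∫ z in E, |ρ z| * √(G z).det := by
  have e : nuS (fun _ : Unit => E) (fun _ => φ) (fun _ => ρ) (fun _ => G) = nu E φ ρ G := by
    unfold nuS
    ext A hA
    rw [Measure.sum_apply _ hA, tsum_fintype]
    simp
  have hfin : IsFiniteMeasure (nu E φ ρ G) := h.isFinite hρ
  have hfin' : IsFiniteMeasure
      (nuS (fun _ : Unit => E) (fun _ => φ) (fun _ => ρ) (fun _ => G)) := by rw [e]; exact hfin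
  have := mass_eq (ι := Unit) (E := fun _ => E) (φ := fun _ => φ) (ρ := fun _ => ρ)
    (G := fun _ => G) (T := chartR E φ ρ) (fun _ => h) (fun _ => hρ)
    (fun i j hij => absurd (Subsingleton.elim i j) hij) (fun _ => hinj)
    (fun f π _ => by rw [tsum_fintype]; simp)
  rw [this, e, h.nu_univ hρ]

end single

end Crest.Agent.R241.B5a
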