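import Crest.Agent.R241.B5a4

/-!
# R241, block B5a5: the mass data of an integer rectifiable functional
-/

set_option autoImplicit false

open MeasureTheory Measure Filter Topology Matrix Set
open scoped NNReal ENNReal MatrixOrder

namespace Crest.Agent.R241.B5a

open Crest.GeometryTopology.MetricCurrent
open Crest.GeometryTopology.Submanifold (Euc)
open Crest.Agent.R241.B3a Crest.Agent.R241.B3b Crest.Agent.R241.B3c
open Crest.Agent.R241.B1Cur (jac chartR)

universe u

variable {k : ℕ} {X : Type u} [MetricSpace X] [MeasurableSpace X] [BorelSpace X]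

section family

variable {ι : Type*} [Countable ι] {E : ι → Set (Euc k)} {φ : ι → Euc k → X}
  {G : ι → Euc k → Matrix (Fin k) (Fin k) ℝ} {ρ : ι → Euc k → ℝ}

omit [Countable ι] in
lemma nuS_univ (h : ∀ i, MChart (E i) (φ i) (G i)) (hρ : ∀ i, IntegrableOn (ρ i) (E i)) :
    nuS E φ ρ G univ = ∑' i, ENNReal.ofReal (∫ z in E i, |ρ i z| * √(G i z).det) := by
  unfold nuS
  rw [Measure.sum_apply _ MeasurableSet.univ]
  refine tsum_congr fun i => ?_
  have := (h i).isFinite (hρ i)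
  rw [← (h i).nu_univ (hρ i), Measure.real, ENNReal.ofReal_toReal (measure_ne_top _ _)]

omit [Countable ι] in
lemma isFinite_of_summable (h : ∀ i, MChart (E i) (φ i) (G i))
    (hρ : ∀ i, IntegrableOn (ρ i) (E i))
    (hs : Summable fun i => ∫ z in E i, |ρ i z| * √(G i z).det) :
    IsFiniteMeasure (nuS E φ ρ G) := by
  refine ⟨?_⟩
  rw [nuS_univ h hρ, ← ENNReal.ofReal_tsum_of_nonneg (fun i => ?_) hs]
  · exact ENNReal.ofReal_lt_top
  · exact integral_nonneg fun z => by positivity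

omit [Countable ι] in
lemma isFinite_of_summable_mass (h : ∀ i, MChart (E i) (φ i) (G i))
    (hρ : ∀ i, IntegrableOn (ρ i) (E i)) (hinj : ∀ i, InjOn (φ i) (E i))
    (hs : Summable fun i => mass (chartR (E i) (φ i) (ρ i))) :
    IsFiniteMeasure (nuS E φ ρ G) := by
  refine isFinite_of_summable h hρ ?_
  refine hs.congr fun i => ?_
  rw [mass_chartR (h i) (hρ i) (hinj i)]

omit [Countable ι] in
lemma summable_of_isFinite (h : ∀ i, MChart (E i) (φ i) (G i))
    (hρ : ∀ i, IntegrableOn (ρ i) (E i)) [IsFiniteMeasure (nuS E φ ρ G)] :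
    Summable fun i => ∫ z in E i, |ρ i z| * √(G i z).det := by
  have h1 := measure_ne_top (nuS E φ ρ G) univ
  rw [nuS_univ h hρ] at h1
  have h2 := ENNReal.summable_toReal h1
  refine h2.congr fun i => ?_
  rw [ENNReal.toReal_ofReal (integral_nonneg fun z => by positivity)]

omit [Countable ι] in
/-- the sum of chart actions converges. -/
lemma hasSum_chartR {T : Functional X k} (h : ∀ i, MChart (E i) (φ i) (G i))
    (hρ : ∀ i, IntegrableOn (ρ i) (E i)) [IsFiniteMeasure (nuS E φ ρ G)]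
    (hcur : ∀ i, IsCurrent (chartR (E i) (φ i) (ρ i)))
    (hT : ∀ f π, IsTestPair f π → T f π = ∑' i, chartR (E i) (φ i) (ρ i) f π)
    {f : X → ℝ} {π : Fin k → X → ℝ} (hfπ : IsTestPair f π) :
    HasSum (fun i => chartR (E i) (φ i) (ρ i) f π) (T f π) := by
  rw [hT f π hfπ]
  refine Summable.hasSum ?_
  obtain ⟨hf, hπ⟩ := G1.isTestPair_iff.1 hfπ
  choose K hK using hπ
  have hb : ∀ i, ‖chartR (E i) (φ i) (ρ i) f π‖ ≤
      (∏ l, (K l : ℝ)) * ∫ y, |f y| ∂(nu (E i) (φ i) (ρ i) (G i)) := by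
    intro i
    have hfin := (h i).isFinite (hρ i)
    have hc : Controls (chartR (E i) (φ i) (ρ i)) (nu (E i) (φ i) (ρ i) (G i)) := by
      intro f' π' h' hπ'
      rw [B1Cur.chartR_of_test h']
      exact (h i).abs_integral_le (hρ i) (G1.isTestPair_iff.1 h').1.bm hπ'
    exact G1.abs_le_of_controls (hcur i) hc hf hK
  exact Summable.of_norm_bounded
    ((hasSum_integral_nuS (E := E) (φ := φ) (ρ := ρ) (G := G) hf.bm).summable.mul_left _) hb

/-- transfer of almost everywhere statements to the mass measure. -/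
theorem ae_nuS_of_ae (h : ∀ i, MChart (E i) (φ i) (G i)) (hinj : ∀ i, InjOn (φ i) (E i))
    {p : X → Prop} (hp : ∀ i, ∀ᵐ z ∂(volume.restrict (E i)), p (φ i z)) :
    ∀ᵐ y ∂(nuS E φ ρ G), p y := by
  unfold nuS
  rw [ae_sum_iff]
  exact fun i => (h i).ae_nu_of_ae (hinj i) (hp i)

end family

omit [MeasurableSpace X] [BorelSpace X] in
/-- co-Lipschitz charts are nondegenerate. -/
lemma MChart.ae_det_ne {E : Set (Euc k)} {φ : Euc k → X}
    {G : Euc k → Matrix (Fin k) (Fin k) ℝ} (h : MChart E φ G)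
    (hC : ∃ C : ℝ, ∀ z ∈ E, ∀ w ∈ E, dist z w ≤ C * dist (φ z) (φ w)) :
    ∀ᵐ z ∂(volume.restrict E), (G z).det ≠ 0 := by
  obtain ⟨C, hC⟩ := hC
  filter_upwards [ae_blowUp h.measE, h.md] with z hz hmd hdet
  obtain ⟨hzE, d, hd⟩ := hz
  obtain ⟨L', hL'⟩ := exists_isSN (h.psd z)
  obtain ⟨v, hv0, hv⟩ := Matrix.exists_mulVec_eq_zero_iff.2 hdet
  have h1 := hmd.norm_le hL' hd hzE hC (WithLp.toLp 2 v)
  have h2 : sn (G z) (WithLp.toLp 2 v) = 0 := by
    unfold sn
    change √(v ⬝ᵥ (G z *ᵥ v)) = 0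
    rw [hv, dotProduct_zero, Real.sqrt_zero]
  rw [h2, mul_zero] at h1
  have h3 : (WithLp.toLp 2 v : Euc k) = 0 := norm_le_zero_iff.1 h1
  apply hv0
  have h4 := congrArg (fun u : Euc k => u.ofLp) h3
  simpa using h4

/-- the mass data of an integer rectifiable functional in a space with the quadrilateral
inequality (in particular `CAT(0)`). -/
structure MassData (T : Functional X k) where
  E : ℕ → Set (Euc k)
  φ : ℕ → Euc k → X
  θ : ℕ → Euc k → ℤ
  G : ℕ → Euc k → Matrix (Fin k) (Fin k) ℝ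
  chart : ∀ i, MChart (E i) (φ i) (G i)
  bdd : ∀ i, Bornology.IsBounded (E i)
  colip : ∀ i, ∃ C : ℝ, ∀ z ∈ E i, ∀ w ∈ E i, dist z w ≤ C * dist (φ i z) (φ i w)
  inj : ∀ i, InjOn (φ i) (E i)
  intθ : ∀ i, IntegrableOn (fun z => (θ i z : ℝ)) (E i)
  disj : ∀ i j, i ≠ j → Disjoint (φ i '' E i) (φ j '' E j)
  cur : ∀ i, IsCurrent (chartAction (E i) (φ i) (θ i))
  fin : IsFiniteMeasure (nuS E φ (fun i z => (θ i z : ℝ)) G)
  repr : ∀ f π, IsTestPair f π → HasSum (fun i => chartAction (E i) (φ i) (θ i) f π) (T f π)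

namespace MassData

variable {T : Functional X k} (D : MassData T)

/-- the mass measure `‖T‖`. -/
noncomputable def τ : Measure X := nuS D.E D.φ (fun i z => (D.θ i z : ℝ)) D.G

instance isFiniteMeasure_tau : IsFiniteMeasure D.τ := D.fin

omit [BorelSpace X] in
lemma tau_eq : D.τ = Measure.sum fun i => ((volume.restrict (D.E i)).withDensity
    fun z => ENNReal.ofReal (|(D.θ i z : ℝ)| * √(D.G i z).det)).map (D.φ i) := rfl

omit [BorelSpace X] in
lemma repr' (f : X → ℝ) (π : Fin k → X → ℝ) (h : IsTestPair f π) :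
    T f π = ∑' i, chartR (D.E i) (D.φ i) (fun z => (D.θ i z : ℝ)) f π :=
  (D.repr f π h).tsum_eq.symm

theorem controls : Controls T D.τ :=
  haveI := D.fin
  controls_nuS D.chart D.intθ D.repr'

theorem le_of_controls {μ : Measure X} [IsFiniteMeasure μ] (hμ : Controls T μ) : D.τ ≤ μ :=
  haveI := D.fin
  nuS_le D.chart D.intθ D.disj D.inj D.repr' hμ

theorem mass_eq : mass T = D.τ.real univ :=
  haveI := D.fin
  B5a.mass_eq D.chart D.intθ D.disj D.inj D.repr'

theorem summ : Summable fun i => ∫ z in D.E i, |(D.θ i z : ℝ)| * √(D.G i z).det :=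
  haveI := D.fin
  summable_of_isFinite D.chart D.intθ

omit [BorelSpace X] in
theorem integrable (i : ℕ) :
    Integrable (fun z => |(D.θ i z : ℝ)| * √(D.G i z).det) (volume.restrict (D.E i)) :=
  (D.chart i).integrable (D.intθ i)

theorem mass_eq_tsum : mass T = ∑' i, ∫ z in D.E i, |(D.θ i z : ℝ)| * √(D.G i z).det := by
  rw [D.mass_eq, Measure.real]
  have := nuS_univ D.chart D.intθ
  change (nuS D.E D.φ (fun i z => (D.θ i z : ℝ)) D.G univ).toReal = _
  rw [this, ← ENNReal.ofReal_tsum_of_nonneg (fun i => integral_nonneg fun z => by positivity)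
    D.summ, ENNReal.toReal_ofReal]
  exact tsum_nonneg fun i => integral_nonneg fun z => by positivity

theorem ae_of_ae {p : X → Prop} (hp : ∀ i, ∀ᵐ z ∂(volume.restrict (D.E i)), p (D.φ i z)) :
    ∀ᵐ y ∂D.τ, p y := ae_nuS_of_ae D.chart D.inj hp

omit [BorelSpace X] in
theorem ae_det_ne (i : ℕ) : ∀ᵐ z ∂(volume.restrict (D.E i)), (D.G i z).det ≠ 0 :=
  (D.chart i).ae_det_ne (D.colip i)

end MassData

/-- **existence of the mass data**. -/
theorem exists_massData (hX : ∀ a b c e : X, dist a c ^ 2 + dist b e ^ 2 ≤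
      dist a b ^ 2 + dist b c ^ 2 + dist c e ^ 2 + dist e a ^ 2)
    {T : Functional X k} (hT : IsIntegerRectifiable T) : Nonempty (MassData T) := by
  obtain ⟨E, φ, θ, hE, hL, hC, hθ, hdisj, hcur, hs, hrep⟩ := hT
  choose L hL using hL
  choose G hGm hGp hGs hmd using fun i => exists_gram hX (hE i).1 (hL i)
  have hch : ∀ i, MChart (E i) (φ i) (G i) := fun i =>
    ⟨(hE i).1, ⟨L i, hL i⟩, hGm i, hGp i, hmd i⟩
  have hinj : ∀ i, InjOn (φ i) (E i) := by
    intro i z hz w hw hzw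
    obtain ⟨C, hC⟩ := hC i
    have := hC z hz w hw
    rw [hzw, dist_self, mul_zero] at this
    exact dist_le_zero.1 this
  have hfin : IsFiniteMeasure (nuS E φ (fun i z => (θ i z : ℝ)) G) :=
    isFinite_of_summable_mass hch hθ hinj hs
  refine ⟨⟨E, φ, θ, G, hch, fun i => (hE i).2, hC, hinj, hθ, hdisj, hcur, hfin,
    fun f π hfπ => ?_⟩⟩
  exact hasSum_chartR hch hθ hcur (fun f π h => hrep f π h) hfπ

end Crest.Agent.R241.B5a
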