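import Crest.Agent.R241.ABasic
import Crest.Agent.R241.B1Density
import Crest.Agent.R241.B1Null
import Crest.Prelude.Def_MetricCurrent

/-!
# R241, block B5b: from Euclidean charts to `A.PreData`

`Chart n Y`: a Borel set `E ⊆ ℝ^n`, an injective map `φ` Lipschitz on `E`, a multiplicity
`m = |θ|` and a positive definite matrix field `g` (the metric differential of `φ`).
We define the carré du champ `Γ(f,u)(z) = D(f∘φ) g⁻¹ D(u∘φ)` and prove the axioms of
`A.PreData` for a countable family of charts with disjoint images.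
-/

set_option autoImplicit false

open MeasureTheory Measure Filter Set Topology Matrix
open scoped NNReal ENNReal

universe u

namespace Crest.Agent.R241.B5b

open Crest.GeometryTopology.Submanifold (Euc)

variable {n : ℕ} {Y : Type u} [MetricSpace Y]

/-- the gradient vector (array of partial derivatives) of `u` within `E`. -/
noncomputable def dvec (E : Set (Euc n)) (u : Euc n → ℝ) (z : Euc n) : Fin n → ℝ :=
  fun j => fderivWithin ℝ u E z (EuclideanSpace.single j 1)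

/-- a chart with Euclidean metric differential. -/
structure Chart (n : ℕ) (Y : Type u) [MetricSpace Y] where
  E : Set (Euc n)
  φ : Euc n → Y
  m : Euc n → ℝ
  g : Euc n → Matrix (Fin n) (Fin n) ℝ
  meas_E : MeasurableSet E
  lip : ∃ L : ℝ≥0, LipschitzOnWith L φ E
  inj : InjOn φ E
  meas_m : Measurable m
  m_one : ∀ z, m z = 0 ∨ 1 ≤ m z
  meas_g : ∀ i j, Measurable fun z => g z i j
  posdef : ∀ᵐ z ∂((volume : Measure (Euc n)).restrict E), (g z).PosDef
  grad : ∀ f : Y → ℝ, LipschitzWith 1 f → ∀ᵐ z ∂((volume : Measure (Euc n)).restrict E),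
    ∀ v : Fin n → ℝ, (dvec E (fun w => f (φ w)) z ⬝ᵥ v) ^ 2 ≤ v ⬝ᵥ (g z *ᵥ v)
  md : ∀ᵐ z ∂((volume : Measure (Euc n)).restrict E), ∀ ε > (0 : ℝ), ∃ δ > (0 : ℝ), ∀ w ∈ E,
    ‖w - z‖ < δ → dist (φ w) (φ z) ^ 2 ≤
      (w - z).ofLp ⬝ᵥ (g z *ᵥ (w - z).ofLp) + ε * ‖w - z‖ ^ 2
  integ : IntegrableOn (fun z => m z * √(g z).det) E

/-! ### linear algebra -/

theorem dot_inv_self_le {g : Matrix (Fin n) (Fin n) ℝ} (hg : g.PosDef) {a : Fin n → ℝ} {c : ℝ}
    (hc : 0 ≤ c) (h : ∀ v : Fin n → ℝ, (a ⬝ᵥ v) ^ 2 ≤ c * (v ⬝ᵥ (g *ᵥ v))) :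
    a ⬝ᵥ (g⁻¹ *ᵥ a) ≤ c := by
  have hdet : IsUnit g.det := hg.det_pos.ne'.isUnit
  have h1 := h (g⁻¹ *ᵥ a)
  rw [mulVec_mulVec, mul_nonsing_inv _ hdet, one_mulVec] at h1
  rw [dotProduct_comm (g⁻¹ *ᵥ a) a] at h1
  by_contra hlt
  rw [not_le] at hlt
  have : 0 < a ⬝ᵥ (g⁻¹ *ᵥ a) := hc.trans_lt hlt
  nlinarith

theorem dot_inv_comm {g : Matrix (Fin n) (Fin n) ℝ} (hg : g.PosDef) (a b : Fin n → ℝ) :
    a ⬝ᵥ (g⁻¹ *ᵥ b) = b ⬝ᵥ (g⁻¹ *ᵥ a) := by
  have hs : (g⁻¹)ᵀ = g⁻¹ := by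
    have := hg.inv.isHermitian
    rwa [IsHermitian, conjTranspose_eq_transpose_of_trivial] at this
  rw [dotProduct_mulVec, ← mulVec_transpose, hs, dotProduct_comm]

theorem dot_inv_nonneg {g : Matrix (Fin n) (Fin n) ℝ} (hg : g.PosDef) (a : Fin n → ℝ) :
    0 ≤ a ⬝ᵥ (g⁻¹ *ᵥ a) := by
  have := hg.inv.posSemidef.dotProduct_mulVec_nonneg a
  simpa using this

theorem measurable_inv {X : Type*} [MeasurableSpace X] {M : X → Matrix (Fin n) (Fin n) ℝ}
    (hM : ∀ i j, Measurable fun x => M x i j) (i j : Fin n) :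
    Measurable fun x => (M x)⁻¹ i j := by
  have h : (fun x => (M x)⁻¹ i j) =
      fun x => ((M x).det)⁻¹ * ((M x).updateRow j (Pi.single i 1)).det := by
    funext x
    rw [Matrix.inv_def, Matrix.smul_apply, adjugate_apply, smul_eq_mul, Ring.inverse_eq_inv']
  rw [h]
  refine (B1Null.measurable_det hM).inv.mul (B1Null.measurable_det fun a b => ?_)
  by_cases hab : a = j
  · subst hab
    simp only [updateRow_self]
    exact measurable_const
  · simp only [updateRow_ne hab]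
    exact hM a b

/-! ### calculus of `dvec` -/

section dvec

variable {E : Set (Euc n)} {u v : Euc n → ℝ} {z : Euc n}

theorem dvec_add (hz : UniqueDiffWithinAt ℝ E z) (hu : DifferentiableWithinAt ℝ u E z)
    (hv : DifferentiableWithinAt ℝ v E z) :
    dvec E (fun w => u w + v w) z = dvec E u z + dvec E v z := by
  funext j
  simp only [dvec, Pi.add_apply]
  rw [fderivWithin_fun_add hz hu hv]
  rfl

theorem dvec_const_mul (hz : UniqueDiffWithinAt ℝ E z) (hu : DifferentiableWithinAt ℝ u E z)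
    (c : ℝ) : dvec E (fun w => c * u w) z = c • dvec E u z := by
  funext j
  simp only [dvec, Pi.smul_apply]
  rw [fderivWithin_const_mul hz hu]
  rfl

theorem dvec_mul (hz : UniqueDiffWithinAt ℝ E z) (hu : DifferentiableWithinAt ℝ u E z)
    (hv : DifferentiableWithinAt ℝ v E z) :
    dvec E (fun w => u w * v w) z = u z • dvec E v z + v z • dvec E u z := by
  funext j
  simp only [dvec, Pi.add_apply, Pi.smul_apply]
  rw [fderivWithin_fun_mul hz hu hv]
  rfl

theorem dvec_comp (hz : UniqueDiffWithinAt ℝ E z) (hu : DifferentiableWithinAt ℝ u E z)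
    {ψ : ℝ → ℝ} {c : ℝ} (hψ : HasDerivAt ψ c (u z)) :
    dvec E (fun w => ψ (u w)) z = c • dvec E u z := by
  funext j
  have h := (hψ.comp_hasFDerivWithinAt z hu.hasFDerivWithinAt).fderivWithin hz
  simp only [dvec, Pi.smul_apply]
  have h2 : fderivWithin ℝ (fun w => ψ (u w)) E z = c • fderivWithin ℝ u E z := h
  rw [h2]
  rfl

end dvec

namespace Chart

variable (c : Chart n Y)

/-- the measure `volume` on the domain. -/
noncomputable abbrev vol : Measure (Euc n) := (volume : Measure (Euc n)).restrict c.E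

/-- the density `m √det g`. -/
noncomputable def ρ (z : Euc n) : ℝ := c.m z * √(c.g z).det

/-- the carré du champ in the chart. -/
noncomputable def Γ (f u : Y → ℝ) (z : Euc n) : ℝ :=
  dvec c.E (fun w => f (c.φ w)) z ⬝ᵥ ((c.g z)⁻¹ *ᵥ dvec c.E (fun w => u (c.φ w)) z)

theorem m_nonneg (z : Euc n) : 0 ≤ c.m z := by
  rcases c.m_one z with h | h
  · exact h.ge
  · exact zero_le_one.trans h

theorem ρ_nonneg (z : Euc n) : 0 ≤ c.ρ z := mul_nonneg (c.m_nonneg z) (Real.sqrt_nonneg _)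

theorem measurable_ρ : Measurable c.ρ :=
  c.meas_m.mul (B1Null.measurable_det c.meas_g).sqrt

variable {c}

theorem ae_diff {f : Y → ℝ} (hf : A.Lip f) :
    ∀ᵐ z ∂c.vol, DifferentiableWithinAt ℝ (fun w => f (c.φ w)) c.E z := by
  obtain ⟨C, hC⟩ := hf
  obtain ⟨L, hL⟩ := c.lip
  exact (hC.comp_lipschitzOnWith hL).ae_differentiableWithinAt c.meas_E

theorem ae_unique : ∀ᵐ z ∂c.vol, UniqueDiffWithinAt ℝ c.E z :=
  B1Density.ae_uniqueDiffWithinAt volume c.meas_E

theorem Γ_comm (f u : Y → ℝ) : ∀ᵐ z ∂c.vol, c.Γ f u z = c.Γ u f z := by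
  filter_upwards [c.posdef] with z hz
  exact dot_inv_comm hz _ _

theorem Γ_nonneg (f : Y → ℝ) : ∀ᵐ z ∂c.vol, 0 ≤ c.Γ f f z := by
  filter_upwards [c.posdef] with z hz
  exact dot_inv_nonneg hz _

theorem Γ_add {f g : Y → ℝ} (u : Y → ℝ) (hf : A.Lip f) (hg : A.Lip g) :
    ∀ᵐ z ∂c.vol, c.Γ (fun y => f y + g y) u z = c.Γ f u z + c.Γ g u z := by
  filter_upwards [ae_diff hf, ae_diff hg, ae_unique (c := c)] with z h1 h2 h3
  simp only [Γ]
  rw [dvec_add h3 h1 h2, add_dotProduct]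

theorem Γ_smul {f : Y → ℝ} (a : ℝ) (u : Y → ℝ) (hf : A.Lip f) :
    ∀ᵐ z ∂c.vol, c.Γ (fun y => a * f y) u z = a * c.Γ f u z := by
  filter_upwards [ae_diff hf, ae_unique (c := c)] with z h1 h3
  simp only [Γ]
  rw [dvec_const_mul h3 h1, smul_dotProduct, smul_eq_mul]

theorem Γ_mul {f g : Y → ℝ} (u : Y → ℝ) (hf : A.Lip f) (hg : A.Lip g) :
    ∀ᵐ z ∂c.vol, c.Γ (fun y => f y * g y) u z =
      f (c.φ z) * c.Γ g u z + g (c.φ z) * c.Γ f u z := by
  filter_upwards [ae_diff hf, ae_diff hg, ae_unique (c := c)] with z h1 h2 h3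
  simp only [Γ]
  rw [dvec_mul h3 h1 h2, add_dotProduct, smul_dotProduct, smul_dotProduct, smul_eq_mul,
    smul_eq_mul]

theorem Γ_chain {f : Y → ℝ} (u : Y → ℝ) {ψ ψ' : ℝ → ℝ} (hf : A.Lip f)
    (hψ : ∀ y, HasDerivAt ψ (ψ' (f y)) (f y)) :
    ∀ᵐ z ∂c.vol, c.Γ (fun y => ψ (f y)) u z = ψ' (f (c.φ z)) * c.Γ f u z := by
  filter_upwards [ae_diff hf, ae_unique (c := c)] with z h1 h3
  simp only [Γ]
  rw [dvec_comp h3 h1 (hψ (c.φ z)), smul_dotProduct, smul_eq_mul]

theorem grad' {f : Y → ℝ} {C : ℝ≥0} (hf : LipschitzWith C f) :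
    ∀ᵐ z ∂c.vol, ∀ v : Fin n → ℝ,
      (dvec c.E (fun w => f (c.φ w)) z ⬝ᵥ v) ^ 2 ≤ (C : ℝ) ^ 2 * (v ⬝ᵥ (c.g z *ᵥ v)) := by
  rcases eq_or_ne C 0 with rfl | hC
  · -- constant function
    have hconst : ∀ y y' : Y, f y = f y' := fun y y' => by
      have := hf.dist_le_mul y y'
      simp only [NNReal.coe_zero, zero_mul] at this
      exact dist_le_zero.1 this
    refine Eventually.of_forall fun z v => ?_
    have h0 : dvec c.E (fun w => f (c.φ w)) z = 0 := by
      funext j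
      have : (fun w => f (c.φ w)) = fun _ => f (c.φ z) := funext fun w => hconst _ _
      simp only [dvec, this, Pi.zero_apply]
      rw [fderivWithin_const_apply]
      rfl
    rw [h0, zero_dotProduct]
    simp
  · have hCpos : (0 : ℝ) < C := by exact_mod_cast pos_iff_ne_zero.2 hC
    have h1 : LipschitzWith 1 (fun y => (C : ℝ)⁻¹ * f y) := by
      refine LipschitzWith.of_dist_le_mul fun x y => ?_
      rw [Real.dist_eq, ← mul_sub, abs_mul, abs_of_pos (inv_pos.2 hCpos), ← Real.dist_eq,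
        NNReal.coe_one, one_mul, inv_mul_le_iff₀ hCpos]
      exact hf.dist_le_mul x y
    filter_upwards [c.grad _ h1, ae_diff ⟨C, hf⟩, ae_unique (c := c)] with z h2 h3 h4 v
    have h5 := h2 v
    rw [dvec_const_mul h4 h3, smul_dotProduct, smul_eq_mul, mul_pow, inv_pow,
      inv_mul_le_iff₀ (by positivity)] at h5
    exact h5

theorem Γ_bound {f : Y → ℝ} {C : ℝ≥0} (hf : LipschitzWith C f) :
    ∀ᵐ z ∂c.vol, c.Γ f f z ≤ (C : ℝ) ^ 2 := by
  filter_upwards [grad' hf, c.posdef] with z h1 h2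
  exact dot_inv_self_le h2 (sq_nonneg _) h1

theorem aemeasurable_dvec {f : Y → ℝ} (hf : A.Lip f) (j : Fin n) :
    AEMeasurable (fun z => dvec c.E (fun w => f (c.φ w)) z j) c.vol := by
  obtain ⟨C, hC⟩ := hf
  obtain ⟨L, hL⟩ := c.lip
  obtain ⟨U, hU1, hU2⟩ := (hC.comp_lipschitzOnWith hL).extend_real
  refine ⟨fun z => fderiv ℝ U z (EuclideanSpace.single j 1),
    measurable_fderiv_apply_const ℝ U _, ?_⟩
  filter_upwards [B1Density.ae_fderivWithin_eq_of_lipschitz volume c.meas_E hU2 hU1] with z hz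
  have hz' : fderivWithin ℝ (fun w => f (c.φ w)) c.E z = fderiv ℝ U z := hz
  simp only [dvec, hz']

theorem aemeasurable_Γ {f u : Y → ℝ} (hf : A.Lip f) (hu : A.Lip u) :
    AEMeasurable (c.Γ f u) c.vol := by
  have h : c.Γ f u = fun z => ∑ i, dvec c.E (fun w => f (c.φ w)) z i *
      ∑ j, (c.g z)⁻¹ i j * dvec c.E (fun w => u (c.φ w)) z j := by
    funext z
    simp only [Γ, dotProduct, mulVec]
  rw [h]
  refine Finset.aemeasurable_fun_sum _ fun i _ => (aemeasurable_dvec hf i).mul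
    (Finset.aemeasurable_fun_sum _ fun j _ => ?_)
  exact (measurable_inv c.meas_g i j).aemeasurable.mul (aemeasurable_dvec hu j)

end Chart

/-! ### image measures of charts -/

section image

variable [MeasurableSpace Y] [BorelSpace Y] (c : Chart n Y) {ν : Measure (Euc n)}

omit [MeasurableSpace Y] [BorelSpace Y] in
theorem Chart.continuousOn : ContinuousOn c.φ c.E := by
  obtain ⟨L, hL⟩ := c.lip
  exact hL.continuousOn

theorem Chart.measurableEmbedding : MeasurableEmbedding (c.E.domRestrict c.φ) :=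
  c.continuousOn.measurableEmbedding c.meas_E c.inj

theorem Chart.aemeasurable (hν : ν c.Eᶜ = 0) : AEMeasurable c.φ ν := by
  have h := c.continuousOn.aemeasurable (μ := ν) c.meas_E
  rwa [Measure.restrict_eq_self_of_ae_mem (show ∀ᵐ z ∂ν, z ∈ c.E from hν)] at h

theorem Chart.map_eq (hν : ν c.Eᶜ = 0) :
    ν.map c.φ = (ν.comap (Subtype.val : c.E → Euc n)).map (c.E.domRestrict c.φ) := by
  have hrest : ν.restrict c.E = ν :=
    Measure.restrict_eq_self_of_ae_mem (show ∀ᵐ z ∂ν, z ∈ c.E from hν)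
  have h1 : (ν.comap (Subtype.val : c.E → Euc n)).map Subtype.val = ν := by
    rw [map_comap_subtype_coe c.meas_E, hrest]
  have h2 : AEMeasurable c.φ ((ν.comap (Subtype.val : c.E → Euc n)).map Subtype.val) := by
    rw [h1]; exact c.aemeasurable hν
  conv_lhs => rw [← h1]
  rw [AEMeasurable.map_map_of_aemeasurable h2 measurable_subtype_coe.aemeasurable]
  rfl

theorem Chart.ae_map_iff (hν : ν c.Eᶜ = 0) {P : Y → Prop} :
    (∀ᵐ y ∂(ν.map c.φ), P y) ↔ ∀ᵐ z ∂ν, P (c.φ z) := by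
  have hrest : ν.restrict c.E = ν :=
    Measure.restrict_eq_self_of_ae_mem (show ∀ᵐ z ∂ν, z ∈ c.E from hν)
  have h1 : (ν.comap (Subtype.val : c.E → Euc n)).map Subtype.val = ν := by
    rw [map_comap_subtype_coe c.meas_E, hrest]
  rw [c.map_eq hν, c.measurableEmbedding.ae_map_iff]
  conv_rhs => rw [← h1]
  rw [(MeasurableEmbedding.subtype_coe c.meas_E).ae_map_iff]
  rfl

theorem Chart.aesm_map_iff (hν : ν c.Eᶜ = 0) {F : Y → ℝ} :
    AEStronglyMeasurable F (ν.map c.φ) ↔ AEStronglyMeasurable (fun z => F (c.φ z)) ν := by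
  have hrest : ν.restrict c.E = ν :=
    Measure.restrict_eq_self_of_ae_mem (show ∀ᵐ z ∂ν, z ∈ c.E from hν)
  have h1 : (ν.comap (Subtype.val : c.E → Euc n)).map Subtype.val = ν := by
    rw [map_comap_subtype_coe c.meas_E, hrest]
  rw [c.map_eq hν, c.measurableEmbedding.aestronglyMeasurable_map_iff]
  conv_rhs => rw [← h1]
  rw [(MeasurableEmbedding.subtype_coe c.meas_E).aestronglyMeasurable_map_iff]
  rfl

/-- the weighted volume of a chart. -/
noncomputable def Chart.wvol : Measure (Euc n) := c.vol.withDensity fun z => ENNReal.ofReal (c.ρ z)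

omit [MeasurableSpace Y] [BorelSpace Y] in
theorem Chart.wvol_compl : c.wvol c.Eᶜ = 0 :=
  withDensity_absolutelyContinuous _ _ (by
    rw [Chart.vol, Measure.restrict_apply c.meas_E.compl]; simp)

omit [MeasurableSpace Y] [BorelSpace Y] in
theorem Chart.ae_wvol_iff {P : Euc n → Prop} :
    (∀ᵐ z ∂c.wvol, P z) ↔ ∀ᵐ z ∂c.vol, c.ρ z ≠ 0 → P z := by
  rw [Chart.wvol, ae_withDensity_iff c.measurable_ρ.ennreal_ofReal]
  refine ⟨fun h => h.mono fun z hz h0 => hz ?_, fun h => h.mono fun z hz h0 => hz ?_⟩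
  · rw [Ne, ENNReal.ofReal_eq_zero, not_le]
    exact lt_of_le_of_ne (c.ρ_nonneg z) (Ne.symm h0)
  · intro h1
    exact h0 (by rw [h1, ENNReal.ofReal_zero])

omit [MeasurableSpace Y] [BorelSpace Y] in
theorem Chart.ae_wvol_of {P : Euc n → Prop} (h : ∀ᵐ z ∂c.vol, P z) : ∀ᵐ z ∂c.wvol, P z :=
  c.ae_wvol_iff.2 (h.mono fun _ hz _ => hz)

end image

end Crest.Agent.R241.B5b
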