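import Crest.Agent.R241.B5b

/-!
# R241, block B5b, part 2: density of the mass measure (`dens` of `A.PreData`)
-/

set_option autoImplicit false

open MeasureTheory Measure Filter Set Topology Matrix
open scoped NNReal ENNReal MatrixOrder ComplexOrder

universe u

namespace Crest.Agent.R241.B5b

open Crest.GeometryTopology.Submanifold (Euc)

variable {n : ℕ} {Y : Type u} [MetricSpace Y]

/-! ### ellipsoids -/

/-- the linear map of a matrix -/
noncomputable def mlin (B : Matrix (Fin n) (Fin n) ℝ) : Euc n →L[ℝ] Euc n :=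
  LinearMap.toContinuousLinearMap (Matrix.toEuclideanLin B)

theorem mlin_apply (B : Matrix (Fin n) (Fin n) ℝ) (v : Euc n) :
    (mlin B v).ofLp = B *ᵥ v.ofLp := by
  simp [mlin, Matrix.toEuclideanLin]

theorem mlin_det (B : Matrix (Fin n) (Fin n) ℝ) : (mlin B).det = B.det := by
  refine B1Null.det_eq _ _ fun i j => ?_
  have h := congrFun (mlin_apply B (EuclideanSpace.single i 1)) j
  rw [h]
  simp [mulVec, dotProduct, PiLp.single_apply]

theorem mlin_det' (B : Matrix (Fin n) (Fin n) ℝ) :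
    LinearMap.det ((mlin B : Euc n →L[ℝ] Euc n) : Euc n →ₗ[ℝ] Euc n) = B.det := mlin_det B

theorem mlin_norm_sq {g B : Matrix (Fin n) (Fin n) ℝ} (hB : g = Bᵀ * B) (v : Euc n) :
    ‖mlin B v‖ ^ 2 = v.ofLp ⬝ᵥ (g *ᵥ v.ofLp) := by
  rw [EuclideanSpace.norm_sq_eq]
  have h1 : ∑ i, ‖(mlin B v) i‖ ^ 2 = (B *ᵥ v.ofLp) ⬝ᵥ (B *ᵥ v.ofLp) := by
    rw [← mlin_apply]
    simp only [dotProduct, Real.norm_eq_abs, sq_abs]
    exact Finset.sum_congr rfl fun i _ => sq _
  rw [h1, hB, ← mulVec_mulVec, dotProduct_mulVec v.ofLp, vecMul_transpose]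

/-- square root of a positive definite matrix. -/
theorem exists_sqrt {g : Matrix (Fin n) (Fin n) ℝ} (hg : g.PosDef) :
    ∃ B : Matrix (Fin n) (Fin n) ℝ, g = Bᵀ * B ∧ |B.det| = √g.det ∧ B.det ≠ 0 := by
  obtain ⟨B, hB⟩ := CStarAlgebra.nonneg_iff_eq_star_mul_self.mp hg.posSemidef.nonneg
  rw [star_eq_conjTranspose, conjTranspose_eq_transpose_of_trivial] at hB
  have hd : g.det = B.det ^ 2 := by
    rw [hB, det_mul, det_transpose, sq]
  refine ⟨B, hB, ?_, ?_⟩
  · rw [hd, Real.sqrt_sq_eq_abs]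
  · intro h0
    have := hg.det_pos
    rw [hd, h0] at this
    simp at this

theorem volume_ellipsoid {g : Matrix (Fin n) (Fin n) ℝ} (hg : g.PosDef) (z : Euc n) {r : ℝ}
    (hr : 0 < r) :
    volume {w : Euc n | (w - z).ofLp ⬝ᵥ (g *ᵥ (w - z).ofLp) < r ^ 2} =
      ENNReal.ofReal (r ^ n * A.omegaBall n / √g.det) := by
  obtain ⟨B, hB, hBd, hB0⟩ := exists_sqrt hg
  have h1 : {w : Euc n | (w - z).ofLp ⬝ᵥ (g *ᵥ (w - z).ofLp) < r ^ 2} =
      (fun w => w - z) ⁻¹' ((mlin B) ⁻¹' Metric.ball 0 r) := by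
    ext w
    simp only [mem_ofPred_eq, mem_preimage, mem_ball_zero_iff]
    rw [← mlin_norm_sq hB]
    exact sq_lt_sq₀ (norm_nonneg _) hr.le
  have h1' : (fun w : Euc n => w - z) = fun w => w + (-z) := by
    funext w; exact sub_eq_add_neg w z
  rw [h1, h1', measure_preimage_add_right]
  have h2 := Measure.addHaar_preimage_continuousLinearMap (volume : Measure (Euc n))
    (f := mlin B) (by rw [mlin_det']; exact hB0) (Metric.ball 0 r)
  rw [h2, mlin_det', Measure.addHaar_ball_of_pos _ _ hr, finrank_euclideanSpace_fin, abs_inv, hBd,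
    A.omegaBall]
  rw [ENNReal.ofReal_div_of_pos (by rw [← hBd]; exact abs_pos.2 hB0),
    ENNReal.ofReal_mul (by positivity), ENNReal.ofReal_toReal measure_ball_lt_top.ne,
    div_eq_mul_inv, ENNReal.ofReal_inv_of_pos (by rw [← hBd]; exact abs_pos.2 hB0)]
  ring

/-- lower bound of a positive definite form -/
theorem exists_lower {g : Matrix (Fin n) (Fin n) ℝ} (hg : g.PosDef) :
    ∃ l > (0 : ℝ), ∀ v : Euc n, l * ‖v‖ ^ 2 ≤ v.ofLp ⬝ᵥ (g *ᵥ v.ofLp) := by
  obtain ⟨B, hB, hBd, hB0⟩ := exists_sqrt hg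
  have hu : IsUnit B.det := hB0.isUnit
  set D := mlin B⁻¹ with hD
  refine ⟨(‖D‖ ^ 2 + 1)⁻¹, by positivity, fun v => ?_⟩
  rw [← mlin_norm_sq hB, inv_mul_le_iff₀ (by positivity)]
  have h1 : D (mlin B v) = v := by
    have : (D (mlin B v)).ofLp = v.ofLp := by
      rw [hD, mlin_apply, mlin_apply, mulVec_mulVec, nonsing_inv_mul _ hu, one_mulVec]
    exact WithLp.ofLp_injective 2 this
  have h2 : ‖v‖ ≤ ‖D‖ * ‖mlin B v‖ := by
    conv_lhs => rw [← h1]
    exact D.le_opNorm _
  have h3 : ‖v‖ ^ 2 ≤ ‖D‖ ^ 2 * ‖mlin B v‖ ^ 2 := by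
    rw [← mul_pow]
    exact pow_le_pow_left₀ (norm_nonneg _) h2 2
  nlinarith [sq_nonneg ‖mlin B v‖]

/-- near `0`, `zk k s ≤ (1+η) s²/2` -/
theorem exists_zk_le_near (k : ℝ) {η : ℝ} (hη : 0 < η) :
    ∃ R > (0 : ℝ), ∀ s ∈ Icc (0 : ℝ) R, A.zk k s ≤ (1 + η) * (s ^ 2 / 2) := by
  -- `snk` has derivative `1 + k² zk`, which is close to `1`
  have hcont : Continuous fun s : ℝ => 1 + k ^ 2 * A.zk k s :=
    continuous_const.add (continuous_const.mul (A.continuous_zk k))
  have h0 : (1 : ℝ) + k ^ 2 * A.zk k 0 < 1 + η := by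
    have : A.zk k 0 = 0 := A.zk_eq_zero_iff.2 rfl
    rw [this]; linarith
  have hev : ∀ᶠ s in 𝓝 (0 : ℝ), 1 + k ^ 2 * A.zk k s < 1 + η :=
    hcont.continuousAt.eventually_lt continuousAt_const h0
  obtain ⟨R, hR, hRs⟩ := Metric.eventually_nhds_iff.1 hev
  refine ⟨R / 2, by positivity, fun r hr => ?_⟩
  have hM : ∀ x ∈ Icc (0 : ℝ) (R / 2), 1 + k ^ 2 * A.zk k x ≤ 1 + η := fun x hx => by
    refine (hRs ?_).le
    rw [Real.dist_eq, sub_zero, abs_of_nonneg hx.1]
    linarith [hx.2]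
  set M := 1 + η with hMdef
  have hs : ∀ s ∈ Icc (0 : ℝ) (R / 2), A.snk k s ≤ M * s := by
    intro s hs
    have hm : MonotoneOn (fun r => M * r - A.snk k r) (Icc 0 (R / 2)) := by
      apply monotoneOn_of_deriv_nonneg (convex_Icc 0 (R / 2))
      · exact (((continuous_const.mul continuous_id)).sub (A.continuous_snk k)).continuousOn
      · exact ((differentiable_const _).mul differentiable_id |>.sub
          (A.differentiable_snk k)).differentiableOn
      · intro x hx
        have hx' := interior_subset hx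
        have h1 : HasDerivAt (fun r => M * r - A.snk k r) (M * 1 - (1 + k ^ 2 * A.zk k x)) x :=
          ((hasDerivAt_id x).const_mul M).sub (A.hasDerivAt_snk k x)
        rw [h1.deriv]
        linarith [hM x hx']
    have := hm (left_mem_Icc.2 (hs.1.trans hs.2)) hs hs.1
    simp at this
    linarith
  have hm : MonotoneOn (fun r => M * (r ^ 2 / 2) - A.zk k r) (Icc 0 (R / 2)) := by
    apply monotoneOn_of_deriv_nonneg (convex_Icc 0 (R / 2))
    · exact (Continuous.sub (by fun_prop) (A.continuous_zk k)).continuousOn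
    · exact (Differentiable.sub (by fun_prop) (A.differentiable_zk k)).differentiableOn
    · intro x hx
      have hx' := interior_subset hx
      have h1 : HasDerivAt (fun r => M * (r ^ 2 / 2) - A.zk k r) (M * x - A.snk k x) x := by
        have h2 : HasDerivAt (fun r : ℝ => M * (r ^ 2 / 2)) (M * (2 * x ^ (2 - 1) * 1 / 2)) x :=
          (((hasDerivAt_id' x).pow 2).div_const 2).const_mul M
        exact (h2.sub (A.hasDerivAt_zk k x)).congr_deriv (by norm_num)
      rw [h1.deriv]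
      linarith [hs x hx']
  have := hm (left_mem_Icc.2 (hr.1.trans hr.2)) hr hr.1
  simp at this
  linarith

/-- the sublevel set contains an ellipsoid intersected with the chart. -/
theorem exists_ellipsoid_subset (c : Chart n Y) (k : ℝ) {z : Euc n}
    (hpd : (c.g z).PosDef)
    (hmd : ∀ ε > (0 : ℝ), ∃ δ > (0 : ℝ), ∀ w ∈ c.E, ‖w - z‖ < δ → dist (c.φ w) (c.φ z) ^ 2 ≤
      (w - z).ofLp ⬝ᵥ (c.g z *ᵥ (w - z).ofLp) + ε * ‖w - z‖ ^ 2) {η : ℝ} (hη : 0 < η) :
    ∀ᶠ r in 𝓝[>] (0 : ℝ), ∀ w ∈ c.E,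
      (w - z).ofLp ⬝ᵥ (c.g z *ᵥ (w - z).ofLp) < ((1 + η)⁻¹ * r) ^ 2 →
      A.zk k (dist (c.φ z) (c.φ w)) < r ^ 2 / 2 := by
  obtain ⟨l, hl, hlow⟩ := exists_lower hpd
  obtain ⟨δ, hδ, hδ'⟩ := hmd (l * η) (by positivity)
  obtain ⟨R, hR, hR'⟩ := exists_zk_le_near k hη
  have e1 : ∀ᶠ r in 𝓝[>] (0 : ℝ), r < δ * √l := by
    refine eventually_nhdsWithin_of_eventually_nhds (eventually_lt_nhds (by positivity))
  have e2 : ∀ᶠ r in 𝓝[>] (0 : ℝ), r < R := by
    refine eventually_nhdsWithin_of_eventually_nhds (eventually_lt_nhds hR)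
  filter_upwards [e1, e2, self_mem_nhdsWithin] with r h1 h2 h3 w hw hq
  have hr : (0 : ℝ) < r := h3
  set q := (w - z).ofLp ⬝ᵥ (c.g z *ᵥ (w - z).ofLp) with hqdef
  have hlw := hlow (w - z)
  rw [← hqdef] at hlw
  have ha1 : (1 + η)⁻¹ ≤ 1 := inv_le_one_of_one_le₀ (by linarith)
  have ha0 : 0 < (1 + η)⁻¹ := by positivity
  have har : ((1 + η)⁻¹ * r) ^ 2 ≤ r ^ 2 := by
    apply pow_le_pow_left₀ (by positivity)
    nlinarith
  have hn : ‖w - z‖ < δ := by
    have h4 : l * ‖w - z‖ ^ 2 < (δ * √l) ^ 2 := by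
      calc l * ‖w - z‖ ^ 2 ≤ q := hlw
        _ < ((1 + η)⁻¹ * r) ^ 2 := hq
        _ ≤ r ^ 2 := har
        _ < (δ * √l) ^ 2 := pow_lt_pow_left₀ h1 hr.le two_ne_zero
    rw [mul_pow, Real.sq_sqrt hl.le, mul_comm] at h4
    have h5 : ‖w - z‖ ^ 2 < δ ^ 2 := lt_of_mul_lt_mul_right h4 hl.le
    exact lt_of_pow_lt_pow_left₀ 2 hδ.le h5
  have hd := hδ' w hw hn
  rw [← hqdef] at hd
  have hd2 : dist (c.φ z) (c.φ w) ^ 2 ≤ (1 + η) * q := by
    rw [dist_comm]
    nlinarith
  have hη1 : 0 < 1 + η := by positivity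
  have hq2 : (1 + η) ^ 2 * q < r ^ 2 := by
    have : (1 + η) ^ 2 * q < (1 + η) ^ 2 * ((1 + η)⁻¹ * r) ^ 2 :=
      mul_lt_mul_of_pos_left hq (by positivity)
    calc (1 + η) ^ 2 * q < (1 + η) ^ 2 * ((1 + η)⁻¹ * r) ^ 2 := this
      _ = r ^ 2 := by field_simp
  have hq0 : 0 ≤ q := le_trans (by positivity) hlw
  have hdR : dist (c.φ z) (c.φ w) ∈ Icc (0 : ℝ) R := by
    refine ⟨dist_nonneg, ?_⟩
    have h6 : dist (c.φ z) (c.φ w) ^ 2 ≤ r ^ 2 := by
      nlinarith
    have h7 : dist (c.φ z) (c.φ w) ≤ r := le_of_sq_le_sq h6 hr.le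
    linarith
  have hz := hR' _ hdR
  calc A.zk k (dist (c.φ z) (c.φ w)) ≤ (1 + η) * (dist (c.φ z) (c.φ w) ^ 2 / 2) := hz
    _ ≤ (1 + η) * ((1 + η) * q / 2) := by gcongr
    _ = (1 + η) ^ 2 * q / 2 := by ring
    _ < r ^ 2 / 2 := by linarith

/-- the density of a chart on `ℝ^n` (zero off `E`). -/
noncomputable def Chart.F (c : Chart n Y) : Euc n → ℝ := c.E.indicator c.ρ

theorem Chart.F_nonneg (c : Chart n Y) (w : Euc n) : 0 ≤ c.F w :=
  indicator_nonneg (fun z _ => c.ρ_nonneg z) w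

theorem Chart.integrable_F (c : Chart n Y) : Integrable c.F volume :=
  (integrable_indicator_iff c.meas_E).2 c.integ

/-- Lebesgue differentiation, in ellipsoid form. -/
theorem ae_ellipsoid_integral (c : Chart n Y) : ∀ᵐ z ∂(volume : Measure (Euc n)),
    (c.g z).PosDef → √(c.g z).det ≤ c.F z → ∀ a : ℝ, 0 < a → ∀ ε : ℝ, 0 < ε →
      ∀ᶠ r in 𝓝[>] (0 : ℝ), (a ^ n - ε) * A.omegaBall n * r ^ n ≤
        ∫ w in {w : Euc n | (w - z).ofLp ⬝ᵥ (c.g z *ᵥ (w - z).ofLp) < (a * r) ^ 2}, c.F w := by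
  filter_upwards [IsUnifLocDoublingMeasure.ae_tendsto_average_norm_sub (μ := volume)
    c.integrable_F.locallyIntegrable 1] with z hz hpd hFz a ha ε hε
  obtain ⟨l, hl, hlow⟩ := exists_lower hpd
  have hom : 0 ≤ A.omegaBall n := ENNReal.toReal_nonneg
  have hsd : 0 < √(c.g z).det := Real.sqrt_pos.2 hpd.det_pos
  set s : ℝ := a / √l with hs
  have hspos : 0 < s := by positivity
  have htend : Tendsto (fun r : ℝ => s * r) (𝓝[>] 0) (𝓝[>] 0) := by
    refine tendsto_nhdsWithin_iff.2 ⟨?_, ?_⟩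
    · have : Tendsto (fun r : ℝ => s * r) (𝓝 0) (𝓝 (s * 0)) := (continuous_const_mul s).tendsto 0
      rw [mul_zero] at this
      exact this.mono_left nhdsWithin_le_nhds
    · filter_upwards [self_mem_nhdsWithin] with r hr
      exact mul_pos hspos hr
  have h1 := hz (l := 𝓝[>] (0 : ℝ)) (fun _ => z) (fun r => s * r) htend
    (by
      filter_upwards [self_mem_nhdsWithin] with r hr
      have : (0 : ℝ) < r := hr
      exact Metric.mem_closedBall_self (by positivity))
  set ε' : ℝ := ε / s ^ n with hε'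
  have hε'pos : 0 < ε' := by positivity
  filter_upwards [h1.eventually (gt_mem_nhds hε'pos), self_mem_nhdsWithin] with r hr1 hr
  have hr0 : (0 : ℝ) < r := hr
  have har : 0 < a * r := mul_pos ha hr0
  set S : Set (Euc n) := {w : Euc n | (w - z).ofLp ⬝ᵥ (c.g z *ᵥ (w - z).ofLp) < (a * r) ^ 2}
    with hS
  have hSmeas : MeasurableSet S := by
    have hc : Continuous fun w : Euc n => (w - z).ofLp ⬝ᵥ (c.g z *ᵥ (w - z).ofLp) := by
      have : (fun w : Euc n => (w - z).ofLp ⬝ᵥ (c.g z *ᵥ (w - z).ofLp)) =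
          fun w : Euc n => ∑ i, (w i - z i) * ∑ j, c.g z i j * (w j - z j) := by
        funext w
        simp [dotProduct, mulVec]
      rw [this]
      fun_prop
    exact (isOpen_lt hc continuous_const).measurableSet
  have hSsub : S ⊆ Metric.closedBall z (s * r) := by
    intro w hw
    rw [Metric.mem_closedBall, dist_eq_norm]
    have h2 := hlow (w - z)
    have h3 : l * ‖w - z‖ ^ 2 ≤ (a * r) ^ 2 := h2.trans hw.le
    have h4 : ‖w - z‖ ^ 2 ≤ (s * r) ^ 2 := by
      have e : (s * r) ^ 2 = (a * r) ^ 2 / l := by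
        rw [hs, mul_pow, div_pow, Real.sq_sqrt hl.le, mul_pow]; ring
      rw [e, le_div_iff₀ hl, mul_comm]
      exact h3
    exact le_of_sq_le_sq h4 (by positivity)
  have hvolS : volume.real S = (a * r) ^ n * A.omegaBall n / √(c.g z).det := by
    rw [Measure.real, hS, volume_ellipsoid hpd z har, ENNReal.toReal_ofReal (by positivity)]
  have hfin : volume S ≠ ∞ := (measure_mono hSsub).trans_lt measure_closedBall_lt_top |>.ne
  have hFi : IntegrableOn c.F S := c.integrable_F.integrableOn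
  have hball : volume.real (Metric.closedBall z (s * r)) = (s * r) ^ n * A.omegaBall n := by
    have := Measure.addHaar_closedBall (volume : Measure (Euc n)) z (r := s * r) (by positivity)
    rw [Measure.real, this, finrank_euclideanSpace_fin, ENNReal.toReal_mul,
      ENNReal.toReal_ofReal (by positivity), A.omegaBall]
  have hint : ∫ w in Metric.closedBall z (s * r), ‖c.F w - c.F z‖ ≤
      ε' * ((s * r) ^ n * A.omegaBall n) := by
    have h5 : (⨍ w in Metric.closedBall z (s * r), ‖c.F w - c.F z‖) < ε' := hr1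
    rw [setAverage_eq, smul_eq_mul, hball] at h5
    have hpos : 0 ≤ (s * r) ^ n * A.omegaBall n := by positivity
    rcases hpos.eq_or_lt with h0 | h0
    · -- the ball has measure zero: the integral vanishes
      have hnull : volume (Metric.closedBall z (s * r)) = 0 := by
        have : volume.real (Metric.closedBall z (s * r)) = 0 := by rw [hball, ← h0]
        rwa [Measure.real, ENNReal.toReal_eq_zero_iff,
          or_iff_left measure_closedBall_lt_top.ne] at this
      rw [Measure.restrict_eq_zero.2 hnull, ← h0]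
      simp
    · rw [inv_mul_lt_iff₀ h0] at h5
      linarith
  have hdiff : ∫ w in S, ‖c.F w - c.F z‖ ≤ ε' * ((s * r) ^ n * A.omegaBall n) := by
    refine le_trans (setIntegral_mono_set ?_ (Eventually.of_forall fun w => norm_nonneg _)
      (Eventually.of_forall hSsub)) hint
    exact (c.integrable_F.integrableOn.sub
      (integrableOn_const (measure_closedBall_lt_top.ne))).norm
  have hlowint : c.F z * volume.real S - ∫ w in S, ‖c.F w - c.F z‖ ≤ ∫ w in S, c.F w := by
    have hci : IntegrableOn (fun _ : Euc n => c.F z) S := integrableOn_const hfin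
    have hcn : IntegrableOn (fun w : Euc n => ‖c.F w - c.F z‖) S := (hFi.sub hci).norm
    have e1 : c.F z * volume.real S = ∫ w in S, c.F z := by
      rw [setIntegral_const, smul_eq_mul, mul_comm]
    rw [e1, ← integral_sub hci hcn]
    refine integral_mono (hci.sub hcn) hFi fun w => ?_
    · have := neg_abs_le (c.F w - c.F z)
      rw [Real.norm_eq_abs]
      linarith
  have hmain : (a * r) ^ n * A.omegaBall n ≤ c.F z * volume.real S := by
    rw [hvolS, mul_div_assoc', le_div_iff₀ hsd, mul_comm]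
    exact mul_le_mul_of_nonneg_right hFz (by positivity)
  have hee : ε' * ((s * r) ^ n * A.omegaBall n) = ε * A.omegaBall n * r ^ n := by
    rw [hε', mul_pow]
    field_simp
  calc (a ^ n - ε) * A.omegaBall n * r ^ n
      = (a * r) ^ n * A.omegaBall n - ε * A.omegaBall n * r ^ n := by rw [mul_pow]; ring
    _ ≤ c.F z * volume.real S - ∫ w in S, ‖c.F w - c.F z‖ := by
        rw [← hee]; linarith
    _ ≤ ∫ w in S, c.F w := hlowint

/-- **DENS** in a chart. -/
theorem ae_dens (c : Chart n Y) [MeasurableSpace Y] [BorelSpace Y] (k : ℝ) :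
    ∀ᵐ z ∂c.vol, c.ρ z ≠ 0 → ∀ θ : ℝ, θ < 1 → ∀ᶠ r in 𝓝[>] (0 : ℝ),
      ENNReal.ofReal (θ * A.omegaBall n * r ^ n) ≤
        (c.wvol.map c.φ) {y' | A.zk k (dist (c.φ z) y') < r ^ 2 / 2} := by
  filter_upwards [ae_restrict_of_ae (ae_ellipsoid_integral c), c.posdef, c.md,
    ae_restrict_mem c.meas_E] with z h1 hpd hmd hzE hρ θ hθ
  have hm : 1 ≤ c.m z := by
    rcases c.m_one z with h | h
    · exact absurd (by simp [Chart.ρ, h]) hρ
    · exact h
  have hFz : √(c.g z).det ≤ c.F z := by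
    rw [Chart.F, indicator_of_mem hzE, Chart.ρ]
    exact le_mul_of_one_le_left (Real.sqrt_nonneg _) hm
  have hom : 0 ≤ A.omegaBall n := ENNReal.toReal_nonneg
  -- choose `η`
  have hcont : ContinuousAt (fun η : ℝ => ((1 + η)⁻¹) ^ n) 0 := by
    refine ContinuousAt.pow (ContinuousAt.inv₀ (by fun_prop) (by norm_num)) n
  have hlt : θ < ((1 + (0 : ℝ))⁻¹) ^ n := by simpa using hθ
  obtain ⟨δ, hδ, hδ'⟩ := Metric.eventually_nhds_iff.1 (hcont.eventually (lt_mem_nhds hlt))
  have hη : (0 : ℝ) < δ / 2 := by positivity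
  have hθη : θ < ((1 + δ / 2)⁻¹) ^ n := hδ' (by
    rw [Real.dist_eq, sub_zero, abs_of_pos hη]; linarith)
  set η := δ / 2 with hηdef
  set a : ℝ := (1 + η)⁻¹ with ha
  have ha0 : 0 < a := by positivity
  filter_upwards [h1 hpd hFz a ha0 (a ^ n - θ) (by linarith),
    exists_ellipsoid_subset c k hpd hmd hη, self_mem_nhdsWithin] with r hr1 hr2 hr
  have hr0 : (0 : ℝ) < r := hr
  set T : Set Y := {y' | A.zk k (dist (c.φ z) y') < r ^ 2 / 2} with hT
  set S : Set (Euc n) := {w : Euc n | (w - z).ofLp ⬝ᵥ (c.g z *ᵥ (w - z).ofLp) < (a * r) ^ 2}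
    with hS
  have hTm : MeasurableSet T := by
    have : Continuous fun y' => A.zk k (dist (c.φ z) y') :=
      (A.continuous_zk k).comp (continuous_const.dist continuous_id)
    exact (isOpen_lt this continuous_const).measurableSet
  have hSmeas : MeasurableSet S := by
    have hc : Continuous fun w : Euc n => (w - z).ofLp ⬝ᵥ (c.g z *ᵥ (w - z).ofLp) := by
      have : (fun w : Euc n => (w - z).ofLp ⬝ᵥ (c.g z *ᵥ (w - z).ofLp)) =
          fun w : Euc n => ∑ i, (w i - z i) * ∑ j, c.g z i j * (w j - z j) := by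
        funext w
        simp [dotProduct, mulVec]
      rw [this]
      fun_prop
    exact (isOpen_lt hc continuous_const).measurableSet
  rw [Measure.map_apply_of_aemeasurable (c.aemeasurable c.wvol_compl) hTm]
  have hsub : S ∩ c.E ⊆ c.φ ⁻¹' T := fun w hw => hr2 w hw.2 hw.1
  calc ENNReal.ofReal (θ * A.omegaBall n * r ^ n)
      ≤ ENNReal.ofReal (∫ w in S, c.F w) := by
        refine ENNReal.ofReal_le_ofReal (le_trans (le_of_eq ?_) hr1)
        ring
    _ = ∫⁻ w in S, ENNReal.ofReal (c.F w) := by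
        rw [ofReal_integral_eq_lintegral_ofReal c.integrable_F.integrableOn
          (Eventually.of_forall fun w => c.F_nonneg w)]
    _ = c.wvol (S ∩ c.E) := by
        rw [Chart.wvol, withDensity_apply _ (hSmeas.inter c.meas_E), Chart.vol,
          Measure.restrict_restrict (hSmeas.inter c.meas_E), inter_assoc, inter_self,
          ← Measure.restrict_restrict hSmeas, ← lintegral_indicator hSmeas,
          ← lintegral_indicator hSmeas, ← lintegral_indicator c.meas_E]
        refine lintegral_congr fun w => ?_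
        by_cases h1 : w ∈ S <;> by_cases h2 : w ∈ c.E <;> simp [h1, h2, Chart.F]
    _ ≤ c.wvol (c.φ ⁻¹' T) := measure_mono hsub

end Crest.Agent.R241.B5b
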