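import Crest.Agent.R241.B5bDens

/-!
# R241, block B5b, part 3: `A.PreData` of a countable family of charts with disjoint images
-/

set_option autoImplicit false

open MeasureTheory Measure Filter Set Topology Matrix Function
open scoped NNReal ENNReal

universe u

namespace Crest.Agent.R241.B5b

open Crest.GeometryTopology.Submanifold (Euc)

variable {n : ℕ} {Y : Type u} [MetricSpace Y]

/-- a countable family of charts with disjoint images and finite total mass. -/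
structure Fam (n : ℕ) (Y : Type u) [MetricSpace Y] where
  c : ℕ → Chart n Y
  disj : ∀ i j, i ≠ j → Disjoint ((c i).φ '' (c i).E) ((c j).φ '' (c j).E)
  summ : Summable fun i => ∫ z in (c i).E, (c i).ρ z

namespace Fam

variable (𝒞 : Fam n Y)

open Classical in
/-- the carré du champ of a family of charts -/
noncomputable def G (f u : Y → ℝ) (y : Y) : ℝ :=
  if h : ∃ i, y ∈ (𝒞.c i).φ '' (𝒞.c i).E then
    (𝒞.c h.choose).Γ f u (invFunOn (𝒞.c h.choose).φ (𝒞.c h.choose).E y) else 0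

/-- in a chart the carré du champ is the expected one. -/
theorem G_apply (f u : Y → ℝ) {i : ℕ} {z : Euc n} (hz : z ∈ (𝒞.c i).E) :
    𝒞.G f u ((𝒞.c i).φ z) = (𝒞.c i).Γ f u z := by
  have h : ∃ j, (𝒞.c i).φ z ∈ (𝒞.c j).φ '' (𝒞.c j).E := ⟨i, mem_image_of_mem _ hz⟩
  have hi : h.choose = i := by
    by_contra hne
    exact Set.disjoint_left.1 (𝒞.disj _ _ hne) h.choose_spec (mem_image_of_mem _ hz)
  rw [G, dif_pos h, hi, (𝒞.c i).inj.leftInvOn_invFunOn hz]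

variable [MeasurableSpace Y] [BorelSpace Y]

/-- the mass measure of the family -/
noncomputable def τ : Measure Y := Measure.sum fun i => (𝒞.c i).wvol.map (𝒞.c i).φ

omit [MeasurableSpace Y] [BorelSpace Y] in
theorem wvol_univ (c : Chart n Y) : c.wvol univ = ENNReal.ofReal (∫ z in c.E, c.ρ z) := by
  rw [Chart.wvol, withDensity_apply _ MeasurableSet.univ, Measure.restrict_univ]
  exact (ofReal_integral_eq_lintegral_ofReal c.integ
    (Eventually.of_forall fun z => c.ρ_nonneg z)).symm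

omit [MeasurableSpace Y] [BorelSpace Y] in
theorem integral_nonneg' (c : Chart n Y) : 0 ≤ ∫ z in c.E, c.ρ z :=
  integral_nonneg fun z => c.ρ_nonneg z

theorem τ_univ : 𝒞.τ univ = ENNReal.ofReal (∑' i, ∫ z in (𝒞.c i).E, (𝒞.c i).ρ z) := by
  rw [τ, Measure.sum_apply _ MeasurableSet.univ,
    ENNReal.ofReal_tsum_of_nonneg (fun i => integral_nonneg' _) 𝒞.summ]
  refine tsum_congr fun i => ?_
  rw [Measure.map_apply_of_aemeasurable ((𝒞.c i).aemeasurable (𝒞.c i).wvol_compl)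
    MeasurableSet.univ, preimage_univ, wvol_univ]

/-- total mass -/
theorem τ_real_univ : 𝒞.τ.real univ = ∑' i, ∫ z in (𝒞.c i).E, (𝒞.c i).ρ z := by
  rw [Measure.real, τ_univ, ENNReal.toReal_ofReal (tsum_nonneg fun i => integral_nonneg' _)]

instance : IsFiniteMeasure 𝒞.τ := ⟨by rw [τ_univ]; exact ENNReal.ofReal_lt_top⟩

theorem ae_τ_iff {P : Y → Prop} :
    (∀ᵐ y ∂𝒞.τ, P y) ↔ ∀ i, ∀ᵐ z ∂(𝒞.c i).vol, (𝒞.c i).ρ z ≠ 0 → P ((𝒞.c i).φ z) := by
  rw [τ, Measure.ae_sum_iff]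
  refine forall_congr' fun i => ?_
  rw [(𝒞.c i).ae_map_iff (𝒞.c i).wvol_compl, (𝒞.c i).ae_wvol_iff]

theorem ae_τ_of {P : Y → Prop} (h : ∀ i, ∀ᵐ z ∂(𝒞.c i).vol, P ((𝒞.c i).φ z)) :
    ∀ᵐ y ∂𝒞.τ, P y :=
  𝒞.ae_τ_iff.2 fun i => (h i).mono fun _ hz _ => hz

/-- integration against the mass measure (nonnegative measurable functions) -/
theorem lintegral_τ {F : Y → ℝ≥0∞} (hF : Measurable F) :
    ∫⁻ y, F y ∂𝒞.τ = ∑' i, ∫⁻ z in (𝒞.c i).E,
      ENNReal.ofReal ((𝒞.c i).ρ z) * F ((𝒞.c i).φ z) := by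
  rw [τ, lintegral_sum_measure]
  refine tsum_congr fun i => ?_
  have hm := (𝒞.c i).aemeasurable (𝒞.c i).wvol_compl
  rw [lintegral_map' hF.aemeasurable hm, Chart.wvol]
  have h2 : AEMeasurable (fun z => F ((𝒞.c i).φ z)) (𝒞.c i).vol :=
    hF.comp_aemeasurable ((𝒞.c i).continuousOn.aemeasurable (𝒞.c i).meas_E)
  rw [lintegral_withDensity_eq_lintegral_mul₀
    (𝒞.c i).measurable_ρ.ennreal_ofReal.aemeasurable h2]
  rfl

omit [MeasurableSpace Y] [BorelSpace Y] in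
theorem ae_mem_G (i : ℕ) (f u : Y → ℝ) :
    ∀ᵐ z ∂(𝒞.c i).vol, 𝒞.G f u ((𝒞.c i).φ z) = (𝒞.c i).Γ f u z := by
  filter_upwards [ae_restrict_mem (𝒞.c i).meas_E] with z hz
  exact 𝒞.G_apply f u hz

theorem G_aesm {f u : Y → ℝ} (hf : A.Lip f) (hu : A.Lip u) :
    AEStronglyMeasurable (𝒞.G f u) 𝒞.τ := by
  rw [τ, aestronglyMeasurable_sum_measure_iff]
  intro i
  rw [(𝒞.c i).aesm_map_iff (𝒞.c i).wvol_compl]
  have h1 : AEMeasurable ((𝒞.c i).Γ f u) (𝒞.c i).wvol :=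
    (Chart.aemeasurable_Γ hf hu).mono_ac (withDensity_absolutelyContinuous _ _)
  refine h1.aestronglyMeasurable.congr ?_
  filter_upwards [(𝒞.c i).ae_wvol_of (𝒞.ae_mem_G i f u)] with z hz
  exact hz.symm

end Fam

/-- **The `PreData` of a family of charts.** -/
noncomputable def Fam.preData {K : Type u} [MetricSpace K] [CompactSpace K] [MeasurableSpace K]
    [BorelSpace K] (𝒞 : Fam n K) (k : ℝ) : A.PreData n k K where
  τ := 𝒞.τ
  fin := inferInstance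
  G := 𝒞.G
  G_meas f g hf hg := 𝒞.G_aesm hf hg
  G_comm f g _ _ := by
    refine 𝒞.ae_τ_of fun i => ?_
    filter_upwards [𝒞.ae_mem_G i f g, 𝒞.ae_mem_G i g f, Chart.Γ_comm (c := 𝒞.c i) f g]
      with z h1 h2 h3
    rw [h1, h2, h3]
  G_add f g u hf hg _ := by
    refine 𝒞.ae_τ_of fun i => ?_
    filter_upwards [𝒞.ae_mem_G i (fun y => f y + g y) u, 𝒞.ae_mem_G i f u, 𝒞.ae_mem_G i g u,
      Chart.Γ_add (c := 𝒞.c i) u hf hg] with z h1 h2 h3 h4
    rw [h1, h2, h3, h4]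
  G_smul a f u hf _ := by
    refine 𝒞.ae_τ_of fun i => ?_
    filter_upwards [𝒞.ae_mem_G i (fun y => a * f y) u, 𝒞.ae_mem_G i f u,
      Chart.Γ_smul (c := 𝒞.c i) a u hf] with z h1 h2 h4
    rw [h1, h2, h4]
  G_mul f g u hf hg _ := by
    refine 𝒞.ae_τ_of fun i => ?_
    filter_upwards [𝒞.ae_mem_G i (fun y => f y * g y) u, 𝒞.ae_mem_G i f u, 𝒞.ae_mem_G i g u,
      Chart.Γ_mul (c := 𝒞.c i) u hf hg] with z h1 h2 h3 h4
    rw [h1, h2, h3, h4]
  G_chain f u ψ ψ' hf _ _ hψ _ := by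
    refine 𝒞.ae_τ_of fun i => ?_
    filter_upwards [𝒞.ae_mem_G i (fun y => ψ (f y)) u, 𝒞.ae_mem_G i f u,
      Chart.Γ_chain (c := 𝒞.c i) u hf hψ] with z h1 h2 h4
    rw [h1, h2, h4]
  G_nonneg f _ := by
    refine 𝒞.ae_τ_of fun i => ?_
    filter_upwards [𝒞.ae_mem_G i f f, Chart.Γ_nonneg (c := 𝒞.c i) f] with z h1 h2
    rw [h1]; exact h2
  G_bound f C hC := by
    refine 𝒞.ae_τ_of fun i => ?_
    filter_upwards [𝒞.ae_mem_G i f f, Chart.Γ_bound (c := 𝒞.c i) hC] with z h1 h2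
    rw [h1]; exact h2
  G_z x := by
    refine 𝒞.ae_τ_of fun i => ?_
    have hlip : LipschitzWith 1 (fun y : K => dist x y) := LipschitzWith.dist_right x
    have hl : A.Lip (fun y : K => dist x y) := ⟨1, hlip⟩
    have hψ : ∀ y : K, HasDerivAt (A.zk k) (A.snk k (dist x y)) (dist x y) := fun y =>
      A.hasDerivAt_zk k _
    filter_upwards [𝒞.ae_mem_G i (A.zd k x) (A.zd k x),
      Chart.Γ_chain (c := 𝒞.c i) (A.zd k x) hl hψ,
      Chart.Γ_chain (c := 𝒞.c i) (fun y => dist x y) hl hψ,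
      Chart.Γ_comm (c := 𝒞.c i) (fun y => dist x y) (A.zd k x),
      Chart.Γ_bound (c := 𝒞.c i) hlip] with z h1 h2 h3 h4 h5
    rw [h1]
    have e2 : (𝒞.c i).Γ (A.zd k x) (A.zd k x) z =
        A.snk k (dist x ((𝒞.c i).φ z)) * (𝒞.c i).Γ (fun y => dist x y) (A.zd k x) z := h2
    have e3 : (𝒞.c i).Γ (A.zd k x) (fun y => dist x y) z =
        A.snk k (dist x ((𝒞.c i).φ z)) *
          (𝒞.c i).Γ (fun y => dist x y) (fun y => dist x y) z := h3
    rw [e2, h4, e3]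
    have e4 := A.snk_sq k (dist x ((𝒞.c i).φ z))
    have e5 : 2 * A.zd k x ((𝒞.c i).φ z) + k ^ 2 * A.zd k x ((𝒞.c i).φ z) ^ 2 =
        A.snk k (dist x ((𝒞.c i).φ z)) ^ 2 := by
      rw [e4]; rfl
    rw [e5]
    have h6 : (𝒞.c i).Γ (fun y => dist x y) (fun y => dist x y) z ≤ 1 := by simpa using h5
    nlinarith [sq_nonneg (A.snk k (dist x ((𝒞.c i).φ z)))]
  dens := by
    refine 𝒞.ae_τ_iff.2 fun i => ?_
    filter_upwards [ae_dens (𝒞.c i) k] with z hz hρ θ hθ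
    filter_upwards [hz hρ θ hθ] with r hr
    rw [Measure.real]
    refine (ENNReal.ofReal_le_iff_le_toReal (measure_ne_top _ _)).1 (hr.trans ?_)
    exact Measure.le_sum (fun i => (𝒞.c i).wvol.map (𝒞.c i).φ) i _

@[simp] theorem Fam.preData_τ {K : Type u} [MetricSpace K] [CompactSpace K] [MeasurableSpace K]
    [BorelSpace K] (𝒞 : Fam n K) (k : ℝ) : (𝒞.preData k).τ = 𝒞.τ := rfl

@[simp] theorem Fam.preData_G {K : Type u} [MetricSpace K] [CompactSpace K] [MeasurableSpace K]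
    [BorelSpace K] (𝒞 : Fam n K) (k : ℝ) : (𝒞.preData k).G = 𝒞.G := rfl

end Crest.Agent.R241.B5b
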