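import Crest.Agent.R241.Targets

/-!
# R241, block B9: chart data consumed by the first variation (helper992)

`FVCharts T P` is the output of blocks B3/B5 (metric differential, mass formula) for a cycle `T`
with analytic data `P : A.PreData`.
-/

set_option autoImplicit false

open MeasureTheory Filter Topology Set
open scoped ENNReal NNReal

universe u

namespace Crest.Agent.R241.B9

open Crest.GeometryTopology.MetricCurrent
open Crest.GeometryTopology.Submanifold (Euc)
open Matrix

/-- the quadratic form of a matrix on `Euc n`. -/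
def qf {n : ℕ} (G : Matrix (Fin n) (Fin n) ℝ) (v : Euc n) : ℝ :=
  (fun i => v i) ⬝ᵥ (G *ᵥ fun i => v i)

/-- the partial derivatives within `E` of a scalar function. -/
noncomputable def pd {n : ℕ} (E : Set (Euc n)) (u : Euc n → ℝ) (z : Euc n) : Fin n → ℝ :=
  fun l => fderivWithin ℝ u E z (EuclideanSpace.single l 1)

/-- one-point upper metric differential: `dist (φ w) (φ z)² ≤ q (w - z) + o(|w - z|²)` as
`w → z` in `E`. -/
def UB {V X : Type*} [NormedAddCommGroup V] [PseudoMetricSpace X] (E : Set V) (φ : V → X)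
    (z : V) (q : V → ℝ) : Prop :=
  ∀ ε : ℝ, 0 < ε → ∀ᶠ w in 𝓝[E] z, dist (φ w) (φ z) ^ 2 ≤ q (w - z) + ε * ‖w - z‖ ^ 2

/-- Chart data of `T` compatible with `P`. -/
structure FVCharts {X : Type u} [MetricSpace X] [MeasurableSpace X] [BorelSpace X] {k : ℝ}
    {K : Set X} [CompactSpace K] {m : ℕ} (T : Functional X (m + 1))
    (P : A.PreData (m + 1) k K) where
  E : ℕ → Set (Euc (m + 1))
  φ : ℕ → Euc (m + 1) → X
  θ : ℕ → Euc (m + 1) → ℤ
  G : ℕ → Euc (m + 1) → Matrix (Fin (m + 1)) (Fin (m + 1)) ℝ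
  measE : ∀ i, MeasurableSet (E i)
  bddE : ∀ i, Bornology.IsBounded (E i)
  lipφ : ∀ i, ∃ L : ℝ≥0, LipschitzOnWith L (φ i) (E i)
  mapsK : ∀ i, MapsTo (φ i) (E i) K
  intθ : ∀ i, Integrable (fun z => (θ i z : ℝ)) (volume.restrict (E i))
  /-- `T` is the sum of its chart actions -/
  act : ∀ f π, IsTestPair f π →
    HasSum (fun i => chartAction (E i) (φ i) (θ i) f π) (T f π)
  measG : ∀ i a b, Measurable fun z => G i z a b
  psd : ∀ i z, (G i z).PosSemidef
  det_ne : ∀ i, ∀ᵐ z ∂(volume.restrict (E i)), (G i z).det ≠ 0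
  /-- upper half of the metric differentiability, at one point -/
  md : ∀ i, ∀ᵐ z ∂(volume.restrict (E i)), UB (E i) (φ i) z (qf (G i z))
  /-- the densities have finite total mass -/
  summ : Summable fun i => ∫ z in E i, |(θ i z : ℝ)| * √(G i z).det
  intG : ∀ i, Integrable (fun z => |(θ i z : ℝ)| * √(G i z).det) (volume.restrict (E i))
  /-- the mass measure of `P` is the push-forward of the chart densities -/
  tau_eq : P.τ.map (Subtype.val : K → X) = Measure.sum fun i =>
    ((volume.restrict (E i)).withDensity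
      fun z => ENNReal.ofReal (|(θ i z : ℝ)| * √(G i z).det)).map (φ i)
  /-- the carré du champ of `P` in the charts -/
  G_eq : ∀ i, ∀ f g : X → ℝ, A.Lip f → A.Lip g → ∀ᵐ z ∂(volume.restrict (E i)),
    ∀ hz : φ i z ∈ K, P.G (fun y : K => f y) (fun y : K => g y) ⟨φ i z, hz⟩ =
      pd (E i) (f ∘ φ i) z ⬝ᵥ ((G i z)⁻¹ *ᵥ pd (E i) (g ∘ φ i) z)

end Crest.Agent.R241.B9
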