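import Crest.Agent.R241.B5c2
import Crest.Agent.R241.B9Defs

/-!
# R241, block B5c, part 3: from a rectifiable current supported in a compact set `K` of a space with
the quadrilateral inequality to `A.PreData` and helper992's `FVCharts`.
-/

set_option autoImplicit false

open MeasureTheory Measure Filter Set Topology Matrix
open scoped NNReal ENNReal MatrixOrder

universe u

namespace Crest.Agent.R241.B5c

open Crest.GeometryTopology.Submanifold (Euc)
open Crest.GeometryTopology.MetricCurrent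
open Crest.Agent.R241.B3a Crest.Agent.R241.B3b Crest.Agent.R241.B3c

variable {X : Type u} [MetricSpace X] {n : ℕ}

/-- metric charts of the current `T` with values in `K`. -/
structure MCh (K : Set X) (T : Functional X n) where
  E : ℕ → Set (Euc n)
  φ : ℕ → Euc n → X
  θ : ℕ → Euc n → ℤ
  G : ℕ → Euc n → Matrix (Fin n) (Fin n) ℝ
  measE : ∀ i, MeasurableSet (E i)
  bddE : ∀ i, Bornology.IsBounded (E i)
  lipφ : ∀ i, ∃ L : ℝ≥0, LipschitzOnWith L (φ i) (E i)
  colip : ∀ i, ∃ C : ℝ, ∀ z ∈ E i, ∀ w ∈ E i, dist z w ≤ C * dist (φ i z) (φ i w)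
  mapsK : ∀ i, MapsTo (φ i) (E i) K
  disj : ∀ i j, i ≠ j → Disjoint (φ i '' E i) (φ j '' E j)
  intθ : ∀ i, Integrable (fun z => (θ i z : ℝ)) (volume.restrict (E i))
  act : ∀ f π, IsTestPair f π → HasSum (fun i => chartAction (E i) (φ i) (θ i) f π) (T f π)
  measG : ∀ i a b, Measurable fun z => G i z a b
  psd : ∀ i z, (G i z).PosSemidef
  snG : ∀ i, ∃ L : ℝ≥0, ∀ z, IsSN L (B3c.sn (G i z))
  md : ∀ i, ∀ᵐ z ∂(volume.restrict (E i)), IsMD (E i) (φ i) z (B3c.sn (G i z))

/-- **Existence of metric charts.** -/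
theorem exists_MCh [MeasurableSpace X] [BorelSpace X]
    (hX : ∀ a b c e : X, dist a c ^ 2 + dist b e ^ 2 ≤
      dist a b ^ 2 + dist b c ^ 2 + dist c e ^ 2 + dist e a ^ 2)
    {K : Set X} (hK : IsClosed K) {T : Functional X n} (hT : IsIntegerRectifiable T)
    (hs : IsSupportedIn K T) : Nonempty (MCh K T) := by
  obtain ⟨E, φ, θ, h1, h2, h3, h4, h5, h6, h7, h8⟩ := hT
  have hG : ∀ i, ∃ (L : ℝ≥0) (G : Euc n → Matrix (Fin n) (Fin n) ℝ),
      (∀ a b, Measurable fun z => G z a b) ∧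
      (∀ z, (G z).PosSemidef) ∧ (∀ z, IsSN L (B3c.sn (G z))) ∧
      ∀ᵐ z ∂(volume.restrict (E i)), IsMD (E i) (φ i) z (B3c.sn (G z)) := fun i => by
    obtain ⟨L, hL⟩ := h2 i
    obtain ⟨G, hG⟩ := exists_gram hX (h1 i).1 hL
    exact ⟨L, G, hG⟩
  choose L G hG1 hG2 hG3 hG4 using hG
  have hmE : ∀ i, MeasurableSet (E i ∩ φ i ⁻¹' K) := fun i => by
    obtain ⟨L, hL⟩ := h2 i
    exact measurableSet_inter_preimage (h1 i).1 hL.continuousOn hK
  refine ⟨⟨fun i => E i ∩ φ i ⁻¹' K, φ, θ, G, hmE, fun i => (h1 i).2.subset inter_subset_left,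
    fun i => ?_, fun i => ?_, fun i z hz => hz.2, fun i j hij => ?_, fun i => ?_, ?_, hG1, hG2,
    fun i => ⟨L i, hG3 i⟩, fun i => ?_⟩⟩
  · obtain ⟨L, hL⟩ := h2 i
    exact ⟨L, hL.mono inter_subset_left⟩
  · obtain ⟨C, hC⟩ := h3 i
    exact ⟨C, fun z hz w hw => hC z hz.1 w hw.1⟩
  · exact (h5 i j hij).mono (image_mono inter_subset_left) (image_mono inter_subset_left)
  · exact (h4 i).mono_measure (Measure.restrict_mono inter_subset_left le_rfl)
  · exact hasSum_restrict hK hs (fun i => (h1 i).1) h2 h4 h6 h7 h8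
  · filter_upwards [ae_restrict_of_ae_restrict_of_subset (s := E i ∩ φ i ⁻¹' K)
      inter_subset_left (hG4 i)] with z hz
    exact hz.mono inter_subset_left

namespace MCh

variable {K : Set X} {T : Functional X n} (c : MCh K T)

theorem inj (i : ℕ) : InjOn (c.φ i) (c.E i) := by
  obtain ⟨C, hC⟩ := c.colip i
  intro z hz w hw h
  have := hC z hz w hw
  rw [h, dist_self, mul_zero] at this
  exact dist_le_zero.1 this

theorem ae_good (i : ℕ) : ∀ᵐ z ∂(volume.restrict (c.E i)),
    z ∈ c.E i ∧ Dens (c.E i) z ∧ IsMD (c.E i) (c.φ i) z (B3c.sn (c.G i z)) := by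
  filter_upwards [ae_restrict_mem (c.measE i), c.md i,
    ae_restrict_of_ae (ae_dens (μ := (volume : Measure (Euc n))) (c.E i))] with z h1 h2 h3
  exact ⟨h1, h3 h1, h2⟩

theorem posDef (i : ℕ) : ∀ᵐ z ∂(volume.restrict (c.E i)), (c.G i z).PosDef := by
  obtain ⟨L, hL⟩ := c.snG i
  obtain ⟨C, hC⟩ := c.colip i
  filter_upwards [c.ae_good i] with z hz
  exact IsMD.posDef (c.psd i z) (hL z) hz.2.2 hz.1 hz.2.1 hC

theorem intG (i : ℕ) :
    Integrable (fun z => |(c.θ i z : ℝ)| * √(c.G i z).det) (volume.restrict (c.E i)) := by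
  obtain ⟨L, hL⟩ := c.snG i
  refine (c.intθ i).abs.mul_bdd (c := (L : ℝ) ^ n)
    (B1Null.measurable_det (c.measG i)).sqrt.aestronglyMeasurable
    (Eventually.of_forall fun z => ?_)
  rw [Real.norm_eq_abs, abs_of_nonneg (Real.sqrt_nonneg _)]
  exact sqrt_det_le (c.psd i z) (hL z)

/-- the mass measure of the charts. -/
noncomputable def ν [MeasurableSpace X] : Measure X := Measure.sum fun i =>
  ((volume.restrict (c.E i)).withDensity
    fun z => ENNReal.ofReal (|(c.θ i z : ℝ)| * √(c.G i z).det)).map (c.φ i)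

open Classical in
/-- the `K`-valued chart map. -/
noncomputable def φK [Nonempty K] (i : ℕ) (z : Euc n) : K :=
  if h : c.φ i z ∈ K then ⟨c.φ i z, h⟩ else Classical.arbitrary K

theorem φK_coe [Nonempty K] {i : ℕ} {z : Euc n} (hz : c.φ i z ∈ K) :
    ((c.φK i z : K) : X) = c.φ i z := by
  rw [φK, dif_pos hz]

theorem φK_eq [Nonempty K] {i : ℕ} {z : Euc n} (hz : c.φ i z ∈ K) :
    c.φK i z = ⟨c.φ i z, hz⟩ := Subtype.ext (c.φK_coe hz)

theorem dist_φK [Nonempty K] {i : ℕ} {z w : Euc n} (hz : z ∈ c.E i) (hw : w ∈ c.E i) :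
    dist (c.φK i z) (c.φK i w) = dist (c.φ i z) (c.φ i w) := by
  rw [Subtype.dist_eq, c.φK_coe (c.mapsK i hz), c.φK_coe (c.mapsK i hw)]

theorem isMD_φK [Nonempty K] {i : ℕ} {z : Euc n} {N : Euc n → ℝ}
    (h : IsMD (c.E i) (c.φ i) z N) : IsMD (c.E i) (c.φK i) z N := by
  intro ε hε
  obtain ⟨δ, hδ, h'⟩ := h ε hε
  refine ⟨δ, hδ, fun w hw w' hw' h1 h2 => ?_⟩
  rw [c.dist_φK hw hw']
  exact h' w hw w' hw' h1 h2

/-- the chart of `K`. -/
noncomputable def chart [Nonempty K] (i : ℕ) : B5b.Chart n K where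
  E := c.E i
  φ := c.φK i
  m := (exists_mult (c.intθ i)).choose
  g := c.G i
  meas_E := c.measE i
  lip := by
    obtain ⟨L, hL⟩ := c.lipφ i
    refine ⟨L, LipschitzOnWith.of_dist_le_mul fun z hz w hw => ?_⟩
    rw [c.dist_φK hz hw]
    exact hL.dist_le_mul z hz w hw
  inj := fun z hz w hw h => c.inj i hz hw (by
    rw [← c.φK_coe (c.mapsK i hz), ← c.φK_coe (c.mapsK i hw), h])
  meas_m := (exists_mult (c.intθ i)).choose_spec.1
  m_one := (exists_mult (c.intθ i)).choose_spec.2.1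
  meas_g := c.measG i
  posdef := c.posDef i
  grad f hf := by
    obtain ⟨L, hL⟩ := c.snG i
    obtain ⟨L', hL'⟩ := c.lipφ i
    have hlip : LipschitzOnWith L' (c.φK i) (c.E i) :=
      LipschitzOnWith.of_dist_le_mul fun z hz w hw => by
        rw [c.dist_φK hz hw]
        exact hL'.dist_le_mul z hz w hw
    have hdiff := (hf.comp_lipschitzOnWith hlip).ae_differentiableWithinAt (c.measE i)
      (μ := (volume : Measure (Euc n)))
    filter_upwards [c.ae_good i, hdiff] with z hz hd v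
    exact IsMD.dvec_sq_le (c.psd i z) (hL z) (c.isMD_φK hz.2.2) hz.1 hz.2.1
      hf.lipschitzOnWith hd v
  md := by
    obtain ⟨L, hL⟩ := c.snG i
    filter_upwards [c.ae_good i] with z hz ε hε
    exact IsMD.sq_le (c.psd i z) (hL z) (c.isMD_φK hz.2.2) hz.1 hε
  integ := by
    refine (c.intG i).congr ?_
    filter_upwards [(exists_mult (c.intθ i)).choose_spec.2.2] with z hz
    rw [hz]

theorem chart_ρ [Nonempty K] (i : ℕ) : ∀ᵐ z ∂(volume.restrict (c.E i)),
    (c.chart i).ρ z = |(c.θ i z : ℝ)| * √(c.G i z).det := by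
  filter_upwards [(exists_mult (c.intθ i)).choose_spec.2.2] with z hz
  change (exists_mult (c.intθ i)).choose z * √(c.G i z).det = _
  rw [hz]

/-- the family of charts of `K`. -/
noncomputable def fam [Nonempty K]
    (hsum : Summable fun i => ∫ z in c.E i, |(c.θ i z : ℝ)| * √(c.G i z).det) : B5b.Fam n K where
  c := c.chart
  disj i j hij := by
    rw [Set.disjoint_left]
    rintro _ ⟨z, hz, rfl⟩ ⟨w, hw, h⟩
    refine Set.disjoint_left.1 (c.disj i j hij) (mem_image_of_mem _ hz) ⟨w, hw, ?_⟩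
    rw [← c.φK_coe (c.mapsK i hz), ← c.φK_coe (c.mapsK j hw)]
    exact congrArg Subtype.val h
  summ := by
    refine hsum.congr fun i => ?_
    refine integral_congr_ae ?_
    filter_upwards [c.chart_ρ i] with z hz
    exact hz.symm

variable [MeasurableSpace X] [BorelSpace X]

theorem aemeasurable_φ (i : ℕ) {ν : Measure (Euc n)} (hν : ν ≪ volume.restrict (c.E i)) :
    AEMeasurable (c.φ i) ν := by
  obtain ⟨L, hL⟩ := c.lipφ i
  exact (hL.continuousOn.aemeasurable (c.measE i)).mono_ac hν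

/-- the mass measure on `K` pushes forward to the mass measure on `X`. -/
theorem map_τ [Nonempty K]
    (hsum : Summable fun i => ∫ z in c.E i, |(c.θ i z : ℝ)| * √(c.G i z).det) :
    (c.fam hsum).τ.map (Subtype.val : K → X) = c.ν := by
  rw [B5b.Fam.τ, ν]
  have hm : AEMeasurable (Subtype.val : K → X)
      (Measure.sum fun i => ((c.fam hsum).c i).wvol.map ((c.fam hsum).c i).φ) :=
    measurable_subtype_coe.aemeasurable
  rw [Measure.map_sum hm]
  congr 1
  funext i
  have h1 : AEMeasurable (c.φK i) (c.chart i).wvol := (c.chart i).aemeasurable (c.chart i).wvol_compl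
  change Measure.map Subtype.val (Measure.map (c.φK i) (c.chart i).wvol) = _
  rw [AEMeasurable.map_map_of_aemeasurable measurable_subtype_coe.aemeasurable h1]
  have h2 : (c.chart i).wvol = (volume.restrict (c.E i)).withDensity
      fun z => ENNReal.ofReal (|(c.θ i z : ℝ)| * √(c.G i z).det) := by
    refine withDensity_congr_ae ?_
    filter_upwards [c.chart_ρ i] with z hz
    rw [hz]
  rw [h2]
  refine Measure.map_congr ?_
  refine (withDensity_absolutelyContinuous _ _).ae_eq ?_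
  filter_upwards [ae_restrict_mem (c.measE i)] with z hz
  exact c.φK_coe (c.mapsK i hz)

end MCh

/-- **The `PreData` of a rectifiable current and helper992's chart data.** -/
noncomputable def MCh.fvCharts {m : ℕ} {K : Set X} [CompactSpace K] [Nonempty K]
    [MeasurableSpace X] [BorelSpace X] {T : Functional X (m + 1)} (c : MCh K T) (k : ℝ)
    (hsum : Summable fun i => ∫ z in c.E i, |(c.θ i z : ℝ)| * √(c.G i z).det) :
    B9.FVCharts T ((c.fam hsum).preData k) where
  E := c.E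
  φ := c.φ
  θ := c.θ
  G := c.G
  measE := c.measE
  bddE := c.bddE
  lipφ := c.lipφ
  mapsK := c.mapsK
  intθ := c.intθ
  act := c.act
  measG := c.measG
  psd := c.psd
  det_ne i := by
    filter_upwards [c.posDef i] with z hz
    exact hz.det_pos.ne'
  md i := by
    obtain ⟨L, hL⟩ := c.snG i
    filter_upwards [c.ae_good i] with z hz ε hε
    obtain ⟨δ, hδ, h⟩ := IsMD.sq_le (c.psd i z) (hL z) hz.2.2 hz.1 hε
    rw [eventually_nhdsWithin_iff, Metric.eventually_nhds_iff]
    refine ⟨δ, hδ, fun w hw hwE => ?_⟩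
    rw [dist_eq_norm] at hw
    exact h w hwE hw
  summ := hsum
  intG := c.intG
  tau_eq := c.map_τ hsum
  G_eq i f g _ _ := by
    filter_upwards [ae_restrict_mem (c.measE i)] with z hz hzK
    have h1 := (c.fam hsum).G_apply (fun y : K => f y) (fun y : K => g y) (i := i) hz
    have h2 : ((c.fam hsum).c i).φ z = ⟨c.φ i z, hzK⟩ := c.φK_eq hzK
    rw [h2] at h1
    have h3 : ∀ u : X → ℝ, B5b.dvec (c.E i) (fun w => u (c.φK i w : K)) z =
        B9.pd (c.E i) (u ∘ c.φ i) z := by
      intro u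
      funext l
      have h4 : EqOn (fun w => u (c.φK i w : K)) (u ∘ c.φ i) (c.E i) := fun w hw => by
        simp only [Function.comp_apply]
        rw [c.φK_coe (c.mapsK i hw)]
      simp only [B5b.dvec, B9.pd]
      rw [fderivWithin_congr h4 (h4 hz)]
    rw [← h3 f, ← h3 g]
    exact h1

end Crest.Agent.R241.B5c
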