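import Crest.Agent.R241.B1Cur
import Crest.Agent.R241.G1m

/-!
# R241, block B5c, part 1: restriction of the charts of a rectifiable current to a closed set
containing its support.
-/

set_option autoImplicit false

open MeasureTheory Measure Filter Set Topology
open scoped NNReal ENNReal

universe u

namespace Crest.Agent.R241.B5c

open Crest.GeometryTopology.Submanifold (Euc)
open Crest.GeometryTopology.MetricCurrent
open Crest.Agent.R241.G1

variable {X : Type u} [MetricSpace X] {k : ℕ}

/-- the part of `E` mapped to a closed set is measurable. -/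
theorem measurableSet_inter_preimage {E : Set (Euc k)} (hE : MeasurableSet E) {φ : Euc k → X}
    (hφ : ContinuousOn φ E) {K : Set X} (hK : IsClosed K) : MeasurableSet (E ∩ φ ⁻¹' K) := by
  obtain ⟨u, hu, hu2⟩ := (continuousOn_iff_isClosed.1 hφ) K hK
  rw [inter_comm, hu2]
  exact hu.measurableSet.inter hE

section

variable [MeasurableSpace X] [BorelSpace X]

/-- values of a current are bounded by the mass. -/
theorem abs_le_mass {T : Functional X k} (hT : IsCurrent T) {f : X → ℝ} (hf : BL f) {C : ℝ}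
    (hC : ∀ x, |f x| ≤ C) {π : Fin k → X → ℝ} {L : Fin k → ℝ≥0}
    (hL : ∀ i, LipschitzWith (L i) (π i)) : |T f π| ≤ (∏ i, (L i : ℝ)) * (C * mass T) := by
  refine le_of_forall_pos_le_add fun ε hε => ?_
  set P : ℝ := ∏ i, (L i : ℝ) with hP
  have hP0 : 0 ≤ P := Finset.prod_nonneg fun i _ => (L i).2
  rcases isEmpty_or_nonempty X with hX | ⟨⟨x₀⟩⟩
  · have h0 : T f π = 0 := by
      have := abs_le_of_controls hT (controls_ctrl hT) hf (K := L) hL
      rw [Measure.eq_zero_of_isEmpty (ctrl T)] at this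
      simp only [integral_zero_measure, mul_zero] at this
      exact abs_eq_zero.1 (le_antisymm this (abs_nonneg _))
    have hm : mass T = 0 := by
      refine le_antisymm ?_ (Real.sInf_nonneg (by rintro r ⟨μ, -, -, rfl⟩; exact ENNReal.toReal_nonneg))
      refine csInf_le ⟨0, by rintro r ⟨μ, -, -, rfl⟩; exact ENNReal.toReal_nonneg⟩
        ⟨ctrl T, inferInstance, controls_ctrl hT, ?_⟩
      rw [Measure.eq_zero_of_isEmpty (ctrl T)]
      simp
    rw [h0, hm]
    simp [hε.le]
  have hC0 : 0 ≤ C := (abs_nonneg _).trans (hC x₀)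
  -- choose a controlling measure of almost minimal mass
  obtain ⟨μ₀, hμ₀, hTμ₀⟩ := hT.finite_mass
  have hne : {r : ℝ | ∃ μ : Measure X, IsFiniteMeasure μ ∧ Controls T μ ∧
      r = (μ Set.univ).toReal}.Nonempty := ⟨_, μ₀, hμ₀, hTμ₀, rfl⟩
  obtain ⟨r, ⟨ν, hν, hTν, rfl⟩, hr⟩ :=
    exists_lt_of_csInf_lt hne (show sInf _ < mass T + ε / (P * C + 1) by
      have : 0 < ε / (P * C + 1) := by positivity
      exact lt_add_of_pos_right _ this)
  have h1 := abs_le_of_controls hT hTν hf (K := L) hL
  have h2 : ∫ x, |f x| ∂ν ≤ C * (ν univ).toReal := by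
    have h1 : ∫ x, |f x| ∂ν ≤ ∫ _x, C ∂ν :=
      integral_mono (hf.abs.integrable ν) (integrable_const _) fun x => hC x
    rw [integral_const] at h1
    simpa [Measure.real, mul_comm] using h1
  have h3 : P * (C * (ε / (P * C + 1))) ≤ ε := by
    rw [← mul_assoc, mul_div_assoc', div_le_iff₀ (by positivity)]
    nlinarith [mul_nonneg hP0 hC0]
  calc |T f π| ≤ P * ∫ x, |f x| ∂ν := h1
    _ ≤ P * (C * (ν univ).toReal) := mul_le_mul_of_nonneg_left h2 hP0
    _ ≤ P * (C * (mass T + ε / (P * C + 1))) := by gcongr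
    _ = P * (C * mass T) + P * (C * (ε / (P * C + 1))) := by ring
    _ ≤ P * (C * mass T) + ε := by linarith

/-- **Restriction of the charts to a closed set containing the support.** -/
theorem hasSum_restrict {T : Functional X k} {K : Set X} (hK : IsClosed K)
    (hs : IsSupportedIn K T) {E : ℕ → Set (Euc k)} {φ : ℕ → Euc k → X} {θ : ℕ → Euc k → ℤ}
    (hE : ∀ i, MeasurableSet (E i)) (hφ : ∀ i, ∃ L : ℝ≥0, LipschitzOnWith L (φ i) (E i))
    (hθ : ∀ i, Integrable (fun z => (θ i z : ℝ)) (volume.restrict (E i)))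
    (hcur : ∀ i, IsCurrent (chartAction (E i) (φ i) (θ i)))
    (hsum : Summable fun i => mass (chartAction (E i) (φ i) (θ i)))
    (hT : ∀ f π, IsTestPair f π → T f π = ∑' i, chartAction (E i) (φ i) (θ i) f π)
    (f : X → ℝ) (π : Fin k → X → ℝ) (h : IsTestPair f π) :
    HasSum (fun i => chartAction (E i ∩ φ i ⁻¹' K) (φ i) (θ i) f π) (T f π) := by
  classical
  obtain ⟨hf, hπ⟩ := isTestPair_iff.1 h
  choose L hL using hπ
  obtain ⟨C, hC⟩ := hf.2
  choose Lφ hLφ using hφ
  have hEK : ∀ i, MeasurableSet (E i ∩ φ i ⁻¹' K) := fun i =>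
    measurableSet_inter_preimage (hE i) (hLφ i).continuousOn hK
  -- the truncated functions
  set δ : ℕ → ℝ := fun n => 1 / ((n : ℝ) + 1) with hδ
  have hδpos : ∀ n, 0 < δ n := fun n => by positivity
  have hδlim : Tendsto δ atTop (𝓝 0) := tendsto_one_div_add_atTop_nhds_zero_nat
  set t : ℕ → X → ℝ := fun n x => ((thickenedIndicator (hδpos n) K x : ℝ≥0) : ℝ) with ht
  have ht1 : ∀ n x, x ∈ K → t n x = 1 := fun n x hx => by
    simp only [ht]
    rw [thickenedIndicator_one (hδpos n) K hx]; rfl
  have ht01 : ∀ n x, 0 ≤ t n x ∧ t n x ≤ 1 := fun n x =>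
    ⟨NNReal.coe_nonneg _, by exact_mod_cast thickenedIndicator_le_one (hδpos n) K x⟩
  have htlim : ∀ x, Tendsto (fun n => t n x) atTop (𝓝 (K.indicator (fun _ => (1 : ℝ)) x)) := by
    intro x
    have h1 := thickenedIndicator_tendsto_indicator_closure hδpos hδlim K
    rw [tendsto_pi_nhds] at h1
    have h2 := h1 x
    rw [hK.closure_eq] at h2
    have h3 : Tendsto (fun n => ((thickenedIndicator (hδpos n) K x : ℝ≥0) : ℝ)) atTop
        (𝓝 ((K.indicator (fun _ => (1 : ℝ≥0)) x : ℝ≥0) : ℝ)) :=
      (NNReal.continuous_coe.tendsto _).comp h2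
    convert h3 using 2
    by_cases hx : x ∈ K <;> simp [hx]
  set fn : ℕ → X → ℝ := fun n => f - f * t n with hfn
  have hfnBL : ∀ n, BL (fn n) := fun n => hf.sub (hf.mul (BL.thickened (hδpos n) K))
  have hfne : ∀ n x, fn n x = f x * (1 - t n x) := fun n x => by
    change f x - f x * t n x = _
    ring
  have hfn0 : ∀ n x, x ∈ K → fn n x = 0 := fun n x hx => by
    rw [hfne, ht1 n x hx]; ring
  have hfnC : ∀ n x, |fn n x| ≤ C := fun n x => by
    rw [hfne, abs_mul]
    have h1 : |1 - t n x| ≤ 1 := by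
      rw [abs_le]; constructor <;> linarith [(ht01 n x).1, (ht01 n x).2]
    calc |f x| * |1 - t n x| ≤ |f x| * 1 := by gcongr
      _ ≤ C := by rw [mul_one]; exact hC x
  set g : X → ℝ := Kᶜ.indicator f with hg
  have hfnlim : ∀ x, Tendsto (fun n => fn n x) atTop (𝓝 (g x)) := by
    intro x
    have h1 : Tendsto (fun n => f x - f x * t n x) atTop
        (𝓝 (f x - f x * K.indicator (fun _ => (1 : ℝ)) x)) :=
      tendsto_const_nhds.sub (tendsto_const_nhds.mul (htlim x))
    have e : g x = f x - f x * K.indicator (fun _ => (1 : ℝ)) x := by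
      by_cases hx : x ∈ K <;> simp [hg, hx]
    rw [e]
    exact h1
  have htp : ∀ n, IsTestPair (fn n) π := fun n => (hfnBL n).isTestPair (fun i => ⟨_, hL i⟩)
  have hTn : ∀ n, T (fn n) π = 0 := fun n => hs _ _ (htp n) (hfn0 n)
  -- the chart integrals
  set a : ℕ → (X → ℝ) → ℝ := fun i u =>
    ∫ z in E i, (θ i z : ℝ) * u (φ i z) * B1Cur.jac (E i) (φ i) π z with ha
  have hact : ∀ i u, IsTestPair u π → chartAction (E i) (φ i) (θ i) u π = a i u := fun i u hu => by
    rw [B1Cur.chartAction_eq, B1Cur.chartR_of_test hu]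
  have hint : ∀ i u, IsTestPair u π → IntegrableOn
      (fun z => (θ i z : ℝ) * u (φ i z) * B1Cur.jac (E i) (φ i) π z) (E i) := fun i u hu =>
    B1Cur.integrable_integrand (hE i) (hLφ i) (hθ i) hu
  -- bounds
  set P : ℝ := ∏ i, (L i : ℝ) with hP
  set B : ℕ → ℝ := fun i => P * (C * mass (chartAction (E i) (φ i) (θ i))) with hB
  have hBsum : Summable B := (hsum.mul_left C).mul_left P
  have hbd : ∀ i u, BL u → (∀ x, |u x| ≤ C) → |a i u| ≤ B i := fun i u hu huC => by
    rw [← hact i u (hu.isTestPair (fun i => ⟨_, hL i⟩))]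
    exact abs_le_mass (hcur i) hu huC hL
  -- pointwise limits of chart integrals
  have hintJ : ∀ i, IntegrableOn
      (fun z => (θ i z : ℝ) * B1Cur.jac (E i) (φ i) π z) (E i) := fun i => by
    have h1 := hint i (fun _ => 1) (BL.one.isTestPair (fun i => ⟨_, hL i⟩))
    simpa using h1
  have hlim : ∀ i, Tendsto (fun n => a i (fn n)) atTop (𝓝 (a i g)) := by
    intro i
    refine tendsto_integral_of_dominated_convergence
      (fun z => C * |(θ i z : ℝ) * B1Cur.jac (E i) (φ i) π z|) (fun n => ?_) ?_ (fun n => ?_) ?_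
    · exact (hint i (fn n) (htp n)).aestronglyMeasurable
    · exact (hintJ i).abs.const_mul C
    · refine Eventually.of_forall fun z => ?_
      rw [Real.norm_eq_abs]
      have e : (θ i z : ℝ) * fn n (φ i z) * B1Cur.jac (E i) (φ i) π z =
          fn n (φ i z) * ((θ i z : ℝ) * B1Cur.jac (E i) (φ i) π z) := by ring
      rw [e, abs_mul]
      exact mul_le_mul_of_nonneg_right (hfnC n _) (abs_nonneg _)
    · refine Eventually.of_forall fun z => ?_
      exact (tendsto_const_nhds.mul (hfnlim _)).mul_const _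
  have hlimsum : Tendsto (fun n => ∑' i, a i (fn n)) atTop (𝓝 (∑' i, a i g)) := by
    refine tendsto_tsum_of_dominated_convergence hBsum hlim (Eventually.of_forall fun n i => ?_)
    rw [Real.norm_eq_abs]
    exact hbd i (fn n) (hfnBL n) (hfnC n)
  have hzero : ∑' i, a i g = 0 := by
    refine tendsto_nhds_unique hlimsum ?_
    have : (fun n => ∑' i, a i (fn n)) = fun _ => (0 : ℝ) := by
      funext n
      rw [← hTn n, hT _ _ (htp n)]
      exact tsum_congr fun i => (hact i _ (htp n)).symm
    rw [this]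
    exact tendsto_const_nhds
  have hag : ∀ i, |a i g| ≤ B i := fun i =>
    le_of_tendsto (hlim i).abs (Eventually.of_forall fun n => hbd i (fn n) (hfnBL n) (hfnC n))
  have hgsum : Summable fun i => a i g :=
    Summable.of_norm_bounded hBsum (fun i => by rw [Real.norm_eq_abs]; exact hag i)
  have hfsum : Summable fun i => a i f :=
    Summable.of_norm_bounded hBsum (fun i => by rw [Real.norm_eq_abs]; exact hbd i f hf hC)
  have hTf : HasSum (fun i => a i f) (T f π) := by
    rw [hT f π h]
    have := hfsum.hasSum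
    convert this using 1
    exact tsum_congr fun i => hact i f h
  have hdiff : HasSum (fun i => a i f - a i g) (T f π - 0) := by
    rw [← hzero]
    exact hTf.sub hgsum.hasSum
  rw [sub_zero] at hdiff
  have hfin : (fun i => chartAction (E i ∩ φ i ⁻¹' K) (φ i) (θ i) f π) =
      fun i => a i f - a i g := by
    funext i
    have hgint : IntegrableOn
        (fun z => (θ i z : ℝ) * g (φ i z) * B1Cur.jac (E i) (φ i) π z) (E i) := by
      have e : (fun z => (θ i z : ℝ) * g (φ i z) * B1Cur.jac (E i) (φ i) π z) =ᵐ[volume.restrict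
          (E i)] fun z => (θ i z : ℝ) * f (φ i z) * B1Cur.jac (E i) (φ i) π z -
          (E i ∩ φ i ⁻¹' K).indicator
            (fun z => (θ i z : ℝ) * f (φ i z) * B1Cur.jac (E i) (φ i) π z) z := by
        filter_upwards [ae_restrict_mem (hE i)] with z hz
        by_cases hzK : φ i z ∈ K
        · simp [hg, hzK, hz]
        · simp [hg, hzK]
      rw [IntegrableOn, integrable_congr e]
      exact (hint i f h).sub ((hint i f h).indicator (hEK i))
    rw [B1Cur.chartAction_eq, B1Cur.chartR_of_test h]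
    have e1 : a i f - a i g = ∫ z in E i, (E i ∩ φ i ⁻¹' K).indicator
        (fun z => (θ i z : ℝ) * f (φ i z) * B1Cur.jac (E i) (φ i) π z) z := by
      rw [ha]
      simp only
      rw [← integral_sub (hint i f h) hgint]
      refine integral_congr_ae ?_
      filter_upwards [ae_restrict_mem (hE i)] with z hz
      by_cases hzK : φ i z ∈ K
      · simp [hg, hzK, hz]
      · simp [hg, hzK]
    rw [e1, setIntegral_indicator (hEK i), inter_eq_self_of_subset_right inter_subset_left]
    refine integral_congr_ae ?_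
    filter_upwards [B1Cur.ae_jac_mono (hEK i) inter_subset_left (hLφ i)
      (fun j => ⟨_, hL j⟩)] with z hz
    rw [hz]
  rw [hfin]
  exact hdiff

end

end Crest.Agent.R241.B5c
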