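import Crest.Agent.R241.B5bPre
import Crest.Agent.R241.B5c1
import Crest.Agent.R241.B3c
import Crest.Agent.R241.B8LinAlg

/-!
# R241, block B5c, part 2: metric charts of a rectifiable current, and the induced family of
charts of the compact set `K`.
-/

set_option autoImplicit false

open MeasureTheory Measure Filter Set Topology Matrix
open scoped NNReal ENNReal MatrixOrder

universe u

namespace Crest.Agent.R241.B5c

open Crest.GeometryTopology.Submanifold (Euc)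
open Crest.GeometryTopology.MetricCurrent
open Crest.Agent.R241.B3a Crest.Agent.R241.B3b Crest.Agent.R241.B3c

variable {X : Type u} [MetricSpace X] {n : ℕ}

/-! ### consequences of the metric differential -/

/-- one-point upper bound for the square of the distance. -/
theorem IsMD.sq_le {E : Set (Euc n)} {φ : Euc n → X} {z : Euc n} {G : Matrix (Fin n) (Fin n) ℝ}
    {L : ℝ≥0} (hG : G.PosSemidef) (hN : IsSN L (sn G)) (h : IsMD E φ z (sn G)) (hz : z ∈ E)
    {ε : ℝ} (hε : 0 < ε) : ∃ δ > (0 : ℝ), ∀ w ∈ E, ‖w - z‖ < δ →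
      dist (φ w) (φ z) ^ 2 ≤ (w - z).ofLp ⬝ᵥ (G *ᵥ (w - z).ofLp) + ε * ‖w - z‖ ^ 2 := by
  set η : ℝ := min 1 (ε / (2 * L + 1)) with hη
  have hL : (0 : ℝ) ≤ L := L.2
  have hηpos : 0 < η := lt_min one_pos (by positivity)
  have hη1 : η ≤ 1 := min_le_left _ _
  have hη2 : η * (2 * L + 1) ≤ ε := by
    have : η ≤ ε / (2 * L + 1) := min_le_right _ _
    rwa [le_div_iff₀ (by positivity)] at this
  obtain ⟨δ, hδ, hδ'⟩ := h η hηpos
  refine ⟨δ, hδ, fun w hw hwz => ?_⟩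
  have h1 := hδ' w hw z hz hwz (by simpa using hδ)
  rw [sub_self, norm_zero, add_zero] at h1
  have h2 : dist (φ w) (φ z) ≤ sn G (w - z) + η * ‖w - z‖ := by
    have := (abs_le.1 h1).2
    linarith
  have h3 := hN.le (w - z)
  have h4 := hN.nonneg (w - z)
  have h5 := sn_sq hG (w - z)
  rw [← h5]
  have hn : 0 ≤ ‖w - z‖ := norm_nonneg _
  calc dist (φ w) (φ z) ^ 2 ≤ (sn G (w - z) + η * ‖w - z‖) ^ 2 :=
        pow_le_pow_left₀ dist_nonneg h2 2
    _ = sn G (w - z) ^ 2 + 2 * η * sn G (w - z) * ‖w - z‖ + η ^ 2 * ‖w - z‖ ^ 2 := by ring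
    _ ≤ sn G (w - z) ^ 2 + 2 * η * (L * ‖w - z‖) * ‖w - z‖ + η * ‖w - z‖ ^ 2 := by
        have e1 : 2 * η * sn G (w - z) * ‖w - z‖ ≤ 2 * η * (L * ‖w - z‖) * ‖w - z‖ := by gcongr
        have e2 : η ^ 2 * ‖w - z‖ ^ 2 ≤ η * ‖w - z‖ ^ 2 := by
          have : η ^ 2 ≤ η := by nlinarith
          exact mul_le_mul_of_nonneg_right this (sq_nonneg _)
        linarith
    _ = sn G (w - z) ^ 2 + (η * (2 * L + 1)) * ‖w - z‖ ^ 2 := by ring
    _ ≤ sn G (w - z) ^ 2 + ε * ‖w - z‖ ^ 2 := by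
        have := mul_le_mul_of_nonneg_right hη2 (sq_nonneg ‖w - z‖)
        linarith

/-- `dvec` applied to a vector is the derivative. -/
theorem dvec_dot (E : Set (Euc n)) (u : Euc n → ℝ) (z : Euc n) (v : Fin n → ℝ) :
    B5b.dvec E u z ⬝ᵥ v = fderivWithin ℝ u E z (WithLp.toLp 2 v) := by
  have h := sum_single (WithLp.toLp 2 v)
  conv_rhs => rw [h, _root_.map_sum]
  simp only [B5b.dvec, dotProduct, map_smul, smul_eq_mul]
  exact Finset.sum_congr rfl fun i _ => mul_comm _ _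

/-- gradient bound from the metric differential -/
theorem IsMD.dvec_sq_le {E : Set (Euc n)} {φ : Euc n → X} {z : Euc n}
    {G : Matrix (Fin n) (Fin n) ℝ} {L : ℝ≥0} (hG : G.PosSemidef) (hN : IsSN L (sn G))
    (h : IsMD E φ z (sn G)) (hz : z ∈ E) (hd : Dens E z) {f : X → ℝ}
    (hf : LipschitzOnWith 1 f (φ '' E))
    (hdiff : DifferentiableWithinAt ℝ (fun w => f (φ w)) E z) (v : Fin n → ℝ) :
    (B5b.dvec E (fun w => f (φ w)) z ⬝ᵥ v) ^ 2 ≤ v ⬝ᵥ (G *ᵥ v) := by
  obtain ⟨d, hd'⟩ := exists_blowUp hd hz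
  have h1 := IsMD.abs_le h hN hd' hf hz hdiff.hasFDerivWithinAt (WithLp.toLp 2 v)
  rw [NNReal.coe_one, one_mul] at h1
  rw [dvec_dot]
  have h2 := sn_sq hG (WithLp.toLp 2 v)
  have h3 : v ⬝ᵥ (G *ᵥ v) = sn G (WithLp.toLp 2 v) ^ 2 := h2.symm
  rw [h3, ← sq_abs]
  exact pow_le_pow_left₀ (abs_nonneg _) h1 2

/-- nondegeneracy from the co-Lipschitz bound -/
theorem IsMD.posDef {E : Set (Euc n)} {φ : Euc n → X} {z : Euc n}
    {G : Matrix (Fin n) (Fin n) ℝ} {L : ℝ≥0} (hG : G.PosSemidef) (hN : IsSN L (sn G))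
    (h : IsMD E φ z (sn G)) (hz : z ∈ E) (hd : Dens E z) {C : ℝ}
    (hC : ∀ w ∈ E, ∀ w' ∈ E, dist w w' ≤ C * dist (φ w) (φ w')) : G.PosDef := by
  obtain ⟨d, hd'⟩ := exists_blowUp hd hz
  refine PosDef.of_dotProduct_mulVec_pos hG.isHermitian fun x hx => ?_
  have h1 := IsMD.norm_le h hN hd' hz hC (WithLp.toLp 2 x)
  have h2 : 0 < ‖WithLp.toLp 2 x‖ := by
    rw [norm_pos_iff]
    intro h0
    exact hx (congrArg WithLp.ofLp h0)
  have h3 : sn G (WithLp.toLp 2 x) ≠ 0 := by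
    intro h0
    rw [h0, mul_zero] at h1
    linarith
  have h4 : 0 < sn G (WithLp.toLp 2 x) ^ 2 := by positivity
  rw [sn_sq hG] at h4
  simpa using h4

/-- `√det G ≤ L^n`. -/
theorem sqrt_det_le {G : Matrix (Fin n) (Fin n) ℝ} {L : ℝ≥0} (hG : G.PosSemidef)
    (hN : IsSN L (sn G)) : √G.det ≤ (L : ℝ) ^ n := by
  obtain ⟨B, hB⟩ := CStarAlgebra.nonneg_iff_eq_star_mul_self.mp hG.nonneg
  rw [star_eq_conjTranspose, conjTranspose_eq_transpose_of_trivial] at hB
  have hd : G.det = B.det ^ 2 := by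
    rw [hB, det_mul, det_transpose, sq]
  rw [hd, Real.sqrt_sq_eq_abs, ← det_transpose]
  refine (B8LinAlg.abs_det_le_prod Bᵀ).trans ?_
  have h1 : ∀ i, √(∑ j, Bᵀ i j ^ 2) ≤ (L : ℝ) := by
    intro i
    have h2 := hN.le (EuclideanSpace.single i 1)
    rw [PiLp.norm_single, norm_one, mul_one] at h2
    have h3 := sn_sq hG (EuclideanSpace.single i 1)
    rw [← B5b.mlin_norm_sq hB, EuclideanSpace.norm_sq_eq] at h3
    have h4 : ∀ j, ‖(B5b.mlin B (EuclideanSpace.single i 1)) j‖ ^ 2 = Bᵀ i j ^ 2 := by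
      intro j
      have := congrFun (B5b.mlin_apply B (EuclideanSpace.single i 1)) j
      rw [Real.norm_eq_abs, sq_abs]
      rw [this]
      simp [mulVec, dotProduct, PiLp.single_apply]
    rw [Finset.sum_congr rfl fun j _ => h4 j] at h3
    rw [← h3, Real.sqrt_sq (hN.nonneg _)]
    exact h2
  calc ∏ i, √(∑ j, Bᵀ i j ^ 2) ≤ ∏ _i : Fin n, (L : ℝ) :=
        Finset.prod_le_prod (fun i _ => Real.sqrt_nonneg _) fun i _ => h1 i
    _ = (L : ℝ) ^ n := by simp

/-- a measurable version of the multiplicity. -/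
theorem exists_mult {E : Set (Euc n)} {θ : Euc n → ℤ}
    (h : Integrable (fun z => (θ z : ℝ)) (volume.restrict E)) :
    ∃ m : Euc n → ℝ, Measurable m ∧ (∀ z, m z = 0 ∨ 1 ≤ m z) ∧
      ∀ᵐ z ∂(volume.restrict E), m z = |(θ z : ℝ)| := by
  classical
  have hm := h.abs.aestronglyMeasurable.aemeasurable
  set g := hm.mk _ with hg
  have hgm : Measurable g := hm.measurable_mk
  set S : Set ℝ := {0} ∪ Ici 1 with hS
  have hSm : MeasurableSet S := (measurableSet_singleton 0).union measurableSet_Ici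
  refine ⟨fun z => if g z ∈ S then g z else 0, Measurable.ite (hgm hSm) hgm measurable_const,
    fun z => ?_, ?_⟩
  · by_cases hz : g z ∈ S
    · simp only [if_pos hz]
      rcases hz with hz | hz
      · exact Or.inl hz
      · exact Or.inr hz
    · exact Or.inl (if_neg hz)
  · filter_upwards [hm.ae_eq_mk] with z hz
    have h1 : g z = |(θ z : ℝ)| := hz.symm
    have h2 : g z ∈ S := by
      rw [h1]
      rcases eq_or_ne (θ z) 0 with h0 | h0
      · left; simp [h0]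
      · right
        have : (1 : ℤ) ≤ |θ z| := Int.one_le_abs h0
        have h3 : ((1 : ℤ) : ℝ) ≤ ((|θ z| : ℤ) : ℝ) := by exact_mod_cast this
        simpa using h3
    simp only [if_pos h2]
    exact h1

end Crest.Agent.R241.B5c
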