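import Crest.Agent.R241.B5c
import Crest.Agent.R241.B5a5

/-!
# R241, block B5d: the package `PreData` + `FVCharts` + mass formula of a rectifiable current
-/

set_option autoImplicit false

open MeasureTheory Measure Filter Set Topology Matrix
open scoped NNReal ENNReal MatrixOrder

universe u

namespace Crest.Agent.R241.B5d

open Crest.GeometryTopology.Submanifold (Euc)
open Crest.GeometryTopology.MetricCurrent
open Crest.Agent.R241.B3a Crest.Agent.R241.B3b Crest.Agent.R241.B3c
open Crest.Agent.R241.B5c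
open Crest.Agent.R241.B1Cur (jac chartR)

variable {X : Type u} [MetricSpace X] {n : ℕ} [MeasurableSpace X] [BorelSpace X]

/-- **Existence of metric charts with summable masses.** -/
theorem exists_MCh_summable
    (hX : ∀ a b c e : X, dist a c ^ 2 + dist b e ^ 2 ≤
      dist a b ^ 2 + dist b c ^ 2 + dist c e ^ 2 + dist e a ^ 2)
    {K : Set X} (hK : IsClosed K) {T : Functional X n} (hT : IsIntegerRectifiable T)
    (hs : IsSupportedIn K T) :
    ∃ c : MCh K T, Summable fun i => ∫ z in c.E i, |(c.θ i z : ℝ)| * √(c.G i z).det := by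
  obtain ⟨E, φ, θ, h1, h2, h3, h4, h5, h6, h7, h8⟩ := hT
  have hG : ∀ i, ∃ (L : ℝ≥0) (G : Euc n → Matrix (Fin n) (Fin n) ℝ),
      (∀ a b, Measurable fun z => G z a b) ∧
      (∀ z, (G z).PosSemidef) ∧ (∀ z, IsSN L (B3c.sn (G z))) ∧
      ∀ᵐ z ∂(volume.restrict (E i)), IsMD (E i) (φ i) z (B3c.sn (G z)) := fun i => by
    obtain ⟨L, hL⟩ := h2 i
    obtain ⟨G, hG⟩ := exists_gram hX (h1 i).1 hL
    exact ⟨L, G, hG⟩
  choose L G hG1 hG2 hG3 hG4 using hG
  have hmE : ∀ i, MeasurableSet (E i ∩ φ i ⁻¹' K) := fun i => by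
    obtain ⟨L, hL⟩ := h2 i
    exact measurableSet_inter_preimage (h1 i).1 hL.continuousOn hK
  have hch : ∀ i, B5a.MChart (E i) (φ i) (G i) := fun i =>
    ⟨(h1 i).1, h2 i, hG1 i, hG2 i, hG4 i⟩
  have hinj : ∀ i, InjOn (φ i) (E i) := by
    intro i z hz w hw hzw
    obtain ⟨C, hC⟩ := h3 i
    have := hC z hz w hw
    rw [hzw, dist_self, mul_zero] at this
    exact dist_le_zero.1 this
  have hsumE : Summable fun i => ∫ z in E i, |(θ i z : ℝ)| * √(G i z).det := by
    refine h7.congr fun i => ?_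
    exact B5a.mass_chartR (hch i) (h4 i) (hinj i)
  refine ⟨⟨fun i => E i ∩ φ i ⁻¹' K, φ, θ, G, hmE, fun i => (h1 i).2.subset inter_subset_left,
    fun i => ?_, fun i => ?_, fun i z hz => hz.2, fun i j hij => ?_, fun i => ?_, ?_, hG1, hG2,
    fun i => ⟨L i, hG3 i⟩, fun i => ?_⟩, ?_⟩
  · obtain ⟨L, hL⟩ := h2 i
    exact ⟨L, hL.mono inter_subset_left⟩
  · obtain ⟨C, hC⟩ := h3 i
    exact ⟨C, fun z hz w hw => hC z hz.1 w hw.1⟩
  · exact (h5 i j hij).mono (image_mono inter_subset_left) (image_mono inter_subset_left)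
  · exact (h4 i).mono_measure (Measure.restrict_mono inter_subset_left le_rfl)
  · exact hasSum_restrict hK hs (fun i => (h1 i).1) h2 h4 h6 h7 h8
  · filter_upwards [ae_restrict_of_ae_restrict_of_subset (s := E i ∩ φ i ⁻¹' K)
      inter_subset_left (hG4 i)] with z hz
    exact hz.mono inter_subset_left
  · refine Summable.of_nonneg_of_le (fun i => integral_nonneg fun z => by positivity)
      (fun i => ?_) hsumE
    exact setIntegral_mono_set ((hch i).integrable (h4 i))
      (ae_of_all _ fun z => by positivity) (ae_of_all _ fun z hz => hz.1)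

section mch

variable {K : Set X} {T : Functional X n} (c : MCh K T)

omit [MeasurableSpace X] [BorelSpace X] in
theorem mchart (i : ℕ) : B5a.MChart (c.E i) (c.φ i) (c.G i) :=
  ⟨c.measE i, c.lipφ i, c.measG i, c.psd i, c.md i⟩

omit [BorelSpace X] in
theorem nuS_eq : B5a.nuS c.E c.φ (fun i z => (c.θ i z : ℝ)) c.G = c.ν := rfl

omit [MeasurableSpace X] [BorelSpace X] in
theorem repr (f : X → ℝ) (π : Fin n → X → ℝ) (h : IsTestPair f π) :
    T f π = ∑' i, chartR (c.E i) (c.φ i) (fun z => (c.θ i z : ℝ)) f π :=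
  (c.act f π h).tsum_eq.symm

variable (hsum : Summable fun i => ∫ z in c.E i, |(c.θ i z : ℝ)| * √(c.G i z).det)

include hsum

theorem isFinite_ν : IsFiniteMeasure c.ν :=
  B5a.isFinite_of_summable (mchart c) c.intθ hsum

theorem controls_ν : Controls T c.ν :=
  haveI : IsFiniteMeasure (B5a.nuS c.E c.φ (fun i z => (c.θ i z : ℝ)) c.G) := isFinite_ν c hsum
  B5a.controls_nuS (mchart c) c.intθ (repr c)

theorem ν_le {μ : Measure X} [IsFiniteMeasure μ] (hμ : Controls T μ) : c.ν ≤ μ :=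
  haveI : IsFiniteMeasure (B5a.nuS c.E c.φ (fun i z => (c.θ i z : ℝ)) c.G) := isFinite_ν c hsum
  B5a.nuS_le (mchart c) c.intθ c.disj c.inj (repr c) hμ

theorem mass_eq : mass T = c.ν.real univ :=
  haveI : IsFiniteMeasure (B5a.nuS c.E c.φ (fun i z => (c.θ i z : ℝ)) c.G) := isFinite_ν c hsum
  B5a.mass_eq (mchart c) c.intθ c.disj c.inj (repr c)

end mch

/-- **The package (B5).** -/
theorem exists_fvCharts {m : ℕ} (hX : ∀ a b c e : X, dist a c ^ 2 + dist b e ^ 2 ≤
      dist a b ^ 2 + dist b c ^ 2 + dist c e ^ 2 + dist e a ^ 2)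
    {K : Set X} [CompactSpace K] [Nonempty K] {T : Functional X (m + 1)}
    (hT : IsIntegerRectifiable T) (hs : IsSupportedIn K T) (k : ℝ) :
    ∃ P : A.PreData (m + 1) k K, Nonempty (B9.FVCharts T P) ∧
      Controls T (P.τ.map (Subtype.val : K → X)) ∧ mass T = P.τ.real univ ∧
      ∀ (μ : Measure X) [IsFiniteMeasure μ], Controls T μ →
        P.τ.map (Subtype.val : K → X) ≤ μ := by
  have hK : IsClosed K := (isCompact_iff_compactSpace.2 ‹_›).isClosed
  obtain ⟨c, hsum⟩ := exists_MCh_summable hX hK hT hs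
  have hmap : ((c.fam hsum).preData k).τ.map (Subtype.val : K → X) = c.ν := c.map_τ hsum
  refine ⟨(c.fam hsum).preData k, ⟨c.fvCharts k hsum⟩, ?_, ?_, fun μ _ hμ => ?_⟩
  · rw [hmap]
    exact controls_ν c hsum
  · rw [mass_eq c hsum, ← hmap, Measure.real, Measure.real,
      Measure.map_apply measurable_subtype_coe MeasurableSet.univ, preimage_univ]
  · rw [hmap]
    exact ν_le c hsum hμ

end Crest.Agent.R241.B5d
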