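import Crest.Agent.R241.B1Cur
import Crest.Agent.R241.B9Defs

/-!
# R241, block B5u: the upper mass lemma (owner helper634)

If `φ : E → X` is Lipschitz and admits at almost every point `z` of `E` a one-point upper metric
differential `UB E φ z q` (`q` continuous and 2-homogeneous, no measurability in `z`), and
`|det R| ≤ J z` for every matrix `R` whose rows satisfy `(R i · v)² ≤ q v`, then the chart action of
`φ` with the density `θ` is controlled by the push-forward of `|θ| J`.
-/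

set_option autoImplicit false

open MeasureTheory Filter Topology Metric Set Module
open scoped NNReal ENNReal

universe u

namespace Crest.Agent.R241.B5u

open Crest.GeometryTopology.Submanifold (Euc)
open Crest.GeometryTopology.MetricCurrent
open Crest.Agent.R241.B1Cur Crest.Agent.R241.B1Density Crest.Agent.R241.B9
open Matrix

/-- almost every point of a measurable set has full tangent cone. -/
theorem ae_tangentCone_eq_univ {V : Type*} [NormedAddCommGroup V] [NormedSpace ℝ V]
    [MeasurableSpace V] [BorelSpace V] [FiniteDimensional ℝ V] (μ : Measure V)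
    [μ.IsAddHaarMeasure] (s : Set V) :
    ∀ᵐ x ∂(μ.restrict s), tangentConeAt ℝ s x = univ := by
  filter_upwards [Besicovitch.ae_tendsto_measure_inter_div μ s] with x hx
  exact tangentConeAt_eq_univ_of_density μ hx

/-- the one-point estimate for derivatives within `E` of `1`-Lipschitz functions on `X`. -/
theorem sq_fderivWithin_le {V : Type*} [NormedAddCommGroup V] [NormedSpace ℝ V]
    {X : Type*} [PseudoMetricSpace X] {E : Set V} {φ : V → X} {z : V} {q : V → ℝ}
    (hUB : UB E φ z q) (hq : Continuous q) (hq2 : ∀ (t : ℝ) (v : V), q (t • v) = t ^ 2 * q v)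
    (hT : tangentConeAt ℝ E z = univ) {u : X → ℝ} {C : ℝ≥0} (hu : LipschitzWith C u)
    (hd : DifferentiableWithinAt ℝ (fun w => u (φ w)) E z) (v : V) :
    (fderivWithin ℝ (fun w => u (φ w)) E z v) ^ 2 ≤ (C : ℝ) ^ 2 * q v := by
  have hv : v ∈ tangentConeAt ℝ E z := by rw [hT]; exact mem_univ v
  obtain ⟨α, l, hl, c, d, hd0, hds, hcd⟩ := exists_fun_of_mem_tangentConeAt hv
  have hlim := hd.hasFDerivWithinAt.lim hd0 hds hcd
  set D := fderivWithin ℝ (fun w => u (φ w)) E z with hD
  have h1 : Tendsto (fun n => (c n • (u (φ (z + d n)) - u (φ z))) ^ 2) l (𝓝 ((D v) ^ 2)) :=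
    hlim.pow 2
  have harg : Tendsto (fun n => z + d n) l (𝓝[E] z) := by
    rw [tendsto_nhdsWithin_iff]
    exact ⟨by simpa using tendsto_const_nhds.add hd0, hds⟩
  have key : ∀ ε : ℝ, 0 < ε → (D v) ^ 2 ≤ (C : ℝ) ^ 2 * (q v + ε * ‖v‖ ^ 2) := by
    intro ε hε
    have h2 : Tendsto (fun n => (C : ℝ) ^ 2 * (q (c n • d n) + ε * ‖c n • d n‖ ^ 2)) l
        (𝓝 ((C : ℝ) ^ 2 * (q v + ε * ‖v‖ ^ 2))) :=
      (((hq.tendsto v).comp hcd).add ((hcd.norm.pow 2).const_mul ε)).const_mul _
    refine le_of_tendsto_of_tendsto h1 h2 ?_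
    filter_upwards [harg.eventually (hUB ε hε)] with n hn
    rw [add_sub_cancel_left] at hn
    have h3 : |u (φ (z + d n)) - u (φ z)| ≤ C * dist (φ (z + d n)) (φ z) := by
      rw [← Real.dist_eq]; exact hu.dist_le_mul _ _
    have h4 : (u (φ (z + d n)) - u (φ z)) ^ 2 ≤ (C : ℝ) ^ 2 * dist (φ (z + d n)) (φ z) ^ 2 := by
      rw [← sq_abs, ← mul_pow]
      exact pow_le_pow_left₀ (abs_nonneg _) h3 2
    have hc2 : 0 ≤ c n ^ 2 := sq_nonneg _
    have hC2 : 0 ≤ (C : ℝ) ^ 2 := sq_nonneg _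
    calc (c n • (u (φ (z + d n)) - u (φ z))) ^ 2
        = c n ^ 2 * (u (φ (z + d n)) - u (φ z)) ^ 2 := by rw [smul_eq_mul, mul_pow]
      _ ≤ c n ^ 2 * ((C : ℝ) ^ 2 * dist (φ (z + d n)) (φ z) ^ 2) := by gcongr
      _ ≤ c n ^ 2 * ((C : ℝ) ^ 2 * (q (d n) + ε * ‖d n‖ ^ 2)) := by gcongr
      _ = (C : ℝ) ^ 2 * (q (c n • d n) + ε * ‖c n • d n‖ ^ 2) := by
          rw [hq2, norm_smul, mul_pow, Real.norm_eq_abs, sq_abs]; ring
  have h5 : Tendsto (fun ε : ℝ => (C : ℝ) ^ 2 * (q v + ε * ‖v‖ ^ 2)) (𝓝[>] 0)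
      (𝓝 ((C : ℝ) ^ 2 * (q v + 0 * ‖v‖ ^ 2))) :=
    (((tendsto_id.mono_left nhdsWithin_le_nhds).mul_const _).const_add _).const_mul _
  have h6 := ge_of_tendsto h5 (by
    filter_upwards [self_mem_nhdsWithin] with ε hε using key ε hε)
  simpa using h6

/-- `q` bounds the metric at `z`, and bounds the Jacobians of `1`-Lipschitz tuples by `j`. -/
structure Good {k : ℕ} {X : Type*} [PseudoMetricSpace X] (E : Set (Euc k)) (φ : Euc k → X)
    (z : Euc k) (j : ℝ) (q : Euc k → ℝ) : Prop where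
  cont : Continuous q
  hom : ∀ (t : ℝ) (v : Euc k), q (t • v) = t ^ 2 * q v
  ub : UB E φ z q
  det : ∀ R : Matrix (Fin k) (Fin k) ℝ,
    (∀ (i : Fin k) (v : Fin k → ℝ), (R i ⬝ᵥ v) ^ 2 ≤ q (WithLp.toLp 2 v)) → |R.det| ≤ j

variable {X : Type u} [MetricSpace X] {k : ℕ} {E : Set (Euc k)} {φ : Euc k → X} {L : ℝ≥0}

/-- pointwise bound of the Jacobians of `1`-Lipschitz tuples. -/
theorem ae_abs_jac_le_of_good (hE : MeasurableSet E) (hφ : LipschitzOnWith L φ E) {J : Euc k → ℝ}
    (hJ : ∀ᵐ z ∂(volume.restrict E), ∃ q : Euc k → ℝ, Good E φ z (J z) q)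
    {π : Fin k → X → ℝ} (hπ : ∀ i, LipschitzWith 1 (π i)) :
    ∀ᵐ z ∂(volume.restrict E), |jac E φ π z| ≤ J z := by
  have h1 : ∀ᵐ z ∂(volume.restrict E), ∀ i,
      DifferentiableWithinAt ℝ (fun w => π i (φ w)) E z :=
    ae_all_iff.2 fun i => (ae_good hE hφ ⟨1, hπ i⟩).mono fun z hz => hz.2
  filter_upwards [hJ, h1, ae_tangentCone_eq_univ volume E] with z ⟨q, hq⟩ hz hT
  refine hq.det _ fun i v => ?_
  have h2 := sq_fderivWithin_le hq.ub hq.cont hq.hom hT (hπ i) (hz i) (WithLp.toLp 2 v)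
  rw [NNReal.coe_one, one_pow, one_mul] at h2
  refine le_of_eq_of_le ?_ h2
  congr 1
  have h3 : (WithLp.toLp 2 v : Euc k) = ∑ j, v j • EuclideanSpace.single j (1 : ℝ) := by
    ext j
    simp [Finset.sum_apply, Pi.single_apply]
  rw [h3, map_sum, dotProduct]
  refine Finset.sum_congr rfl fun j _ => ?_
  rw [map_smul, smul_eq_mul, mul_comm]
  rfl

/-- the controlling measure: push-forward of `|ρ| J`. -/
noncomputable def muJ [MeasurableSpace X] (E : Set (Euc k)) (φ : Euc k → X) (ρ J : Euc k → ℝ) :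
    Measure X :=
  ((volume.restrict E).withDensity fun z => ENNReal.ofReal (|ρ z| * J z)).map φ

variable [MeasurableSpace X] [BorelSpace X] {ρ J : Euc k → ℝ}

omit [MetricSpace X] [BorelSpace X] in
theorem isFiniteMeasure_muJ (hJi : IntegrableOn (fun z => |ρ z| * J z) E) :
    IsFiniteMeasure (muJ E φ ρ J) := by
  have h1 : IsFiniteMeasure ((volume.restrict E).withDensity
      fun z => ENNReal.ofReal (|ρ z| * J z)) := isFiniteMeasure_withDensity_ofReal hJi.2
  unfold muJ
  infer_instance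

theorem integral_muJ (hE : MeasurableSet E) (hφ : LipschitzOnWith L φ E)
    (hJi : IntegrableOn (fun z => |ρ z| * J z) E) (hJ0 : ∀ᵐ z ∂(volume.restrict E), 0 ≤ J z)
    {f : X → ℝ} (hf : Continuous f) :
    ∫ x, f x ∂(muJ E φ ρ J) = ∫ z in E, |ρ z| * J z * f (φ z) := by
  have hm : AEMeasurable φ ((volume.restrict E).withDensity
      fun z => ENNReal.ofReal (|ρ z| * J z)) :=
    (aemeasurable_phi hE hφ).mono_ac (withDensity_absolutelyContinuous _ _)
  unfold muJ
  rw [integral_map hm hf.measurable.aestronglyMeasurable,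
    integral_withDensity_eq_integral_toReal_smul₀]
  · refine integral_congr_ae ?_
    filter_upwards [hJ0] with z hz
    simp only [smul_eq_mul]
    rw [ENNReal.toReal_ofReal (mul_nonneg (abs_nonneg _) hz)]
  · exact hJi.aestronglyMeasurable.aemeasurable.ennreal_ofReal
  · exact Eventually.of_forall fun z => ENNReal.ofReal_lt_top

/-- **Upper mass lemma** for real densities. -/
theorem controls_chartR (hE : MeasurableSet E) (hφ : LipschitzOnWith L φ E)
    (hρ : IntegrableOn ρ E) (hJi : IntegrableOn (fun z => |ρ z| * J z) E)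
    (hJ : ∀ᵐ z ∂(volume.restrict E), ∃ q : Euc k → ℝ, Good E φ z (J z) q) :
    Controls (chartR E φ ρ) (muJ E φ ρ J) := by
  intro f π hfπ hπ
  have hf : Continuous f := hfπ.1.choose_spec.continuous
  have hjac := ae_abs_jac_le_of_good hE hφ hJ hπ
  have hJ0 : ∀ᵐ z ∂(volume.restrict E), 0 ≤ J z :=
    hjac.mono fun z hz => (abs_nonneg _).trans hz
  rw [chartR_of_test hfπ, integral_muJ hE hφ hJi hJ0 hf.abs, ← Real.norm_eq_abs]
  refine (norm_integral_le_integral_norm _).trans ?_
  obtain ⟨Cf, hCf⟩ := hfπ.2.1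
  have h2 : IntegrableOn (fun z => |ρ z| * J z * |f (φ z)|) E := by
    refine hJi.mul_bdd (c := Cf) (aestronglyMeasurable_comp hE hφ hf.abs)
      (Eventually.of_forall fun z => ?_)
    rw [Real.norm_eq_abs, abs_abs]
    exact hCf _
  refine integral_mono_ae (integrable_integrand hE hφ hρ hfπ).norm h2 ?_
  filter_upwards [hjac] with z hz
  rw [norm_mul, norm_mul, Real.norm_eq_abs, Real.norm_eq_abs, Real.norm_eq_abs]
  calc |ρ z| * |f (φ z)| * |jac E φ π z| ≤ |ρ z| * |f (φ z)| * J z := by gcongr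
    _ = |ρ z| * J z * |f (φ z)| := by ring

/-- **Upper mass lemma** for chart actions. -/
theorem controls_chartAction {θ : Euc k → ℤ} (hE : MeasurableSet E) (hφ : LipschitzOnWith L φ E)
    (hθ : IntegrableOn (fun z => (θ z : ℝ)) E)
    (hJi : IntegrableOn (fun z => |(θ z : ℝ)| * J z) E)
    (hJ : ∀ᵐ z ∂(volume.restrict E), ∃ q : Euc k → ℝ, Good E φ z (J z) q) :
    Controls (chartAction E φ θ) (((volume.restrict E).withDensity fun z =>
      ENNReal.ofReal (|(θ z : ℝ)| * J z)).map φ) := by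
  rw [chartAction_eq]
  exact controls_chartR hE hφ hθ hJi hJ

omit [MetricSpace X] [MeasurableSpace X] [BorelSpace X] in
theorem continuous_qf (g : Matrix (Fin k) (Fin k) ℝ) : Continuous (qf g) := by
  unfold qf
  simp only [dotProduct, mulVec]
  fun_prop

omit [MetricSpace X] [MeasurableSpace X] [BorelSpace X] in
theorem qf_smul (g : Matrix (Fin k) (Fin k) ℝ) (t : ℝ) (v : Euc k) :
    qf g (t • v) = t ^ 2 * qf g v := by
  have h : (fun i => (t • v) i) = t • fun i => v i := rfl
  unfold qf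
  rw [h, mulVec_smul, dotProduct_smul, smul_dotProduct, smul_eq_mul, smul_eq_mul]
  ring

omit [MeasurableSpace X] [BorelSpace X] in
/-- psd matrices give good forms, with `J = √det g`. -/
theorem good_of_posSemidef {g : Matrix (Fin k) (Fin k) ℝ} (hg : g.PosSemidef) {z : Euc k}
    (h : UB E φ z (qf g)) : Good E φ z (√g.det) (qf g) where
  cont := continuous_qf g
  hom := qf_smul g
  ub := h
  det R hR := B8LinAlg.abs_det_le_sqrt_det R g hg fun i v => by simpa [qf] using hR i v

/-- **Upper mass lemma**, matrix form. -/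
theorem controls_chartAction_det {θ : Euc k → ℤ} (hE : MeasurableSet E)
    (hφ : LipschitzOnWith L φ E) (hθ : IntegrableOn (fun z => (θ z : ℝ)) E)
    {g : Euc k → Matrix (Fin k) (Fin k) ℝ}
    (hg : ∀ᵐ z ∂(volume.restrict E), (g z).PosSemidef)
    (hub : ∀ᵐ z ∂(volume.restrict E), UB E φ z (qf (g z)))
    (hJi : IntegrableOn (fun z => |(θ z : ℝ)| * √(g z).det) E) :
    Controls (chartAction E φ θ) (((volume.restrict E).withDensity fun z =>
      ENNReal.ofReal (|(θ z : ℝ)| * √(g z).det)).map φ) := by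
  refine controls_chartAction hE hφ hθ hJi ?_
  filter_upwards [hg, hub] with z h1 h2
  exact ⟨_, good_of_posSemidef h1 h2⟩

omit [BorelSpace X] in
/-- sums of controlled functionals. -/
theorem controls_hasSum [OpensMeasurableSpace X] {ι : Type*} [Countable ι] {T : Functional X k}
    {S : ι → Functional X k} {μ : ι → Measure X} [∀ i, IsFiniteMeasure (μ i)]
    (hs : Summable fun i => (μ i).real univ) (hc : ∀ i, Controls (S i) (μ i))
    (hT : ∀ f π, IsTestPair f π → HasSum (fun i => S i f π) (T f π)) :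
    Controls T (Measure.sum μ) := by
  have hfin : IsFiniteMeasure (Measure.sum μ) := by
    constructor
    rw [Measure.sum_apply _ MeasurableSet.univ]
    have h1 : ∀ i, μ i univ = ENNReal.ofReal ((μ i).real univ) := fun i => by simp
    simp_rw [h1]
    rw [← ENNReal.ofReal_tsum_of_nonneg (fun i => measureReal_nonneg) hs]
    exact ENNReal.ofReal_lt_top
  intro f π hfπ hπ
  obtain ⟨⟨K, hK⟩, ⟨C, hC⟩, -⟩ := id hfπ
  have hint : Integrable (fun x => |f x|) (Measure.sum μ) :=
    Integrable.of_bound (C := C) hK.continuous.abs.measurable.aestronglyMeasurable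
      (Eventually.of_forall fun x => by rw [Real.norm_eq_abs, abs_abs]; exact hC x)
  have h1 := hasSum_integral_measure hint
  have h2 := hT f π hfπ
  rw [← h2.tsum_eq, ← Real.norm_eq_abs]
  have h3 : ∀ i, ‖S i f π‖ ≤ ∫ x, |f x| ∂(μ i) := fun i => hc i f π hfπ hπ
  have h4 : Summable fun i => ‖S i f π‖ :=
    Summable.of_nonneg_of_le (fun i => norm_nonneg _) h3 h1.summable
  refine (norm_tsum_le_tsum_norm h4).trans ?_
  rw [← h1.tsum_eq]
  exact h4.tsum_le_tsum h3 h1.summable

theorem real_univ_muJ (hE : MeasurableSet E) (hφ : LipschitzOnWith L φ E)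
    (hJi : IntegrableOn (fun z => |ρ z| * J z) E) (hJ0 : ∀ᵐ z ∂(volume.restrict E), 0 ≤ J z) :
    (muJ E φ ρ J).real univ = ∫ z in E, |ρ z| * J z := by
  have h1 := integral_muJ hE hφ hJi hJ0 (f := fun _ => (1 : ℝ)) continuous_const
  simpa using h1

/-- the mass of a chart action is at most `∫ |θ| J`. -/
theorem mass_chartAction_le {θ : Euc k → ℤ} (hE : MeasurableSet E) (hφ : LipschitzOnWith L φ E)
    (hθ : IntegrableOn (fun z => (θ z : ℝ)) E)
    (hJi : IntegrableOn (fun z => |(θ z : ℝ)| * J z) E)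
    (hJ0 : ∀ᵐ z ∂(volume.restrict E), 0 ≤ J z)
    (hJ : ∀ᵐ z ∂(volume.restrict E), ∃ q : Euc k → ℝ, Good E φ z (J z) q) :
    mass (chartAction E φ θ) ≤ ∫ z in E, |(θ z : ℝ)| * J z := by
  have h1 := isFiniteMeasure_muJ (φ := φ) hJi
  have h2 := controls_chartAction hE hφ hθ hJi hJ
  rw [← real_univ_muJ hE hφ hJi hJ0]
  refine csInf_le ⟨0, ?_⟩ ⟨_, h1, h2, rfl⟩
  rintro r ⟨μ, _, _, rfl⟩
  exact ENNReal.toReal_nonneg

/-- **The mass measure of chart data controls the current.** -/
theorem controls_of_fvCharts {κ : ℝ} {K : Set X} [CompactSpace K] {m : ℕ}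
    {T : Functional X (m + 1)} {P : A.PreData (m + 1) κ K} (F : FVCharts T P) :
    Controls T (P.τ.map (Subtype.val : K → X)) := by
  have hi : ∀ i, IsFiniteMeasure (muJ (F.E i) (F.φ i) (fun z => (F.θ i z : ℝ))
      fun z => √(F.G i z).det) := fun i => isFiniteMeasure_muJ (F.intG i)
  have h1 := controls_hasSum (T := T) (S := fun i => chartAction (F.E i) (F.φ i) (F.θ i))
    (μ := fun i => muJ (F.E i) (F.φ i) (fun z => (F.θ i z : ℝ)) fun z => √(F.G i z).det) ?_ ?_ F.act
  · rw [F.tau_eq]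
    exact h1
  · refine F.summ.congr fun i => ?_
    obtain ⟨L, hL⟩ := F.lipφ i
    exact (real_univ_muJ (F.measE i) hL (F.intG i)
      (Eventually.of_forall fun z => Real.sqrt_nonneg _)).symm
  · intro i
    obtain ⟨L, hL⟩ := F.lipφ i
    exact controls_chartAction_det (F.measE i) hL (F.intθ i)
      (Eventually.of_forall fun z => F.psd i z) (F.md i) (F.intG i)

end Crest.Agent.R241.B5u
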