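import Mathlib
import Crest.Agent.R241.B6b
import Crest.Agent.R241.B7Targets

/-!
# R241, block B6: the target of `B7Targets.lean` (helper212)
-/

set_option autoImplicit false

open MeasureTheory Measure Set Filter Topology
open scoped ENNReal NNReal

namespace Crest.Agent.R241.B6

open Crest.GeometryTopology.Submanifold (Euc)

theorem b6 : Crest.Agent.R241.B7.B6Target := by
  intro k E ψ θ L hE hL hθm hθ
  have hd : ∀ᵐ z ∂((volume : Measure (Euc k)).restrict E),
      HasFDerivWithinAt ψ (fderivWithin ℝ ψ E z) E z := by
    filter_upwards [hL.ae_differentiableWithinAt hE] with z hz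
    exact hz.hasFDerivWithinAt
  obtain ⟨Θ, h1, h2, -, -, h5⟩ := degree_int (volume : Measure (Euc k)) hE hd (θ := θ)
    (integrable_det volume hE hL hd hθ)
  exact ⟨Θ, h1, h2, h5⟩

end Crest.Agent.R241.B6
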