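import Mathlib
import Crest.Prelude.Def_MetricCurrent

/-!
R241, block B7: smooth approximation of Lipschitz functions.  Owner: helper191.
-/

set_option autoImplicit false

open MeasureTheory Filter Topology Set
open scoped ENNReal NNReal Convolution

namespace Crest.Agent.R241.B7Moll

open Crest.GeometryTopology.Submanifold (Euc)
open ContinuousLinearMap (lsmul)

variable {k : ℕ}

/-- Smooth equi-Lipschitz approximation. -/
theorem exists_smooth_approx {G : Euc k → ℝ} {K : ℝ≥0} (hG : LipschitzWith K G) :
    ∃ Gn : ℕ → Euc k → ℝ, (∀ n, ContDiff ℝ (⊤ : ℕ∞) (Gn n)) ∧ (∀ n, LipschitzWith K (Gn n)) ∧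
      ∀ x, Tendsto (fun n => Gn n x) atTop (𝓝 (G x)) := by
  let φ : ℕ → ContDiffBump (0 : Euc k) := fun n =>
    ⟨(1 / 2) * (1 / ((n : ℝ) + 1)), 1 / ((n : ℝ) + 1), by positivity, by
      have : (0 : ℝ) < 1 / ((n : ℝ) + 1) := by positivity
      linarith⟩
  have hφ : Tendsto (fun n => (φ n).rOut) atTop (𝓝 0) := tendsto_one_div_add_atTop_nhds_zero_nat
  refine ⟨fun n => ((φ n).normed volume ⋆[lsmul ℝ ℝ, volume] G), fun n => ?_, fun n => ?_, fun x =>
    ContDiffBump.convolution_tendsto_right_of_continuous hφ hG.continuous x⟩
  · exact (φ n).hasCompactSupport_normed.contDiff_convolution_left _ (φ n).contDiff_normed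
      hG.continuous.locallyIntegrable
  · apply LipschitzWith.of_dist_le_mul
    intro x y
    have hint : ∀ z : Euc k, Integrable (fun t => (φ n).normed volume t * G (z - t)) volume := by
      intro z
      have hc : Continuous (fun t => (φ n).normed volume t * G (z - t)) :=
        (φ n).continuous_normed.mul (hG.continuous.comp (continuous_const.sub continuous_id))
      exact hc.integrable_of_hasCompactSupport ((φ n).hasCompactSupport_normed.mul_right)
    rw [Real.dist_eq]
    simp only [convolution_def, ContinuousLinearMap.lsmul_apply, smul_eq_mul]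
    rw [← integral_sub (hint x) (hint y)]
    have h1 : |∫ t, ((φ n).normed volume t * G (x - t) - (φ n).normed volume t * G (y - t))|
        ≤ ∫ t, (φ n).normed volume t * (K * dist x y) := by
      refine (abs_integral_le_integral_abs).trans ?_
      refine integral_mono ((hint x).sub (hint y)).abs
        (((φ n).integrable_normed).mul_const _) fun t => ?_
      simp only
      rw [← mul_sub, abs_mul, abs_of_nonneg ((φ n).nonneg_normed t)]
      refine mul_le_mul_of_nonneg_left ?_ ((φ n).nonneg_normed t)
      have := hG.dist_le_mul (x - t) (y - t)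
      rw [Real.dist_eq] at this
      simpa using this
    refine h1.trans ?_
    rw [integral_mul_const, (φ n).integral_normed, one_mul]

end Crest.Agent.R241.B7Moll
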