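import Crest.Agent.R241.G1d

/-!
R241, block G1e: one-variable chain rule, Leibniz rule, alternation, determinant chain rule.
-/

set_option autoImplicit false
set_option linter.unusedSectionVars false

open MeasureTheory Filter Topology
open scoped ENNReal NNReal

namespace Crest.Agent.R241.G1

open Crest.GeometryTopology.MetricCurrent

universe u

variable {X : Type u} [MetricSpace X] [MeasurableSpace X] [BorelSpace X]
variable {k : ℕ} {T : Functional X k}

/-- one-variable chain rule -/
theorem ext_chain_one (hT : IsCurrent T) {f : X → ℝ} (hf : BM f) {σ : Fin k → X → ℝ}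
    (hσ : LipT σ) (j : Fin k) {p : X → ℝ} (hp : ∃ K : ℝ≥0, LipschitzWith K p) {φ : ℝ → ℝ}
    (hφ : ContDiff ℝ 1 φ) (hφl : ∃ K : ℝ≥0, LipschitzWith K (fun x => φ (p x)))
    (hb : ∃ C : ℝ, ∀ x, |deriv φ (p x)| ≤ C) :
    ext T f (Function.update σ j (fun x => φ (p x))) =
      ext T (fun x => f x * deriv φ (p x)) (Function.update σ j p) := by
  have hder : ∀ y : Fin 1 → ℝ, fderiv ℝ (fun y : Fin 1 → ℝ => φ (y 0)) y (Pi.single 0 1)
      = deriv φ (y 0) := by
    intro y
    have h1 : HasFDerivAt (fun y : Fin 1 → ℝ => y 0)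
        (ContinuousLinearMap.proj (R := ℝ) (φ := fun _ : Fin 1 => ℝ) 0) y :=
      (ContinuousLinearMap.proj (R := ℝ) (φ := fun _ : Fin 1 => ℝ) 0).hasFDerivAt
    have h2 : HasDerivAt φ (deriv φ (y 0)) (y 0) :=
      ((hφ.differentiable one_ne_zero) (y 0)).hasDerivAt
    have h3 := h2.comp_hasFDerivAt y h1
    have h4 := h3.fderiv
    simp only [Function.comp_def] at h4
    rw [h4]
    simp
  have hg : ContDiff ℝ 1 (fun y : Fin 1 → ℝ => φ (y 0)) := hφ.comp (contDiff_apply ℝ ℝ 0)
  have h := ext_chain hT hf hσ j (N := 1) (p := fun _ => p) (fun _ => hp)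
    (g := fun y => φ (y 0)) hg hφl (by
      intro i
      obtain ⟨C, hC⟩ := hb
      refine ⟨C, fun x => ?_⟩
      rw [Subsingleton.elim i 0, hder]
      exact hC x)
  simp only [Finset.univ_unique, Fin.default_eq_zero, Fin.isValue, Finset.sum_singleton] at h
  rw [h]
  congr 1
  funext x
  rw [hder]

theorem lip_mul_of_bdd {u v : X → ℝ} (hu : BL u) (hv : BL v) :
    ∃ K : ℝ≥0, LipschitzWith K (u * v) := (hu.mul hv).1

/-- Leibniz rule in one coordinate -/
theorem ext_leibniz (hT : IsCurrent T) {f : X → ℝ} (hf : BM f) {σ : Fin k → X → ℝ}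
    (hσ : LipT σ) (j : Fin k) {u v : X → ℝ} (hu : BL u) (hv : BL v) :
    ext T f (Function.update σ j (u * v)) =
      ext T (f * u) (Function.update σ j v) + ext T (f * v) (Function.update σ j u) := by
  have hder : ∀ y : Fin 2 → ℝ, HasFDerivAt (fun y : Fin 2 → ℝ => y 0 * y 1)
      (y 0 • ContinuousLinearMap.proj (R := ℝ) (φ := fun _ : Fin 2 => ℝ) 1 +
        y 1 • ContinuousLinearMap.proj (R := ℝ) (φ := fun _ : Fin 2 => ℝ) 0) y := by
    intro y
    have h1 : HasFDerivAt (fun y : Fin 2 → ℝ => y 0)
        (ContinuousLinearMap.proj (R := ℝ) (φ := fun _ : Fin 2 => ℝ) 0) y :=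
      (ContinuousLinearMap.proj (R := ℝ) (φ := fun _ : Fin 2 => ℝ) 0).hasFDerivAt
    have h2 : HasFDerivAt (fun y : Fin 2 → ℝ => y 1)
        (ContinuousLinearMap.proj (R := ℝ) (φ := fun _ : Fin 2 => ℝ) 1) y :=
      (ContinuousLinearMap.proj (R := ℝ) (φ := fun _ : Fin 2 => ℝ) 1).hasFDerivAt
    exact h1.mul h2
  have hg : ContDiff ℝ 1 (fun y : Fin 2 → ℝ => y 0 * y 1) :=
    (contDiff_apply ℝ ℝ 0).mul (contDiff_apply ℝ ℝ 1)
  have hp : LipT (![u, v] : Fin 2 → X → ℝ) := by
    intro i
    fin_cases i
    · exact hu.1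
    · exact hv.1
  obtain ⟨Cu, hCu⟩ := hu.2
  obtain ⟨Cv, hCv⟩ := hv.2
  have e0 : ∀ x, fderiv ℝ (fun y : Fin 2 → ℝ => y 0 * y 1) (fun l => (![u, v] : Fin 2 → X → ℝ) l x)
      (Pi.single 0 1) = v x := by
    intro x
    rw [(hder _).fderiv]
    simp
  have e1 : ∀ x, fderiv ℝ (fun y : Fin 2 → ℝ => y 0 * y 1) (fun l => (![u, v] : Fin 2 → X → ℝ) l x)
      (Pi.single 1 1) = u x := by
    intro x
    rw [(hder _).fderiv]
    simp
  have hl : ∃ K : ℝ≥0, LipschitzWith K (fun x => u x * v x) := lip_mul_of_bdd hu hv
  have h := ext_chain hT hf hσ j (N := 2) (p := ![u, v]) hp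
    (g := fun y => y 0 * y 1) hg (by simpa using hl) (by
      intro i
      fin_cases i
      · exact ⟨Cv, fun x => by
          have := e0 x
          simp only [Fin.zero_eta, Fin.isValue]
          rw [this]; exact hCv x⟩
      · exact ⟨Cu, fun x => by
          have := e1 x
          simp only [Fin.mk_one, Fin.isValue]
          rw [this]; exact hCu x⟩)
  rw [Fin.sum_univ_two] at h
  simp only [e0, e1] at h
  have h1 : (u * v) = fun x => (fun i => (![u, v] : Fin 2 → X → ℝ) i x) 0 *
      (fun i => (![u, v] : Fin 2 → X → ℝ) i x) 1 := by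
    funext x; simp
  rw [h1, h]
  simp only [Matrix.cons_val_zero, Matrix.cons_val_one]
  rw [add_comm]
  rfl

/-- strong locality when the coordinate takes countably many values on `{f ≠ 0}` -/
theorem ext_zero_of_countable (hT : IsCurrent T) {f : X → ℝ} (hf : BM f) {π : Fin k → X → ℝ}
    (hπ : LipT π) (i : Fin k) (h : (π i '' {x | f x ≠ 0}).Countable) : ext T f π = 0 := by
  rcases (π i '' {x | f x ≠ 0}).eq_empty_or_nonempty with he | hne
  · apply ext_strong_locality hT hf hπ i 0
    intro x hx
    exfalso
    have : π i x ∈ π i '' {x | f x ≠ 0} := ⟨x, hx, rfl⟩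
    rw [he] at this
    exact this
  obtain ⟨c, hc⟩ := h.exists_eq_range hne
  have hmeas : Measurable (π i) := by
    obtain ⟨K, hK⟩ := hπ i
    exact hK.continuous.measurable
  -- vanishing for finite sets of values
  have key : ∀ (s : Finset ℝ), ext T ((π i ⁻¹' (s : Set ℝ)).indicator f) π = 0 := by
    intro s
    classical
    induction s using Finset.induction_on with
    | empty =>
      simp only [Finset.coe_empty, Set.preimage_empty, Set.indicator_empty]
      exact ext_zero π
    | insert a s ha ih =>
      have h1 : (π i ⁻¹' ((insert a s : Finset ℝ) : Set ℝ)).indicator f =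
          (π i ⁻¹' {a}).indicator f + (π i ⁻¹' (s : Set ℝ)).indicator f := by
        funext x
        by_cases hxa : π i x = a
        · have n1 : π i x ∉ s := by rw [hxa]; exact ha
          simp [Set.indicator, hxa, ha]
        · simp [Set.indicator, hxa]
      rw [h1, ext_add (hf.indicator (hmeas (measurableSet_singleton a)))
        (hf.indicator (hmeas s.measurableSet)), ih, add_zero]
      apply ext_strong_locality hT (hf.indicator (hmeas (measurableSet_singleton a))) hπ i a
      intro x hx
      by_contra hcon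
      exact hx (Set.indicator_of_notMem (by simpa using hcon) _)
  have hlim : Tendsto (fun n : ℕ =>
      ext T ((π i ⁻¹' (((Finset.range n).image c : Finset ℝ) : Set ℝ)).indicator f) π) atTop
      (𝓝 (ext T f π)) := by
    obtain ⟨C, hC⟩ := hf.2
    apply ext_tendsto hf.1 (C := |C|)
    · intro n
      exact hf.1.indicator (hmeas (Finset.measurableSet _))
    · intro n x
      by_cases hx : x ∈ π i ⁻¹' (((Finset.range n).image c : Finset ℝ) : Set ℝ)
      · rw [Set.indicator_of_mem hx]
        exact (hC x).trans (le_abs_self C)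
      · rw [Set.indicator_of_notMem hx]; simp
    · intro x
      by_cases hx : f x = 0
      · have : ∀ n : ℕ, (π i ⁻¹' (((Finset.range n).image c : Finset ℝ) : Set ℝ)).indicator f x
            = f x := by
          intro n
          by_cases hx' : x ∈ π i ⁻¹' (((Finset.range n).image c : Finset ℝ) : Set ℝ)
          · rw [Set.indicator_of_mem hx']
          · rw [Set.indicator_of_notMem hx', hx]
        simp only [this]
        exact tendsto_const_nhds
      · have hmem : π i x ∈ Set.range c := by
          rw [← hc]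
          exact ⟨x, hx, rfl⟩
        obtain ⟨m, hm⟩ := hmem
        apply tendsto_atTop_of_eventually_const (i₀ := m + 1)
        intro n hn
        apply Set.indicator_of_mem
        simp only [Set.mem_preimage, Finset.coe_image, Finset.coe_range, Set.mem_image,
          Set.mem_Iio]
        exact ⟨m, by omega, hm⟩
  simp only [key] at hlim
  exact (tendsto_nhds_unique hlim tendsto_const_nhds)

/-- the staircase-type function `⌊t⌋ + min 1 (2 fract t)` -/
noncomputable def saw (t : ℝ) : ℝ := ⌊t⌋ + min 1 (2 * Int.fract t)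

theorem saw_mono_lip {s t : ℝ} (h : s ≤ t) : 0 ≤ saw t - saw s ∧ saw t - saw s ≤ 2 * (t - s) := by
  unfold saw
  have hs := Int.floor_add_fract s
  have ht := Int.floor_add_fract t
  have hs0 := Int.fract_nonneg s
  have hs1 := Int.fract_lt_one s
  have ht0 := Int.fract_nonneg t
  have ht1 := Int.fract_lt_one t
  have hfl : ⌊s⌋ ≤ ⌊t⌋ := Int.floor_le_floor h
  rcases hfl.eq_or_lt with heq | hlt
  · have hab : Int.fract s ≤ Int.fract t := by
      have : (⌊s⌋ : ℝ) = ⌊t⌋ := by rw [heq]
      linarith
    rw [heq]
    have h1 : min 1 (2 * Int.fract s) ≤ min 1 (2 * Int.fract t) := min_le_min le_rfl (by linarith)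
    refine ⟨by linarith, ?_⟩
    have h2 : t - s = Int.fract t - Int.fract s := by
      have : (⌊s⌋ : ℝ) = ⌊t⌋ := by rw [heq]
      linarith
    rw [h2]
    rcases min_choice 1 (2 * Int.fract s) with h3 | h3
    · have h4 : min 1 (2 * Int.fract t) ≤ 1 := min_le_left _ _
      rw [h3]
      linarith
    · have h4 : min 1 (2 * Int.fract t) ≤ 2 * Int.fract t := min_le_right _ _
      rw [h3]
      linarith
  · have hm : (1 : ℝ) ≤ (⌊t⌋ : ℝ) - ⌊s⌋ := by
      have : ⌊s⌋ + 1 ≤ ⌊t⌋ := hlt
      have : ((⌊s⌋ + 1 : ℤ) : ℝ) ≤ (⌊t⌋ : ℝ) := by exact_mod_cast this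
      push_cast at this
      linarith
    have a1 : 0 ≤ min 1 (2 * Int.fract t) := le_min zero_le_one (by linarith)
    have a2 : min 1 (2 * Int.fract s) ≤ 1 := min_le_left _ _
    have a3 : min 1 (2 * Int.fract t) ≤ 2 * Int.fract t := min_le_right _ _
    refine ⟨by linarith, ?_⟩
    rcases min_choice 1 (2 * Int.fract s) with h3 | h3
    · rw [h3]; linarith
    · rw [h3]; linarith

theorem saw_close (t : ℝ) : |saw t - t| ≤ 1 := by
  unfold saw
  have ht := Int.floor_add_fract t
  have ht0 := Int.fract_nonneg t
  have ht1 := Int.fract_lt_one t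
  have a1 : 0 ≤ min 1 (2 * Int.fract t) := le_min zero_le_one (by linarith)
  have a2 : min 1 (2 * Int.fract t) ≤ 1 := min_le_left _ _
  rw [abs_le]
  constructor <;> linarith

/-- `T(f, π) = 0` if two coordinates agree -/
theorem ext_zero_of_eq (hT : IsCurrent T) {f : X → ℝ} (hf : BM f) {π : Fin k → X → ℝ}
    (hπ : LipT π) {i j : Fin k} (hij : i ≠ j) (h : π i = π j) : ext T f π = 0 := by
  set p := π i with hp
  have hπL := hπ
  choose K hK using hπ
  have hpK : LipschitzWith (K i) p := hK i
  have hpm : Measurable p := hpK.continuous.measurable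
  -- two functions with complementary steps
  let a : ℕ → X → ℝ := fun n x => saw (((n : ℝ) + 1) * p x) / ((n : ℝ) + 1)
  let b : ℕ → X → ℝ := fun n x => (2 * (((n : ℝ) + 1) * p x) - saw (((n : ℝ) + 1) * p x)) / ((n : ℝ) + 1)
  have hsaw : ∀ s t : ℝ, |saw s - saw t| ≤ 2 * |s - t| := by
    intro s t
    rcases le_total s t with hst | hst
    · obtain ⟨h1, h2⟩ := saw_mono_lip hst
      rw [abs_sub_comm, abs_of_nonneg h1, abs_sub_comm s t, abs_of_nonneg (by linarith)]
      exact h2
    · obtain ⟨h1, h2⟩ := saw_mono_lip hst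
      rw [abs_of_nonneg h1, abs_of_nonneg (by linarith)]
      exact h2
  have hsaw' : ∀ s t : ℝ, |(2 * s - saw s) - (2 * t - saw t)| ≤ 2 * |s - t| := by
    intro s t
    rcases le_total s t with hst | hst
    · obtain ⟨h1, h2⟩ := saw_mono_lip hst
      rw [abs_sub_comm, abs_of_nonneg (by linarith), abs_sub_comm s t,
        abs_of_nonneg (by linarith)]
      linarith
    · obtain ⟨h1, h2⟩ := saw_mono_lip hst
      rw [abs_of_nonneg (by linarith), abs_of_nonneg (by linarith)]
      linarith
  have haL : ∀ n, LipschitzWith (2 * K i) (a n) := by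
    intro n
    apply LipschitzWith.of_dist_le_mul
    intro x y
    have hn : (0 : ℝ) < (n : ℝ) + 1 := by positivity
    simp only [a, Real.dist_eq, NNReal.coe_mul, NNReal.coe_ofNat]
    rw [← sub_div, abs_div, abs_of_pos hn, div_le_iff₀ hn]
    refine (hsaw _ _).trans ?_
    rw [← mul_sub, abs_mul, abs_of_pos hn]
    have := hpK.dist_le_mul x y
    rw [Real.dist_eq] at this
    nlinarith
  have hbL : ∀ n, LipschitzWith (2 * K i) (b n) := by
    intro n
    apply LipschitzWith.of_dist_le_mul
    intro x y
    have hn : (0 : ℝ) < (n : ℝ) + 1 := by positivity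
    simp only [b, Real.dist_eq, NNReal.coe_mul, NNReal.coe_ofNat]
    rw [← sub_div, abs_div, abs_of_pos hn, div_le_iff₀ hn]
    refine (hsaw' _ _).trans ?_
    rw [← mul_sub, abs_mul, abs_of_pos hn]
    have := hpK.dist_le_mul x y
    rw [Real.dist_eq] at this
    nlinarith
  have halim : ∀ x, Tendsto (fun n => a n x) atTop (𝓝 (p x)) := by
    intro x
    rw [tendsto_iff_norm_sub_tendsto_zero]
    refine squeeze_zero (fun n => norm_nonneg _) (fun n => ?_)
      tendsto_one_div_add_atTop_nhds_zero_nat
    have hn : (0 : ℝ) < (n : ℝ) + 1 := by positivity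
    simp only [a, Real.norm_eq_abs]
    have : saw (((n : ℝ) + 1) * p x) / ((n : ℝ) + 1) - p x =
        (saw (((n : ℝ) + 1) * p x) - ((n : ℝ) + 1) * p x) / ((n : ℝ) + 1) := by
      field_simp
    rw [this, abs_div, abs_of_pos hn]
    exact div_le_div_of_nonneg_right (saw_close _) hn.le
  have hblim : ∀ x, Tendsto (fun n => b n x) atTop (𝓝 (p x)) := by
    intro x
    have h1 : ∀ n, b n x = 2 * p x - a n x := by
      intro n
      have hn : (n : ℝ) + 1 ≠ 0 := by positivity
      simp only [a, b]
      field_simp
    simp only [h1]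
    have h2 := (halim x).const_sub (2 * p x)
    have h3 : 2 * p x - p x = p x := by ring
    rw [h3] at h2
    exact h2
  let τ : ℕ → Fin k → X → ℝ := fun n => Function.update (Function.update π i (a n)) j (b n)
  have hτL : ∀ n, LipT (τ n) := fun n => (hπL.update i ⟨_, haL n⟩).update j ⟨_, hbL n⟩
  have hlim : Tendsto (fun n => ext T f (τ n)) atTop (𝓝 (ext T f π)) := by
    apply ext_continuity hT hf (K := fun l => 2 * K i + K l)
    · intro l
      exact (hK l).weaken (le_add_of_nonneg_left zero_le)
    · intro n l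
      by_cases hl : l = j
      · subst hl
        simp only [τ, Function.update_self]
        exact (hbL n).weaken (le_add_of_nonneg_right zero_le)
      · by_cases hl' : l = i
        · subst hl'
          simp only [τ, Function.update_of_ne hl, Function.update_self]
          exact (haL n).weaken (le_add_of_nonneg_right zero_le)
        · simp only [τ, Function.update_of_ne hl, Function.update_of_ne hl']
          exact (hK l).weaken (le_add_of_nonneg_left zero_le)
    · intro l x
      by_cases hl : l = j
      · subst hl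
        simp only [τ, Function.update_self]
        rw [← h]
        exact hblim x
      · by_cases hl' : l = i
        · subst hl'
          simp only [τ, Function.update_of_ne hl, Function.update_self]
          exact halim x
        · simp only [τ, Function.update_of_ne hl, Function.update_of_ne hl']
          exact tendsto_const_nhds
  have hzero : ∀ n, ext T f (τ n) = 0 := by
    intro n
    have hn : (0 : ℝ) < (n : ℝ) + 1 := by positivity
    set A : Set X := {x | 2 * Int.fract (((n : ℝ) + 1) * p x) ≤ 1} with hA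
    have hAm : MeasurableSet A :=
      measurableSet_le ((measurable_fract.comp (hpm.const_mul _)).const_mul _) measurable_const
    have hsplit : f = A.indicator f + Aᶜ.indicator f := by
      rw [Set.indicator_self_add_compl]
    rw [hsplit, ext_add (hf.indicator hAm) (hf.indicator hAm.compl)]
    have z1 : ext T (A.indicator f) (τ n) = 0 := by
      apply ext_zero_of_countable hT (hf.indicator hAm) (hτL n) j
      apply (Set.countable_range (fun m : ℤ => (m : ℝ) / ((n : ℝ) + 1))).mono
      rintro _ ⟨x, hx, rfl⟩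
      have hxA : x ∈ A := by
        by_contra hcon
        exact hx (Set.indicator_of_notMem hcon _)
      refine ⟨⌊((n : ℝ) + 1) * p x⌋, ?_⟩
      simp only [τ, Function.update_self, b]
      congr 1
      have h1 : min 1 (2 * Int.fract (((n : ℝ) + 1) * p x)) = 2 * Int.fract (((n : ℝ) + 1) * p x) :=
        min_eq_right hxA
      have h2 := Int.floor_add_fract (((n : ℝ) + 1) * p x)
      unfold saw
      rw [h1]
      linarith
    have z2 : ext T (Aᶜ.indicator f) (τ n) = 0 := by
      apply ext_zero_of_countable hT (hf.indicator hAm.compl) (hτL n) i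
      apply (Set.countable_range (fun m : ℤ => ((m : ℝ) + 1) / ((n : ℝ) + 1))).mono
      rintro _ ⟨x, hx, rfl⟩
      have hxA : x ∈ Aᶜ := by
        by_contra hcon
        exact hx (Set.indicator_of_notMem hcon _)
      refine ⟨⌊((n : ℝ) + 1) * p x⌋, ?_⟩
      simp only [τ, Function.update_of_ne hij, Function.update_self, a]
      congr 1
      have h1 : min 1 (2 * Int.fract (((n : ℝ) + 1) * p x)) = 1 := by
        apply min_eq_left
        have : ¬ (2 * Int.fract (((n : ℝ) + 1) * p x) ≤ 1) := hxA
        linarith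
      unfold saw
      rw [h1]
    rw [z1, z2, add_zero]
  simp only [hzero] at hlim
  exact (tendsto_nhds_unique hlim tendsto_const_nhds)

/-- the space of Lipschitz functions -/
def LipSub (X : Type u) [MetricSpace X] : Submodule ℝ (X → ℝ) where
  carrier := {g | ∃ K : ℝ≥0, LipschitzWith K g}
  add_mem' := by
    rintro f g ⟨K, hK⟩ ⟨K', hK'⟩
    exact ⟨_, hK.add hK'⟩
  zero_mem' := ⟨0, LipschitzWith.const 0⟩
  smul_mem' := by
    rintro c f ⟨K, hK⟩
    exact ⟨_, lipschitzWith_smul hK c⟩

theorem lipT_coe (v : Fin k → LipSub X) : LipT (fun i => (v i : X → ℝ)) := fun i => (v i).2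

theorem coe_update (v : Fin k → LipSub X) (i : Fin k) (w : LipSub X) :
    (fun l => ((Function.update v i w l : LipSub X) : X → ℝ)) =
      Function.update (fun l => (v l : X → ℝ)) i (w : X → ℝ) := by
  funext l
  by_cases h : l = i
  · subst h; simp
  · simp [h]

/-- `T(f, ·)` as an alternating map on Lipschitz functions -/
noncomputable def altT (hT : IsCurrent T) {f : X → ℝ} (hf : BM f) :
    LipSub X [⋀^Fin k]→ₗ[ℝ] ℝ where
  toFun v := ext T f (fun i => (v i : X → ℝ))
  map_update_add' := by
    intro inst v i a b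
    have : inst = instDecidableEqFin k := Subsingleton.elim _ _
    subst this
    rw [coe_update, coe_update, coe_update]
    exact ext_add_coord hT hf (lipT_coe v) i a.2 b.2
  map_update_smul' := by
    intro inst v i c a
    have : inst = instDecidableEqFin k := Subsingleton.elim _ _
    subst this
    rw [coe_update, coe_update]
    exact ext_smul_coord hT hf (lipT_coe v) i c a.2
  map_eq_zero_of_eq' := by
    intro v i j h hij
    exact ext_zero_of_eq hT hf (lipT_coe v) hij (by rw [h])

theorem altT_apply (hT : IsCurrent T) {f : X → ℝ} (hf : BM f) (v : Fin k → LipSub X) :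
    altT hT hf v = ext T f (fun i => (v i : X → ℝ)) := rfl

/-- permuting the coordinates -/
theorem ext_perm (hT : IsCurrent T) {f : X → ℝ} (hf : BM f) {π : Fin k → X → ℝ} (hπ : LipT π)
    (σ : Equiv.Perm (Fin k)) :
    ext T f (fun i => π (σ i)) = (Equiv.Perm.sign σ : ℤ) * ext T f π := by
  let v : Fin k → LipSub X := fun i => ⟨π i, hπ i⟩
  have h := (altT hT hf).map_perm v σ
  have h1 : altT hT hf (v ∘ σ) = ext T f (fun i => π (σ i)) := rfl
  have h2 : altT hT hf v = ext T f π := rfl
  rw [h1, h2] at h
  rw [h]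
  rcases Int.units_eq_one_or (Equiv.Perm.sign σ) with hs | hs <;> simp [hs]

theorem ext_swap (hT : IsCurrent T) {f : X → ℝ} (hf : BM f) {π : Fin k → X → ℝ} (hπ : LipT π)
    {i j : Fin k} (hij : i ≠ j) :
    ext T f (fun l => π (Equiv.swap i j l)) = - ext T f π := by
  rw [ext_perm hT hf hπ, Equiv.Perm.sign_swap hij]
  simp

/-- linear substitution: `T(f, (A p)_1, …, (A p)_k) = det A · T(f, p)` -/
theorem ext_linear_subst (hT : IsCurrent T) {f : X → ℝ} (hf : BM f) {p : Fin k → X → ℝ}
    (hp : LipT p) (A : Matrix (Fin k) (Fin k) ℝ) :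
    ext T f (fun i => ∑ l, A i l • p l) = A.det * ext T f p := by
  let v : Fin k → LipSub X := fun i => ⟨p i, hp i⟩
  let Lm : (Fin k → ℝ) →ₗ[ℝ] LipSub X := Fintype.linearCombination ℝ v
  let F : (Fin k → ℝ) [⋀^Fin k]→ₗ[ℝ] ℝ := (altT hT hf).compLinearMap Lm
  have h1 := F.eq_smul_basis_det (Pi.basisFun ℝ (Fin k))
  have h2 : F (fun i => A i) = ext T f (fun i => ∑ l, A i l • p l) := by
    change altT hT hf (fun i => Lm (A i)) = _
    rw [altT_apply]
    congr 1
    funext i
    simp only [Lm, Fintype.linearCombination_apply, Submodule.coe_sum, Submodule.coe_smul]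
    rfl
  have h3 : F (Pi.basisFun ℝ (Fin k)) = ext T f p := by
    change altT hT hf (fun i => Lm (Pi.basisFun ℝ (Fin k) i)) = _
    rw [altT_apply]
    congr 1
    funext i
    simp [Lm, Fintype.linearCombination_apply, Pi.single_apply, v]
  rw [← h2]
  have h4 : F (fun i => A i) = (F (Pi.basisFun ℝ (Fin k)) • (Pi.basisFun ℝ (Fin k)).det) (fun i => A i) := by
    rw [← h1]
  rw [h4, AlternatingMap.smul_apply, h3, Pi.basisFun_det_apply, smul_eq_mul, mul_comm]
  rfl

/-- perturbation of all coordinates on a set -/
theorem abs_ext_sub_le_local (hT : IsCurrent T) {μ : Measure X} [IsFiniteMeasure μ]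
    (hμ : Controls T μ) {f : X → ℝ} (hf : BM f) {π σ : Fin k → X → ℝ} (hπ : LipT π)
    (hσ : LipT σ) {B : Set X} (hB : ∀ x, f x ≠ 0 → x ∈ B) {K ω : ℝ≥0}
    (hK : ∀ i, LipschitzOnWith K (π i) B) (hK' : ∀ i, LipschitzOnWith K (σ i) B)
    (hω : ∀ i, LipschitzOnWith ω (σ i - π i) B) :
    |ext T f σ - ext T f π| ≤ k * (ω * (K : ℝ) ^ (k - 1)) * ∫ x, |f x| ∂μ := by
  classical
  have hI : 0 ≤ ∫ x, |f x| ∂μ := integral_nonneg fun x => abs_nonneg _
  have key : ∀ s : Finset (Fin k), |ext T f (fun i => if i ∈ s then σ i else π i) - ext T f π| ≤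
      s.card * (ω * (K : ℝ) ^ (k - 1)) * ∫ x, |f x| ∂μ := by
    intro s
    induction s using Finset.induction_on with
    | empty => simp
    | insert a s ha ih =>
      set τ : Fin k → X → ℝ := fun i => if i ∈ s then σ i else π i with hτ
      have hτL : LipT τ := by
        intro i
        by_cases hi : i ∈ s
        · simpa [hτ, hi] using hσ i
        · simpa [hτ, hi] using hπ i
      have hτK : ∀ i, LipschitzOnWith K (τ i) B := by
        intro i
        by_cases hi : i ∈ s
        · simpa [hτ, hi] using hK' i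
        · simpa [hτ, hi] using hK i
      have h1 : (fun i => if i ∈ insert a s then σ i else π i) = Function.update τ a (σ a) := by
        funext i
        by_cases hi : i = a
        · subst hi; simp
        · simp [hτ, hi]
      have h2 : τ = Function.update τ a (π a) := by
        funext i
        by_cases hi : i = a
        · subst hi; simp [hτ, ha]
        · simp [hi]
      have hsub : ∃ K : ℝ≥0, LipschitzWith K (σ a - π a) := by
        obtain ⟨K, hK⟩ := hσ a
        obtain ⟨K', hK'⟩ := hπ a
        exact ⟨_, hK.sub hK'⟩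
      have h3 := ext_sub_coord hT hf hτL a (hσ a) (hπ a)
      rw [← h2, ← h1] at h3
      have h4 := abs_ext_le_local hT hμ hf (hτL.update a hsub) hB
        (K := Function.update (fun _ => K) a ω) (by
          intro i
          by_cases hi : i = a
          · subst hi; simpa using hω i
          · simpa [hi] using hτK i)
      have h5 : (∏ i, ((Function.update (fun _ => K) a ω i : ℝ≥0) : ℝ)) = ω * (K : ℝ) ^ (k - 1) := by
        have : (fun i => ((Function.update (fun _ => K) a ω i : ℝ≥0) : ℝ)) =
            Function.update (fun _ => (K : ℝ)) a (ω : ℝ) := by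
          funext i
          by_cases hi : i = a
          · subst hi; simp
          · simp [hi]
        rw [this, Finset.prod_update_of_mem (Finset.mem_univ a)]
        simp [Finset.card_sdiff]
      rw [h5, h3] at h4
      rw [Finset.card_insert_of_notMem ha]
      have h6 : ext T f (fun i => if i ∈ insert a s then σ i else π i) - ext T f π =
          (ext T f (fun i => if i ∈ insert a s then σ i else π i) - ext T f τ) +
          (ext T f τ - ext T f π) := by ring
      rw [h6]
      refine (abs_add_le _ _).trans ((add_le_add h4 ih).trans (le_of_eq ?_))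
      push_cast
      ring
  have := key Finset.univ
  simpa using this

end Crest.Agent.R241.G1
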