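import Crest.Agent.R241.B7a
import Crest.Agent.R241.B7Moll
import Crest.Agent.R241.G1e

/-!
R241, block B7: the Leibniz facts (`Leib`) and the `BV` bound for slices of cycles.
Owner: helper191.
-/

set_option autoImplicit false

open MeasureTheory Filter Topology Set
open scoped ENNReal NNReal

universe u

namespace Crest.Agent.R241.B7BV

open Crest.GeometryTopology.Submanifold (Euc)
open Crest.GeometryTopology.MetricCurrent
open Crest.Agent.R241.G1 Crest.Agent.R241.B7a

variable {X : Type u} [MetricSpace X] [MeasurableSpace X] [BorelSpace X] {k : ℕ}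

/-- the partial derivative in the coordinates of `Fin k → ℝ` and of `Euc k` -/
theorem fderiv_comp_toLp {G : Euc k → ℝ} (hG : Differentiable ℝ G) (y : Fin k → ℝ) (i : Fin k) :
    fderiv ℝ (fun y : Fin k → ℝ => G (WithLp.toLp 2 y)) y (Pi.single i 1)
      = fderiv ℝ G (WithLp.toLp 2 y) (EuclideanSpace.single i 1) := by
  have h1 : (fun y : Fin k → ℝ => G (WithLp.toLp 2 y))
      = G ∘ ((EuclideanSpace.equiv (Fin k) ℝ).symm : (Fin k → ℝ) →L[ℝ] Euc k) := by
    funext y
    rfl
  rw [h1, fderiv_comp _ (hG _) (ContinuousLinearMap.differentiableAt _),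
    ContinuousLinearMap.fderiv]
  rfl

theorem contDiff_comp_toLp {G : Euc k → ℝ} {n : WithTop ℕ∞} (hG : ContDiff ℝ n G) :
    ContDiff ℝ n (fun y : Fin k → ℝ => G (WithLp.toLp 2 y)) :=
  hG.comp ((EuclideanSpace.equiv (Fin k) ℝ).symm : (Fin k → ℝ) →L[ℝ] Euc k).contDiff

/-- chain rule in one slot for a smooth Lipschitz function of the tuple -/
theorem ext_chain_tup {m : ℕ} {T : Functional X m} (hT : IsCurrent T) {f : X → ℝ} (hf : BM f)
    {σ : Fin m → X → ℝ} (hσ : LipT σ) (j : Fin m) {π : Fin k → X → ℝ} (hπ : LipT π)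
    {G : Euc k → ℝ} (hG : ContDiff ℝ 1 G) {K : ℝ≥0} (hK : LipschitzWith K G) :
    ext T f (Function.update σ j (fun x => G (tup π x))) =
      ∑ i, ext T (fun x => f x * fderiv ℝ G (tup π x) (EuclideanSpace.single i 1))
        (Function.update σ j (π i)) := by
  have hd : Differentiable ℝ G := hG.differentiable one_ne_zero
  have h := ext_chain hT hf hσ j hπ (g := fun y : Fin k → ℝ => G (WithLp.toLp 2 y))
    (contDiff_comp_toLp hG) (by
      obtain ⟨L, hL⟩ := lipschitz_tup hπ
      exact ⟨_, hK.comp hL⟩) (by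
      intro i
      refine ⟨K, fun x => ?_⟩
      rw [fderiv_comp_toLp hd]
      have h1 := (fderiv ℝ G (WithLp.toLp 2 fun l => π l x)).le_opNorm
        (EuclideanSpace.single i (1 : ℝ))
      have h2 : ‖fderiv ℝ G (WithLp.toLp 2 fun l => π l x)‖ ≤ K :=
        norm_fderiv_le_of_lipschitz ℝ hK
      rw [Real.norm_eq_abs] at h1
      refine h1.trans ?_
      simpa using h2)
  simp only [fderiv_comp_toLp hd] at h
  exact h

theorem bm_fderiv {π : Fin k → X → ℝ} (hπ : LipT π) {G : Euc k → ℝ} (hG : ContDiff ℝ 1 G)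
    {K : ℝ≥0} (hK : LipschitzWith K G) (i : Fin k) :
    BM (fun x => fderiv ℝ G (tup π x) (EuclideanSpace.single i 1)) := by
  refine ⟨?_, K, fun x => ?_⟩
  · have h1 : Continuous fun z => fderiv ℝ G z (EuclideanSpace.single i 1) :=
      (hG.continuous_fderiv one_ne_zero).clm_apply continuous_const
    exact h1.measurable.comp (measurable_tup hπ)
  · have h1 := (fderiv ℝ G (tup π x)).le_opNorm (EuclideanSpace.single i (1 : ℝ))
    have h2 : ‖fderiv ℝ G (tup π x)‖ ≤ K := norm_fderiv_le_of_lipschitz ℝ hK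
    rw [Real.norm_eq_abs] at h1
    refine h1.trans ?_
    simpa using h2

/-- degenerate chain rule, smooth case -/
theorem degen_smooth {S : Functional X (k + 1)} (hS : IsCurrent S) {f : X → ℝ} (hf : BM f)
    {π : Fin k → X → ℝ} (hπ : LipT π) {G : Euc k → ℝ} (hG : ContDiff ℝ 1 G) {K : ℝ≥0}
    (hK : LipschitzWith K G) : ext S f (Fin.cons (fun x => G (tup π x)) π) = 0 := by
  have h0 : LipT (Fin.cons (fun _ => (0 : ℝ)) π : Fin (k + 1) → X → ℝ) :=
    LipT_cons ⟨0, LipschitzWith.const 0⟩ hπ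
  have h := ext_chain_tup hS hf h0 0 hπ hG hK
  simp only [Fin.update_cons_zero] at h
  rw [h]
  refine Finset.sum_eq_zero fun i _ => ?_
  refine ext_zero_of_eq hS (hf.mul (bm_fderiv hπ hG hK i)) (LipT_cons (hπ i) hπ)
    (i := 0) (j := i.succ) (Fin.succ_ne_zero i).symm ?_
  simp

/-- degenerate chain rule for Lipschitz functions -/
theorem degen {S : Functional X (k + 1)} (hS : IsCurrent S) {f : X → ℝ} (hf : BM f)
    {π : Fin k → X → ℝ} (hπ : LipT π) {G : Euc k → ℝ} {K : ℝ≥0}
    (hK : LipschitzWith K G) : ext S f (Fin.cons (fun x => G (tup π x)) π) = 0 := by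
  obtain ⟨Gn, h1, h2, h3⟩ := B7Moll.exists_smooth_approx hK
  obtain ⟨L, hL⟩ := lipschitz_tup hπ
  choose Kπ hKπ using hπ
  have hπ : LipT π := fun i => ⟨_, hKπ i⟩
  have key := ext_continuity hS hf (π := Fin.cons (fun x => G (tup π x)) π)
    (πs := fun n => Fin.cons (fun x => Gn n (tup π x)) π)
    (K := Fin.cons (K * L) Kπ) (fun i => by
      refine Fin.cases ?_ (fun j => ?_) i
      · simpa [Function.comp_def] using hK.comp hL
      · simpa using hKπ j) (fun n i => by
      refine Fin.cases ?_ (fun j => ?_) i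
      · simpa [Function.comp_def] using (h2 n).comp hL
      · simpa using hKπ j) (fun i x => by
      refine Fin.cases ?_ (fun j => ?_) i
      · simpa using h3 (tup π x)
      · simp)
  have hz : ∀ n, ext S f (Fin.cons (fun x => Gn n (tup π x)) π) = 0 := fun n =>
    degen_smooth hS hf hπ ((h1 n).of_le (by exact_mod_cast le_top)) (h2 n)
  simp only [hz] at key
  exact (tendsto_nhds_unique key tendsto_const_nhds)

/-- Leibniz in the first coordinate -/
theorem leibniz_cons {S : Functional X (k + 1)} (hS : IsCurrent S) {f : X → ℝ} (hf : BM f)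
    {π : Fin k → X → ℝ} (hπ : LipT π) {a b : X → ℝ} (ha : BL a) (hb : BL b) :
    ext S f (Fin.cons (a * b) π) = ext S (f * a) (Fin.cons b π) + ext S (f * b) (Fin.cons a π) := by
  have h := ext_leibniz hS hf (LipT_cons (F := a) ha.1 hπ) 0 ha hb
  simpa only [Fin.update_cons_zero] using h

/-- **Leib** holds for every current. -/
theorem leib {S : Functional X (k + 1)} (hS : IsCurrent S) : Leib S where
  prod a b π ha hb hπ := by
    have h := leibniz_cons hS BL.one.bm hπ ha hb
    have hab : BL (a * b) := ha.mul hb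
    rw [ext_eq hS (LipT_cons hab.1 hπ) BL.one] at h
    rw [h]
    have e1 : ((fun _ => (1 : ℝ)) * a : X → ℝ) = a := by funext x; simp
    have e2 : ((fun _ => (1 : ℝ)) * b : X → ℝ) = b := by funext x; simp
    rw [e1, e2, ext_eq hS (LipT_cons hb.1 hπ) ha, ext_eq hS (LipT_cons ha.1 hπ) hb]
  degen f π G hf hπ hG := by
    obtain ⟨K, hK⟩ := hG.1
    have h := degen hS hf.bm hπ hK
    rw [ext_eq hS (LipT_cons (BL_comp_tup hG hπ).1 hπ) hf] at h
    exact h

/-- `T` is a cycle. -/
def IsCyc (T : Functional X (k + 1)) : Prop :=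
  ∀ (h : X → ℝ) (σ : Fin k → X → ℝ), BL h → LipT σ → T (fun _ => 1) (Fin.cons h σ) = 0

omit [BorelSpace X] in
theorem isCyc_bd {S : Functional X (k + 2)} (hS : IsCurrent S) : IsCyc (bd S) := by
  intro h σ hh hσ
  have h1 : LipT (Fin.cons h σ : Fin (k + 1) → X → ℝ) := LipT_cons hh.1 hσ
  have h2 : IsTestPair (fun _ : X => (1 : ℝ)) (Fin.cons h σ : Fin (k + 1) → X → ℝ) :=
    BL.one.isTestPair h1
  unfold bd
  rw [if_pos h2]
  exact T_zero_of_const hS BL.one (LipT_cons BL.one.1 h1) (i := 0) (c := 1) fun x => by simp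

/-- moving a slot to the front -/
theorem abs_ext_update {T : Functional X (k + 1)} (hT : IsCurrent T) {f : X → ℝ} (hf : BM f)
    {π : Fin (k + 1) → X → ℝ} (hπ : LipT π) (i : Fin (k + 1)) {h : X → ℝ}
    (hh : ∃ K : ℝ≥0, LipschitzWith K h) :
    |ext T f (Function.update π i h)| = |ext T f (Fin.cons h (fun l => π (i.succAbove l)))| := by
  set σ : Fin k → X → ℝ := fun l => π (i.succAbove l) with hσ
  have hσL : LipT σ := fun l => hπ _
  have hc : LipT (Fin.cons h σ : Fin (k + 1) → X → ℝ) := LipT_cons hh hσL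
  have e : Function.update π i h
      = fun l => (Fin.cons h σ : Fin (k + 1) → X → ℝ) (i.cycleRange l) := by
    funext l
    rcases Fin.eq_self_or_eq_succAbove i l with h1 | ⟨j, h1⟩
    · subst h1
      simp [Fin.cycleRange_self]
    · subst h1
      rw [Fin.cycleRange_succAbove, Function.update_of_ne (Fin.succAbove_ne i j)]
      simp [hσ]
  rw [e, ext_perm hT hf hc]
  rcases Int.units_eq_one_or (Equiv.Perm.sign (i.cycleRange)) with hs | hs <;> simp [hs]

/-- **BV bound.** -/
theorem bv_bound {T : Functional X (k + 1)} (hT : IsCurrent T) (hcyc : IsCyc T)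
    {π : Fin (k + 1) → X → ℝ} (hπ : LipT π) :
    ∃ m : Measure (Euc (k + 1)), IsFiniteMeasure m ∧
      ∀ φ : X → ℝ, LipschitzWith 1 φ → (∀ y, |φ y| ≤ 1) →
        ∀ ψ : Euc (k + 1) → ℝ, ContDiff ℝ (⊤ : ℕ∞) ψ → HasCompactSupport ψ → ∀ i : Fin (k + 1),
          |∫ y, φ y * fderiv ℝ ψ (tup π y) (EuclideanSpace.single i 1) * dens T π y ∂(ctrl T)|
            ≤ ∫ x, |ψ x| ∂m := by
  choose K hK using hπ
  have hπ : LipT π := fun i => ⟨_, hK i⟩
  have hpm : Measurable (tup π) := measurable_tup hπ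
  set C : ℝ≥0 := ∏ l, (1 + K l) with hC
  refine ⟨C • (ctrl T).map (tup π), inferInstance, ?_⟩
  intro φ hφ hφ1 ψ hψ hψc i
  have hφB : BL φ := ⟨⟨1, hφ⟩, 1, hφ1⟩
  obtain ⟨Kψ, hKψ⟩ := hψ.lipschitzWith_of_hasCompactSupport hψc (by simp)
  have hψ1 : ContDiff ℝ 1 ψ := hψ.of_le (by exact_mod_cast le_top)
  obtain ⟨Cψ, hCψ⟩ := hψc.exists_bound_of_continuous hψ.continuous
  have hψB : BL ψ := ⟨⟨Kψ, hKψ⟩, Cψ, fun x => by simpa [Real.norm_eq_abs] using hCψ x⟩
  set h : X → ℝ := fun x => ψ (tup π x) with hh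
  have hhB : BL h := BL_comp_tup hψB hπ
  -- chain rule
  have e1 : ext T φ (Function.update π i h)
      = ext T (fun x => φ x * fderiv ℝ ψ (tup π x) (EuclideanSpace.single i 1)) π := by
    rw [hh, ext_chain_tup hT hφB.bm hπ i hπ hψ1 hKψ]
    rw [Finset.sum_eq_single i]
    · rw [Function.update_eq_self]
    · intro l _ hl
      refine ext_zero_of_eq hT (hφB.bm.mul (bm_fderiv hπ hψ1 hKψ l)) (hπ.update i (hπ l))
        (i := i) (j := l) hl.symm ?_
      simp [Function.update_of_ne hl]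
    · intro h
      exact absurd (Finset.mem_univ i) h
  have e2 : ∫ y, φ y * fderiv ℝ ψ (tup π y) (EuclideanSpace.single i 1) * dens T π y ∂(ctrl T)
      = ext T φ (Function.update π i h) := by
    rw [e1]
    rfl
  rw [e2, abs_ext_update hT hφB.bm hπ i hhB.1]
  set σ : Fin k → X → ℝ := fun l => π (i.succAbove l) with hσ
  have hσL : LipT σ := fun l => hπ _
  -- Leibniz
  have e3 := leibniz_cons hT BL.one.bm hσL hφB hhB
  have hφh : BL (φ * h) := hφB.mul hhB
  have e4 : ext T (fun _ => 1) (Fin.cons (φ * h) σ) = 0 := by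
    rw [ext_eq hT (LipT_cons hφh.1 hσL) BL.one]
    exact hcyc _ _ hφh hσL
  have e5 : ((fun _ => (1 : ℝ)) * φ : X → ℝ) = φ := by funext x; simp
  have e6 : ((fun _ => (1 : ℝ)) * h : X → ℝ) = h := by funext x; simp
  rw [e4, e5, e6] at e3
  have e7 : ext T φ (Fin.cons h σ) = - ext T h (Fin.cons φ σ) := by linarith
  rw [e7, abs_neg]
  have e8 := abs_ext_le hT (controls_ctrl hT) hhB.bm (π := Fin.cons φ σ)
    (K := Fin.cons 1 (fun l => K (i.succAbove l))) (fun l => by
      refine Fin.cases ?_ (fun j => ?_) l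
      · simpa using hφ
      · simpa [hσ] using hK _)
  refine e8.trans ?_
  have e9 : ∫ x, |ψ x| ∂(C • (ctrl T).map (tup π)) = (C : ℝ) * ∫ x, |h x| ∂(ctrl T) := by
    rw [integral_smul_nnreal_measure, integral_map hpm.aemeasurable
      (hψ.continuous.abs.aestronglyMeasurable)]
    rfl
  rw [e9]
  refine mul_le_mul_of_nonneg_right ?_ (integral_nonneg fun x => abs_nonneg _)
  rw [Fin.prod_univ_succ]
  simp only [Fin.cons_zero, Fin.cons_succ, NNReal.coe_one, one_mul]
  have e10 : (C : ℝ) = (1 + (K i : ℝ)) * ∏ l : Fin k, (1 + (K (i.succAbove l) : ℝ)) := by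
    rw [hC]
    push_cast
    rw [Fin.prod_univ_succAbove _ i]
  rw [e10]
  calc ∏ l : Fin k, (K (i.succAbove l) : ℝ) ≤ ∏ l : Fin k, (1 + (K (i.succAbove l) : ℝ)) := by
        refine Finset.prod_le_prod (fun l _ => NNReal.coe_nonneg _) fun l _ => by linarith
    _ ≤ (1 + (K i : ℝ)) * ∏ l : Fin k, (1 + (K (i.succAbove l) : ℝ)) := by
        refine le_mul_of_one_le_left ?_ (by linarith [NNReal.coe_nonneg (K i)])
        exact Finset.prod_nonneg fun l _ => by positivity

end Crest.Agent.R241.B7BV
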