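import Mathlib
import Crest.Prelude.Def_MetricCurrent

/-!
R241, block B7: smooth approximation of Lipschitz functions with almost everywhere convergence of
the derivatives.  Owner: helper191.
-/

set_option autoImplicit false

open MeasureTheory Filter Topology Set
open scoped ENNReal NNReal Convolution

namespace Crest.Agent.R241.B7Moll2

open Crest.GeometryTopology.Submanifold (Euc)
open ContinuousLinearMap (lsmul)

variable {k : ℕ}

/-- The derivative of the mollification of a Lipschitz function. -/
theorem fderiv_conv {G : Euc k → ℝ} {K : ℝ≥0} (hG : LipschitzWith K G)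
    (φ : ContDiffBump (0 : Euc k)) (y v : Euc k) :
    fderiv ℝ (φ.normed volume ⋆[lsmul ℝ ℝ, volume] G) y v
      = (φ.normed volume ⋆[lsmul ℝ ℝ, volume] fun z => lineDeriv ℝ G z v) y := by
  set ρ : Euc k → ℝ := φ.normed volume with hρ
  set F : Euc k → ℝ := ρ ⋆[lsmul ℝ ℝ, volume] G with hF
  have hint : ∀ z : Euc k, Integrable (fun t => ρ t * G (z - t)) volume := by
    intro z
    have hc : Continuous (fun t => ρ t * G (z - t)) :=
      φ.continuous_normed.mul (hG.continuous.comp (continuous_const.sub continuous_id))
    exact hc.integrable_of_hasCompactSupport (φ.hasCompactSupport_normed.mul_right)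
  have hsm : ContDiff ℝ (⊤ : ℕ∞) F :=
    φ.hasCompactSupport_normed.contDiff_convolution_left _ φ.contDiff_normed
      hG.continuous.locallyIntegrable
  have hd : DifferentiableAt ℝ F y := (hsm.differentiable (by simp)) y
  have h1 : HasLineDerivAt ℝ F (fderiv ℝ F y v) y v := hd.hasFDerivAt.hasLineDerivAt v
  have h2 : Tendsto (fun t : ℝ => t⁻¹ • (F (y + t • v) - F y)) (𝓝[>] 0)
      (𝓝 (fderiv ℝ F y v)) := by
    have h3 := h1.tendsto_slope_zero_right
    exact h3
  have hρi : Integrable (fun x => ρ (y - x)) volume :=
    (φ.continuous_normed.comp (continuous_const.sub continuous_id)).integrable_of_hasCompactSupport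
      (by
        have := φ.hasCompactSupport_normed (μ := volume)
        exact this.comp_homeomorph (Homeomorph.subLeft y))
  have h4 := hG.integral_inv_smul_sub_mul_tendsto_integral_lineDeriv_mul (μ := volume) hρi v
  have h5 : ∀ t : ℝ, ∫ x, (t⁻¹ • (G (x + t • v) - G x)) * ρ (y - x)
      = t⁻¹ • (F (y + t • v) - F y) := by
    intro t
    rw [← integral_sub_left_eq_self (fun x => (t⁻¹ • (G (x + t • v) - G x)) * ρ (y - x)) volume y]
    simp only [hF, convolution_def, ContinuousLinearMap.lsmul_apply, smul_eq_mul]
    rw [← integral_sub (hint _) (hint _), ← integral_const_mul]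
    refine integral_congr_ae (Eventually.of_forall fun x => ?_)
    simp only [sub_sub_cancel]
    have : y - x + t • v = y + t • v - x := by abel
    rw [this]
    ring
  simp only [h5] at h4
  rw [tendsto_nhds_unique h2 h4]
  simp only [convolution_def, ContinuousLinearMap.lsmul_apply, smul_eq_mul]
  rw [← integral_sub_left_eq_self (fun x => lineDeriv ℝ G x v * ρ (y - x)) volume y]
  refine integral_congr_ae (Eventually.of_forall fun x => ?_)
  simp only [sub_sub_cancel]
  ring

/-- Smooth equi-Lipschitz approximation with a.e. convergence of the partial derivatives. -/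
theorem exists_smooth_approx_ae {G : Euc k → ℝ} {K : ℝ≥0} (hG : LipschitzWith K G) :
    ∃ Gn : ℕ → Euc k → ℝ, (∀ n, ContDiff ℝ (⊤ : ℕ∞) (Gn n)) ∧ (∀ n, LipschitzWith K (Gn n)) ∧
      (∀ x, Tendsto (fun n => Gn n x) atTop (𝓝 (G x))) ∧
      ∀ᵐ y : Euc k, ∀ j : Fin k, Tendsto (fun n => fderiv ℝ (Gn n) y (EuclideanSpace.single j 1))
        atTop (𝓝 (fderiv ℝ G y (EuclideanSpace.single j 1))) := by
  let φ : ℕ → ContDiffBump (0 : Euc k) := fun n =>
    ⟨(1 / 2) * (1 / ((n : ℝ) + 1)), 1 / ((n : ℝ) + 1), by positivity, by
      have : (0 : ℝ) < 1 / ((n : ℝ) + 1) := by positivity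
      linarith⟩
  have hφ : Tendsto (fun n => (φ n).rOut) atTop (𝓝 0) := tendsto_one_div_add_atTop_nhds_zero_nat
  have hφ' : ∀ᶠ n in atTop, (φ n).rOut ≤ 2 * (φ n).rIn := Eventually.of_forall fun n => by
    simp only [φ]
    linarith
  refine ⟨fun n => ((φ n).normed volume ⋆[lsmul ℝ ℝ, volume] G), fun n => ?_, fun n => ?_, fun x =>
    ContDiffBump.convolution_tendsto_right_of_continuous hφ hG.continuous x, ?_⟩
  · exact (φ n).hasCompactSupport_normed.contDiff_convolution_left _ (φ n).contDiff_normed
      hG.continuous.locallyIntegrable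
  · apply LipschitzWith.of_dist_le_mul
    intro x y
    have hint : ∀ z : Euc k, Integrable (fun t => (φ n).normed volume t * G (z - t)) volume := by
      intro z
      have hc : Continuous (fun t => (φ n).normed volume t * G (z - t)) :=
        (φ n).continuous_normed.mul (hG.continuous.comp (continuous_const.sub continuous_id))
      exact hc.integrable_of_hasCompactSupport ((φ n).hasCompactSupport_normed.mul_right)
    rw [Real.dist_eq]
    simp only [convolution_def, ContinuousLinearMap.lsmul_apply, smul_eq_mul]
    rw [← integral_sub (hint x) (hint y)]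
    have h1 : |∫ t, ((φ n).normed volume t * G (x - t) - (φ n).normed volume t * G (y - t))|
        ≤ ∫ t, (φ n).normed volume t * (K * dist x y) := by
      refine (abs_integral_le_integral_abs).trans ?_
      refine integral_mono ((hint x).sub (hint y)).abs
        (((φ n).integrable_normed).mul_const _) fun t => ?_
      simp only
      rw [← mul_sub, abs_mul, abs_of_nonneg ((φ n).nonneg_normed t)]
      refine mul_le_mul_of_nonneg_left ?_ ((φ n).nonneg_normed t)
      have := hG.dist_le_mul (x - t) (y - t)
      rw [Real.dist_eq] at this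
      simpa using this
    refine h1.trans ?_
    rw [integral_mul_const, (φ n).integral_normed, one_mul]
  · have h1 : ∀ᵐ y : Euc k, ∀ j : Fin k, Tendsto (fun n =>
        ((φ n).normed volume ⋆[lsmul ℝ ℝ, volume]
          fun z => lineDeriv ℝ G z (EuclideanSpace.single j 1)) y)
        atTop (𝓝 (lineDeriv ℝ G y (EuclideanSpace.single j 1))) := by
      rw [ae_all_iff]
      intro j
      exact ContDiffBump.ae_convolution_tendsto_right_of_locallyIntegrable hφ hφ'
        (hG.locallyIntegrable_lineDeriv _)
    filter_upwards [h1, hG.ae_differentiableAt (μ := volume)] with y hy hdy j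
    simp only [fderiv_conv hG]
    rw [← hdy.lineDeriv_eq_fderiv]
    exact hy j

end Crest.Agent.R241.B7Moll2
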