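import Crest.Agent.R241.B7ZD

/-!
R241, block B7: integer densities of superlevel sets from an integer density one dimension up.
Owner: helper191.
-/

set_option autoImplicit false

open MeasureTheory Filter Topology Set
open scoped ENNReal NNReal

universe u

namespace Crest.Agent.R241.B7Slice

open Crest.GeometryTopology.Submanifold (Euc)
open Crest.Agent.R241.B7ZD

variable {X : Type u} [MeasurableSpace X] {k : ℕ}

/-- `c(s) = ∫_r^{r'} 1_{t < s} dt`. -/
noncomputable def clamp (r r' s : ℝ) : ℝ := max 0 (min (s - r) (r' - r))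

lemma clamp_nonneg (r r' s : ℝ) : 0 ≤ clamp r r' s := le_max_left _ _

lemma clamp_le {r r' : ℝ} (h : r ≤ r') (s : ℝ) : clamp r r' s ≤ r' - r :=
  max_le (by linarith) (min_le_right _ _)

lemma clamp_eq_integral {r r' : ℝ} (h : r ≤ r') (s : ℝ) :
    clamp r r' s = ∫ t in Ioc r r', (if t < s then (1 : ℝ) else 0) := by
  have h1 : ∀ t, (if t < s then (1 : ℝ) else 0) = (Iio s).indicator (fun _ => (1 : ℝ)) t := by
    intro t
    by_cases ht : t < s
    · simp [ht]
    · simp [ht]
  simp_rw [h1]
  rw [setIntegral_indicator measurableSet_Iio]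
  rw [setIntegral_const, smul_eq_mul, mul_one]
  have h2 : (volume : Measure ℝ).real (Ioc r r' ∩ Iio s) = clamp r r' s := by
    by_cases hs : s ≤ r'
    · have : Ioc r r' ∩ Iio s = Ioo r s := by
        ext t
        simp only [mem_inter_iff, mem_Ioc, mem_Iio, mem_Ioo]
        constructor
        · rintro ⟨⟨a, b⟩, c⟩
          exact ⟨a, c⟩
        · rintro ⟨a, b⟩
          exact ⟨⟨a, by linarith⟩, b⟩
      rw [this]
      simp only [Measure.real, Real.volume_Ioo]
      unfold clamp
      rw [min_eq_left (by linarith)]
      by_cases h3 : 0 ≤ s - r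
      · rw [ENNReal.toReal_ofReal h3, max_eq_right h3]
      · rw [ENNReal.ofReal_of_nonpos (by linarith), max_eq_left (by linarith)]
        rfl
    · have : Ioc r r' ∩ Iio s = Ioc r r' := by
        ext t
        simp only [mem_inter_iff, mem_Ioc, mem_Iio]
        constructor
        · rintro ⟨⟨a, b⟩, c⟩
          exact ⟨a, b⟩
        · rintro ⟨a, b⟩
          exact ⟨⟨a, b⟩, by linarith⟩
      rw [this]
      simp only [Measure.real, Real.volume_Ioc]
      rw [ENNReal.toReal_ofReal (by linarith)]
      unfold clamp
      rw [min_eq_right (by linarith), max_eq_right (by linarith)]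
  rw [h2]

/-- Two locally integrable functions on `ℝ` with the same integrals over all intervals agree. -/
lemma ae_eq_of_Ioc {f g : ℝ → ℝ} (hf : LocallyIntegrable f volume)
    (hg : LocallyIntegrable g volume)
    (h : ∀ a b : ℝ, a ≤ b → ∫ t in Ioc a b, f t = ∫ t in Ioc a b, g t) : f =ᵐ[volume] g := by
  have hw : LocallyIntegrable (fun t => f t - g t) volume := hf.sub hg
  have h0 : ∀ c y : ℝ, ∫ t in c..y, (f t - g t) = 0 := by
    intro c y
    have i1 : ∀ a b : ℝ, IntegrableOn f (Ioc a b) volume := fun a b =>
      (hf.integrableOn_isCompact isCompact_Icc).mono_set Ioc_subset_Icc_self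
    have i2 : ∀ a b : ℝ, IntegrableOn g (Ioc a b) volume := fun a b =>
      (hg.integrableOn_isCompact isCompact_Icc).mono_set Ioc_subset_Icc_self
    rcases le_total c y with hc | hc
    · rw [intervalIntegral.integral_of_le hc, integral_sub (i1 _ _) (i2 _ _), h c y hc, sub_self]
    · rw [intervalIntegral.integral_of_ge hc, integral_sub (i1 _ _) (i2 _ _), h y c hc, sub_self,
        neg_zero]
  filter_upwards [LocallyIntegrable.ae_hasDerivAt_integral hw] with x hx
  have h1 := hx 0
  have h2 : (fun y => ∫ t in (0 : ℝ)..y, (f t - g t)) = fun _ => 0 := by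
    funext y
    exact h0 0 y
  rw [h2] at h1
  have := h1.unique (hasDerivAt_const x (0 : ℝ))
  linarith

/-- Checking the density identity on a generating algebra suffices. -/
lemma isDens_of_algebra {μ : Measure X} {p : X → Euc k} (hp : Measurable p) {h : X → ℝ}
    (hh : Integrable h μ) {u : Euc k → ℝ} (hu : Integrable u volume)
    (𝒜 : Set (Set (Euc k))) (h𝒜 : IsPiSystem 𝒜)
    (hgen : (inferInstance : MeasurableSpace (Euc k)) = MeasurableSpace.generateFrom 𝒜)
    (huniv : univ ∈ 𝒜)
    (H : ∀ D ∈ 𝒜, ∫ x in p ⁻¹' D, h x ∂μ = ∫ x in D, u x) : IsDens μ p h u := by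
  refine ⟨hu, fun D hD => ?_⟩
  induction D, hD using MeasurableSpace.induction_on_inter hgen h𝒜 with
  | empty => simp
  | basic D hD => exact H D hD
  | compl D hD ih =>
    have e1 := integral_add_compl (hp hD) hh
    have e2 := integral_add_compl hD hu
    have e3 := H univ huniv
    simp only [preimage_univ, Measure.restrict_univ] at e3
    rw [preimage_compl]
    linarith
  | iUnion f hd hm ih =>
    rw [preimage_iUnion]
    have d' : Pairwise (Function.onFun Disjoint fun i => p ⁻¹' f i) := fun i j hij =>
      (hd hij).preimage p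
    rw [integral_iUnion (fun i => hp (hm i)) d' hh.integrableOn,
      integral_iUnion hm hd hu.integrableOn]
    exact tsum_congr ih

/-- **Slicing lemma.** -/
theorem slice {μ : Measure X} [IsFiniteMeasure μ] {p : X → Euc k} (hp : Measurable p)
    {g : X → ℝ} (hg : Integrable g μ) {F : X → ℝ} (hF : Measurable F)
    {U : ℝ × Euc k → ℝ} (hU : Integrable U ((volume : Measure ℝ).prod volume))
    (hUz : ∀ᵐ z ∂((volume : Measure ℝ).prod (volume : Measure (Euc k))), ∃ n : ℤ, U z = n)
    (H : ∀ r r' : ℝ, r ≤ r' → ∀ D : Set (Euc k), MeasurableSet D →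
      ∫ x in p ⁻¹' D, clamp r r' (F x) * g x ∂μ
        = ∫ z in Ioc r r' ×ˢ D, U z ∂((volume : Measure ℝ).prod volume)) :
    ∀ᵐ t ∂(volume : Measure ℝ), ZD μ p ({x | t < F x}.indicator g) := by
  classical
  -- the generating algebra
  set 𝒜 : Set (Set (Euc k)) :=
    generateSetAlgebra (MeasurableSpace.countableGeneratingSet (Euc k)) with h𝒜
  have h𝒜c : 𝒜.Countable :=
    countable_generateSetAlgebra (MeasurableSpace.countable_countableGeneratingSet)
  have hgen : (inferInstance : MeasurableSpace (Euc k)) = MeasurableSpace.generateFrom 𝒜 := by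
    rw [h𝒜, generateFrom_generateSetAlgebra_eq,
      MeasurableSpace.generateFrom_countableGeneratingSet]
  have hpi : IsPiSystem 𝒜 := fun s hs t ht _ =>
    (isSetAlgebra_generateSetAlgebra).inter_mem hs ht
  have hun : univ ∈ 𝒜 := (isSetAlgebra_generateSetAlgebra).univ_mem
  have hmeas : ∀ D ∈ 𝒜, MeasurableSet D := by
    intro D hD
    have : MeasurableSet[MeasurableSpace.generateFrom 𝒜] D :=
      MeasurableSpace.measurableSet_generateFrom hD
    rw [← hgen] at this
    exact this
  set G : ℝ × X → ℝ := {z : ℝ × X | z.1 < F z.2}.indicator (fun z => g z.2) with hG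
  have hset : MeasurableSet {z : ℝ × X | z.1 < F z.2} :=
    measurableSet_lt measurable_fst (hF.comp measurable_snd)
  have key : ∀ D, MeasurableSet D →
      (fun t => ∫ x in p ⁻¹' D, ({x | t < F x}.indicator g) x ∂μ) =ᵐ[volume]
        fun t => ∫ y in D, U (t, y) := by
    intro D hD
    have hbd : ∀ t, |∫ x in p ⁻¹' D, ({x | t < F x}.indicator g) x ∂μ| ≤ ∫ x, |g x| ∂μ := by
      intro t
      refine abs_integral_le_integral_abs.trans ?_
      refine (setIntegral_le_integral (hg.indicator
        (measurableSet_lt measurable_const hF)).abs (ae_of_all _ fun x => abs_nonneg _)).trans ?_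
      refine integral_mono (hg.indicator (measurableSet_lt measurable_const hF)).abs hg.abs ?_
      intro x
      by_cases hx : t < F x
      · simp [hx]
      · simp [hx]
    have hGi : ∀ a b : ℝ, Integrable G (((volume : Measure ℝ).restrict (Ioc a b)).prod
        (μ.restrict (p ⁻¹' D))) := by
      intro a b
      have : Integrable (fun z : ℝ × X => g z.2) (((volume : Measure ℝ).restrict (Ioc a b)).prod
        (μ.restrict (p ⁻¹' D))) := (hg.restrict (s := p ⁻¹' D)).comp_snd _
      exact this.indicator hset
    have hswap : ∀ a b : ℝ, a ≤ b →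
        ∫ t in Ioc a b, ∫ x in p ⁻¹' D, ({x | t < F x}.indicator g) x ∂μ
          = ∫ x in p ⁻¹' D, clamp a b (F x) * g x ∂μ := by
      intro a b hab
      have h1 := integral_integral_swap (f := fun t x => ({x | t < F x}.indicator g) x)
        (μ := (volume : Measure ℝ).restrict (Ioc a b)) (ν := μ.restrict (p ⁻¹' D)) (by
          refine (hGi a b).congr (ae_of_all _ fun z => ?_)
          by_cases hz : z.1 < F z.2
          · simp [hG, hz, Function.uncurry]
          · simp [hG, hz, Function.uncurry])
      rw [h1]
      refine integral_congr_ae (ae_of_all _ fun x => ?_)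
      simp only
      rw [clamp_eq_integral hab, ← integral_mul_const]
      refine integral_congr_ae (ae_of_all _ fun t => ?_)
      by_cases hx : t < F x
      · simp [hx]
      · simp [hx]
    have hA : Integrable (fun t => ∫ y in D, U (t, y)) volume := by
      have : Integrable U ((volume : Measure ℝ).prod ((volume : Measure (Euc k)).restrict D)) := by
        have h2 : (volume : Measure ℝ).prod ((volume : Measure (Euc k)).restrict D)
            = ((volume : Measure ℝ).prod (volume : Measure (Euc k))).restrict (univ ×ˢ D) := by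
          rw [← Measure.prod_restrict, Measure.restrict_univ]
        rw [h2]
        exact hU.restrict
      exact this.integral_prod_left
    apply ae_eq_of_Ioc
    · -- local integrability of `M`
      rw [locallyIntegrable_iff]
      intro K hK
      obtain ⟨a, b, hab⟩ : ∃ a b : ℝ, K ⊆ Ioc a b := by
        obtain ⟨R, hR⟩ := hK.isBounded.subset_closedBall 0
        refine ⟨-R - 1, R + 1, hR.trans fun x hx => ?_⟩
        rw [Metric.mem_closedBall, Real.dist_eq, sub_zero, abs_le] at hx
        exact ⟨by linarith [hx.1], by linarith [hx.2]⟩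
      refine IntegrableOn.mono_set ?_ hab
      have h3 := (hGi a b).integral_prod_left
      refine h3.congr (ae_of_all _ fun t => ?_)
      refine integral_congr_ae (ae_of_all _ fun x => ?_)
      by_cases hx : t < F x
      · simp [hG, hx]
      · simp [hG, hx]
    · exact hA.locallyIntegrable
    · intro a b hab
      rw [hswap a b hab, H a b hab D hD]
      rw [← Measure.prod_restrict]
      refine integral_prod _ ?_
      rw [Measure.prod_restrict]
      exact hU.restrict
  have hall : ∀ᵐ t ∂(volume : Measure ℝ), ∀ D ∈ 𝒜,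
      ∫ x in p ⁻¹' D, ({x | t < F x}.indicator g) x ∂μ = ∫ y in D, U (t, y) := by
    rw [ae_ball_iff h𝒜c]
    intro D hD
    exact key D (hmeas D hD)
  filter_upwards [hall, hU.prod_right_ae, Measure.ae_ae_of_ae_prod hUz] with t h1 h2 h3
  exact ⟨fun y => U (t, y), isDens_of_algebra hp
    (hg.indicator (measurableSet_lt measurable_const hF)) h2 𝒜 hpi hgen hun h1, h3⟩

end Crest.Agent.R241.B7Slice
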