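import Crest.Agent.R241.B7Slice
import Crest.Agent.R241.G1c

/-!
R241, block B7a: the boundary of a current with integral projections has integral projections
(for all Borel restrictions).  Owner: helper191.
-/

set_option autoImplicit false

open MeasureTheory Filter Topology Set
open scoped ENNReal NNReal

universe u v

namespace Crest.Agent.R241.B7a

open Crest.GeometryTopology.Submanifold (Euc)
open Crest.GeometryTopology.MetricCurrent
open Crest.Agent.R241.B7ZD Crest.Agent.R241.B7Slice Crest.Agent.R241.G1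

/-- The tuple `π` as a map into Euclidean space. -/
noncomputable def tup {X : Type u} {k : ℕ} (π : Fin k → X → ℝ) (x : X) : Euc k :=
  WithLp.toLp 2 (fun i => π i x)

section general

/-- Approximation of closed sets. -/
theorem tendsto_thick {W : Type u} [MeasurableSpace W] {Y : Type v} [MetricSpace Y]
    [MeasurableSpace Y] [BorelSpace Y] {C : Set Y} (hC : IsClosed C)
    {ρ : Measure W} {r : W → Y} (hr : Measurable r) {g : W → ℝ} (hg : Integrable g ρ) :
    Tendsto (fun n : ℕ => ∫ x,
      ((thickenedIndicator (δ := 1 / ((n : ℝ) + 1)) (by positivity) C (r x) : ℝ≥0) : ℝ) * g x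
        ∂ρ) atTop (𝓝 (∫ x in r ⁻¹' C, g x ∂ρ)) := by
  rw [← integral_indicator (hr hC.measurableSet)]
  refine tendsto_integral_of_dominated_convergence (fun x => |g x|) (fun n => ?_) hg.abs
    (fun n => ae_of_all _ fun x => ?_) (ae_of_all _ fun x => ?_)
  · refine AEStronglyMeasurable.mul ?_ hg.1
    have : Measurable (fun y : Y =>
        ((thickenedIndicator (δ := 1 / ((n : ℝ) + 1)) (by positivity) C y : ℝ≥0) : ℝ)) :=
      (NNReal.continuous_coe.comp (thickenedIndicator _ C).continuous).measurable
    exact (this.comp hr).aestronglyMeasurable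
  · rw [norm_mul, Real.norm_eq_abs, Real.norm_eq_abs]
    have h1 : |((thickenedIndicator (δ := 1 / ((n : ℝ) + 1)) (by positivity) C (r x) : ℝ≥0) : ℝ)|
        ≤ 1 := by
      rw [abs_of_nonneg (NNReal.coe_nonneg _)]
      exact_mod_cast thickenedIndicator_le_one _ C (r x)
    calc _ ≤ 1 * |g x| := mul_le_mul_of_nonneg_right h1 (abs_nonneg _)
      _ = |g x| := one_mul _
  · have h1 := thickenedIndicator_tendsto_indicator_closure
      (δseq := fun n : ℕ => 1 / ((n : ℝ) + 1)) (fun n => by positivity)
      tendsto_one_div_add_atTop_nhds_zero_nat C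
    rw [tendsto_pi_nhds] at h1
    have h2 := (NNReal.continuous_coe.tendsto _).comp (h1 (r x))
    have h3 := h2.mul_const (g x)
    have h4 : (r ⁻¹' C).indicator g x
        = ((((closure C).indicator (fun _ => (1 : ℝ≥0)) (r x) : ℝ≥0)) : ℝ) * g x := by
      rw [hC.closure_eq]
      by_cases hx : r x ∈ C
      · have : x ∈ r ⁻¹' C := hx
        simp [indicator_of_mem hx, indicator_of_mem this]
      · have : x ∉ r ⁻¹' C := hx
        simp [indicator_of_notMem hx, indicator_of_notMem this]
    rw [h4]
    exact h3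

/-- Equality of the projections of two signed measures tested against bounded Lipschitz
functions. -/
theorem eq_of_BL {X : Type u} {Z : Type v} [MeasurableSpace X] [MeasurableSpace Z]
    {Y : Type*} [MetricSpace Y] [MeasurableSpace Y] [BorelSpace Y]
    {μ : Measure X} {ν : Measure Z} {p : X → Y} {q : Z → Y} (hp : Measurable p)
    (hq : Measurable q) {h : X → ℝ} {l : Z → ℝ} (hh : Integrable h μ) (hl : Integrable l ν)
    (H : ∀ G : Y → ℝ, BL G → ∫ x, G (p x) * h x ∂μ = ∫ z, G (q z) * l z ∂ν)
    (D : Set Y) (hD : MeasurableSet D) :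
    ∫ x in p ⁻¹' D, h x ∂μ = ∫ z in q ⁻¹' D, l z ∂ν := by
  have huniv : ∫ x, h x ∂μ = ∫ z, l z ∂ν := by
    have := H _ BL.one
    simpa using this
  induction D, hD using MeasurableSpace.induction_on_inter
    (BorelSpace.measurable_eq (α := Y) ▸ borel_eq_generateFrom_isClosed) isPiSystem_isClosed with
  | empty => simp
  | basic C hC =>
    have hC : IsClosed C := hC
    refine tendsto_nhds_unique (tendsto_thick hC hp hh)
      ((tendsto_thick hC hq hl).congr fun n => ?_)
    refine (H (fun y =>
      ((thickenedIndicator (δ := 1 / ((n : ℝ) + 1)) (by positivity) C y : ℝ≥0) : ℝ)) ?_).symm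
    exact BL.thickened _ C
  | compl A hA ih =>
    have e1 := integral_add_compl (hp hA) hh
    have e2 := integral_add_compl (hq hA) hl
    rw [preimage_compl, preimage_compl]
    linarith
  | iUnion f hd hm ih =>
    rw [preimage_iUnion, preimage_iUnion]
    have d1 : Pairwise (Function.onFun Disjoint fun i => p ⁻¹' f i) := fun i j hij =>
      (hd hij).preimage p
    have d2 : Pairwise (Function.onFun Disjoint fun i => q ⁻¹' f i) := fun i j hij =>
      (hd hij).preimage q
    rw [integral_iUnion (fun i => hp (hm i)) d1 hh.integrableOn,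
      integral_iUnion (fun i => hq (hm i)) d2 hl.integrableOn]
    exact tsum_congr ih

end general

section current

variable {X : Type u} [MetricSpace X] [MeasurableSpace X] [BorelSpace X] {k : ℕ}

omit [MeasurableSpace X] [BorelSpace X] in
theorem LipT_cons {F : X → ℝ} (hF : ∃ K : ℝ≥0, LipschitzWith K F) {π : Fin k → X → ℝ}
    (hπ : LipT π) : LipT (Fin.cons F π : Fin (k + 1) → X → ℝ) := by
  intro i
  refine Fin.cases ?_ (fun j => ?_) i
  · simpa using hF
  · simpa using hπ j

omit [MeasurableSpace X] [BorelSpace X] in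
theorem lipschitz_tup {π : Fin k → X → ℝ} (hπ : LipT π) : ∃ K : ℝ≥0, LipschitzWith K (tup π) := by
  choose K hK using hπ
  have h1 : LipschitzWith (∑ i, K i) (fun x => fun i => π i x) := by
    apply LipschitzWith.of_dist_le_mul
    intro x y
    rw [dist_pi_le_iff (by positivity)]
    intro i
    exact ((hK i).weaken (Finset.single_le_sum (f := K) (fun i _ => zero_le)
      (Finset.mem_univ i))).dist_le_mul x y
  have h2 := (PiLp.lipschitzWith_toLp 2 (fun _ : Fin k => ℝ)).comp h1
  exact ⟨_, h2⟩

theorem measurable_tup {π : Fin k → X → ℝ} (hπ : LipT π) : Measurable (tup π) := by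
  obtain ⟨K, hK⟩ := lipschitz_tup hπ
  exact hK.continuous.measurable

/-- The product rule and the degenerate chain rule for a `(k+1)`-current. -/
structure Leib (S : Functional X (k + 1)) : Prop where
  prod : ∀ (a b : X → ℝ) (π : Fin k → X → ℝ), BL a → BL b → LipT π →
    S (fun _ => 1) (Fin.cons (a * b) π) = S a (Fin.cons b π) + S b (Fin.cons a π)
  degen : ∀ (f : X → ℝ) (π : Fin k → X → ℝ) (G : Euc k → ℝ), BL f → LipT π → BL G →
    S f (Fin.cons (fun x => G (tup π x)) π) = 0

omit [MeasurableSpace X] [BorelSpace X] in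
theorem BL_comp_tup {G : Euc k → ℝ} (hG : BL G) {π : Fin k → X → ℝ} (hπ : LipT π) :
    BL (fun x => G (tup π x)) := by
  obtain ⟨K, hK⟩ := lipschitz_tup hπ
  obtain ⟨⟨L, hL⟩, C, hC⟩ := hG
  exact ⟨⟨_, hL.comp hK⟩, C, fun x => hC _⟩

omit [MeasurableSpace X] [BorelSpace X] in
theorem BL_clamp {r r' : ℝ} (h : r ≤ r') {F : X → ℝ} (hF : ∃ K : ℝ≥0, LipschitzWith K F) :
    BL (fun x => clamp r r' (F x)) := by
  obtain ⟨K, hK⟩ := hF
  refine ⟨⟨K, ?_⟩, r' - r, fun x => ?_⟩
  · unfold clamp
    apply LipschitzWith.of_dist_le_mul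
    intro x y
    have h1 := hK.dist_le_mul x y
    refine le_trans ?_ h1
    rw [Real.dist_eq, Real.dist_eq]
    have h2 := abs_max_sub_max_le_abs (min (F x - r) (r' - r)) (min (F y - r) (r' - r)) 0
    rw [max_comm 0, max_comm 0]
    refine h2.trans ?_
    have h3 := abs_min_sub_min_le_max (F x - r) (r' - r) (F y - r) (r' - r)
    refine h3.trans ?_
    simp only [sub_self, abs_zero]
    rw [max_eq_left (abs_nonneg _)]
    apply le_of_eq
    congr 1
    ring
  · rw [abs_of_nonneg (clamp_nonneg _ _ _)]
    exact clamp_le h _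

/-- The key identity relating superlevel sets in `bd S` and slabs in `S`. -/
theorem key_identity {S : Functional X (k + 1)} (hS : IsCurrent S) (hb : IsCurrent (bd S))
    (hL : Leib S) {F : X → ℝ} (hF : ∃ K : ℝ≥0, LipschitzWith K F) {π : Fin k → X → ℝ}
    (hπ : LipT π) {r r' : ℝ} (hr : r ≤ r') {G : Euc k → ℝ} (hG : BL G) :
    ∫ x, G (tup π x) * (clamp r r' (F x) * dens (bd S) π x) ∂(ctrl (bd S))
      = ∫ x, G (tup π x) * ({x | r < F x ∧ F x ≤ r'}.indicator
          (dens S (Fin.cons F π)) x) ∂(ctrl S) := by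
  obtain ⟨KF, hKF⟩ := hF
  have hFm : Measurable F := hKF.continuous.measurable
  have hc : BL (fun x => clamp r r' (F x)) := BL_clamp hr ⟨KF, hKF⟩
  have hG' : BL (fun x => G (tup π x)) := BL_comp_tup hG hπ
  set c : X → ℝ := fun x => clamp r r' (F x) with hcdef
  set g : X → ℝ := fun x => G (tup π x) with hgdef
  have hcL : LipT (Fin.cons c π : Fin (k + 1) → X → ℝ) := LipT_cons hc.1 hπ
  have hFL : LipT (Fin.cons F π : Fin (k + 1) → X → ℝ) := LipT_cons ⟨KF, hKF⟩ hπ
  set A : Set X := {x | r < F x ∧ F x ≤ r'} with hA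
  have hAm : MeasurableSet A :=
    (measurableSet_lt measurable_const hFm).inter (measurableSet_le hFm measurable_const)
  set A₁ : Set X := {x | F x ≤ r} with hA₁
  have hA₁m : MeasurableSet A₁ := measurableSet_le hFm measurable_const
  set A₂ : Set X := {x | r' < F x} with hA₂
  have hA₂m : MeasurableSet A₂ := measurableSet_lt measurable_const hFm
  have e1 : ∫ x, g x * (c x * dens (bd S) π x) ∂(ctrl (bd S)) = (bd S) (g * c) π := by
    rw [dens_spec hb hπ (hG'.mul hc)]
    refine integral_congr_ae (ae_of_all _ fun x => ?_)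
    simp only [Pi.mul_apply]
    ring
  have e2 : (bd S) (g * c) π = S g (Fin.cons c π) := by
    have htp : IsTestPair (g * c) π := (hG'.mul hc).isTestPair hπ
    unfold bd
    rw [if_pos htp, hL.prod g c π hG' hc hπ, hL.degen c π G hc hπ hG, add_zero]
  have e3 : S g (Fin.cons c π) = ext S g (Fin.cons c π) := (ext_eq hS hcL hG').symm
  have hgm : BM g := hG'.bm
  have hsplit : g = (A.indicator g + A₁.indicator g) + A₂.indicator g := by
    funext x
    simp only [Pi.add_apply, indicator]
    by_cases h1 : F x ≤ r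
    · have a1 : x ∈ A₁ := h1
      have a2 : x ∉ A := fun h => absurd h.1 (not_lt.2 h1)
      have a3 : x ∉ A₂ := fun h => absurd (lt_of_le_of_lt hr h) (not_lt.2 h1)
      simp [a1, a2, a3]
    · by_cases h2 : F x ≤ r'
      · have a1 : x ∉ A₁ := h1
        have a2 : x ∈ A := ⟨not_le.1 h1, h2⟩
        have a3 : x ∉ A₂ := fun h => absurd h (not_lt.2 h2)
        simp [a1, a2, a3]
      · have a1 : x ∉ A₁ := h1
        have a2 : x ∉ A := fun h => h2 h.2
        have a3 : x ∈ A₂ := not_le.1 h2
        simp [a1, a2, a3]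
  have e4 : ext S g (Fin.cons c π) = ext S (A.indicator g) (Fin.cons c π) := by
    conv_lhs => rw [hsplit]
    rw [ext_add ((hgm.indicator hAm).add (hgm.indicator hA₁m)) (hgm.indicator hA₂m),
      ext_add (hgm.indicator hAm) (hgm.indicator hA₁m)]
    have z1 : ext S (A₁.indicator g) (Fin.cons c π) = 0 := by
      refine ext_strong_locality hS (hgm.indicator hA₁m) hcL 0 0 fun x hx => ?_
      have hx' : x ∈ A₁ := by
        by_contra h
        exact hx (indicator_of_notMem h _)
      have : F x ≤ r := hx'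
      simp only [Fin.cons_zero, hcdef, clamp]
      rw [max_eq_left]
      exact (min_le_left _ _).trans (by linarith)
    have z2 : ext S (A₂.indicator g) (Fin.cons c π) = 0 := by
      refine ext_strong_locality hS (hgm.indicator hA₂m) hcL 0 (r' - r) fun x hx => ?_
      have hx' : x ∈ A₂ := by
        by_contra h
        exact hx (indicator_of_notMem h _)
      have : r' < F x := hx'
      simp only [Fin.cons_zero, hcdef, clamp]
      rw [min_eq_right (by linarith), max_eq_right (by linarith)]
    rw [z1, z2, add_zero, add_zero]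
  have hFr : ∃ K : ℝ≥0, LipschitzWith K (F - fun _ => r) :=
    ⟨_, hKF.sub (LipschitzWith.const r)⟩
  have e5 : ext S (A.indicator g) (Fin.cons c π)
      = ext S (A.indicator g) (Fin.cons (F - fun _ => r) π) := by
    refine ext_congr_coord hS (hgm.indicator hAm) hcL (LipT_cons hFr hπ) fun i x hx => ?_
    have hx' : x ∈ A := by
      by_contra h
      exact hx (indicator_of_notMem h _)
    refine Fin.cases ?_ (fun j => ?_) i
    · simp only [Fin.cons_zero, hcdef, clamp, Pi.sub_apply]
      rw [min_eq_left (by linarith [hx'.2]), max_eq_right (by linarith [hx'.1])]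
    · simp
  have e6 : ext S (A.indicator g) (Fin.cons (F - fun _ => r) π)
      = ext S (A.indicator g) (Fin.cons F π) := by
    have h := ext_sub_coord hS (hgm.indicator hAm) hFL 0 (g := F) (h := fun _ => r)
      ⟨KF, hKF⟩ ⟨0, LipschitzWith.const r⟩
    simp only [Fin.update_cons_zero] at h
    rw [h]
    have z : ext S (A.indicator g) (Fin.cons (fun _ => r) π) = 0 :=
      ext_strong_locality hS (hgm.indicator hAm)
        (LipT_cons ⟨0, LipschitzWith.const r⟩ hπ) 0 r fun x _ => by simp
    rw [z, sub_zero]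
  rw [e1, e2, e3, e4, e5, e6]
  unfold G1.ext
  refine integral_congr_ae (ae_of_all _ fun x => ?_)
  by_cases hx : x ∈ A
  · simp [indicator_of_mem hx, hgdef]
  · simp [indicator_of_notMem hx]

end current

section split

variable {k : ℕ}

/-- Splitting off the first coordinate. -/
noncomputable def splitE (k : ℕ) : Euc (k + 1) ≃ᵐ ℝ × Euc k where
  toFun z := (z 0, WithLp.toLp 2 (fun i => z i.succ))
  invFun w := WithLp.toLp 2 (Fin.cons w.1 (fun i => w.2 i))
  left_inv z := by
    ext i
    refine Fin.cases ?_ (fun j => ?_) i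
    · simp
    · simp
  right_inv w := by
    ext i
    · simp
    · simp
  measurable_toFun := by
    simp only [Equiv.coe_fn_mk]
    refine Measurable.prodMk ?_ ?_
    · exact (EuclideanSpace.proj (𝕜 := ℝ) (0 : Fin (k + 1))).continuous.measurable
    · refine (PiLp.continuous_toLp 2 (fun _ : Fin k => ℝ)).measurable.comp ?_
      rw [measurable_pi_iff]
      intro i
      exact (EuclideanSpace.proj (𝕜 := ℝ) i.succ).continuous.measurable
  measurable_invFun := by
    simp only [Equiv.coe_fn_symm_mk]
    refine (PiLp.continuous_toLp 2 (fun _ : Fin (k + 1) => ℝ)).measurable.comp ?_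
    rw [measurable_pi_iff]
    intro i
    refine Fin.cases ?_ (fun j => ?_) i
    · simpa using measurable_fst
    · simp only [Fin.cons_succ]
      exact ((EuclideanSpace.proj (𝕜 := ℝ) j).continuous.measurable).comp measurable_snd

theorem mp_splitE (k : ℕ) : MeasurePreserving (splitE k) volume
    ((volume : Measure ℝ).prod (volume : Measure (Euc k))) := by
  have h1 : MeasurePreserving (@WithLp.ofLp 2 (Fin (k + 1) → ℝ)) volume volume :=
    PiLp.volume_preserving_ofLp (Fin (k + 1))
  have h2 := volume_preserving_piFinSuccAbove (fun _ : Fin (k + 1) => ℝ) 0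
  have h3 : MeasurePreserving (@WithLp.toLp 2 (Fin k → ℝ)) volume volume :=
    PiLp.volume_preserving_toLp (Fin k)
  have h4 : MeasurePreserving (Prod.map (id : ℝ → ℝ) (@WithLp.toLp 2 (Fin k → ℝ)))
      ((volume : Measure ℝ).prod volume) ((volume : Measure ℝ).prod volume) :=
    (MeasurePreserving.id volume).prod h3
  have h5 := h4.comp (h2.comp h1)
  have h6 : ⇑(splitE k) = Prod.map id (@WithLp.toLp 2 (Fin k → ℝ)) ∘
      ⇑(MeasurableEquiv.piFinSuccAbove (fun _ => ℝ) 0) ∘ (@WithLp.ofLp 2 (Fin (k + 1) → ℝ)) := by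
    funext z
    rfl
  rw [h6]
  exact h5

end split

section main

variable {X : Type u} [MetricSpace X] [MeasurableSpace X] [BorelSpace X] {k : ℕ}

theorem integrable_dens (T : Functional X k) (π : Fin k → X → ℝ) :
    Integrable (dens T π) (ctrl T) := (bm_dens T π).integrable _

/-- Superlevel sets of Lipschitz functions: almost every one has an integral projection. -/
theorem ae_zd_superlevel {S : Functional X (k + 1)} (hS : IsCurrent S) (hb : IsCurrent (bd S))
    (hL : Leib S) {F : X → ℝ} (hF : ∃ K : ℝ≥0, LipschitzWith K F) {π : Fin k → X → ℝ}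
    (hπ : LipT π) (hI : ZD (ctrl S) (tup (Fin.cons F π : Fin (k + 1) → X → ℝ))
      (dens S (Fin.cons F π))) :
    ∀ᵐ t ∂(volume : Measure ℝ),
      ZD (ctrl (bd S)) (tup π) ({x | t < F x}.indicator (dens (bd S) π)) := by
  obtain ⟨u, ⟨hu, hud⟩, huz⟩ := hI
  have hFm : Measurable F := by
    obtain ⟨K, hK⟩ := hF
    exact hK.continuous.measurable
  have hpm : Measurable (tup π) := measurable_tup hπ
  refine slice (U := fun w => u ((splitE k).symm w)) hpm (integrable_dens _ _) hFm ?_ ?_ ?_
  · exact ((mp_splitE k).symm (splitE k)).integrable_comp_emb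
      (splitE k).symm.measurableEmbedding |>.2 hu
  · exact ((mp_splitE k).symm (splitE k)).quasiMeasurePreserving.ae huz
  · intro r r' hr D hD
    have hAm : MeasurableSet {x | r < F x ∧ F x ≤ r'} :=
      (measurableSet_lt measurable_const hFm).inter (measurableSet_le hFm measurable_const)
    have h1 : Integrable (fun x => clamp r r' (F x) * dens (bd S) π x) (ctrl (bd S)) :=
      ((BL_clamp hr hF).bm.mul (bm_dens (bd S) π)).integrable _
    have h2 : Integrable ({x | r < F x ∧ F x ≤ r'}.indicator (dens S (Fin.cons F π))) (ctrl S) :=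
      (integrable_dens S _).indicator hAm
    have h3 := eq_of_BL hpm hpm h1 h2 (fun G hG => key_identity hS hb hL hF hπ hr hG) D hD
    rw [h3]
    rw [setIntegral_indicator hAm]
    have h4 : (tup π ⁻¹' D ∩ {x | r < F x ∧ F x ≤ r'})
        = tup (Fin.cons F π : Fin (k + 1) → X → ℝ) ⁻¹' ((splitE k) ⁻¹' (Ioc r r' ×ˢ D)) := by
      ext x
      simp only [mem_inter_iff, mem_preimage, mem_prod, mem_Ioc]
      have : (splitE k) (tup (Fin.cons F π : Fin (k + 1) → X → ℝ) x) = (F x, tup π x) := by
        simp [splitE, tup]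
      rw [this]
      exact and_comm
    rw [h4, hud _ ((splitE k).measurable (measurableSet_Ioc.prod hD))]
    rw [← (mp_splitE k).setIntegral_preimage_emb (splitE k).measurableEmbedding]
    simp

/-- **B7a.** -/
theorem zd_bd {S : Functional X (k + 1)} (hS : IsCurrent S) (hb : IsCurrent (bd S))
    (hL : Leib S)
    (hI : ∀ σ : Fin (k + 1) → X → ℝ, LipT σ → ZD (ctrl S) (tup σ) (dens S σ))
    {π : Fin k → X → ℝ} (hπ : LipT π) {B : Set X} (hB : MeasurableSet B) :
    ZD (ctrl (bd S)) (tup π) (B.indicator (dens (bd S) π)) := by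
  have hpm : Measurable (tup π) := measurable_tup hπ
  have hall : ∀ F : X → ℝ, LipschitzWith 1 F → ∀ᵐ t ∂(volume : Measure ℝ),
      ZD (ctrl (bd S)) (tup π) ({x | t < F x}.indicator (dens (bd S) π)) := fun F hF =>
    ae_zd_superlevel hS hb hL ⟨1, hF⟩ hπ (hI _ (LipT_cons ⟨1, hF⟩ hπ))
  have hpos : ∀ a b : ℝ, a < b → ∀ P : ℝ → Prop, (∀ᵐ t ∂(volume : Measure ℝ), P t) →
      ∃ t ∈ Ioo a b, P t := by
    intro a b hab P hP
    have h1 : (volume : Measure ℝ) (Ioo a b) ≠ 0 := by
      rw [Real.volume_Ioo]
      simp [hab]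
    have h2 : ∃ᶠ t in ae (volume : Measure ℝ), t ∈ Ioo a b := frequently_ae_mem_iff.2 h1
    obtain ⟨t, ht, hPt⟩ := (h2.and_eventually hP).exists
    exact ⟨t, ht, hPt⟩
  have h0 : ZD (ctrl (bd S)) (tup π) (dens (bd S) π) := by
    obtain ⟨t, ht, hz⟩ := hpos (-1) 0 (by norm_num) _ (hall (fun _ => 0)
      ((LipschitzWith.const 0).weaken zero_le_one))
    have : {x : X | t < (fun _ : X => (0 : ℝ)) x} = univ := by
      ext x
      simp [ht.2]
    rw [this, indicator_univ] at hz
    exact hz
  refine ZD.borel hpm (integrable_dens _ _) h0 (fun F hF _ => ?_) B hB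
  rw [frequently_iff]
  intro U hU
  obtain ⟨ε, hε, hU'⟩ := mem_nhdsGT_iff_exists_Ioo_subset.1 hU
  obtain ⟨t, ht, hz⟩ := hpos 0 ε hε _ (hall F hF)
  exact ⟨t, hU' ht, hz⟩

end main

end Crest.Agent.R241.B7a
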