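import Crest.Agent.R241.B7Targets
import Crest.Agent.R241.B7d

/-! R241: the targets `B7dTarget` and `B7dTarget'` from `B7d`. -/

set_option autoImplicit false

open MeasureTheory Filter Topology Metric Set
open scoped ENNReal NNReal

namespace Crest.Agent.R241.B7dT

open Crest.Agent.R241.B7 Crest.Agent.R241.B7d

theorem growth_iff {k : ℕ} (m : Measure (E k)) [IsFiniteMeasure m] {L : ℝ} (hL : 0 ≤ L) (x : E k) :
    Growth m L x ↔ ∀ r : ℝ, 0 < r → m (closedBall x r) ≤ ENNReal.ofReal (L * r ^ k) := by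
  constructor
  · intro h r hr
    rw [← ENNReal.ofReal_toReal (measure_ne_top m (closedBall x r))]
    exact ENNReal.ofReal_le_ofReal (h r hr)
  · intro h r hr
    have := h r hr
    rw [measureReal_def]
    exact ENNReal.toReal_le_of_le_ofReal (by positivity) this

/-- **B7d**. -/
theorem b7d : B7dTarget := by
  intro k
  refine ⟨Ck k, Ck_nonneg k, ?_⟩
  intro m hm u hu hbv
  have hbv' : BVBound u m := fun φ h1 h2 i => hbv φ i h1 h2
  obtain ⟨N, -, hN0, -, hN⟩ := exists_null (fun _ : Unit => u) (fun _ => hu) m (fun _ => hbv')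
  refine ⟨N, hN0, fun L x x' hx hx' h1 h2 => ?_⟩
  exact hN x hx x' hx' L ((growth_iff m L.2 x).2 h1) ((growth_iff m L.2 x').2 h2) ()

/-- **B7d'**. -/
theorem b7d' : B7dTarget' := by
  intro k m hm
  filter_upwards [ae_growth m] with x ⟨L, hL⟩
  exact ⟨L, (growth_iff m (Nat.cast_nonneg L) x).1 hL⟩

end Crest.Agent.R241.B7dT
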