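import Mathlib

/-!
# R241, block B7g-pure (helper734): disjointification of a countable family of charts.
-/

set_option autoImplicit false

open MeasureTheory Set Filter Topology

namespace Crest.Agent.R241.B7e4

/-- The disjointified domains. -/
def Dj {Y X : Type*} (H : ℕ → Set Y) (y : ℕ → Y → X) (n : ℕ) : Set Y :=
  H n ∩ (y n) ⁻¹' (⋃ m ∈ Finset.range n, y m '' H m)ᶜ

lemma Dj_subset {Y X : Type*} (H : ℕ → Set Y) (y : ℕ → Y → X) (n : ℕ) : Dj H y n ⊆ H n :=
  inter_subset_left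

lemma image_Dj {Y X : Type*} (H : ℕ → Set Y) (y : ℕ → Y → X) (n : ℕ) :
    y n '' Dj H y n = y n '' H n \ ⋃ m ∈ Finset.range n, y m '' H m := by
  ext q
  constructor
  · rintro ⟨x, hx, rfl⟩
    exact ⟨⟨x, hx.1, rfl⟩, hx.2⟩
  · rintro ⟨⟨x, hx, rfl⟩, hq⟩
    exact ⟨x, ⟨hx, hq⟩, rfl⟩

lemma measurableSet_Dj {Y X : Type*} [MeasurableSpace Y] [MeasurableSpace X]
    {H : ℕ → Set Y} {y : ℕ → Y → X} (hH : ∀ n, MeasurableSet (H n)) (hy : ∀ n, Measurable (y n))
    (him : ∀ n, MeasurableSet (y n '' H n)) (n : ℕ) : MeasurableSet (Dj H y n) :=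
  (hH n).inter ((hy n) (Finset.measurableSet_biUnion _ fun m _ => him m).compl)

lemma disjoint_Dj {Y X : Type*} (H : ℕ → Set Y) (y : ℕ → Y → X) {n m : ℕ} (hnm : n ≠ m) :
    Disjoint (y n '' Dj H y n) (y m '' Dj H y m) := by
  wlog hlt : n < m generalizing n m
  · exact (this hnm.symm (lt_of_le_of_ne (not_lt.mp hlt) hnm.symm)).symm
  rw [image_Dj H y m, disjoint_left]
  rintro q hq ⟨_, hq'⟩
  apply hq'
  refine mem_biUnion (x := n) (by simpa using hlt) ?_
  exact image_mono (Dj_subset H y n) hq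

lemma iUnion_image_Dj {Y X : Type*} (H : ℕ → Set Y) (y : ℕ → Y → X) :
    ⋃ n, y n '' Dj H y n = ⋃ n, y n '' H n := by
  classical
  refine Subset.antisymm (iUnion_mono fun n => image_mono (Dj_subset H y n)) ?_
  intro q hq
  have hex : ∃ n, q ∈ y n '' H n := mem_iUnion.mp hq
  refine mem_iUnion.mpr ⟨Nat.find hex, ?_⟩
  rw [image_Dj]
  refine ⟨Nat.find_spec hex, fun hc => ?_⟩
  simp only [mem_iUnion, Finset.mem_range, exists_prop] at hc
  obtain ⟨m, hm, hmq⟩ := hc
  exact Nat.find_min hex hm hmq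

/-- Packaged form, over an arbitrary countable index type. -/
theorem exists_disjoint {Y X ι : Type*} [MeasurableSpace Y] [MeasurableSpace X] [Countable ι]
    [Nonempty ι] {H : ι → Set Y} {y : ι → Y → X} (hH : ∀ n, MeasurableSet (H n))
    (hy : ∀ n, Measurable (y n)) (him : ∀ n, MeasurableSet (y n '' H n)) :
    ∃ (idx : ℕ → ι) (E : ℕ → Set Y), (∀ n, MeasurableSet (E n)) ∧ (∀ n, E n ⊆ H (idx n)) ∧
      (∀ n, MeasurableSet (y (idx n) '' E n)) ∧
      (∀ n m, n ≠ m → Disjoint (y (idx n) '' E n) (y (idx m) '' E m)) ∧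
      (⋃ n, y (idx n) '' E n) = ⋃ i, y i '' H i := by
  obtain ⟨idx, hidx⟩ := exists_surjective_nat ι
  refine ⟨idx, Dj (fun n => H (idx n)) (fun n => y (idx n)), ?_, ?_, ?_, ?_, ?_⟩
  · exact measurableSet_Dj (fun n => hH _) (fun n => hy _) (fun n => him _)
  · exact fun n => Dj_subset _ _ n
  · intro n
    rw [image_Dj (fun n => H (idx n)) (fun n => y (idx n)) n]
    exact (him _).diff (Finset.measurableSet_biUnion _ fun m _ => him _)
  · exact fun n m hnm => disjoint_Dj (fun n => H (idx n)) (fun n => y (idx n)) hnm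
  · rw [iUnion_image_Dj (fun n => H (idx n)) (fun n => y (idx n))]
    exact hidx.iUnion_comp (fun i => y i '' H i)

end Crest.Agent.R241.B7e4
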