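import Crest.Agent.R241.G1e

/-!
R241, block G1f: determinant chain rule for `C¹` maps `ℝᵏ → ℝᵏ`.
-/

set_option autoImplicit false
set_option linter.unusedSectionVars false

open MeasureTheory Filter Topology
open scoped ENNReal NNReal

namespace Crest.Agent.R241.G1

open Crest.GeometryTopology.MetricCurrent

universe u

variable {X : Type u} [MetricSpace X] [MeasurableSpace X] [BorelSpace X]
variable {k : ℕ} {T : Functional X k}

/-- the Jacobian matrix of `G` at `y` -/
noncomputable def jac {k : ℕ} (G : Fin k → (Fin k → ℝ) → ℝ) (y : Fin k → ℝ) :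
    Matrix (Fin k) (Fin k) ℝ :=
  Matrix.of fun i l => fderiv ℝ (G i) y (Pi.single l 1)

theorem continuous_jac {k : ℕ} {G : Fin k → (Fin k → ℝ) → ℝ} (hG : ∀ i, ContDiff ℝ 1 (G i)) :
    Continuous (jac G) := by
  refine continuous_matrix fun i l => ?_
  exact ((hG i).continuous_fderiv one_ne_zero).clm_apply continuous_const

/-- determinant chain rule -/
theorem ext_chain_det (hT : IsCurrent T) {f : X → ℝ} (hf : BM f) {p : Fin k → X → ℝ}
    (hp : LipT p) {G : Fin k → (Fin k → ℝ) → ℝ} (hG : ∀ i, ContDiff ℝ 1 (G i))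
    (hGl : ∀ i, ∃ K : ℝ≥0, LipschitzWith K (fun x => G i (fun l => p l x)))
    (hb : ∃ C : ℝ, ∀ i l x, |fderiv ℝ (G i) (fun m => p m x) (Pi.single l 1)| ≤ C) :
    ext T f (fun i x => G i (fun l => p l x)) =
      ext T (fun x => f x * (jac G (fun l => p l x)).det) p := by
  classical
  choose Kp hKp using hp
  choose KG hKG using hGl
  have hp : LipT p := fun i => ⟨_, hKp i⟩
  have hGL : LipT (fun i x => G i (fun l => p l x)) := fun i => ⟨_, hKG i⟩
  set P : X → (Fin k → ℝ) := fun x i => p i x with hPdef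
  have hPc : Continuous P := continuous_pi fun i => (hKp i).continuous
  set L : ℝ≥0 := ∑ i, Kp i with hL
  have hKL : ∀ i, Kp i ≤ L := fun i =>
    Finset.single_le_sum (f := Kp) (fun i _ => zero_le) (Finset.mem_univ i)
  have hPL : ∀ x y, dist (P x) (P y) ≤ L * dist x y := by
    intro x y
    rw [dist_pi_le_iff (by positivity)]
    intro i
    exact ((hKp i).dist_le_mul x y).trans
      (mul_le_mul_of_nonneg_right (NNReal.coe_le_coe.2 (hKL i)) dist_nonneg)
  obtain ⟨C0, hC0⟩ := hb
  set C : ℝ≥0 := Real.toNNReal C0 with hCdef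
  have hC : ∀ i l x, |fderiv ℝ (G i) (P x) (Pi.single l 1)| ≤ C :=
    fun i l x => (hC0 i l x).trans (Real.le_coe_toNNReal C0)
  set K : ℝ≥0 := (∑ i, KG i) + k * (C * L) with hK
  have hdetc : Continuous fun y => (jac G y).det := (continuous_jac hG).matrix_det
  -- boundedness of the determinant along P
  obtain ⟨Cd, hCd⟩ : ∃ Cd : ℝ, ∀ x, |(jac G (P x)).det| ≤ Cd := by
    refine ⟨(Nat.factorial k : ℝ) * (C : ℝ) ^ k, fun x => ?_⟩
    rw [Matrix.det_apply]
    refine (Finset.abs_sum_le_sum_abs _ _).trans ?_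
    have : ∀ σ ∈ (Finset.univ : Finset (Equiv.Perm (Fin k))),
        |Equiv.Perm.sign σ • ∏ i, jac G (P x) (σ i) i| ≤ (C : ℝ) ^ k := by
      intro σ _
      have h1 : |Equiv.Perm.sign σ • ∏ i, jac G (P x) (σ i) i| = ∏ i, |jac G (P x) (σ i) i| := by
        rw [← Finset.abs_prod]
        rcases Int.units_eq_one_or (Equiv.Perm.sign σ) with hs | hs <;> simp [hs]
      rw [h1]
      calc ∏ i, |jac G (P x) (σ i) i| ≤ ∏ _i : Fin k, (C : ℝ) := by
            apply Finset.prod_le_prod (fun i _ => abs_nonneg _)
            intro i _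
            exact hC (σ i) i x
        _ = (C : ℝ) ^ k := by simp
    refine (Finset.sum_le_sum this).trans (le_of_eq ?_)
    rw [Finset.sum_const, Finset.card_univ, Fintype.card_perm, Fintype.card_fin, nsmul_eq_mul]
  have hdet : BM (fun x => (jac G (P x)).det) := ⟨(hdetc.comp hPc).measurable, Cd, hCd⟩
  have hfdet : ∀ f : X → ℝ, BM f → BM (fun x => f x * (jac G (P x)).det) :=
    fun f hf => hf.mul hdet
  set μ := ctrl T with hμ
  let Δ : (X → ℝ) → ℝ := fun f => ext T f (fun i x => G i (P x)) -
    ext T (fun x => f x * (jac G (P x)).det) p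
  suffices h : Δ f = 0 by
    simp only [Δ] at h
    linarith
  apply eq_zero_of_local μ hPc Δ ?_ ?_ ?_ hf
  · intro f f' hf hf'
    simp only [Δ]
    rw [ext_add hf hf']
    have : ext T (fun x => (f + f') x * (jac G (P x)).det) p =
        ext T (fun x => f x * (jac G (P x)).det) p +
        ext T (fun x => f' x * (jac G (P x)).det) p := by
      rw [← ext_add (hfdet f hf) (hfdet f' hf')]
      congr 1
      funext x
      simp only [Pi.add_apply]; ring
    rw [this]
    ring
  · intro f F D hf hF hD hlim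
    simp only [Δ]
    apply Tendsto.sub
    · exact ext_tendsto hf.1 (fun n => (hF n).1) hD hlim _
    · apply ext_tendsto (hf.mul hdet).1 (fun n => ((hF n).mul hdet).1) (C := |D| * |Cd|)
      · intro n x
        simp only [Pi.mul_apply]
        rw [abs_mul]
        exact mul_le_mul ((hD n x).trans (le_abs_self D)) ((hCd x).trans (le_abs_self Cd))
          (abs_nonneg _) (abs_nonneg _)
      · exact fun x => (hlim x).mul_const _
  · intro R hR ω hω
    set M : ℝ := k * (L * (K : ℝ) ^ (k - 1)) + (L : ℝ) ^ k + 1 with hM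
    have hM0 : 0 < M := by positivity
    set ω' : ℝ := ω / M with hω'
    have hω'0 : 0 < ω' := by positivity
    have huc : ∀ i, UniformContinuousOn (fderiv ℝ (G i)) (Metric.closedBall 0 R) := fun i =>
      (isCompact_closedBall 0 R).uniformContinuousOn_of_continuous
        ((hG i).continuous_fderiv one_ne_zero).continuousOn
    have huc' : UniformContinuousOn (fun y => (jac G y).det) (Metric.closedBall 0 R) :=
      (isCompact_closedBall 0 R).uniformContinuousOn_of_continuous hdetc.continuousOn
    have h1 : ∀ i, ∃ δ : ℝ, 0 < δ ∧ ∀ x ∈ Metric.closedBall (0 : Fin k → ℝ) R,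
        ∀ y ∈ Metric.closedBall (0 : Fin k → ℝ) R, dist x y ≤ δ →
        dist (fderiv ℝ (G i) x) (fderiv ℝ (G i) y) ≤ ω' := by
      intro i
      obtain ⟨δ, h1, h2⟩ := Metric.uniformContinuousOn_iff_le.1 (huc i) ω' hω'0
      exact ⟨δ, h1, fun x hx y hy h => h2 x hx y hy h⟩
    choose δ1 hδ1 hδ1' using h1
    obtain ⟨δ2, hδ2, hδ2'⟩ := Metric.uniformContinuousOn_iff_le.1 huc' ω' hω'0
    obtain ⟨δ3, hδ3, hδ3'⟩ : ∃ δ3 : ℝ, 0 < δ3 ∧ ∀ i, δ3 ≤ δ1 i := by
      rcases isEmpty_or_nonempty (Fin k) with hE | hE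
      · exact ⟨1, one_pos, fun i => (hE.false i).elim⟩
      · obtain ⟨i0, hi0⟩ := Finite.exists_min δ1
        exact ⟨δ1 i0, hδ1 i0, hi0⟩
    set δ := min δ2 δ3 with hδ
    have hδ0 : 0 < δ := lt_min hδ2 hδ3
    refine ⟨δ / 2, by positivity, fun c f hf hfs => ?_⟩
    have hI : 0 ≤ ∫ x, |f x| ∂μ := integral_nonneg fun x => abs_nonneg _
    by_cases hne : ∃ x0, f x0 ≠ 0
    swap
    · push Not at hne
      have : f = 0 := funext hne
      subst this
      have h1 : ∀ π : Fin k → X → ℝ, ext T (fun _ : X => (0 : ℝ)) π = 0 := fun π => ext_zero π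
      simp [Δ, ext_zero, h1]
    obtain ⟨x0, hx0⟩ := hne
    set a := P x0 with ha
    set S : Set (Fin k → ℝ) := Metric.closedBall 0 R ∩ Metric.ball c (δ / 2) with hS
    have hSconv : Convex ℝ S := (convex_closedBall 0 R).inter (convex_ball c _)
    have hmemS : ∀ x, f x ≠ 0 → P x ∈ S := by
      intro x hx
      obtain ⟨h1, h2⟩ := hfs x hx
      exact ⟨by simpa using h1, h2⟩
    have haS : a ∈ S := hmemS x0 hx0
    have hdistS : ∀ y ∈ S, dist y a ≤ δ := by
      intro y hy
      have h1 : dist y c < δ / 2 := hy.2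
      have h2 : dist a c < δ / 2 := haS.2
      calc dist y a ≤ dist y c + dist a c := dist_triangle_right _ _ _
        _ ≤ δ := by linarith
    have hder : ∀ i, ∀ y ∈ S, ‖fderiv ℝ (G i) y - fderiv ℝ (G i) a‖ ≤ ω' := by
      intro i y hy
      have := hδ1' i y hy.1 a haS.1 ((hdistS y hy).trans ((min_le_right _ _).trans (hδ3' i)))
      rwa [dist_eq_norm] at this
    have hdetS : ∀ y ∈ S, |(jac G y).det - (jac G a).det| ≤ ω' := by
      intro y hy
      have := hδ2' y hy.1 a haS.1 ((hdistS y hy).trans (min_le_left _ _))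
      rwa [Real.dist_eq] at this
    set B : Set X := {x | f x ≠ 0} with hB
    have hBmem : ∀ x, f x ≠ 0 → x ∈ B := fun x hx => hx
    -- the affine approximation
    let A : Matrix (Fin k) (Fin k) ℝ := jac G a
    let τ : Fin k → X → ℝ := fun i => ∑ l, A i l • p l
    have hτL : LipT τ := fun i => lip_sum _ fun l _ => ⟨_, lipschitzWith_smul (hKp l) _⟩
    have hτval : ∀ i x, τ i x = fderiv ℝ (G i) a (P x) := by
      intro i x
      have h1 : P x = ∑ i, (p i x) • (Pi.single i (1 : ℝ) : Fin k → ℝ) := by
        have := pi_eq_sum_univ' (P x)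
        convert! this using 2
      rw [h1, map_sum]
      simp only [τ, Finset.sum_apply, Pi.smul_apply, smul_eq_mul, map_smul]
      exact Finset.sum_congr rfl fun i _ => mul_comm _ _
    have hlin : ∀ i, ∀ x ∈ B, ∀ y ∈ B,
        |(τ i x - G i (P x)) - (τ i y - G i (P y))| ≤ ω' * (L * dist x y) := by
      intro i x hx y hy
      have h1 := hSconv.norm_image_sub_le_of_norm_fderiv_le' (f := G i) (φ := fderiv ℝ (G i) a)
        (C := ω') (fun z _ => ((hG i).differentiable one_ne_zero) z) (hder i) (hmemS y hy)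
        (hmemS x hx)
      rw [hτval, hτval]
      have h2 : fderiv ℝ (G i) a (P x) - G i (P x) - (fderiv ℝ (G i) a (P y) - G i (P y))
          = -(G i (P x) - G i (P y) - fderiv ℝ (G i) a (P x - P y)) := by
        rw [map_sub]; ring
      rw [h2, abs_neg]
      refine (h1).trans ?_
      rw [← dist_eq_norm]
      exact mul_le_mul_of_nonneg_left (hPL x y) hω'0.le
    have hω'L : ∀ i, LipschitzOnWith (Real.toNNReal ω' * L) (τ i - fun x => G i (P x)) B := by
      intro i
      apply LipschitzOnWith.of_dist_le_mul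
      intro x hx y hy
      rw [Real.dist_eq, NNReal.coe_mul, Real.coe_toNNReal _ hω'0.le, mul_assoc]
      exact hlin i x hx y hy
    have hGK : ∀ i, LipschitzOnWith K (fun x => G i (P x)) B := fun i =>
      ((hKG i).weaken ((Finset.single_le_sum (f := KG) (fun i _ => zero_le)
        (Finset.mem_univ i)).trans (le_add_of_nonneg_right zero_le))).lipschitzOnWith
    have hτK : ∀ i, LipschitzOnWith K (τ i) B := by
      intro i
      have h1 : LipschitzWith (k * (C * L)) (τ i) := by
        apply LipschitzWith.of_dist_le_mul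
        intro x y
        rw [Real.dist_eq]
        have h2 : τ i x - τ i y = ∑ l, A i l * (p l x - p l y) := by
          simp only [τ, Finset.sum_apply, Pi.smul_apply, smul_eq_mul]
          rw [← Finset.sum_sub_distrib]
          exact Finset.sum_congr rfl fun l _ => by ring
        rw [h2]
        refine (Finset.abs_sum_le_sum_abs _ _).trans ?_
        have h3 : ∀ l ∈ (Finset.univ : Finset (Fin k)), |A i l * (p l x - p l y)| ≤
            C * L * dist x y := by
          intro l _
          rw [abs_mul, mul_assoc]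
          apply mul_le_mul (hC i l x0) _ (abs_nonneg _) C.coe_nonneg
          have := (hKp l).dist_le_mul x y
          rw [Real.dist_eq] at this
          exact this.trans (mul_le_mul_of_nonneg_right (NNReal.coe_le_coe.2 (hKL l)) dist_nonneg)
        refine (Finset.sum_le_sum h3).trans (le_of_eq ?_)
        simp only [Finset.sum_const, Finset.card_univ, Fintype.card_fin, nsmul_eq_mul,
          NNReal.coe_mul, NNReal.coe_natCast]
        ring
      exact (h1.weaken (le_add_of_nonneg_left zero_le)).lipschitzOnWith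
    have E1 := abs_ext_sub_le_local hT (controls_ctrl hT) hf hGL hτL hBmem hGK hτK hω'L
    have E2 : ext T f τ = A.det * ext T f p := ext_linear_subst hT hf hp A
    have E3 : |ext T (fun x => f x * (jac G (P x)).det) p - A.det * ext T f p| ≤
        (L : ℝ) ^ k * (ω' * ∫ x, |f x| ∂μ) := by
      rw [← ext_smul, ← ext_sub (hfdet f hf) (hf.smul _)]
      have h1 := abs_ext_le (T := T) hT (controls_ctrl hT) ((hfdet f hf).sub
        (hf.smul A.det)) (π := p) (K := fun _ => L) (fun l => (hKp l).weaken (hKL l))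
      refine h1.trans ?_
      rw [Finset.prod_const, Finset.card_univ, Fintype.card_fin]
      apply mul_le_mul_of_nonneg_left _ (by positivity)
      rw [← integral_const_mul]
      apply integral_mono_of_nonneg (Eventually.of_forall fun x => abs_nonneg _)
        ((hf.abs.integrable μ).const_mul _)
      refine Eventually.of_forall fun x => ?_
      simp only [Pi.sub_apply, Pi.smul_apply, Pi.mul_apply, smul_eq_mul]
      by_cases hx : f x = 0
      · simp [hx]
      · have h3 : f x * (jac G (P x)).det - A.det * f x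
            = ((jac G (P x)).det - (jac G a).det) * f x := by
          simp only [A]; ring
        rw [h3, abs_mul]
        exact mul_le_mul_of_nonneg_right (hdetS _ (hmemS x hx)) (abs_nonneg _)
    have E4 : Δ f = -(ext T f τ - ext T f (fun i x => G i (P x))) -
        (ext T (fun x => f x * (jac G (P x)).det) p - A.det * ext T f p) := by
      rw [E2]
      simp only [Δ]
      ring
    rw [E4]
    refine (abs_sub _ _).trans ?_
    rw [abs_neg]
    refine (add_le_add E1 E3).trans ?_
    have E6 : ω' * M = ω := by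
      rw [hω']; field_simp
    rw [NNReal.coe_mul, Real.coe_toNNReal _ hω'0.le]
    calc (k : ℝ) * (ω' * L * (K : ℝ) ^ (k - 1)) * (∫ x, |f x| ∂μ) +
        (L : ℝ) ^ k * (ω' * ∫ x, |f x| ∂μ)
        = ω' * (k * (L * (K : ℝ) ^ (k - 1)) + (L : ℝ) ^ k) * ∫ x, |f x| ∂μ := by ring
      _ ≤ ω' * M * ∫ x, |f x| ∂μ := by
        apply mul_le_mul_of_nonneg_right _ hI
        apply mul_le_mul_of_nonneg_left _ hω'0.le
        rw [hM]; linarith
      _ = ω * ∫ x, |f x| ∂μ := by rw [E6]

end Crest.Agent.R241.G1
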