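import Crest.Agent.R241.B7BV
import Crest.Agent.R241.G1f
import Crest.Agent.R241.B7Moll2

/-!
R241, block B7f: the determinant chain rule for Lipschitz functions of a coordinate tuple whose
density does not charge null fibres.  Owner: helper191.
-/

set_option autoImplicit false

open MeasureTheory Filter Topology Set
open scoped ENNReal NNReal

universe u

namespace Crest.Agent.R241.B7f

open Crest.GeometryTopology.Submanifold (Euc)
open Crest.GeometryTopology.MetricCurrent
open Crest.Agent.R241.G1 Crest.Agent.R241.B7a Crest.Agent.R241.B7BV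

variable {X : Type u} [MetricSpace X] [MeasurableSpace X] [BorelSpace X] {k : ℕ}

/-- the Jacobian determinant of a `k`-tuple of functions on `Euc k` -/
noncomputable def jdet (h : Fin k → Euc k → ℝ) (y : Euc k) : ℝ :=
  (Matrix.of fun i j => fderiv ℝ (h i) y (EuclideanSpace.single j 1)).det

theorem abs_partial_le {h : Euc k → ℝ} {K : ℝ≥0} (hh : LipschitzWith K h) (y : Euc k)
    (j : Fin k) : |fderiv ℝ h y (EuclideanSpace.single j 1)| ≤ K := by
  have h1 := (fderiv ℝ h y).le_opNorm (EuclideanSpace.single j (1 : ℝ))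
  have h2 : ‖fderiv ℝ h y‖ ≤ K := norm_fderiv_le_of_lipschitz ℝ hh
  rw [Real.norm_eq_abs] at h1
  refine h1.trans ?_
  simpa using h2

theorem abs_jdet_le {h : Fin k → Euc k → ℝ} {K : ℝ≥0} (hh : ∀ i, LipschitzWith K (h i))
    (y : Euc k) : |jdet h y| ≤ (Fintype.card (Fin k)).factorial • (K : ℝ) ^ Fintype.card (Fin k) := by
  have := Matrix.det_le (A := Matrix.of fun i j => fderiv ℝ (h i) y (EuclideanSpace.single j 1))
    (abv := (IsAbsoluteValue.toAbsoluteValue (abs : ℝ → ℝ))) (x := (K : ℝ))
    (fun i j => abs_partial_le (hh i) y j)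
  exact this

theorem measurable_jdet {h : Fin k → Euc k → ℝ} {K : ℝ≥0} (_hh : ∀ i, LipschitzWith K (h i)) :
    Measurable (jdet h) := by
  unfold jdet
  have h1 : Measurable fun y : Euc k =>
      (fun i j => fderiv ℝ (h i) y (EuclideanSpace.single j 1) : Fin k → Fin k → ℝ) := by
    refine measurable_pi_lambda _ fun i => measurable_pi_lambda _ fun j => ?_
    exact measurable_fderiv_apply_const ℝ (h i) _
  have h2 : Continuous fun A : Fin k → Fin k → ℝ => (Matrix.of A).det :=
    Continuous.matrix_det (continuous_id (X := Matrix (Fin k) (Fin k) ℝ))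
  exact h2.measurable.comp h1

theorem bm_jdet_tup {h : Fin k → Euc k → ℝ} {K : ℝ≥0} (hh : ∀ i, LipschitzWith K (h i))
    {π : Fin k → X → ℝ} (hπ : LipT π) : BM (fun x => jdet h (tup π x)) :=
  ⟨(measurable_jdet hh).comp (measurable_tup hπ), _, fun _ => abs_jdet_le hh _⟩

/-- smooth case -/
theorem ext_chain_smooth {T : Functional X k} (hT : IsCurrent T) {π : Fin k → X → ℝ}
    (hπ : LipT π) {h : Fin k → Euc k → ℝ} {K : ℝ≥0} (hh : ∀ i, LipschitzWith K (h i))
    (hs : ∀ i, ContDiff ℝ (⊤ : ℕ∞) (h i)) {f : X → ℝ} (hf : BM f) :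
    ext T f (fun i x => h i (tup π x)) = ∫ x, f x * jdet h (tup π x) * dens T π x ∂(ctrl T) := by
  have hd : ∀ i, Differentiable ℝ (h i) := fun i => (hs i).differentiable (by simp)
  obtain ⟨L, hL⟩ := lipschitz_tup hπ
  have h1 := ext_chain_det hT hf hπ (G := fun i y => h i (WithLp.toLp 2 y))
    (fun i => (contDiff_comp_toLp ((hs i).of_le (by simp)))) (fun i => ⟨_, (hh i).comp hL⟩)
    ⟨K, fun i l x => by
      rw [fderiv_comp_toLp (hd i)]
      exact abs_partial_le (hh i) _ l⟩
  have h2 : (fun i x => h i (tup π x)) = fun i x => h i (WithLp.toLp 2 fun l => π l x) := rfl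
  rw [h2, h1]
  unfold G1.ext
  refine integral_congr_ae (Eventually.of_forall fun x => ?_)
  simp only [jac, jdet]
  congr 3
  ext i j
  simp only [Matrix.of_apply]
  rw [fderiv_comp_toLp (hd i)]
  rfl

/-- Lipschitz case: the density of `T` in the coordinates `π` does not charge null fibres -/
theorem ext_chain_lip {T : Functional X k} (hT : IsCurrent T) {π : Fin k → X → ℝ}
    (hπ : LipT π)
    (hN : ∀ A : Set (Euc k), MeasurableSet A → volume A = 0 →
      ∀ᵐ x ∂(ctrl T), tup π x ∈ A → dens T π x = 0)
    {h : Fin k → Euc k → ℝ} {K : ℝ≥0} (hh : ∀ i, LipschitzWith K (h i))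
    {f : X → ℝ} (hf : BM f) :
    ext T f (fun i x => h i (tup π x)) = ∫ x, f x * jdet h (tup π x) * dens T π x ∂(ctrl T) := by
  choose Gn hs hl hc hd using fun i => B7Moll2.exists_smooth_approx_ae (hh i)
  obtain ⟨L, hL⟩ := lipschitz_tup hπ
  have h1 : Tendsto (fun n => ext T f (fun i x => Gn i n (tup π x))) atTop
      (𝓝 (ext T f (fun i x => h i (tup π x)))) :=
    ext_continuity hT hf (K := fun _ => K * L) (fun i => (hh i).comp hL)
      (fun n i => (hl i n).comp hL) (fun i x => hc i _)
  have h2 : Tendsto (fun n => ext T f (fun i x => Gn i n (tup π x))) atTop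
      (𝓝 (∫ x, f x * jdet h (tup π x) * dens T π x ∂(ctrl T))) := by
    have h3 : (fun n => ext T f (fun i x => Gn i n (tup π x))) = fun n =>
        ∫ x, f x * jdet (fun i => Gn i n) (tup π x) * dens T π x ∂(ctrl T) := by
      funext n
      exact ext_chain_smooth hT hπ (h := fun i => Gn i n) (fun i => hl i n) (fun i => hs i n) hf
    rw [h3]
    have hall : ∀ᵐ y : Euc k, ∀ i j : Fin k,
        Tendsto (fun n => fderiv ℝ (Gn i n) y (EuclideanSpace.single j 1))
          atTop (𝓝 (fderiv ℝ (h i) y (EuclideanSpace.single j 1))) := by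
      rw [ae_all_iff]
      exact hd
    obtain ⟨A, hA1, hA2, hA3⟩ := exists_measurable_superset_of_null (ae_iff.mp hall)
    obtain ⟨Cf, hCf⟩ := hf.2
    obtain ⟨Cd, hCd⟩ := (bm_dens T π).2
    set M : ℝ := (Fintype.card (Fin k)).factorial • (K : ℝ) ^ Fintype.card (Fin k) with hM
    have hM0 : 0 ≤ M := (abs_nonneg _).trans (abs_jdet_le hh 0)
    refine tendsto_integral_of_dominated_convergence (fun _ => Cf * M * Cd) (fun n => ?_)
      (integrable_const _) (fun n => ?_) ?_
    · exact ((hf.1.mul (bm_jdet_tup (h := fun i => Gn i n) (fun i => hl i n) hπ).1).mul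
        (bm_dens T π).1).aestronglyMeasurable
    · refine Eventually.of_forall fun x => ?_
      rw [Real.norm_eq_abs, abs_mul, abs_mul]
      have e1 := hCf x
      have e2 := hCd x
      have e3 : |jdet (fun i => Gn i n) (tup π x)| ≤ M := abs_jdet_le (fun i => hl i n) _
      have e0 : 0 ≤ Cf := (abs_nonneg _).trans e1
      exact mul_le_mul (mul_le_mul e1 e3 (abs_nonneg _) e0) e2 (abs_nonneg _)
        (mul_nonneg e0 hM0)
    · filter_upwards [hN A hA2 hA3] with x hx
      by_cases hxA : tup π x ∈ A
      · rw [hx hxA]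
        simp
      · have hy : ∀ i j : Fin k,
            Tendsto (fun n => fderiv ℝ (Gn i n) (tup π x) (EuclideanSpace.single j 1))
              atTop (𝓝 (fderiv ℝ (h i) (tup π x) (EuclideanSpace.single j 1))) := by
          by_contra hcon
          exact hxA (hA1 hcon)
        have hdet : Tendsto (fun n => jdet (fun i => Gn i n) (tup π x)) atTop
            (𝓝 (jdet h (tup π x))) := by
          unfold jdet
          have hmat : Tendsto (fun n => (Matrix.of fun i j =>
              fderiv ℝ (Gn i n) (tup π x) (EuclideanSpace.single j 1))) atTop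
              (𝓝 (Matrix.of fun i j => fderiv ℝ (h i) (tup π x) (EuclideanSpace.single j 1))) :=
            tendsto_pi_nhds.2 fun i => tendsto_pi_nhds.2 fun j => hy i j
          exact ((Continuous.matrix_det continuous_id).tendsto _).comp hmat
        exact (tendsto_const_nhds.mul hdet).mul tendsto_const_nhds
  exact tendsto_nhds_unique h1 h2

end Crest.Agent.R241.B7f
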