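import Crest.Agent.R241.B7gP
import Crest.Agent.R241.G1p

/-!
# R241, block B7g-core (helper734): a current which is locally given by charts is integer
rectifiable.
-/

set_option autoImplicit false

open MeasureTheory Set Filter Topology
open scoped ENNReal NNReal

universe u

namespace Crest.Agent.R241.B7gC

open Crest.GeometryTopology.Submanifold (Euc)
open Crest.GeometryTopology.MetricCurrent
open Crest.Agent.R241.G1

variable {X : Type u} [MetricSpace X] [MeasurableSpace X] [BorelSpace X]
variable {k : ℕ} {T : Functional X k}

/-- A chart in which the (extended) current is given by an integer density. -/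
structure Chart (T : Functional X k) (H : Set (Euc k)) (y : Euc k → X) (th : Euc k → ℤ) :
    Prop where
  meas : MeasurableSet H
  bdd : Bornology.IsBounded H
  lip : ∃ L : ℝ≥0, LipschitzOnWith L y H
  colip : ∃ C : ℝ, ∀ z ∈ H, ∀ w ∈ H, dist z w ≤ C * dist (y z) (y w)
  int : IntegrableOn (fun z => (th z : ℝ)) H
  im : MeasurableSet (y '' H)
  loc : ∀ (f : X → ℝ) (w : Fin k → X → ℝ), BM f → LipT w →
    G1.ext T ((y '' H).indicator f) w = ∫ z in H, (th z : ℝ) * f (y z) *
      (Matrix.of fun i j : Fin k => fderivWithin ℝ (fun z' => w i (y z')) H z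
          (EuclideanSpace.single j 1)).det

omit [BorelSpace X] in
lemma Chart.injOn {H : Set (Euc k)} {y : Euc k → X} {th : Euc k → ℤ} (c : Chart T H y th) :
    InjOn y H := by
  obtain ⟨C, hC⟩ := c.colip
  intro z hz w hw h
  have := hC z hz w hw
  rw [h, dist_self, mul_zero] at this
  exact dist_le_zero.1 this

lemma Chart.mono {H E : Set (Euc k)} {y : Euc k → X} {th : Euc k → ℤ} (c : Chart T H y th)
    (hE : MeasurableSet E) (hEH : E ⊆ H) (him : MeasurableSet (y '' E)) : Chart T E y th where
  meas := hE
  bdd := c.bdd.subset hEH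
  lip := by
    obtain ⟨L, hL⟩ := c.lip
    exact ⟨L, hL.mono hEH⟩
  colip := by
    obtain ⟨C, hC⟩ := c.colip
    exact ⟨C, fun z hz w hw => hC z (hEH hz) w (hEH hw)⟩
  int := c.int.mono_set hEH
  im := him
  loc := by
    intro f w hf hw
    have h1 : (y '' E).indicator f = (y '' H).indicator ((y '' E).indicator f) := by
      rw [indicator_indicator, inter_eq_self_of_subset_right (image_mono hEH)]
    rw [h1, c.loc _ w (hf.indicator him) hw]
    have h2 : ∀ z ∈ H, (th z : ℝ) * (y '' E).indicator f (y z) *
        (Matrix.of fun i j : Fin k => fderivWithin ℝ (fun z' => w i (y z')) H z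
          (EuclideanSpace.single j 1)).det = E.indicator (fun z => (th z : ℝ) * f (y z) *
        (Matrix.of fun i j : Fin k => fderivWithin ℝ (fun z' => w i (y z')) H z
          (EuclideanSpace.single j 1)).det) z := by
      intro z hz
      by_cases hzE : z ∈ E
      · rw [indicator_of_mem hzE, indicator_of_mem (mem_image_of_mem y hzE)]
      · have : y z ∉ y '' E := by
          rintro ⟨z', hz', h⟩
          rw [c.injOn (hEH hz') hz h] at hz'
          exact hzE hz'
        rw [indicator_of_notMem hzE, indicator_of_notMem this, mul_zero, zero_mul]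
    rw [setIntegral_congr_fun c.meas h2, setIntegral_indicator hE,
      inter_eq_self_of_subset_right hEH]
    exact B7gP.setIntegral_det_eq hE hEH (B7gP.lip_comp c.lip hw) _

/-- The chart action is the restriction of the current to the image of the chart. -/
lemma Chart.rest_eq {H : Set (Euc k)} {y : Euc k → X} {th : Euc k → ℤ} (c : Chart T H y th) :
    rest T ((y '' H).indicator fun _ => 1) = chartAction H y th := by
  funext f π
  by_cases h : IsTestPair f π
  · rw [rest_apply h]
    have h1 : f * (y '' H).indicator (fun _ => (1 : ℝ)) = (y '' H).indicator f := by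
      funext x
      by_cases hx : x ∈ y '' H
      · simp [indicator_of_mem hx]
      · simp [indicator_of_notMem hx]
    have h2 := isTestPair_iff.1 h
    rw [h1, c.loc f π h2.1.bm h2.2]
    unfold chartAction
    rw [if_pos h]
  · unfold rest chartAction
    rw [if_neg h, if_neg h]

/-- Disjoint charts covering `‖T‖`-almost everything. -/
theorem rect_of_disjoint [TopologicalSpace.SeparableSpace X] (hT : IsCurrent T)
    {E : ℕ → Set (Euc k)} {y : ℕ → Euc k → X} {th : ℕ → Euc k → ℤ}
    (c : ∀ n, Chart T (E n) (y n) (th n))
    (hdisj : ∀ i j, i ≠ j → Disjoint (y i '' E i) (y j '' E j))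
    (hnull : massM T (⋃ n, y n '' E n)ᶜ = 0) : IsIntegerRectifiable T := by
  have hfin := isFiniteMeasure_massM hT
  have hUm : MeasurableSet (⋃ n, y n '' E n) := MeasurableSet.iUnion fun n => (c n).im
  refine ⟨E, y, th, fun i => ⟨(c i).meas, (c i).bdd⟩, fun i => (c i).lip, fun i => (c i).colip,
    fun i => (c i).int, hdisj, fun i => ?_, ?_, ?_⟩
  · rw [← (c i).rest_eq]
    exact isCurrent_rest hT ((BM.const 1).indicator (c i).im)
  · have h1 : ∀ i, mass (chartAction (E i) (y i) (th i)) =
        (massM T (y i '' E i)).toReal := by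
      intro i
      rw [← (c i).rest_eq, mass_eq (isCurrent_rest hT ((BM.const 1).indicator (c i).im)),
        massM_rest_indicator hT (c i).im, Measure.restrict_apply_univ]
    simp_rw [h1]
    apply ENNReal.summable_toReal
    rw [← measure_iUnion (fun i j hij => hdisj i j hij) fun n => (c n).im]
    exact measure_ne_top _ _
  · intro f π hfπ
    have h2 := isTestPair_iff.1 hfπ
    rw [← ext_eq hT h2.2 h2.1]
    have hi : Integrable (fun x => f x * dens T π x) (ctrl T) :=
      (h2.1.bm.mul (bm_dens T π)).integrable _
    have h3 : G1.ext T f π = (∫ x in ⋃ n, y n '' E n, f x * dens T π x ∂(ctrl T)) +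
        G1.ext T ((⋃ n, y n '' E n)ᶜ.indicator f) π := by
      unfold G1.ext
      rw [← integral_add_compl hUm hi]
      congr 1
      rw [← integral_indicator hUm.compl]
      refine integral_congr_ae (Eventually.of_forall fun x => ?_)
      by_cases hx : x ∈ (⋃ n, y n '' E n)ᶜ
      · simp only [indicator_of_mem hx]
      · simp only [indicator_of_notMem hx, zero_mul]
    rw [h3, ext_indicator_eq_zero_of_massM hT hnull h2.1.bm hUm.compl h2.2, add_zero,
      integral_iUnion (fun n => (c n).im) (fun i j hij => hdisj i j hij) hi.integrableOn]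
    refine tsum_congr fun n => ?_
    rw [← (c n).rest_eq, rest_apply hfπ]
    unfold G1.ext
    rw [← integral_indicator (c n).im]
    refine integral_congr_ae (Eventually.of_forall fun x => ?_)
    by_cases hx : x ∈ y n '' E n
    · simp only [indicator_of_mem hx, Pi.mul_apply, mul_one]
    · simp only [indicator_of_notMem hx, Pi.mul_apply, mul_zero, zero_mul]

/-- **G-core.** A current given, on the images of countably many charts whose images cover
`‖T‖`-almost everything, by integer densities is integer rectifiable. -/
theorem rect_of_charts [TopologicalSpace.SeparableSpace X] (hT : IsCurrent T) {ι : Type*}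
    [Countable ι] [Nonempty ι] {H : ι → Set (Euc k)} {y : ι → Euc k → X} {th : ι → Euc k → ℤ}
    (c : ∀ i, Chart T (H i) (y i) (th i)) (hy : ∀ i, Measurable (y i))
    (hnull : massM T (⋃ i, y i '' H i)ᶜ = 0) : IsIntegerRectifiable T := by
  obtain ⟨idx, E, hE, hEH, him, hdisj, hU⟩ := B7e4.exists_disjoint (fun i => (c i).meas) hy
    (fun i => (c i).im)
  refine rect_of_disjoint hT (E := E) (y := fun n => y (idx n)) (th := fun n => th (idx n))
    (fun n => (c (idx n)).mono (hE n) (hEH n) (him n)) hdisj ?_
  rw [hU]
  exact hnull

end Crest.Agent.R241.B7gC
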