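import Crest.Prelude.Def_MetricCurrent
import Crest.Agent.R241.B1Density
import Crest.Agent.R241.B7e4

/-!
# R241, block B7g-pure (helper734): derivatives within nested sets, chart actions on subsets.
-/

set_option autoImplicit false

open MeasureTheory Set Filter Topology
open scoped ENNReal NNReal

universe u

namespace Crest.Agent.R241.B7gP

open Crest.GeometryTopology.Submanifold (Euc)
open Crest.GeometryTopology.MetricCurrent

variable {k : ℕ}

/-- For `E ⊆ H`, `E` measurable, and `u` Lipschitz on `H`: the derivatives of `u` within `H` and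
within `E` agree at almost every point of `E`, and are equal to the derivative of any Lipschitz
extension. -/
theorem ae_fderivWithin_eq_ext {E H : Set (Euc k)} (hE : MeasurableSet E) (hEH : E ⊆ H)
    {u v : Euc k → ℝ} {L : ℝ≥0} (huv : EqOn u v H) (hv : LipschitzWith L v) :
    ∀ᵐ z ∂((volume : Measure (Euc k)).restrict E),
      DifferentiableAt ℝ v z ∧ fderivWithin ℝ u H z = fderiv ℝ v z ∧
        fderivWithin ℝ u E z = fderiv ℝ v z := by
  filter_upwards [B1Density.ae_uniqueDiffWithinAt (volume : Measure (Euc k)) hE,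
    ae_restrict_mem hE, ae_restrict_of_ae hv.ae_differentiableAt] with z hz zE hd
  refine ⟨hd, ?_, ?_⟩
  · rw [fderivWithin_congr huv (huv (hEH zE))]
    exact hd.fderivWithin (hz.mono hEH)
  · rw [fderivWithin_congr (huv.mono hEH) (huv (hEH zE))]
    exact hd.fderivWithin hz

theorem ae_fderivWithin_eq {E H : Set (Euc k)} (hE : MeasurableSet E) (hEH : E ⊆ H)
    {u : Euc k → ℝ} {L : ℝ≥0} (hu : LipschitzOnWith L u H) :
    ∀ᵐ z ∂((volume : Measure (Euc k)).restrict E),
      fderivWithin ℝ u H z = fderivWithin ℝ u E z := by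
  obtain ⟨v, hv, huv⟩ := hu.extend_real
  filter_upwards [ae_fderivWithin_eq_ext hE hEH huv hv] with z hz
  rw [hz.2.1, hz.2.2]

/-- The determinant of the derivatives of a tuple along a chart. -/
theorem ae_det_eq {X : Type u} {E H : Set (Euc k)} (hE : MeasurableSet E) (hEH : E ⊆ H)
    {y : Euc k → X} {w : Fin k → X → ℝ}
    (hw : ∀ i, ∃ L : ℝ≥0, LipschitzOnWith L (fun z => w i (y z)) H) :
    ∀ᵐ z ∂((volume : Measure (Euc k)).restrict E),
      (Matrix.of fun i j : Fin k => fderivWithin ℝ (fun z' => w i (y z')) H z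
          (EuclideanSpace.single j 1)).det =
        (Matrix.of fun i j : Fin k => fderivWithin ℝ (fun z' => w i (y z')) E z
          (EuclideanSpace.single j 1)).det := by
  have h : ∀ i, ∀ᵐ z ∂((volume : Measure (Euc k)).restrict E),
      fderivWithin ℝ (fun z' => w i (y z')) H z = fderivWithin ℝ (fun z' => w i (y z')) E z := by
    intro i
    obtain ⟨L, hL⟩ := hw i
    exact ae_fderivWithin_eq hE hEH hL
  filter_upwards [ae_all_iff.mpr h] with z hz
  simp only [hz]

/-- Set-integral form. -/
theorem setIntegral_det_eq {X : Type u} {E H : Set (Euc k)} (hE : MeasurableSet E)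
    (hEH : E ⊆ H) {y : Euc k → X} {w : Fin k → X → ℝ}
    (hw : ∀ i, ∃ L : ℝ≥0, LipschitzOnWith L (fun z => w i (y z)) H) (a : Euc k → ℝ) :
    ∫ z in E, a z * (Matrix.of fun i j : Fin k => fderivWithin ℝ (fun z' => w i (y z')) H z
          (EuclideanSpace.single j 1)).det =
      ∫ z in E, a z * (Matrix.of fun i j : Fin k => fderivWithin ℝ (fun z' => w i (y z')) E z
          (EuclideanSpace.single j 1)).det := by
  refine integral_congr_ae ?_
  filter_upwards [ae_det_eq hE hEH hw] with z hz
  rw [hz]

/-- Lipschitz functions composed with Lipschitz charts. -/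
lemma lip_comp {X : Type u} [MetricSpace X] {H : Set (Euc k)} {y : Euc k → X}
    (hy : ∃ L : ℝ≥0, LipschitzOnWith L y H) {w : Fin k → X → ℝ}
    (hw : ∀ i, ∃ L : ℝ≥0, LipschitzWith L (w i)) (i : Fin k) :
    ∃ L : ℝ≥0, LipschitzOnWith L (fun z => w i (y z)) H := by
  obtain ⟨L, hL⟩ := hy
  obtain ⟨K, hK⟩ := hw i
  exact ⟨K * L, hK.comp_lipschitzOnWith hL⟩

/-- A chart action on a subset, with the derivatives taken within the big set. -/
theorem chartAction_subset {X : Type u} [MetricSpace X] {E H : Set (Euc k)}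
    (hE : MeasurableSet E) (hEH : E ⊆ H) {y : Euc k → X} {θ : Euc k → ℤ}
    (hy : ∃ L : ℝ≥0, LipschitzOnWith L y H) {f : X → ℝ} {w : Fin k → X → ℝ}
    (hfw : IsTestPair f w) :
    chartAction E y θ f w = ∫ z in E, (θ z : ℝ) * f (y z) *
      (Matrix.of fun i j : Fin k => fderivWithin ℝ (fun z' => w i (y z')) H z
          (EuclideanSpace.single j 1)).det := by
  unfold chartAction
  rw [if_pos hfw]
  exact (setIntegral_det_eq hE hEH (lip_comp hy hfw.2.2) _).symm

/-- Bounded determinant along a chart on a set (needed for integrability): the determinants of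
the derivatives within the big set are bounded at a.e. point of `E`. -/
theorem ae_norm_fderivWithin_le {E H : Set (Euc k)} (hE : MeasurableSet E) (hEH : E ⊆ H)
    {u : Euc k → ℝ} {L : ℝ≥0} (hu : LipschitzOnWith L u H) :
    ∀ᵐ z ∂((volume : Measure (Euc k)).restrict E), ‖fderivWithin ℝ u H z‖ ≤ L := by
  obtain ⟨v, hv, huv⟩ := hu.extend_real
  filter_upwards [ae_fderivWithin_eq_ext hE hEH huv hv] with z hz
  rw [hz.2.1]
  exact norm_fderiv_le_of_lipschitz ℝ hv

end Crest.Agent.R241.B7gP
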