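import Crest.Agent.R241.B8Stek
import Crest.Agent.R241.B8Fubini

/-!
# R241, block B8: the homotopy formula for sums of chart actions (owner: helper971)

`Chs k X`: a countable family of Lipschitz charts with integer densities and summable controlling
measures.  `c.T` the current, `c.R H` the `(k+1)`-dimensional functional obtained by sweeping with
`H : ℝ → X → Y` over `[0,1]`.

* `Chs.homotopy`: if `bd c.T = 0` then `bd (c.R H) = (H 1)_# c.T - (H 0)_# c.T` on test pairs.
* `Chs.abs_piece_le`, `Chs.controls_piece`: the pieces of `c.R H` are controlled by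
  `(k+1) C^(k+1) H_#(ds × μ_i)`.
-/

set_option autoImplicit false
set_option linter.unusedSectionVars false
set_option linter.unusedSimpArgs false

open MeasureTheory Filter Topology Set
open scoped ENNReal NNReal

namespace Crest.Agent.R241.B8

open Crest.GeometryTopology.MetricCurrent
open Crest.GeometryTopology.Submanifold (Euc)
open Crest.Agent.R241.G1
open Crest.Agent.R241.B8Abs
open Crest.Agent.R241.B8Stek
open Crest.Agent.R241.B8Fubini

universe u v

variable {X : Type u} [MetricSpace X] [MeasurableSpace X] [BorelSpace X]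
variable {Y : Type v} [MetricSpace Y] [MeasurableSpace Y] [BorelSpace Y]

/-- The chart action is alternating. -/
theorem chart_alt {k : ℕ} (E : Set (Euc k)) (φ : Euc k → X) (θ : Euc k → ℤ)
    (σ : Equiv.Perm (Fin k)) (f : X → ℝ) (π : Fin k → X → ℝ) (hf : BL f) (hπ : LipT π) :
    chartAction E φ θ f (fun i => π (σ i))
      = ((Equiv.Perm.sign σ : ℤ) : ℝ) * chartAction E φ θ f π := by
  have h1 : IsTestPair f π := hf.isTestPair hπ
  have h2 : IsTestPair f (fun i => π (σ i)) := hf.isTestPair fun i => hπ _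
  simp only [chartAction, if_pos h1, if_pos h2]
  rw [← integral_const_mul]
  refine integral_congr_ae (Eventually.of_forall fun z => ?_)
  simp only
  have := Matrix.det_permute σ (Matrix.of fun i j =>
          fderivWithin ℝ (fun w => π i (φ w)) E z (EuclideanSpace.single j 1))
  have e : (Matrix.of fun i j =>
          fderivWithin ℝ (fun w => π i (φ w)) E z (EuclideanSpace.single j 1)).submatrix σ id
      = Matrix.of fun i j =>
          fderivWithin ℝ (fun w => π (σ i) (φ w)) E z (EuclideanSpace.single j 1) := by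
    ext i j; rfl
  rw [e] at this
  rw [this]
  ring

/-- The chart action satisfies the Leibniz rule. -/
theorem chart_leib {k : ℕ} {E : Set (Euc (k + 1))} (hE : MeasurableSet E)
    {φ : Euc (k + 1) → X} {L : ℝ≥0} (hφ : LipschitzOnWith L φ E) {θ : Euc (k + 1) → ℤ}
    (hθ : Integrable (fun z => (θ z : ℝ)) (volume.restrict E))
    (u v : X → ℝ) (σ : Fin k → X → ℝ) (hu : BL u) (hv : BL v) (hσ : LipT σ) :
    chartAction E φ θ (fun _ => 1) (Fin.cons (fun x => u x * v x) σ)
      = chartAction E φ θ u (Fin.cons v σ) + chartAction E φ θ v (Fin.cons u σ) := by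
  have huv : BL (fun x => u x * v x) := hu.mul hv
  have t1 : IsTestPair (fun _ : X => (1 : ℝ)) (Fin.cons (fun x => u x * v x) σ : Fin (k + 1) → X → ℝ) :=
    BL.one.isTestPair (LipT_cons hσ huv.1)
  have t2 : IsTestPair u (Fin.cons v σ : Fin (k + 1) → X → ℝ) := hu.isTestPair (LipT_cons hσ hv.1)
  have t3 : IsTestPair v (Fin.cons u σ : Fin (k + 1) → X → ℝ) := hv.isTestPair (LipT_cons hσ hu.1)
  simp only [chartAction, if_pos t1, if_pos t2, if_pos t3]
  -- the derivative matrices
  set M : (X → ℝ) → Euc (k + 1) → Matrix (Fin (k + 1)) (Fin (k + 1)) ℝ := fun w z =>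
    Matrix.of fun i j => fderivWithin ℝ (fun y => (Fin.cons w σ : Fin (k + 1) → X → ℝ) i (φ y)) E z
      (EuclideanSpace.single j 1) with hM
  have hMu : ∀ (w w' : X → ℝ) z, M w z = (M w' z).updateRow 0
      (fun j => fderivWithin ℝ (fun y => w (φ y)) E z (EuclideanSpace.single j 1)) := by
    intro w w' z
    ext i j
    refine Fin.cases ?_ (fun i => ?_) i
    · simp [hM]
    · simp [hM, Matrix.updateRow_ne (Fin.succ_ne_zero i)]
  obtain ⟨Ku, hKu⟩ := hu.1
  obtain ⟨Kv, hKv⟩ := hv.1
  have hlip : ∀ w : X → ℝ, (∃ K : ℝ≥0, LipschitzWith K w) → ∀ᵐ z ∂(volume.restrict E),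
      DifferentiableWithinAt ℝ (fun y => w (φ y)) E z := fun w ⟨K, hK⟩ =>
    (hK.comp_lipschitzOnWith hφ).ae_differentiableWithinAt hE
  have key : ∀ᵐ z ∂(volume.restrict E), (θ z : ℝ) * 1 * (M (fun x => u x * v x) z).det
      = (θ z : ℝ) * u (φ z) * (M v z).det + (θ z : ℝ) * v (φ z) * (M u z).det := by
    filter_upwards [hlip u hu.1, hlip v hv.1, B1Density.ae_uniqueDiffWithinAt volume hE]
      with z h1 h2 h3
    have e1 : (fun j => fderivWithin ℝ (fun y => u (φ y) * v (φ y)) E z
          (EuclideanSpace.single j (1 : ℝ)))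
        = u (φ z) • (fun j => fderivWithin ℝ (fun y => v (φ y)) E z
            (EuclideanSpace.single j (1 : ℝ)))
          + v (φ z) • (fun j => fderivWithin ℝ (fun y => u (φ y)) E z
            (EuclideanSpace.single j (1 : ℝ))) := by
      funext j
      rw [fderivWithin_fun_mul h3 h1 h2]
      simp
    rw [hMu (fun x => u x * v x) 0 z, hMu v 0 z, hMu u 0 z, e1, Matrix.det_updateRow_add,
      Matrix.det_updateRow_smul, Matrix.det_updateRow_smul]
    ring
  -- integrability
  have hint : ∀ (f w : X → ℝ), BL f → (∃ K : ℝ≥0, LipschitzWith K w) →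
      Integrable (fun z => (θ z : ℝ) * f (φ z) * (M w z).det) (volume.restrict E) := by
    intro f w hf hw
    choose K hK using LipT_cons hσ hw
    have hu' : ∀ i, LipschitzOnWith ((∑ i, K i) * L)
        (fun y => (Fin.cons w σ : Fin (k + 1) → X → ℝ) i (φ y)) E := fun i =>
      ((hK i).weaken (Finset.single_le_sum (f := K) (fun _ _ => zero_le)
        (Finset.mem_univ i))).comp_lipschitzOnWith hφ
    obtain ⟨J, hJm, hJb, hJ⟩ := ae_det_fderivWithin hE hu'
    obtain ⟨Kf, hKf⟩ := hf.1
    obtain ⟨B, hB⟩ := hf.2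
    have h1 : Integrable (fun z => (θ z : ℝ) * f (φ z)) (volume.restrict E) :=
      hθ.mul_bdd (c := B) ((hKf.comp_lipschitzOnWith hφ).continuousOn.aestronglyMeasurable hE)
        (Eventually.of_forall fun z => hB _)
    have h2 := h1.mul_bdd hJm.aestronglyMeasurable (Eventually.of_forall fun z => hJb z)
    refine h2.congr ?_
    filter_upwards [hJ] with z hz
    rw [hz]
  rw [← integral_add (hint u v hu hv.1) (hint v u hv hu.1)]
  exact integral_congr_ae key

/-- A countable family of Lipschitz charts with integer densities and summable controlling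
measures. -/
structure Chs (k : ℕ) (X : Type u) [MetricSpace X] [MeasurableSpace X] [BorelSpace X] where
  E : ℕ → Set (Euc k)
  φ : ℕ → Euc k → X
  θ : ℕ → Euc k → ℤ
  L : ℕ → ℝ≥0
  μ : ℕ → Measure X
  measE : ∀ i, MeasurableSet (E i)
  lip : ∀ i, LipschitzOnWith (L i) (φ i) (E i)
  int : ∀ i, Integrable (fun z => (θ i z : ℝ)) (volume.restrict (E i))
  cur : ∀ i, IsCurrent (chartAction (E i) (φ i) (θ i))
  fin : ∀ i, IsFiniteMeasure (μ i)
  ctrl : ∀ i, Controls (chartAction (E i) (φ i) (θ i)) (μ i)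
  summ : Summable fun i => (μ i univ).toReal

namespace Chs

variable {k : ℕ}

attribute [instance] Chs.fin

/-- the current represented by the family -/
noncomputable def T (c : Chs k X) : Functional X k :=
  fun f π => ∑' i, chartAction (c.E i) (c.φ i) (c.θ i) f π

/-- the `i`-th piece of the swept functional. -/
noncomputable def piece (c : Chs k X) (H : ℝ → X → Y) (i : ℕ) : Functional Y (k + 1) :=
  chartAction (prodSet (c.E i)) (fun w => H (w 0) (c.φ i (tl w))) (fun w => c.θ i (tl w))

/-- the swept functional -/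
noncomputable def R (c : Chs k X) (H : ℝ → X → Y) : Functional Y (k + 1) :=
  fun f π => ∑' i, c.piece H i f π

theorem abs_chart_le (c : Chs k X) (i : ℕ) {f : X → ℝ} {π : Fin k → X → ℝ} (hf : BL f)
    {K : ℝ≥0} (hK : ∀ j, LipschitzWith K (π j)) :
    |chartAction (c.E i) (c.φ i) (c.θ i) f π| ≤ (K : ℝ) ^ k * ∫ x, |f x| ∂(c.μ i) := by
  have := abs_le_of_controls (c.cur i) (c.ctrl i) hf hK
  simpa using this

theorem summable_chart (c : Chs k X) {f : X → ℝ} {π : Fin k → X → ℝ} (hf : BL f) (hπ : LipT π) :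
    Summable fun i => chartAction (c.E i) (c.φ i) (c.θ i) f π := by
  obtain ⟨B, hB⟩ := hf.2
  choose K hK using hπ
  have hK' : ∀ j, LipschitzWith (∑ i, K i) (π j) := fun j =>
    (hK j).weaken (Finset.single_le_sum (f := K) (fun _ _ => zero_le) (Finset.mem_univ j))
  refine Summable.of_norm_bounded (g := fun i => ((∑ i, K i : ℝ≥0) : ℝ) ^ k *
    (|B| * (c.μ i univ).toReal)) ((c.summ.mul_left _).mul_left _) fun i => ?_
  rw [Real.norm_eq_abs]
  refine (c.abs_chart_le i hf hK').trans ?_
  refine mul_le_mul_of_nonneg_left ?_ (by positivity)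
  calc ∫ x, |f x| ∂(c.μ i) ≤ ∫ _x, |B| ∂(c.μ i) :=
        integral_mono (hf.abs.integrable _) (integrable_const _) fun x =>
          (hB x).trans (le_abs_self _)
    _ = |B| * (c.μ i univ).toReal := by
        rw [integral_const, smul_eq_mul, mul_comm]; rfl

theorem alt (c : Chs (k + 1) X) : Alt c.T := by
  intro σ f π hf hπ
  simp only [T]
  rw [← tsum_mul_left]
  exact tsum_congr fun i => chart_alt _ _ _ σ f π hf hπ

theorem leib (c : Chs (k + 1) X) : Leib c.T := by
  intro u v σ hu hv hσ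
  simp only [T]
  rw [← (c.summable_chart hu (LipT_cons hσ hv.1)).tsum_add
    (c.summable_chart hv (LipT_cons hσ hu.1))]
  exact tsum_congr fun i => chart_leib (c.measE i) (c.lip i) (c.int i) u v σ hu hv hσ

end Chs

/-! ### The clamped homotopy -/

/-- clamp to `[0,1]`. -/
def cl (s : ℝ) : ℝ := max 0 (min 1 s)

theorem cl_mem (s : ℝ) : cl s ∈ Icc (0 : ℝ) 1 :=
  ⟨le_max_left _ _, max_le zero_le_one (min_le_left _ _)⟩

theorem cl_of_mem {s : ℝ} (hs : s ∈ Icc (0 : ℝ) 1) : cl s = s := by
  rw [cl, min_eq_right hs.2, max_eq_right hs.1]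

theorem abs_cl_sub_le (s s' : ℝ) : |cl s - cl s'| ≤ |s - s'| := by
  have h1 : LipschitzWith 1 cl := by
    have h2 := (LipschitzWith.const (α := ℝ) (1 : ℝ)).min LipschitzWith.id
    have h3 := (LipschitzWith.const (α := ℝ) (0 : ℝ)).max h2
    have e : max (0 : ℝ≥0) (max 0 1) = 1 := by simp
    rw [e] at h3
    exact h3
  have := h1.dist_le_mul s s'
  simpa [Real.dist_eq] using this

/-- joint Lipschitz condition for the homotopy on `[0,1] × X`. -/
def HLip (C : ℝ≥0) (H : ℝ → X → Y) : Prop :=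
  ∀ s ∈ Icc (0 : ℝ) 1, ∀ s' ∈ Icc (0 : ℝ) 1, ∀ x x',
    dist (H s x) (H s' x') ≤ C * (|s - s'| + dist x x')

theorem JL_comp {C K : ℝ≥0} {H : ℝ → X → Y} (hH : HLip C H) {q : Y → ℝ}
    (hq : LipschitzWith K q) : JL (K * C) (fun s x => q (H (cl s) x)) := by
  intro s s' x x'
  have h1 := hq.dist_le_mul (H (cl s) x) (H (cl s') x')
  rw [Real.dist_eq] at h1
  refine h1.trans ?_
  have h2 := hH _ (cl_mem s) _ (cl_mem s') x x'
  have h3 := abs_cl_sub_le s s'
  push_cast
  rw [mul_assoc]
  refine mul_le_mul_of_nonneg_left (h2.trans ?_) K.coe_nonneg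
  exact mul_le_mul_of_nonneg_left (by linarith) C.coe_nonneg

theorem continuous_cl_H {C : ℝ≥0} {H : ℝ → X → Y} (hH : HLip C H) :
    Continuous fun p : ℝ × X => H (cl p.1) p.2 := by
  have : LipschitzWith (C * 2) fun p : ℝ × X => H (cl p.1) p.2 := by
    refine LipschitzWith.of_dist_le_mul fun p q => ?_
    refine (hH _ (cl_mem _) _ (cl_mem _) _ _).trans ?_
    push_cast
    rw [mul_assoc]
    refine mul_le_mul_of_nonneg_left ?_ C.coe_nonneg
    have h1 : |p.1 - q.1| ≤ dist p q := by
      rw [← Real.dist_eq]; exact le_max_left _ _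
    have h2 : dist p.2 q.2 ≤ dist p q := le_max_right _ _
    have h3 := abs_cl_sub_le p.1 q.1
    linarith
  exact this.continuous

/-- continuity in `s` of `∫ |f s x| dμ`. -/
theorem continuous_integral_abs {C : ℝ≥0} {f : ℝ → X → ℝ} (hf : JL C f) {B : ℝ}
    (hB : ∀ s x, |f s x| ≤ B) (μ : Measure X) [IsFiniteMeasure μ] :
    Continuous fun s => ∫ x, |f s x| ∂μ := by
  refine continuous_of_dominated (bound := fun _ => B) (fun s => ?_) (fun s => ?_)
    (integrable_const _) (Eventually.of_forall fun x => ?_)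
  · have : LipschitzWith C (f s) := by
      refine LipschitzWith.of_dist_le_mul fun x x' => ?_
      rw [Real.dist_eq]
      simpa using hf s s x x'
    exact (this.continuous.abs.measurable).aestronglyMeasurable
  · exact Eventually.of_forall fun x => by simpa using hB s x
  · exact (hf.continuous_left x).abs

namespace Chs

variable {k : ℕ}

/-- Jacobian determinant of a family on the product chart. -/
noncomputable def jac (c : Chs k X) (i : ℕ) (P : Fin (k + 1) → ℝ → X → ℝ) (w : Euc (k + 1)) : ℝ :=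
  (Matrix.of fun a j => fderivWithin ℝ (fun w => P a (w 0) (c.φ i (tl w))) (prodSet (c.E i)) w
          (EuclideanSpace.single j 1)).det

theorem jac_integral (c : Chs k X) (i : ℕ) (F : Fam k X) {f : ℝ → X → ℝ} {Cf : ℝ≥0}
    (hf : JL Cf f) {B : ℝ} (hB : ∀ s x, |f s x| ≤ B) :
    ∫ w in prodSet (c.E i), (c.θ i (tl w) : ℝ) * f (w 0) (c.φ i (tl w)) * c.jac i F.P w
      = ∫ s in Icc (0 : ℝ) 1, ∑ a : Fin (k + 1), (-1 : ℝ) ^ (a : ℕ) *
          chartAction (c.E i) (c.φ i) (c.θ i) (fun x => f s x * F.D a s x)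
            (fun b => F.P (a.succAbove b) s) :=
  integral_prodSet_det (c.measE i) (c.lip i) (c.int i) F.P F.D
    (fun a s _ s' _ x x' => F.hP a s s' x x')
    (fun a s _ x => (F.hPd a s x).hasDerivWithinAt) (fun a s _ => ⟨_, F.lipD a s⟩)
    (fun a s _ x => F.hDB a s x) f (fun s _ x => hB s x) (fun s _ s' _ x x' => hf s s' x x')

theorem abs_term_le (c : Chs k X) (i : ℕ) (F : Fam k X) {f : ℝ → X → ℝ} {Cf : ℝ≥0}
    (hf : JL Cf f) {B : ℝ} (hB : ∀ s x, |f s x| ≤ B) (s : ℝ) (a : Fin (k + 1)) :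
    |chartAction (c.E i) (c.φ i) (c.θ i) (fun x => f s x * F.D a s x)
        (fun b => F.P (a.succAbove b) s)| ≤ (F.C : ℝ) ^ (k + 1) * ∫ x, |f s x| ∂(c.μ i) := by
  have hfs : BL (f s) := by
    refine ⟨⟨Cf, LipschitzWith.of_dist_le_mul fun x x' => ?_⟩, B, hB s⟩
    rw [Real.dist_eq]
    simpa using hf s s x x'
  have h1 := c.abs_chart_le i (f := fun x => f s x * F.D a s x)
    (π := fun b => F.P (a.succAbove b) s) (hfs.mul (F.blD a s)) (fun b => F.lipP _ s)
  refine h1.trans ?_
  rw [pow_succ, mul_assoc]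
  refine mul_le_mul_of_nonneg_left ?_ (by positivity)
  rw [← integral_const_mul]
  refine integral_mono ((hfs.mul (F.blD a s)).abs.integrable _)
    ((hfs.abs.integrable _).const_mul _) fun x => ?_
  simp only [abs_mul]
  rw [mul_comm]
  exact mul_le_mul_of_nonneg_right (F.hDB a s x) (abs_nonneg _)

theorem abs_jac_integral_le (c : Chs k X) (i : ℕ) (F : Fam k X) {f : ℝ → X → ℝ} {Cf : ℝ≥0}
    (hf : JL Cf f) {B : ℝ} (hB : ∀ s x, |f s x| ≤ B) :
    |∫ w in prodSet (c.E i), (c.θ i (tl w) : ℝ) * f (w 0) (c.φ i (tl w)) * c.jac i F.P w|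
      ≤ (k + 1) * (F.C : ℝ) ^ (k + 1) * ∫ s in Icc (0 : ℝ) 1, ∫ x, |f s x| ∂(c.μ i) := by
  rw [c.jac_integral i F hf hB, ← Real.norm_eq_abs, ← integral_const_mul]
  refine norm_integral_le_of_norm_le ?_ (Eventually.of_forall fun s => ?_)
  · exact ((continuous_integral_abs hf hB (c.μ i)).const_mul _).continuousOn.integrableOn_compact
      isCompact_Icc
  · rw [Real.norm_eq_abs]
    refine (Finset.abs_sum_le_sum_abs _ _).trans ?_
    refine (Finset.sum_le_sum (g := fun _ => (F.C : ℝ) ^ (k + 1) * ∫ x, |f s x| ∂(c.μ i))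
      fun a _ => ?_).trans_eq ?_
    · rw [abs_mul, abs_pow, abs_neg, abs_one, one_pow, one_mul]
      exact c.abs_term_le i F hf hB s a
    · simp [Finset.sum_const]
      ring

variable {H : ℝ → X → Y} {C : ℝ≥0}

/-- the sequence of Steklov families attached to a tuple on `Y`. -/
noncomputable def sfam (hH : HLip C H) (Q : Fin (k + 1) → Y → ℝ) {K : ℝ≥0}
    (hQ : ∀ a, LipschitzWith K (Q a)) (n : ℕ) : Fam k X :=
  fam (fun a s x => Q a (H (cl s) x)) (fun a => JL_comp hH (hQ a))
    (1 / ((n : ℝ≥0) + 1)) (by positivity)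

theorem tendsto_eps (A : ℝ) : Tendsto (fun n : ℕ => A * ((1 / ((n : ℝ≥0) + 1) : ℝ≥0) : ℝ)) atTop
    (𝓝 0) := by
  have := (tendsto_one_div_add_atTop_nhds_zero_nat (𝕜 := ℝ)).const_mul A
  simpa using this

/-- convergence of the Steklov approximations on a product chart. -/
theorem tendsto_piece (c : Chs k X) (hH : HLip C H) (i : ℕ) (Q : Fin (k + 1) → Y → ℝ) {K : ℝ≥0}
    (hQ : ∀ a, LipschitzWith K (Q a))
    {f : Y → ℝ} (hf : BL f) :
    Tendsto (fun n => ∫ w in prodSet (c.E i), (c.θ i (tl w) : ℝ) *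
        f (H (cl (w 0)) (c.φ i (tl w))) * c.jac i (sfam hH Q hQ n).P w) atTop
      (𝓝 (∫ w in prodSet (c.E i), (c.θ i (tl w) : ℝ) * f (H (w 0) (c.φ i (tl w))) *
        (Matrix.of fun a j => fderivWithin ℝ (fun w => Q a (H (w 0) (c.φ i (tl w))))
          (prodSet (c.E i)) w (EuclideanSpace.single j 1)).det)) := by
  have hPE := measurableSet_prodSet (c.measE i)
  obtain ⟨Kf, hKf⟩ := hf.1
  obtain ⟨Bf, hBf⟩ := hf.2
  have hfJL : JL (Kf * C) (fun s x => f (H (cl s) x)) := JL_comp hH hKf
  have hθ' : Integrable (fun w => (c.θ i (tl w) : ℝ)) (volume.restrict (prodSet (c.E i))) := by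
    have h := (measurePreserving_splitE k).restrict_preimage_emb (splitE k).measurableEmbedding
      (Icc (0 : ℝ) 1 ×ˢ (c.E i))
    rw [← prodSet_eq, ← Measure.prod_restrict] at h
    exact (h.integrable_comp_emb (splitE k).measurableEmbedding).2
      ((c.int i).comp_snd (volume.restrict (Icc (0 : ℝ) 1)))
  have hg : IntegrableOn (fun w => (c.θ i (tl w) : ℝ) * f (H (cl (w 0)) (c.φ i (tl w))))
      (prodSet (c.E i)) := by
    refine hθ'.mul_bdd (c := Bf) ?_ (Eventually.of_forall fun w => hBf _)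
    exact (lipschitzOn_comp_chart (c.lip i) (P := fun s x => f (H (cl s) x))
      (fun s _ s' _ x x' => hfJL s s' x x')).continuousOn.aestronglyMeasurable hPE
  have hlim : ∀ w ∈ prodSet (c.E i), cl (w 0) = w 0 := fun w hw => cl_of_mem hw.1
  have e1 : ∫ w in prodSet (c.E i), (c.θ i (tl w) : ℝ) * f (H (w 0) (c.φ i (tl w))) *
        (Matrix.of fun a j => fderivWithin ℝ (fun w => Q a (H (w 0) (c.φ i (tl w))))
          (prodSet (c.E i)) w (EuclideanSpace.single j 1)).det
      = ∫ w in prodSet (c.E i), (c.θ i (tl w) : ℝ) * f (H (cl (w 0)) (c.φ i (tl w))) *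
        (Matrix.of fun a j => fderivWithin ℝ (fun w => Q a (H (cl (w 0)) (c.φ i (tl w))))
          (prodSet (c.E i)) w (EuclideanSpace.single j 1)).det := by
    refine setIntegral_congr_fun hPE fun w hw => ?_
    simp only
    rw [hlim w hw]
    congr 2
    ext a j
    simp only [Matrix.of_apply]
    have : fderivWithin ℝ (fun w => Q a (H (w 0) (c.φ i (tl w)))) (prodSet (c.E i)) w
        = fderivWithin ℝ (fun w => Q a (H (cl (w 0)) (c.φ i (tl w)))) (prodSet (c.E i)) w := by
      refine fderivWithin_congr (fun w' hw' => ?_) ?_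
      · simp only [hlim w' hw']
      · simp only [hlim w hw]
    rw [this]
  rw [e1]
  have key := weak_within hPE hg (C := (K * C) * (1 + c.L i))
    (u := fun n a w => (sfam hH Q hQ n).P a (w 0) (c.φ i (tl w)))
    (v := fun a w => Q a (H (cl (w 0)) (c.φ i (tl w))))
    (fun n a => lipschitzOn_comp_chart (c.lip i)
      (fun s _ s' _ x x' => (sfam hH Q hQ n).hP a s s' x x'))
    (fun a => lipschitzOn_comp_chart (c.lip i) (P := fun s x => Q a (H (cl s) x))
      (fun s _ s' _ x x' => JL_comp hH (hQ a) s s' x x'))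
    (tendsto_eps ((K * C : ℝ≥0) : ℝ))
    (fun n a w hw => abs_stek_sub_le (JL_comp hH (hQ a)) (NNReal.coe_nonneg _) _ _)
  exact key

/-- **Control of the swept pieces.** -/
theorem abs_piece_le (c : Chs k X) (hH : HLip C H) (i : ℕ) {K : ℝ≥0} {f : Y → ℝ} (hf : BL f)
    {Q : Fin (k + 1) → Y → ℝ} (hQ : ∀ a, LipschitzWith K (Q a)) :
    |c.piece H i f Q| ≤ (k + 1) * ((K * C : ℝ≥0) : ℝ) ^ (k + 1) *
      ∫ s in Icc (0 : ℝ) 1, ∫ x, |f (H (cl s) x)| ∂(c.μ i) := by
  obtain ⟨Kf, hKf⟩ := hf.1
  obtain ⟨Bf, hBf⟩ := hf.2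
  have h1 := (c.tendsto_piece hH i Q hQ hf).abs
  have htest : IsTestPair f Q := hf.isTestPair fun a => ⟨K, hQ a⟩
  have e : c.piece H i f Q = ∫ w in prodSet (c.E i), (c.θ i (tl w) : ℝ) *
        f (H (w 0) (c.φ i (tl w))) *
        (Matrix.of fun a j => fderivWithin ℝ (fun w => Q a (H (w 0) (c.φ i (tl w))))
          (prodSet (c.E i)) w (EuclideanSpace.single j 1)).det := by
    simp only [piece, chartAction, if_pos htest]
  rw [e]
  refine le_of_tendsto h1 (Eventually.of_forall fun n => ?_)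
  have h2 := c.abs_jac_integral_le i (sfam hH Q hQ n) (f := fun s x => f (H (cl s) x))
    (JL_comp hH hKf) (fun s x => hBf _)
  exact h2

/-- controlling measure of the swept pieces. -/
noncomputable def sweepMeas (c : Chs k X) (C : ℝ≥0) (H : ℝ → X → Y) (i : ℕ) : Measure Y :=
  (((k : ℝ≥0) + 1) * C ^ (k + 1)) •
    Measure.map (fun p : ℝ × X => H (cl p.1) p.2)
      ((volume.restrict (Icc (0 : ℝ) 1)).prod (c.μ i))

instance (c : Chs k X) (C : ℝ≥0) (H : ℝ → X → Y) (i : ℕ) :
    IsFiniteMeasure (c.sweepMeas C H i) := by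
  unfold sweepMeas; infer_instance

theorem integral_sweepMeas [SecondCountableTopology X] (c : Chs k X) (hH : HLip C H) (i : ℕ)
    {f : Y → ℝ} (hf : BL f) :
    ∫ y, |f y| ∂(c.sweepMeas C H i) = (k + 1) * (C : ℝ) ^ (k + 1) *
      ∫ s in Icc (0 : ℝ) 1, ∫ x, |f (H (cl s) x)| ∂(c.μ i) := by
  obtain ⟨Kf, hKf⟩ := hf.1
  obtain ⟨Bf, hBf⟩ := hf.2
  have hcont := continuous_cl_H hH
  rw [sweepMeas, integral_smul_nnreal_measure, integral_map hcont.measurable.aemeasurable
    hf.abs.measurable.aestronglyMeasurable, integral_prod]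
  · simp [NNReal.smul_def]
  · refine Integrable.of_bound (C := Bf) ?_ (Eventually.of_forall fun p => ?_)
    · exact (hf.abs.measurable.comp hcont.measurable).aestronglyMeasurable
    · simpa using hBf _

theorem controls_piece [SecondCountableTopology X] (c : Chs k X) (hH : HLip C H) (i : ℕ) :
    Controls (c.piece H i) (c.sweepMeas C H i) := by
  intro f Q hfQ hQ
  have hf : BL f := (isTestPair_iff.1 hfQ).1
  rw [c.integral_sweepMeas hH i hf]
  have := c.abs_piece_le hH i (K := 1) hf hQ
  simpa using this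

theorem sweepMeas_univ_le [SecondCountableTopology X] (c : Chs k X) (hH : HLip C H) (i : ℕ) :
    ((c.sweepMeas C H i) univ).toReal ≤ (k + 1) * (C : ℝ) ^ (k + 1) * (c.μ i univ).toReal := by
  have h := c.integral_sweepMeas hH i (f := fun _ => 1) BL.one
  simp only [abs_one, integral_const, smul_eq_mul, mul_one] at h
  have e : ((c.sweepMeas C H i) univ).toReal = (c.sweepMeas C H i).real univ := rfl
  rw [e, h]
  refine le_of_eq ?_
  congr 1
  simp [Measure.real]

theorem summable_sweepMeas [SecondCountableTopology X] (c : Chs k X) (hH : HLip C H) :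
    Summable fun i => ((c.sweepMeas C H i) univ).toReal :=
  Summable.of_nonneg_of_le (fun i => ENNReal.toReal_nonneg) (c.sweepMeas_univ_le hH)
    (c.summ.mul_left _)

theorem continuous_T {k : ℕ} {T : Functional X k} (hT : IsCurrent T) {f : ℝ → X → ℝ}
    {π : Fin k → ℝ → X → ℝ} {K K' : ℝ≥0} {B : ℝ} (hf : JL K f) (hπ : ∀ i, JL K' (π i))
    (hB : ∀ s x, |f s x| ≤ B) : Continuous fun s => T (f s) (fun i => π i s) := by
  rw [continuous_iff_continuousAt]
  intro s
  refine tendsto_of_seq_tendsto fun u hu => ?_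
  have hl : ∀ {K : ℝ≥0} {g : ℝ → X → ℝ} (hg : JL K g) s, LipschitzWith K (g s) := fun hg s => by
    refine LipschitzWith.of_dist_le_mul fun x x' => ?_
    rw [Real.dist_eq]
    simpa using hg s s x x'
  have := tendsto_U hT (Q := Fin.cons (f s) (fun i => π i s))
    (Qs := fun j => Fin.cons (f (u j)) (fun i => π i (u j))) (C := K + K') (B := B)
    (fun j a => by
      refine Fin.cases ?_ (fun i => ?_) a
      · simpa using (hl hf (u j)).weaken (by simp)
      · simpa using (hl (hπ i) (u j)).weaken (by simp))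
    (fun j x => by simpa using hB _ x)
    (fun a x => by
      refine Fin.cases ?_ (fun i => ?_) a
      · simpa [Function.comp_def] using ((hf.continuous_left x).tendsto s).comp hu
      · simpa [Function.comp_def] using (((hπ i).continuous_left x).tendsto s).comp hu)
  simpa [U, Function.comp_def] using this

/-- **Homotopy formula** for cycles. -/
theorem homotopy (c : Chs (k + 1) X) (hT : IsCurrent c.T) (hc : bd c.T = 0) (hH : HLip C H)
    {f : Y → ℝ} {π : Fin (k + 1) → Y → ℝ} (hfπ : IsTestPair f π) :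
    bd (c.R H) f π = c.T (fun x => f (H 1 x)) (fun i x => π i (H 1 x))
      - c.T (fun x => f (H 0 x)) (fun i x => π i (H 0 x)) := by
  obtain ⟨hf, hπ⟩ := isTestPair_iff.1 hfπ
  obtain ⟨B, hB⟩ := hf.2
  set Q : Fin (k + 2) → Y → ℝ := Fin.cons f π with hQdef
  have hQ' : LipT Q := LipT_cons hπ hf.1
  choose K' hK' using hQ'
  set K : ℝ≥0 := ∑ i, K' i with hK
  have hQ : ∀ a, LipschitzWith K (Q a) := fun a =>
    (hK' a).weaken (Finset.single_le_sum (f := K') (fun _ _ => zero_le) (Finset.mem_univ a))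
  set F : ℕ → Fam (k + 1) X := fun n => sfam hH Q hQ n with hF
  have hFC : ∀ n, (F n).C = K * C := fun n => rfl
  have hPB : ∀ n s x, |(F n).P 0 s x| ≤ B := fun n s x =>
    abs_stek_le (F := fun s x => Q 0 (H (cl s) x)) (fun s x => hB _) _ _ _
  -- the pieces
  set A : ℕ → ℕ → ℝ := fun n i => ∫ w in prodSet (c.E i), (c.θ i (tl w) : ℝ) * 1 *
    c.jac i (F n).P w with hA
  have hA1 : ∀ n i, A n i = ∫ s in Icc (0 : ℝ) 1, ∑ a : Fin (k + 2), (-1 : ℝ) ^ (a : ℕ) *
      chartAction (c.E i) (c.φ i) (c.θ i) ((F n).D a s) (fun b => (F n).P (a.succAbove b) s) := by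
    intro n i
    have := c.jac_integral i (F n) (f := fun _ _ => 1) (Cf := 0) (B := 1)
      (fun s s' x x' => by simp) (fun s x => by simp)
    simp only [one_mul] at this
    exact this
  have hM : ∀ n i, ∀ s a, |chartAction (c.E i) (c.φ i) (c.θ i) ((F n).D a s)
      (fun b => (F n).P (a.succAbove b) s)| ≤
        ((K * C : ℝ≥0) : ℝ) ^ (k + 2) * (c.μ i univ).toReal := by
    intro n i s a
    have := c.abs_term_le i (F n) (f := fun _ _ => 1) (Cf := 0) (B := 1)
      (fun s s' x x' => by simp) (fun s x => by simp) s a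
    simpa [hFC, Measure.real] using this
  have hM' : ∀ n i s, ‖∑ a : Fin (k + 2), (-1 : ℝ) ^ (a : ℕ) *
      chartAction (c.E i) (c.φ i) (c.θ i) ((F n).D a s) (fun b => (F n).P (a.succAbove b) s)‖ ≤
        (k + 2 : ℝ) * (((K * C : ℝ≥0) : ℝ) ^ (k + 2) * (c.μ i univ).toReal) := by
    intro n i s
    rw [Real.norm_eq_abs]
    refine (Finset.abs_sum_le_sum_abs _ _).trans ?_
    refine (Finset.sum_le_sum (g := fun _ => ((K * C : ℝ≥0) : ℝ) ^ (k + 2) *
      (c.μ i univ).toReal) fun a _ => ?_).trans_eq ?_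
    · rw [abs_mul, abs_pow, abs_neg, abs_one, one_pow, one_mul]
      exact hM n i s a
    · simp [Finset.sum_const]
  have hcontD : ∀ n i a, Continuous fun s => chartAction (c.E i) (c.φ i) (c.θ i) ((F n).D a s)
      (fun b => (F n).P (a.succAbove b) s) := fun n i a =>
    continuous_T (c.cur i) (f := fun s => (F n).D a s)
      (π := fun b s => (F n).P (a.succAbove b) s)
      (fun s s' x x' => (F n).hDL a s s' x x') (fun b s s' x x' => (F n).hP _ s s' x x')
      (fun s x => (F n).hDB a s x)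
  have hcont : ∀ n i, Continuous fun s => ∑ a : Fin (k + 2), (-1 : ℝ) ^ (a : ℕ) *
      chartAction (c.E i) (c.φ i) (c.θ i) ((F n).D a s) (fun b => (F n).P (a.succAbove b) s) :=
    fun n i => continuous_finsetSum _ fun a _ => (hcontD n i a).const_mul _
  have hsumM : Summable fun i => (k + 2 : ℝ) * (((K * C : ℝ≥0) : ℝ) ^ (k + 2) *
      (c.μ i univ).toReal) := (c.summ.mul_left _).mul_left _
  have hI : ∀ n i, ∫ s in Icc (0 : ℝ) 1, ‖∑ a : Fin (k + 2), (-1 : ℝ) ^ (a : ℕ) *
      chartAction (c.E i) (c.φ i) (c.θ i) ((F n).D a s) (fun b => (F n).P (a.succAbove b) s)‖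
        ≤ (k + 2 : ℝ) * (((K * C : ℝ≥0) : ℝ) ^ (k + 2) * (c.μ i univ).toReal) := by
    intro n i
    refine (integral_mono ((hcont n i).norm.continuousOn.integrableOn_compact isCompact_Icc)
      (integrable_const _) fun s => hM' n i s).trans_eq ?_
    simp [Measure.real]
  -- exchange of sum and integral
  have hU : ∀ n, U c.T (fun a => (F n).P a 1) - U c.T (fun a => (F n).P a 0) = ∑' i, A n i := by
    intro n
    rw [cycle_U_sub hT c.leib c.alt hc (F n) (hPB n),
      intervalIntegral.integral_of_le zero_le_one, ← integral_Icc_eq_integral_Ioc]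
    have h1 := hasSum_integral_of_summable_integral_norm
      (μ := volume.restrict (Icc (0 : ℝ) 1))
      (F := fun i s => ∑ a : Fin (k + 2), (-1 : ℝ) ^ (a : ℕ) *
        chartAction (c.E i) (c.φ i) (c.θ i) ((F n).D a s) (fun b => (F n).P (a.succAbove b) s))
      (fun i => (hcont n i).continuousOn.integrableOn_compact isCompact_Icc)
      (Summable.of_nonneg_of_le (fun i => integral_nonneg fun s => norm_nonneg _) (hI n) hsumM)
    simp_rw [hA1]
    rw [h1.tsum_eq]
    refine integral_congr_ae (Eventually.of_forall fun s => ?_)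
    simp only
    have hs : ∀ a, Summable fun i => chartAction (c.E i) (c.φ i) (c.θ i) ((F n).D a s)
        (fun b => (F n).P (a.succAbove b) s) := fun a =>
      c.summable_chart ((F n).blD a s) fun b => ⟨_, (F n).lipP _ s⟩
    rw [Summable.tsum_finsetSum fun a _ => (hs a).mul_left _]
    refine Finset.sum_congr rfl fun a _ => ?_
    rw [tsum_mul_left]
    rfl
  -- limits
  have hlimR : Tendsto (fun n => ∑' i, A n i) atTop (𝓝 (∑' i, c.piece H i (fun _ => 1) Q)) := by
    refine tendsto_tsum_of_dominated_convergence hsumM (fun i => ?_)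
      (Eventually.of_forall fun n i => ?_)
    · have h1 := c.tendsto_piece hH i Q hQ (f := fun _ => 1) BL.one
      have htest : IsTestPair (fun _ : Y => (1 : ℝ)) Q := BL.one.isTestPair fun a => ⟨K, hQ a⟩
      simp only [piece, chartAction, if_pos htest]
      exact h1
    · rw [hA1]
      exact (norm_integral_le_integral_norm _).trans (hI n i)
  have hlimL : ∀ t ∈ Icc (0 : ℝ) 1, Tendsto (fun n => U c.T (fun a => (F n).P a t)) atTop
      (𝓝 (U c.T (fun a x => Q a (H t x)))) := by
    intro t ht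
    refine tendsto_U hT (C := K * C) (B := B) (fun n a => (F n).lipP a t)
      (fun n x => hPB n t x) (fun a x => ?_)
    have h1 : ∀ n, |(F n).P a t x - Q a (H t x)| ≤
        ((K * C : ℝ≥0) : ℝ) * ((1 / ((n : ℝ≥0) + 1) : ℝ≥0) : ℝ) := fun n => by
      have := abs_stek_sub_le (JL_comp hH (hQ a)) (NNReal.coe_nonneg (1 / ((n : ℝ≥0) + 1))) t x
      rw [cl_of_mem ht] at this
      exact this
    have h2 : Tendsto (fun n => (F n).P a t x - Q a (H t x)) atTop (𝓝 0) :=
      squeeze_zero_norm h1 (tendsto_eps _)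
    simpa using h2.add_const (Q a (H t x))
  have hfin := tendsto_nhds_unique
    (((hlimL 1 ⟨zero_le_one, le_rfl⟩).sub (hlimL 0 ⟨le_rfl, zero_le_one⟩)).congr hU) hlimR
  have e1 : bd (c.R H) f π = ∑' i, c.piece H i (fun _ => 1) Q := by
    unfold bd
    rw [if_pos hfπ]
    rfl
  rw [e1, ← hfin]
  simp [U, hQdef]

end Chs

end Crest.Agent.R241.B8
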