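import Crest.Agent.R241.G1b

/-!
# R241, block B8: the homotopy derivative formula for axiomatic currents (owner: helper971)

`U T Q = T (Q 0; Q 1, …, Q k)`.  For a family `P a s x` which is `C¹` in `s` with everything
uniformly Lipschitz, `d/ds U T (P · s) = ∑ a, U T (update (P · s) a (D a s))`, and for a cycle `T`
(Leibniz rule + alternation) the `a`-th term is `(-1)^a T (D a s; P b s, b ≠ a)`.
-/

set_option autoImplicit false
set_option linter.unusedSectionVars false
set_option linter.unusedSimpArgs false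

open MeasureTheory Filter Topology Set
open scoped ENNReal NNReal

namespace Crest.Agent.R241.B8Abs

open Crest.GeometryTopology.MetricCurrent
open Crest.Agent.R241.G1

universe u

variable {X : Type u} [MetricSpace X] [MeasurableSpace X] [BorelSpace X]

section U

variable {k : ℕ} {T : Functional X k}

/-- `U T Q = T (Q 0; Q 1, …, Q k)`. -/
def U (T : Functional X k) (Q : Fin (k + 1) → X → ℝ) : ℝ := T (Q 0) (fun i => Q i.succ)

theorem tendsto_U (hT : IsCurrent T) {Q : Fin (k + 1) → X → ℝ}
    {Qs : ℕ → Fin (k + 1) → X → ℝ} {C : ℝ≥0} {B : ℝ}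
    (hQs : ∀ j a, LipschitzWith C (Qs j a)) (hB : ∀ j x, |Qs j 0 x| ≤ B)
    (h : ∀ a x, Tendsto (fun j => Qs j a x) atTop (𝓝 (Q a x))) :
    Tendsto (fun j => U T (Qs j)) atTop (𝓝 (U T Q)) := by
  have hQ : ∀ a, LipschitzWith C (Q a) := fun a => by
    refine LipschitzWith.of_dist_le_mul fun x y => ?_
    exact le_of_tendsto ((h a x).dist (h a y)) (Eventually.of_forall fun j =>
      (hQs j a).dist_le_mul x y)
  have hQB : ∀ x, |Q 0 x| ≤ B := fun x =>
    le_of_tendsto (h 0 x).abs (Eventually.of_forall fun j => hB j x)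
  have hBL : BL (Q 0) := ⟨⟨C, hQ 0⟩, B, hQB⟩
  have hBLs : ∀ j, BL (Qs j 0) := fun j => ⟨⟨C, hQs j 0⟩, B, hB j⟩
  obtain ⟨μ, hμf, hμ⟩ := hT.finite_mass
  have hLT : LipT (fun i : Fin k => Q i.succ) := fun i => ⟨C, hQ _⟩
  have hLTs : ∀ j, LipT (fun i : Fin k => Qs j i.succ) := fun j i => ⟨C, hQs j _⟩
  -- fixed first slot
  have h1 : Tendsto (fun j => T (Q 0) (fun i => Qs j i.succ)) atTop
      (𝓝 (T (Q 0) (fun i => Q i.succ))) :=
    hT.continuity _ _ _ (hBL.isTestPair hLT) ⟨C, fun j i => hQs j _⟩ fun i x => h _ x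
  -- difference in the first slot
  have h2 : Tendsto (fun j => T (Qs j 0 - Q 0) (fun i => Qs j i.succ)) atTop (𝓝 0) := by
    have hI : Tendsto (fun j => ∫ x, |(Qs j 0 - Q 0) x| ∂μ) atTop (𝓝 0) := by
      have := tendsto_integral_of_dominated_convergence (μ := μ)
        (F := fun j x => |(Qs j 0 - Q 0) x|) (f := fun _ => (0 : ℝ)) (fun _ => B + B)
        (fun j => ((hBLs j).sub hBL).abs.measurable.aestronglyMeasurable)
        (integrable_const _) (fun j => Eventually.of_forall fun x => by
          simp only [Pi.sub_apply, Real.norm_eq_abs, abs_abs]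
          exact (abs_sub _ _).trans (add_le_add (hB j x) (hQB x)))
        (Eventually.of_forall fun x => by
          have := ((h 0 x).sub_const (Q 0 x)).abs
          simpa using this)
      simpa using this
    have hbound : ∀ j, ‖T (Qs j 0 - Q 0) (fun i => Qs j i.succ)‖
        ≤ (∏ _i : Fin k, (C : ℝ)) * ∫ x, |(Qs j 0 - Q 0) x| ∂μ := fun j =>
      abs_le_of_controls hT hμ ((hBLs j).sub hBL) (fun i => hQs j _)
    refine squeeze_zero_norm hbound ?_
    simpa using hI.const_mul (∏ _i : Fin k, (C : ℝ))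
  have h3 : ∀ j, U T (Qs j) = T (Q 0) (fun i => Qs j i.succ)
      + T (Qs j 0 - Q 0) (fun i => Qs j i.succ) := fun j => by
    rw [← hT.add_left _ _ _ (hBL.isTestPair (hLTs j)) (((hBLs j).sub hBL).isTestPair (hLTs j))]
    simp [U]
  simp_rw [h3]
  simpa [U] using h1.add h2

theorem update_zero_eq {α : Type*} (Q : Fin (k + 1) → α) (g : α) :
    (fun i : Fin k => Function.update Q 0 g i.succ) = fun i => Q i.succ := by
  funext i
  simp [Function.update_of_ne (Fin.succ_ne_zero i)]

theorem update_succ_eq {α : Type*} (Q : Fin (k + 1) → α) (i : Fin k) (g : α) :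
    (fun j : Fin k => Function.update Q i.succ g j.succ)
      = Function.update (fun j : Fin k => Q j.succ) i g := by
  funext j
  by_cases h : j = i
  · subst h; simp
  · simp [h, Fin.succ_inj]

/-- `U` is additive in every slot (differences). -/
theorem U_update_sub (hT : IsCurrent T) {Q : Fin (k + 1) → X → ℝ}
    (hQ : ∀ a, ∃ K : ℝ≥0, LipschitzWith K (Q a)) (hQ0 : ∃ B, ∀ x, |Q 0 x| ≤ B)
    (a : Fin (k + 1)) {g g' : X → ℝ} (hg : BL g ∨ (a ≠ 0 ∧ ∃ K : ℝ≥0, LipschitzWith K g))
    (hg' : BL g' ∨ (a ≠ 0 ∧ ∃ K : ℝ≥0, LipschitzWith K g')) :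
    U T (Function.update Q a g) - U T (Function.update Q a g')
      = U T (Function.update Q a (g - g')) := by
  have hQBL : BL (Q 0) := ⟨hQ 0, hQ0⟩
  revert hg hg'
  refine Fin.cases ?_ (fun i => ?_) a
  · intro hg hg'
    have hg := hg.resolve_right (by simp)
    have hg' := hg'.resolve_right (by simp)
    simp only [U, Function.update_self, update_zero_eq]
    have hLT : LipT (fun i : Fin k => Q i.succ) := fun i => hQ _
    have := hT.add_left (g - g') g' (fun i => Q i.succ) ((hg.sub hg').isTestPair hLT)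
      (hg'.isTestPair hLT)
    rw [sub_add_cancel] at this
    rw [this]; ring
  · intro hg hg'
    have hg : ∃ K : ℝ≥0, LipschitzWith K g := hg.elim (fun h => h.1) (fun h => h.2)
    have hg' : ∃ K : ℝ≥0, LipschitzWith K g' := hg'.elim (fun h => h.1) (fun h => h.2)
    have h0 : ∀ v : X → ℝ, Function.update Q i.succ v 0 = Q 0 := fun v =>
      Function.update_of_ne (Fin.succ_ne_zero i).symm _ _
    simp only [U, h0, update_succ_eq]
    have hLT : LipT (fun i : Fin k => Q i.succ) := fun i => hQ _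
    obtain ⟨K, hK⟩ := hg
    obtain ⟨K', hK'⟩ := hg'
    have := hT.add_coord (Q 0) (Function.update (fun j : Fin k => Q j.succ) i (g - g')) i g'
      (hQBL.isTestPair (hLT.update i ⟨_, hK.sub hK'⟩)) ⟨K', hK'⟩
    simp only [Function.update_self, sub_add_cancel, Function.update_idem] at this
    rw [this]; ring

/-- `U` is homogeneous in every slot. -/
theorem U_update_smul (hT : IsCurrent T) {Q : Fin (k + 1) → X → ℝ}
    (hQ : ∀ a, ∃ K : ℝ≥0, LipschitzWith K (Q a)) (hQ0 : ∃ B, ∀ x, |Q 0 x| ≤ B)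
    (a : Fin (k + 1)) {g : X → ℝ} (hg : BL g ∨ (a ≠ 0 ∧ ∃ K : ℝ≥0, LipschitzWith K g)) (c : ℝ) :
    U T (Function.update Q a (c • g)) = c * U T (Function.update Q a g) := by
  have hQBL : BL (Q 0) := ⟨hQ 0, hQ0⟩
  revert hg
  refine Fin.cases ?_ (fun i => ?_) a
  · intro hg
    have hg := hg.resolve_right (by simp)
    simp only [U, Function.update_self, update_zero_eq]
    have hLT : LipT (fun i : Fin k => Q i.succ) := fun i => hQ _
    exact hT.smul_left c g _ (hg.isTestPair hLT)
  · intro hg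
    have hg : ∃ K : ℝ≥0, LipschitzWith K g := hg.elim (fun h => h.1) (fun h => h.2)
    have h0 : ∀ v : X → ℝ, Function.update Q i.succ v 0 = Q 0 := fun v =>
      Function.update_of_ne (Fin.succ_ne_zero i).symm _ _
    simp only [U, h0, update_succ_eq]
    have hLT : LipT (fun i : Fin k => Q i.succ) := fun i => hQ _
    have := hT.smul_coord (Q 0) (Function.update (fun j : Fin k => Q j.succ) i g) i c
      (hQBL.isTestPair (hLT.update i hg))
    simpa using this

/-- Data of a family of tuples depending in a `C¹` way on a parameter. -/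
structure Fam (k : ℕ) (X : Type u) [MetricSpace X] where
  P : Fin (k + 1) → ℝ → X → ℝ
  D : Fin (k + 1) → ℝ → X → ℝ
  C : ℝ≥0
  K : ℝ≥0
  hP : ∀ a s s' x x', |P a s x - P a s' x'| ≤ C * (|s - s'| + dist x x')
  hPd : ∀ a s x, HasDerivAt (fun s => P a s x) (D a s x) s
  hDL : ∀ a s s' x x', |D a s x - D a s' x'| ≤ K * (|s - s'| + dist x x')
  hDB : ∀ a s x, |D a s x| ≤ C

namespace Fam

variable (F : Fam k X)

omit [MeasurableSpace X] [BorelSpace X] in
theorem lipP (a : Fin (k + 1)) (s : ℝ) : LipschitzWith F.C (F.P a s) := by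
  refine LipschitzWith.of_dist_le_mul fun x x' => ?_
  rw [Real.dist_eq]
  simpa using F.hP a s s x x'

omit [MeasurableSpace X] [BorelSpace X] in
theorem lipD (a : Fin (k + 1)) (s : ℝ) : LipschitzWith F.K (F.D a s) := by
  refine LipschitzWith.of_dist_le_mul fun x x' => ?_
  rw [Real.dist_eq]
  simpa using F.hDL a s s x x'

omit [MeasurableSpace X] [BorelSpace X] in
theorem blD (a : Fin (k + 1)) (s : ℝ) : BL (F.D a s) := ⟨⟨_, F.lipD a s⟩, _, F.hDB a s⟩

omit [MeasurableSpace X] [BorelSpace X] in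
theorem blP {B : ℝ} (hPB : ∀ s x, |F.P 0 s x| ≤ B) (s : ℝ) : BL (F.P 0 s) :=
  ⟨⟨_, F.lipP 0 s⟩, B, hPB s⟩

/-- difference quotients are Lipschitz in `x` -/
theorem lip_quot (a : Fin (k + 1)) (s s' : ℝ) :
    LipschitzWith F.K ((s' - s)⁻¹ • (F.P a s' - F.P a s)) := by
  refine LipschitzWith.of_dist_le_mul fun x x' => ?_
  rcases eq_or_ne s' s with rfl | hne
  · simp; positivity
  have h1 : ∀ r ∈ (univ : Set ℝ), HasDerivWithinAt (fun r => F.P a r x - F.P a r x')
      (F.D a r x - F.D a r x') univ r := fun r _ =>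
    ((F.hPd a r x).sub (F.hPd a r x')).hasDerivWithinAt
  have h2 : ∀ r ∈ (univ : Set ℝ), ‖F.D a r x - F.D a r x'‖ ≤ F.K * dist x x' := fun r _ => by
    simpa using F.hDL a r r x x'
  have h3 := convex_univ.norm_image_sub_le_of_norm_hasDerivWithin_le h1 h2 (mem_univ s)
    (mem_univ s')
  rw [Real.dist_eq]
  simp only [Pi.smul_apply, Pi.sub_apply, smul_eq_mul]
  rw [← mul_sub, abs_mul, abs_inv]
  have h4 : 0 < |s' - s| := abs_pos.2 (sub_ne_zero.2 hne)
  rw [inv_mul_le_iff₀ h4]
  simp only [Real.norm_eq_abs] at h3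
  calc |F.P a s' x - F.P a s x - (F.P a s' x' - F.P a s x')|
      = |F.P a s' x - F.P a s' x' - (F.P a s x - F.P a s x')| := by ring_nf
    _ ≤ F.K * dist x x' * |s' - s| := h3
    _ = |s' - s| * (F.K * dist x x') := by ring

/-- difference quotients are bounded -/
theorem abs_quot_le (a : Fin (k + 1)) (s s' : ℝ) (x : X) :
    |((s' - s)⁻¹ • (F.P a s' - F.P a s)) x| ≤ F.C := by
  simp only [Pi.smul_apply, Pi.sub_apply, smul_eq_mul]
  rcases eq_or_ne s' s with rfl | hne
  · simp
  have h4 : 0 < |s' - s| := abs_pos.2 (sub_ne_zero.2 hne)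
  rw [abs_mul, abs_inv, inv_mul_le_iff₀ h4]
  have := F.hP a s' s x x
  simp only [dist_self, add_zero] at this
  linarith

/-- hybrid tuples -/
def hyb (s s' : ℝ) (m : ℕ) : Fin (k + 1) → X → ℝ :=
  fun b => if (b : ℕ) < m then F.P b s' else F.P b s

omit [MeasurableSpace X] [BorelSpace X] in
theorem hyb_zero (s s' : ℝ) : F.hyb s s' 0 = fun a => F.P a s := by
  funext b; simp [hyb]

omit [MeasurableSpace X] [BorelSpace X] in
theorem hyb_last (s s' : ℝ) : F.hyb s s' (k + 1) = fun a => F.P a s' := by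
  funext b; simp [hyb, b.2]

omit [MeasurableSpace X] [BorelSpace X] in
theorem update_hyb (s s' : ℝ) (a : Fin (k + 1)) :
    Function.update (F.hyb s s' a) a (F.P a s) = F.hyb s s' a := by
  funext b
  by_cases h : b = a
  · subst h; simp [hyb]
  · simp [Function.update_of_ne h]

omit [MeasurableSpace X] [BorelSpace X] in
theorem update_hyb_succ (s s' : ℝ) (a : Fin (k + 1)) :
    Function.update (F.hyb s s' a) a (F.P a s') = F.hyb s s' (a + 1) := by
  funext b
  by_cases h : b = a
  · subst h; simp [hyb]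
  · rw [Function.update_of_ne h]
    have h' : (b : ℕ) ≠ a := fun h'' => h (Fin.ext h'')
    simp only [hyb]
    by_cases h1 : (b : ℕ) < a
    · rw [if_pos h1, if_pos (by omega)]
    · rw [if_neg h1, if_neg (by omega)]

omit [MeasurableSpace X] [BorelSpace X] in
theorem lip_hyb (s s' : ℝ) (m : ℕ) (b : Fin (k + 1)) : LipschitzWith F.C (F.hyb s s' m b) := by
  unfold hyb
  split_ifs
  · exact F.lipP _ _
  · exact F.lipP _ _

omit [MeasurableSpace X] [BorelSpace X] in
theorem abs_hyb_le {B : ℝ} (hPB : ∀ s x, |F.P 0 s x| ≤ B) (s s' : ℝ) (m : ℕ) (x : X) :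
    |F.hyb s s' m 0 x| ≤ B := by
  unfold hyb
  split_ifs
  · exact hPB _ _
  · exact hPB _ _

omit [MeasurableSpace X] [BorelSpace X] in
theorem bl_or {B : ℝ} (hPB : ∀ s x, |F.P 0 s x| ≤ B) (a : Fin (k + 1)) (s : ℝ) :
    BL (F.P a s) ∨ (a ≠ 0 ∧ ∃ K : ℝ≥0, LipschitzWith K (F.P a s)) := by
  by_cases h : a = 0
  · subst h; exact Or.inl (F.blP hPB s)
  · exact Or.inr ⟨h, _, F.lipP a s⟩

theorem U_sub (hT : IsCurrent T) {B : ℝ} (hPB : ∀ s x, |F.P 0 s x| ≤ B) (s s' : ℝ) :
    U T (fun a => F.P a s') - U T (fun a => F.P a s)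
      = ∑ a : Fin (k + 1), U T (Function.update (F.hyb s s' a) a (F.P a s' - F.P a s)) := by
  have h1 := Finset.sum_range_sub (fun m => U T (F.hyb s s' m)) (k + 1)
  rw [← hyb_last F s s', ← F.hyb_zero s s', ← h1, Finset.sum_range]
  refine Finset.sum_congr rfl fun a _ => ?_
  have h2 := U_update_sub hT (Q := F.hyb s s' a) (fun b => ⟨_, F.lip_hyb s s' a b⟩)
    ⟨_, F.abs_hyb_le hPB s s' a⟩ a (F.bl_or hPB a s') (F.bl_or hPB a s)
  rw [F.update_hyb, F.update_hyb_succ] at h2
  exact h2

theorem hasDerivAt_U (hT : IsCurrent T) {B : ℝ} (hPB : ∀ s x, |F.P 0 s x| ≤ B) (s : ℝ) :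
    HasDerivAt (fun s => U T (fun a => F.P a s))
      (∑ a : Fin (k + 1), U T (Function.update (fun b => F.P b s) a (F.D a s))) s := by
  rw [hasDerivAt_iff_tendsto_slope]
  refine tendsto_of_seq_tendsto fun u hu => ?_
  have hu1 : Tendsto u atTop (𝓝 s) := tendsto_nhds_of_tendsto_nhdsWithin hu
  have hu2 : ∀ᶠ j in atTop, u j ≠ s := by
    have := hu (self_mem_nhdsWithin)
    exact this
  have e1 : ∀ᶠ j in atTop, (slope (fun s => U T (fun a => F.P a s)) s ∘ u) j
      = ∑ a : Fin (k + 1), U T (Function.update (F.hyb s (u j) a) a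
        ((u j - s)⁻¹ • (F.P a (u j) - F.P a s))) := by
    filter_upwards [hu2] with j hj
    simp only [Function.comp_apply, slope_def_module, smul_eq_mul]
    rw [F.U_sub hT hPB, Finset.mul_sum]
    refine Finset.sum_congr rfl fun a _ => ?_
    refine (U_update_smul hT (fun b => ⟨_, F.lip_hyb s (u j) a b⟩)
      ⟨_, F.abs_hyb_le hPB s (u j) a⟩ a ?_ _).symm
    by_cases h : a = 0
    · subst h; exact Or.inl ((F.blP hPB _).sub (F.blP hPB _))
    · exact Or.inr ⟨h, _, (F.lipP a _).sub (F.lipP a _)⟩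
  rw [tendsto_congr' e1]
  refine tendsto_finsetSum _ fun a _ => ?_
  refine tendsto_U hT (C := F.C + F.K) (B := max B F.C) (fun j b => ?_) (fun j x => ?_)
    (fun b x => ?_)
  · by_cases h : b = a
    · subst h; rw [Function.update_self]
      exact (F.lip_quot _ _ _).weaken (by simp)
    · rw [Function.update_of_ne h]
      exact (F.lip_hyb _ _ _ _).weaken (by simp)
  · by_cases h : (0 : Fin (k + 1)) = a
    · subst h; rw [Function.update_self]
      exact (F.abs_quot_le _ _ _ _).trans (le_max_right _ _)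
    · rw [Function.update_of_ne h]
      exact (F.abs_hyb_le hPB _ _ _ _).trans (le_max_left _ _)
  · by_cases h : b = a
    · subst h
      simp only [Function.update_self]
      have := (hasDerivAt_iff_tendsto_slope.1 (F.hPd b s x)).comp hu
      refine this.congr fun j => ?_
      simp [slope_def_module]
    · simp only [Function.update_of_ne h]
      have hc : Tendsto (fun j => F.P b (u j) x) atTop (𝓝 (F.P b s x)) :=
        (F.hPd b s x).continuousAt.tendsto.comp hu1
      simp only [hyb]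
      split_ifs
      · exact hc
      · exact tendsto_const_nhds

theorem continuous_deriv (hT : IsCurrent T) {B : ℝ} (hPB : ∀ s x, |F.P 0 s x| ≤ B)
    (a : Fin (k + 1)) :
    Continuous (fun s => U T (Function.update (fun b => F.P b s) a (F.D a s))) := by
  rw [continuous_iff_continuousAt]
  intro s
  refine tendsto_of_seq_tendsto fun u hu => ?_
  refine tendsto_U hT (C := F.C + F.K) (B := max B F.C) (fun j b => ?_) (fun j x => ?_)
    (fun b x => ?_)
  · by_cases h : b = a
    · subst h; rw [Function.update_self]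
      exact (F.lipD _ _).weaken (by simp)
    · rw [Function.update_of_ne h]
      exact (F.lipP _ _).weaken (by simp)
  · by_cases h : (0 : Fin (k + 1)) = a
    · subst h; rw [Function.update_self]
      exact (F.hDB _ _ _).trans (le_max_right _ _)
    · rw [Function.update_of_ne h]
      exact (hPB _ _).trans (le_max_left _ _)
  · by_cases h : b = a
    · subst h
      simp only [Function.update_self]
      have hc : Continuous fun s => F.D b s x := by
        refine (LipschitzWith.of_dist_le_mul (K := F.K) fun r r' => ?_).continuous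
        rw [Real.dist_eq, Real.dist_eq]
        simpa using F.hDL b r r' x x
      exact (hc.tendsto s).comp hu
    · simp only [Function.update_of_ne h]
      exact (F.hPd b s x).continuousAt.tendsto.comp hu

theorem U_sub_eq_integral (hT : IsCurrent T) {B : ℝ} (hPB : ∀ s x, |F.P 0 s x| ≤ B)
    (s₀ s₁ : ℝ) :
    U T (fun a => F.P a s₁) - U T (fun a => F.P a s₀)
      = ∫ s in s₀..s₁, ∑ a : Fin (k + 1), U T (Function.update (fun b => F.P b s) a (F.D a s)) := by
  symm
  refine intervalIntegral.integral_eq_sub_of_hasDerivAt (fun s _ => F.hasDerivAt_U hT hPB s) ?_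
  exact (continuous_finsetSum _ fun a _ => F.continuous_deriv hT hPB a).intervalIntegrable _ _

end Fam

end U

/-! ### Cycles: moving the differentiated function to the first slot -/

section cycle

variable {k : ℕ} {T : Functional X (k + 1)}

/-- Leibniz rule for the constant function `1` in the first slot. -/
def Leib (T : Functional X (k + 1)) : Prop :=
  ∀ (u v : X → ℝ) (σ : Fin k → X → ℝ), BL u → BL v → LipT σ →
    T (fun _ => 1) (Fin.cons (fun x => u x * v x) σ)
      = T u (Fin.cons v σ) + T v (Fin.cons u σ)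

/-- Alternation. -/
def Alt (T : Functional X (k + 1)) : Prop :=
  ∀ (σ : Equiv.Perm (Fin (k + 1))) (f : X → ℝ) (π : Fin (k + 1) → X → ℝ), BL f → LipT π →
    T f (fun i => π (σ i)) = ((Equiv.Perm.sign σ : ℤ) : ℝ) * T f π

omit [MeasurableSpace X] [BorelSpace X] in
theorem LipT_cons {σ : Fin k → X → ℝ} (hσ : LipT σ) {u : X → ℝ}
    (hu : ∃ K : ℝ≥0, LipschitzWith K u) : LipT (Fin.cons u σ : Fin (k + 1) → X → ℝ) := by
  intro i
  refine Fin.cases ?_ (fun i => ?_) i
  · simpa using hu
  · simpa using hσ i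

theorem U_update_cycle (hL : Leib T) (hA : Alt T) (hc : bd T = 0)
    (Q : Fin (k + 2) → X → ℝ) (hQ : ∀ a, ∃ K : ℝ≥0, LipschitzWith K (Q a)) (hQ0 : BL (Q 0))
    (a : Fin (k + 2)) {D : X → ℝ} (hD : BL D) :
    U T (Function.update Q a D) = (-1 : ℝ) ^ (a : ℕ) * T D (fun b => Q (a.succAbove b)) := by
  refine Fin.cases ?_ (fun i => ?_) a
  · simp only [U, Function.update_self, update_zero_eq]
    simp [Fin.succAbove_zero]
  · have h0 : Function.update Q i.succ D 0 = Q 0 := Function.update_of_ne (Fin.succ_ne_zero i).symm _ _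
    simp only [U, h0, update_succ_eq]
    set π : Fin (k + 1) → X → ℝ := fun j => Q j.succ with hπ
    have hπL : LipT π := fun j => hQ _
    set τ : Fin k → X → ℝ := fun b => π (i.succAbove b) with hτ
    have hτL : LipT τ := fun b => hπL _
    have e1 : Function.update π i D
        = fun j => (Fin.cons D τ : Fin (k + 1) → X → ℝ) (i.cycleRange j) := by
      funext j
      rcases Fin.eq_self_or_eq_succAbove i j with h | ⟨b, h⟩
      · subst h
        simp [Fin.cycleRange_self]
      · subst h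
        rw [Function.update_of_ne (Fin.succAbove_ne i b), Fin.cycleRange_succAbove]
        simp [hτ]
    rw [e1, hA _ _ _ hQ0 (LipT_cons hτL hD.1), Fin.sign_cycleRange]
    have e2 : T (Q 0) (Fin.cons D τ) + T D (Fin.cons (Q 0) τ) = 0 := by
      rw [← hL (Q 0) D τ hQ0 hD hτL]
      have hBL : BL (fun x => Q 0 x * D x) := hQ0.mul hD
      have h1 : bd T (fun x => Q 0 x * D x) τ = 0 := by rw [hc]; rfl
      unfold bd at h1
      rw [if_pos (hBL.isTestPair hτL)] at h1
      exact h1
    have e3 : (fun b => Q (i.succ.succAbove b)) = (Fin.cons (Q 0) τ : Fin (k + 1) → X → ℝ) := by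
      funext b
      refine Fin.cases ?_ (fun b => ?_) b
      · simp
      · simp [hτ, hπ]
    rw [e3]
    have e4 : T (Q 0) (Fin.cons D τ) = - T D (Fin.cons (Q 0) τ) := by linarith
    rw [e4]
    push_cast
    simp only [Fin.val_succ, pow_succ]
    ring

/-- **Homotopy derivative formula for cycles.** -/
theorem cycle_U_sub (hT : IsCurrent T) (hL : Leib T) (hA : Alt T) (hc : bd T = 0)
    (F : Fam (k + 1) X) {B : ℝ} (hPB : ∀ s x, |F.P 0 s x| ≤ B) (s₀ s₁ : ℝ) :
    U T (fun a => F.P a s₁) - U T (fun a => F.P a s₀)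
      = ∫ s in s₀..s₁, ∑ a : Fin (k + 2),
        (-1 : ℝ) ^ (a : ℕ) * T (F.D a s) (fun b => F.P (a.succAbove b) s) := by
  rw [F.U_sub_eq_integral hT hPB]
  refine intervalIntegral.integral_congr fun s _ => ?_
  refine Finset.sum_congr rfl fun a _ => ?_
  exact U_update_cycle hL hA hc (fun b => F.P b s) (fun b => ⟨_, F.lipP b s⟩) (F.blP hPB s) a
    (F.blD a s)

end cycle

end Crest.Agent.R241.B8Abs
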