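import Crest.Agent.R241.B9b
import Crest.Agent.R241.B9Defs
import Crest.Agent.R241.Cat2

/-!
# R241, block B9 (first variation), part c: the infinitesimal inequality (helper992)
-/

set_option autoImplicit false
set_option linter.unusedSectionVars false

open Set Filter Topology Asymptotics

universe u

namespace Crest.Agent.R241.B9c

open B9a B9b B9

variable {V : Type*} [NormedAddCommGroup V] [NormedSpace ℝ V]

theorem UB_iff {X : Type*} [PseudoMetricSpace X] {E : Set V} {φ : V → X} {z : V} {q : V → ℝ} :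
    UB E φ z q ↔ ∃ r : V → ℝ, r =o[𝓝[E] z] (fun w => ‖w - z‖ ^ 2) ∧
      ∀ᶠ w in 𝓝[E] z, dist (φ w) (φ z) ^ 2 ≤ q (w - z) + r w := by
  constructor
  · intro h
    refine ⟨fun w => max 0 (dist (φ w) (φ z) ^ 2 - q (w - z)), ?_, ?_⟩
    · rw [isLittleO_iff]
      intro c hc
      filter_upwards [h c hc] with w hw
      rw [Real.norm_eq_abs, Real.norm_eq_abs, abs_of_nonneg (le_max_left _ _),
        abs_of_nonneg (by positivity)]
      exact max_le (by positivity) (by linarith)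
    · filter_upwards with w
      have := le_max_right 0 (dist (φ w) (φ z) ^ 2 - q (w - z))
      linarith
  · rintro ⟨r, hr, h⟩ ε hε
    filter_upwards [isLittleO_iff.1 hr hε, h] with w hw hw'
    rw [Real.norm_eq_abs, Real.norm_eq_abs, abs_of_nonneg (sq_nonneg ‖w - z‖)] at hw
    have := (abs_le.1 hw).2
    linarith

theorem isBigO_fderiv (f' : V →L[ℝ] ℝ) (l : Filter V) (z : V) :
    (fun w => f' (w - z)) =O[l] fun w => ‖w - z‖ :=
  IsBigO.of_bound ‖f'‖ (Eventually.of_forall fun w => by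
    rw [norm_norm]; exact f'.le_opNorm _)

theorem isLittleO_of_fderiv {E : Set V} {f : V → ℝ} {f' : V →L[ℝ] ℝ} {z : V}
    (hf : HasFDerivWithinAt f f' E z) :
    (fun w => f w - f z - f' (w - z)) =o[𝓝[E] z] fun w => ‖w - z‖ :=
  (hasFDerivWithinAt_iff_isLittleO.1 hf).norm_right

theorem isBigO_of_fderiv {E : Set V} {f : V → ℝ} {f' : V →L[ℝ] ℝ} {z : V}
    (hf : HasFDerivWithinAt f f' E z) :
    (fun w => f w - f z) =O[𝓝[E] z] fun w => ‖w - z‖ :=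
  hf.isBigO_sub.norm_right

theorem mul_isLittleO {E : Set V} {f g : V → ℝ} {f' g' : V →L[ℝ] ℝ} {z : V}
    (hf : HasFDerivWithinAt f f' E z) (hg : HasFDerivWithinAt g g' E z) :
    (fun w => (f w - f z) * (g w - g z) - f' (w - z) * g' (w - z)) =o[𝓝[E] z]
      fun w => ‖w - z‖ ^ 2 := by
  have h1 := (isLittleO_of_fderiv hf).mul_isBigO (isBigO_of_fderiv hg)
  have h2 := (isBigO_fderiv f' (𝓝[E] z) z).mul_isLittleO (isLittleO_of_fderiv hg)
  refine (h1.add h2).congr (fun w => by ring) (fun w => by ring)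

theorem eventually_le {X : Type*} [PseudoMetricSpace X] {E : Set V} {φ : V → X} {z : V}
    {q : V → ℝ} {B : ℝ} (hB : ∀ v, |q v| ≤ B * ‖v‖ ^ 2) (h : UB E φ z q) :
    ∀ᶠ w in 𝓝[E] z, dist (φ w) (φ z) ^ 2 ≤ (B + 1) * ‖w - z‖ ^ 2 := by
  filter_upwards [h 1 one_pos] with w hw
  have := le_abs_self (q (w - z))
  have := hB (w - z)
  linarith

/-- `2 zk (d) ≤ q + o(|w-z|²)`. -/
theorem zk_upper {X : Type*} [PseudoMetricSpace X] (k : ℝ) {E : Set V} {φ : V → X} {z : V}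
    {q : V → ℝ} {B : ℝ} (hB : ∀ v, |q v| ≤ B * ‖v‖ ^ 2) (h : UB E φ z q) :
    ∃ r : V → ℝ, r =o[𝓝[E] z] (fun w => ‖w - z‖ ^ 2) ∧
      ∀ᶠ w in 𝓝[E] z, 2 * zk k (dist (φ w) (φ z)) ≤ q (w - z) + r w := by
  obtain ⟨r, hr, hr'⟩ := UB_iff.1 h
  have hb := eventually_le hB h
  have ht : Tendsto (fun w : V => ‖w - z‖ ^ 2) (𝓝[E] z) (𝓝 0) := by
    have : Continuous fun w : V => ‖w - z‖ ^ 2 := by fun_prop
    have h1 := this.tendsto z
    simp only [sub_self, norm_zero, ne_eq, OfNat.ofNat_ne_zero, not_false_eq_true,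
      zero_pow] at h1
    exact h1.mono_left nhdsWithin_le_nhds
  refine ⟨fun w => r w + (k ^ 2 * (B + 1) ^ 2 / 2) * (‖w - z‖ ^ 2 * ‖w - z‖ ^ 2), ?_, ?_⟩
  · refine hr.add (IsLittleO.const_mul_left ?_ _)
    have h1 : (fun w : V => ‖w - z‖ ^ 2) =o[𝓝[E] z] (fun _ => (1 : ℝ)) :=
      (isLittleO_one_iff ℝ).2 ht
    have h2 := h1.mul_isBigO (isBigO_refl (fun w : V => ‖w - z‖ ^ 2) (𝓝[E] z))
    simpa using h2
  · have hs : ∀ᶠ w in 𝓝[E] z, k ^ 2 * ((B + 1) * ‖w - z‖ ^ 2) ≤ 2 := by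
      have h3 : Tendsto (fun w : V => k ^ 2 * ((B + 1) * ‖w - z‖ ^ 2)) (𝓝[E] z)
          (𝓝 (k ^ 2 * ((B + 1) * 0))) := (ht.const_mul _).const_mul _
      simp only [mul_zero] at h3
      exact (h3.eventually (gt_mem_nhds two_pos)).mono fun w hw => hw.le
    filter_upwards [hr', hb, hs] with w h1 h2 h3
    have h4 : k ^ 2 * dist (φ w) (φ z) ^ 2 ≤ 2 :=
      (mul_le_mul_of_nonneg_left h2 (sq_nonneg k)).trans h3
    have h5 := Cat2.zk_le_of_small h4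
    have h6 : dist (φ w) (φ z) ^ 4 ≤ ((B + 1) * ‖w - z‖ ^ 2) ^ 2 := by
      have : dist (φ w) (φ z) ^ 4 = (dist (φ w) (φ z) ^ 2) ^ 2 := by ring
      rw [this]
      exact pow_le_pow_left₀ (sq_nonneg _) h2 2
    have h7 : k ^ 2 * dist (φ w) (φ z) ^ 4 ≤ k ^ 2 * ((B + 1) * ‖w - z‖ ^ 2) ^ 2 :=
      mul_le_mul_of_nonneg_left h6 (sq_nonneg k)
    nlinarith [h5, h1, h7]

/-- derivative of `gg`. -/
def ggD (k T Z a b : ℝ) : ℝ :=
  (-2 * (1 + k ^ 2 * Z) + 2 * T * k ^ 2 * SS k Z) * a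
    + (-2 * T * k ^ 2 + T ^ 2 * k ^ 2 * (2 * (1 + k ^ 2 * Z))) * b

/-- derivative of `za`. -/
def zaD (k T Z a b : ℝ) : ℝ := -SS k Z * a + (1 - T * (2 * (1 + k ^ 2 * Z))) * b

/-- The quadratic form of the contracted map; `a = Dτ(v)`, `b = Dz(v)`, `c = q(v)`. -/
noncomputable def QH (k T Z a b c : ℝ) : ℝ :=
  gg k T Z * c + (SS k Z * ggD k T Z a b ^ 2 / (4 * gg k T Z) + ggD k T Z a b * (1 + k ^ 2 * Z) * b)
    - k ^ 2 * zaD k T Z a b ^ 2 + gg k T Z * (k ^ 2 * b ^ 2)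

theorem hasFDeriv_SS {E : Set V} {ζ : V → ℝ} {ζ' : V →L[ℝ] ℝ} {z : V} (k : ℝ)
    (h : HasFDerivWithinAt ζ ζ' E z) :
    HasFDerivWithinAt (fun w => SS k (ζ w)) ((2 * (1 + k ^ 2 * ζ z)) • ζ') E z := by
  have h1 := (h.const_mul 2).add ((h.mul h).const_mul (k ^ 2))
  refine (h1.congr_fderiv ?_).congr_of_eventuallyEq ?_ ?_
  · ext v
    simp only [add_apply, smul_apply, smul_eq_mul, Pi.mul_apply]
    ring
  · filter_upwards with w
    simp only [SS, Pi.add_apply, Pi.mul_apply]; ring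
  · simp only [SS, Pi.add_apply, Pi.mul_apply]; ring

theorem hasFDeriv_gg {E : Set V} {τ ζ : V → ℝ} {τ' ζ' : V →L[ℝ] ℝ} {z : V} (k : ℝ)
    (hτ : HasFDerivWithinAt τ τ' E z) (h : HasFDerivWithinAt ζ ζ' E z) :
    HasFDerivWithinAt (fun w => gg k (τ w) (ζ w))
      ((-2 * (1 + k ^ 2 * ζ z) + 2 * τ z * k ^ 2 * SS k (ζ z)) • τ'
    + (-2 * τ z * k ^ 2 + τ z ^ 2 * k ^ 2 * (2 * (1 + k ^ 2 * ζ z))) • ζ') E z := by
  have hS := hasFDeriv_SS k h
  have h1 := ((hτ.const_mul (-2)).add ((hτ.mul h).const_mul (-2 * k ^ 2))).add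
    (((hτ.mul hτ).mul hS).const_mul (k ^ 2))
  have h2 := h1.const_add 1
  refine (h2.congr_fderiv ?_).congr_of_eventuallyEq ?_ ?_
  · ext v
    simp only [add_apply, smul_apply, smul_eq_mul, Pi.mul_apply]
    ring
  · filter_upwards with w
    simp only [gg, Pi.add_apply, Pi.mul_apply]; ring
  · simp only [gg, Pi.add_apply, Pi.mul_apply]; ring

theorem hasFDeriv_za {E : Set V} {τ ζ : V → ℝ} {τ' ζ' : V →L[ℝ] ℝ} {z : V} (k : ℝ)
    (hτ : HasFDerivWithinAt τ τ' E z) (h : HasFDerivWithinAt ζ ζ' E z) :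
    HasFDerivWithinAt (fun w => za k (τ w) (ζ w))
      (-SS k (ζ z) • τ' + (1 - τ z * (2 * (1 + k ^ 2 * ζ z))) • ζ') E z := by
  have hS := hasFDeriv_SS k h
  have h1 := h.sub (hτ.mul hS)
  refine (h1.congr_fderiv ?_).congr_of_eventuallyEq ?_ ?_
  · ext v
    simp only [add_apply, sub_apply,
      smul_apply, smul_eq_mul, Pi.mul_apply]
    ring
  · filter_upwards with w
    simp only [za, Pi.sub_apply, Pi.mul_apply]
  · simp only [za, Pi.sub_apply, Pi.mul_apply]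

theorem ub_Hpt {k : ℝ} (hk : 0 ≤ k) {X : Type u} [MetricSpace X] (C : CATk k X) (x : X)
    {E : Set V} {z₀ : V} {y : V → X} {q : V → ℝ} {B : ℝ} (hB : ∀ v, |q v| ≤ B * ‖v‖ ^ 2)
    (hy : UB E y z₀ q) {τ ζ : V → ℝ} (hζe : ∀ w, ζ w = zk k (dist x (y w)))
    {τ' ζ' : V →L[ℝ] ℝ} (hτ : HasFDerivWithinAt τ τ' E z₀) (hζ : HasFDerivWithinAt ζ ζ' E z₀)
    (hτ0 : ∀ᶠ w in 𝓝[E] z₀, 0 ≤ τ w) (hτz : 0 ≤ τ z₀)
    (hsm : τ z₀ * (2 + k ^ 2 * ζ z₀) < 1) :
    UB E (fun w => Hpt C x (τ w) (y w)) z₀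
      (fun v => QH k (τ z₀) (ζ z₀) (τ' v) (ζ' v) (q v)) := by
  set T := τ z₀ with hT
  set Z := ζ z₀ with hZ
  have hZ0 : 0 ≤ Z := by rw [hZ, hζe]; exact zk_nonneg _ _
  have hgpos : 0 < gg k T Z := by
    rw [gg_eq]
    have : T * (k ^ 2 * Z) ≤ T * (2 + k ^ 2 * Z) := by nlinarith
    apply mul_pos <;> linarith
  have hlampos : 0 < lam k T Z := Real.sqrt_pos.2 hgpos
  have hlam2 : lam k T Z * lam k T Z = gg k T Z := Real.mul_self_sqrt hgpos.le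
  -- derivatives
  have hg := hasFDeriv_gg k hτ hζ
  have hl : HasFDerivWithinAt (fun w => lam k (τ w) (ζ w)) _ E z₀ := hg.sqrt hgpos.ne'
  have hS := hasFDeriv_SS k hζ
  have hlS := hl.mul hS
  have hza := hasFDeriv_za k hτ hζ
  -- smallness
  have hsmev : ∀ᶠ w in 𝓝[E] z₀, τ w * (2 + k ^ 2 * ζ w) < 1 := by
    have hc : ContinuousWithinAt (fun w => τ w * (2 + k ^ 2 * ζ w)) E z₀ :=
      hτ.continuousWithinAt.mul
        (continuousWithinAt_const.add (continuousWithinAt_const.mul hζ.continuousWithinAt))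
    exact hc.eventually (gt_mem_nhds hsm)
  obtain ⟨r, hr, hrle⟩ := zk_upper k hB hy
  have m1 := mul_isLittleO hl hlS
  have m2 := mul_isLittleO hza hza
  have m3 := mul_isLittleO hζ hζ
  -- the coefficient of q
  have hlt : Tendsto (fun w => lam k (τ w) (ζ w)) (𝓝[E] z₀) (𝓝 (lam k T Z)) :=
    hl.continuousWithinAt
  have hll : (fun w => lam k (τ w) (ζ w) * lam k T Z - gg k T Z) =o[𝓝[E] z₀]
      (fun _ => (1 : ℝ)) := by
    rw [isLittleO_one_iff]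
    have := (hlt.mul_const (lam k T Z)).sub_const (gg k T Z)
    rwa [hlam2, sub_self] at this
  have hqO : (fun w => q (w - z₀)) =O[𝓝[E] z₀] fun w => ‖w - z₀‖ ^ 2 :=
    IsBigO.of_bound B (Eventually.of_forall fun w => by
      rw [Real.norm_eq_abs, Real.norm_eq_abs, abs_of_nonneg (sq_nonneg ‖w - z₀‖)]
      exact hB _)
  have m4 := hll.mul_isBigO hqO
  have hζO : (fun w => k ^ 2 * (ζ w - ζ z₀) ^ 2) =O[𝓝[E] z₀] fun w => ‖w - z₀‖ ^ 2 :=
    ((isBigO_of_fderiv hζ).pow 2).const_mul_left _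
  have m5 := hll.mul_isBigO hζO
  have hlb : (fun w => lam k (τ w) (ζ w) * lam k T Z) =O[𝓝[E] z₀] (fun _ => (1 : ℝ)) :=
    ((hlt.mul_const (lam k T Z)).isBigO_one ℝ)
  have m6 := hlb.mul_isLittleO hr
  rw [UB_iff]
  refine ⟨fun w => (lam k (τ w) (ζ w) * lam k T Z - gg k T Z) * q (w - z₀)
      + (lam k (τ w) (ζ w) * lam k T Z) * r w
      + ((lam k (τ w) (ζ w) - lam k T Z) *
          (lam k (τ w) (ζ w) * SS k (ζ w) - lam k T Z * SS k Z)
        - (SS k Z * ggD k T Z (τ' (w - z₀)) (ζ' (w - z₀)) ^ 2 / (4 * gg k T Z)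
          + ggD k T Z (τ' (w - z₀)) (ζ' (w - z₀)) * (1 + k ^ 2 * Z) * ζ' (w - z₀)))
      + (-(k ^ 2)) * ((za k (τ w) (ζ w) - za k T Z) * (za k (τ w) (ζ w) - za k T Z)
          - zaD k T Z (τ' (w - z₀)) (ζ' (w - z₀)) * zaD k T Z (τ' (w - z₀)) (ζ' (w - z₀)))
      + (lam k (τ w) (ζ w) * lam k T Z - gg k T Z) * (k ^ 2 * (ζ w - ζ z₀) ^ 2)
      + (gg k T Z * k ^ 2) * ((ζ w - ζ z₀) * (ζ w - ζ z₀) - ζ' (w - z₀) * ζ' (w - z₀)),
      ?_, ?_⟩
  · refine ((((?_ : _ =o[𝓝[E] z₀] _).add ?_).add ?_).add ?_).add ?_ |>.add ?_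
    · simpa using m4
    · simpa using m6
    · refine m1.congr (fun w => ?_) (fun w => rfl)
      simp only [add_apply, smul_apply, smul_eq_mul, Pi.mul_apply]
      have e1 : ∀ G : ℝ, (lam k T Z)⁻¹ * (lam k T Z)⁻¹ * G = G / gg k T Z := by
        intro G
        rw [← hlam2]; field_simp
      have e2 : 1 / (2 * √(gg k T Z)) = (lam k T Z)⁻¹ / 2 := by
        rw [lam]; field_simp
      rw [← hT, ← hZ, e2]
      simp only [ggD]
      have e3 : lam k T Z * (lam k T Z)⁻¹ = 1 := mul_inv_cancel₀ hlampos.ne'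
      set D := (-2 * (1 + k ^ 2 * Z) + 2 * T * k ^ 2 * SS k Z) * τ' (w - z₀) +
        (-2 * T * k ^ 2 + T ^ 2 * k ^ 2 * (2 * (1 + k ^ 2 * Z))) * ζ' (w - z₀) with hD
      have e4 : (lam k T Z)⁻¹ / 2 * D * (lam k T Z * (2 * (1 + k ^ 2 * Z) * ζ' (w - z₀))
          + SS k Z * ((lam k T Z)⁻¹ / 2 * D)) =
          SS k Z * D ^ 2 / (4 * gg k T Z) + D * (1 + k ^ 2 * Z) * ζ' (w - z₀) := by
        rw [← hlam2]; field_simp; ring
      rw [e4]
    · refine IsLittleO.const_mul_left ?_ _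
      refine m2.congr (fun w => ?_) (fun w => rfl)
      simp only [add_apply, smul_apply, smul_eq_mul, Pi.mul_apply,
        ← hT, ← hZ, zaD]
    · simpa using m5
    · exact IsLittleO.const_mul_left m3 _
  · filter_upwards [hτ0, hsmev, hrle] with w h1 h2 h3
    have hb : τ w * (2 + k ^ 2 * zk k (dist x (y w))) ≤ 1 := by rw [← hζe]; exact h2.le
    have hb' : T * (2 + k ^ 2 * zk k (dist x (y z₀))) ≤ 1 := by rw [← hζe]; exact hsm.le
    have main := two_point_Hpt C hk h1 hτz hb hb' (hζe w) (hζe z₀) rfl rfl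
    have hd := half_sq_le_zk k (dist (Hpt C x (τ w) (y w)) (Hpt C x T (y z₀)))
    have hl0 : 0 ≤ lam k (τ w) (ζ w) * lam k T Z := mul_nonneg (lam_nonneg _ _ _) (lam_nonneg _ _ _)
    have h4 := mul_le_mul_of_nonneg_left h3 hl0
    rw [← hZ] at main
    simp only [QH]
    linarith [main, hd, h4]

end Crest.Agent.R241.B9c
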