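import Crest.Agent.R241.B8Int
import Crest.Agent.R241.B8LinAlg
import Crest.Agent.R241.B9c
import Crest.Agent.R241.Cat2
import Crest.Agent.R241.Cat3

/-!
# R241, block B8: the cone (owner: helper971)

`ub_cone`: one-point upper metric differential of `(s, z) ↦ geo x (φ z) s`;
`det_cone`: Jacobian bound `s^n r √det G`;
`coneTarget`: `ConeTarget X K m`.
-/

set_option autoImplicit false
set_option linter.unusedSectionVars false
set_option linter.unusedSimpArgs false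

open MeasureTheory Filter Topology Set Asymptotics
open scoped ENNReal NNReal

universe u

namespace Crest.Agent.R241.B8Cone

open Crest.GeometryTopology.MetricCurrent
open Crest.GeometryTopology.Submanifold (Euc)
open Crest.Agent.R241.B8Fubini
open Crest.Agent.R241.B8
open Crest.Agent.R241.B9
open Matrix

/-- the tail as a continuous linear map. -/
noncomputable def tlL (n : ℕ) : Euc (n + 1) →L[ℝ] Euc n :=
  LinearMap.toContinuousLinearMap
    { toFun := fun w => tl w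
      map_add' := fun x y => by ext i; simp [tl]
      map_smul' := fun c x => by ext i; simp [tl] }

theorem tlL_apply {n : ℕ} (w : Euc (n + 1)) : tlL n w = tl w := rfl

/-- the first coordinate as a continuous linear map. -/
noncomputable def hdL (n : ℕ) : Euc (n + 1) →L[ℝ] ℝ :=
  LinearMap.toContinuousLinearMap
    { toFun := fun w => w 0
      map_add' := fun x y => by simp
      map_smul' := fun c x => by simp }

theorem hdL_apply {n : ℕ} (w : Euc (n + 1)) : hdL n w = w 0 := rfl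

theorem norm_tl_le {n : ℕ} (w : Euc (n + 1)) : ‖tl w‖ ≤ ‖w‖ := by
  have := dist_tl_le w 0
  have h0 : tl (0 : Euc (n + 1)) = 0 := by ext i; simp [tl]
  rwa [h0, dist_zero_right, dist_zero_right] at this

theorem tl_sub {n : ℕ} (w w' : Euc (n + 1)) : tl (w - w') = tl w - tl w' := by
  ext i; simp [tl]

theorem tendsto_tl {n : ℕ} {E : Set (Euc n)} {w₀ : Euc (n + 1)} :
    Tendsto tl (𝓝[prodSet E] w₀) (𝓝[E] (tl w₀)) := by
  refine tendsto_nhdsWithin_iff.2 ⟨(continuous_tl.tendsto w₀).mono_left nhdsWithin_le_nhds, ?_⟩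
  filter_upwards [self_mem_nhdsWithin] with w hw
  exact hw.2

/-- **One-point upper metric differential of the cone chart.** -/
theorem ub_cone {X : Type u} [MetricSpace X] {k : ℝ} (C : CATk k X) (x : X) {n : ℕ}
    {E : Set (Euc n)} {φ : Euc n → X} {w₀ : Euc (n + 1)} (hw₀ : w₀ ∈ prodSet E)
    {q : Euc n → ℝ} {B : ℝ} (hB : ∀ v, |q v| ≤ B * ‖v‖ ^ 2) (h : UB E φ (tl w₀) q)
    {ρ' : Euc n →L[ℝ] ℝ} (hρ : HasFDerivWithinAt (fun z => dist x (φ z)) ρ' E (tl w₀)) :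
    UB (prodSet E) (fun w => C.geo x (φ (tl w)) (w 0)) w₀
      (fun v => w₀ 0 ^ 2 * q (tl v) + v 0 * (dist x (φ (tl w₀)) ^ 2 * v 0
        + w₀ 0 * (2 * dist x (φ (tl w₀)) * ρ' (tl v)))) := by
  rw [B9c.UB_iff] at h ⊢
  obtain ⟨r, hr, hr'⟩ := h
  set ρ : Euc (n + 1) → ℝ := fun w => dist x (φ (tl w)) with hρdef
  have hρ1 : HasFDerivWithinAt ρ (ρ'.comp (tlL n)) (prodSet E) w₀ :=
    hρ.comp w₀ (tlL n).hasFDerivWithinAt (fun w hw => hw.2)
  have hs1 : HasFDerivWithinAt (fun w : Euc (n + 1) => w 0) (hdL n) (prodSet E) w₀ :=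
    (hdL n).hasFDerivWithinAt
  -- the product s ρ²
  have hf : HasFDerivWithinAt (fun w : Euc (n + 1) => w 0 * (ρ w * ρ w))
      ((w₀ 0) • (ρ w₀ • (ρ'.comp (tlL n)) + ρ w₀ • (ρ'.comp (tlL n))) + (ρ w₀ * ρ w₀) • (hdL n))
      (prodSet E) w₀ := hs1.mul (hρ1.mul hρ1)
  have h1 := B9c.mul_isLittleO hs1 hf
  -- the remainder terms
  set r1 : Euc (n + 1) → ℝ := fun w => (w 0 - w₀ 0) * (w 0 * (ρ w * ρ w) - w₀ 0 * (ρ w₀ * ρ w₀))
    - hdL n (w - w₀) * ((w₀ 0) • (ρ w₀ • (ρ'.comp (tlL n)) + ρ w₀ • (ρ'.comp (tlL n)))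
      + (ρ w₀ * ρ w₀) • (hdL n)) (w - w₀) with hr1
  set r2 : Euc (n + 1) → ℝ := fun w => (w 0 - w₀ 0) * w₀ 0 * q (tl (w - w₀)) with hr2
  set r3 : Euc (n + 1) → ℝ := fun w => |r (tl w)| with hr3
  have hO2 : r2 =o[𝓝[prodSet E] w₀] fun w => ‖w - w₀‖ ^ 2 := by
    have ha : (fun w : Euc (n + 1) => (w 0 - w₀ 0) * w₀ 0) =o[𝓝[prodSet E] w₀]
        fun _ => (1 : ℝ) := by
      rw [isLittleO_one_iff]
      have : Tendsto (fun w : Euc (n + 1) => (w 0 - w₀ 0) * w₀ 0) (𝓝 w₀)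
          (𝓝 ((w₀ 0 - w₀ 0) * w₀ 0)) :=
        (by fun_prop : Continuous fun w : Euc (n + 1) => (w 0 - w₀ 0) * w₀ 0).tendsto w₀
      rw [sub_self, zero_mul] at this
      exact this.mono_left nhdsWithin_le_nhds
    have hb : (fun w : Euc (n + 1) => q (tl (w - w₀))) =O[𝓝[prodSet E] w₀]
        fun w => ‖w - w₀‖ ^ 2 := by
      refine IsBigO.of_bound |B| (Eventually.of_forall fun w => ?_)
      rw [Real.norm_eq_abs, norm_pow, norm_norm]
      refine (hB _).trans ?_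
      have h1 := norm_tl_le (w - w₀)
      have h2 : ‖tl (w - w₀)‖ ^ 2 ≤ ‖w - w₀‖ ^ 2 := pow_le_pow_left₀ (norm_nonneg _) h1 2
      exact mul_le_mul (le_abs_self B) h2 (by positivity) (abs_nonneg _)
    refine (ha.mul_isBigO hb).congr (fun w => rfl) (fun w => by ring)
  have hO3 : r3 =o[𝓝[prodSet E] w₀] fun w => ‖w - w₀‖ ^ 2 := by
    have h3 : (fun w => r (tl w)) =o[𝓝[prodSet E] w₀] fun w => ‖tl w - tl w₀‖ ^ 2 :=
      hr.comp_tendsto tendsto_tl
    have h4 : (fun w => ‖tl w - tl w₀‖ ^ 2) =O[𝓝[prodSet E] w₀] fun w => ‖w - w₀‖ ^ 2 := by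
      refine IsBigO.of_bound 1 (Eventually.of_forall fun w => ?_)
      rw [norm_pow, norm_norm, norm_pow, norm_norm, one_mul, ← tl_sub]
      exact pow_le_pow_left₀ (norm_nonneg _) (norm_tl_le _) 2
    exact (h3.trans_isBigO h4).abs_left
  refine ⟨fun w => r1 w + r2 w + r3 w, (h1.add hO2).add hO3, ?_⟩
  have hev := tendsto_tl.eventually hr'
  filter_upwards [self_mem_nhdsWithin, hev] with w hw hw2
  have h5 := Cat1.two_point C x (φ (tl w)) (φ (tl w₀)) hw.1 hw₀.1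
  refine h5.trans ?_
  have h6 : w 0 * w₀ 0 * dist (φ (tl w)) (φ (tl w₀)) ^ 2
      ≤ w 0 * w₀ 0 * q (tl w - tl w₀) + r3 w := by
    have ha : 0 ≤ w 0 * w₀ 0 := mul_nonneg hw.1.1 hw₀.1.1
    have hb : w 0 * w₀ 0 ≤ 1 := mul_le_one₀ hw.1.2 hw₀.1.1 hw₀.1.2
    have hc : dist (φ (tl w)) (φ (tl w₀)) ^ 2 ≤ q (tl w - tl w₀) + |r (tl w)| :=
      hw2.trans (by linarith [le_abs_self (r (tl w))])
    calc w 0 * w₀ 0 * dist (φ (tl w)) (φ (tl w₀)) ^ 2
        ≤ w 0 * w₀ 0 * (q (tl w - tl w₀) + |r (tl w)|) := mul_le_mul_of_nonneg_left hc ha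
      _ = w 0 * w₀ 0 * q (tl w - tl w₀) + w 0 * w₀ 0 * |r (tl w)| := by ring
      _ ≤ w 0 * w₀ 0 * q (tl w - tl w₀) + 1 * |r (tl w)| := by
          gcongr
      _ = _ := by rw [one_mul]
  have h7 : (w 0 - w₀ 0) * (w 0 * dist x (φ (tl w)) ^ 2 - w₀ 0 * dist x (φ (tl w₀)) ^ 2)
      = r1 w + hdL n (w - w₀) * ((w₀ 0) • (ρ w₀ • (ρ'.comp (tlL n)) + ρ w₀ • (ρ'.comp (tlL n)))
      + (ρ w₀ * ρ w₀) • (hdL n)) (w - w₀) := by
    simp only [hr1, hρdef]; ring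
  rw [h7]
  have h8 : hdL n (w - w₀) * ((w₀ 0) • (ρ w₀ • (ρ'.comp (tlL n)) + ρ w₀ • (ρ'.comp (tlL n)))
      + (ρ w₀ * ρ w₀) • (hdL n)) (w - w₀)
      = (w - w₀) 0 * (dist x (φ (tl w₀)) ^ 2 * (w - w₀) 0
        + w₀ 0 * (2 * dist x (φ (tl w₀)) * ρ' (tl (w - w₀)))) := by
    simp only [_root_.add_apply, _root_.smul_apply,
      ContinuousLinearMap.comp_apply, hdL_apply, tlL_apply, smul_eq_mul, hρdef]
    ring
  rw [h8]
  have h9 : w 0 * w₀ 0 * q (tl w - tl w₀) = w₀ 0 ^ 2 * q (tl (w - w₀)) + r2 w := by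
    simp only [hr2, tl_sub]; ring
  linarith [h6, h9.le]

end Crest.Agent.R241.B8Cone
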