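import Crest.Agent.R241.B8Cone

/-!
# R241, block B8: the cone, determinant bound and integration (owner: helper971)
-/

set_option autoImplicit false
set_option linter.unusedSectionVars false
set_option linter.unusedSimpArgs false

open MeasureTheory Filter Topology Set Asymptotics
open scoped ENNReal NNReal

universe u

namespace Crest.Agent.R241.B8Cone

open Crest.GeometryTopology.MetricCurrent
open Crest.GeometryTopology.Submanifold (Euc)
open Crest.Agent.R241.B8Fubini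
open Crest.Agent.R241.B8
open Crest.Agent.R241.B9
open Matrix

/-- **Jacobian bound for the cone**: if all rows of `R` are dominated by the quadratic form of
`ub_cone`, then `|det R| ≤ s^n r √det G`. -/
theorem det_cone {n : ℕ} {G : Matrix (Fin n) (Fin n) ℝ} (hG : G.PosSemidef) (hdet : G.det ≠ 0)
    {s ρ r : ℝ} (hs : 0 < s) (hρ0 : 0 ≤ ρ) (hρr : ρ ≤ r) (ρ' : Euc n →L[ℝ] ℝ)
    (R : Matrix (Fin (n + 1)) (Fin (n + 1)) ℝ)
    (h : ∀ a (v : Fin (n + 1) → ℝ), (R a ⬝ᵥ v) ^ 2 ≤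
      s ^ 2 * qf G (tl (WithLp.toLp 2 v)) + (WithLp.toLp 2 v : Euc (n + 1)) 0 *
        (ρ ^ 2 * (WithLp.toLp 2 v : Euc (n + 1)) 0
          + s * (2 * ρ * ρ' (tl (WithLp.toLp 2 v))))) :
    |R.det| ≤ s ^ n * r * √G.det := by
  have hG' : (s ^ 2 • G).PosSemidef := hG.smul (by positivity)
  have hdet' : (s ^ 2 • G).det ≠ 0 := by
    rw [Matrix.det_smul]
    exact mul_ne_zero (by positivity) hdet
  set b : Fin n → ℝ := fun j => s * ρ * ρ' (EuclideanSpace.single j 1) with hb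
  have hlin : ∀ v : Fin (n + 1) → ℝ, ρ' (tl (WithLp.toLp 2 v)) =
      ∑ j, v j.succ * ρ' (EuclideanSpace.single j 1) := by
    intro v
    have e : (tl (WithLp.toLp 2 v) : Euc n) = ∑ j, v j.succ • EuclideanSpace.single j (1 : ℝ) := by
      ext i
      simp [tl, Finset.sum_apply, Pi.single_apply]
    rw [e, map_sum]
    exact Finset.sum_congr rfl fun j _ => by rw [map_smul, smul_eq_mul]
  have hkey := B8LinAlg.abs_det_le_of_bordered R (ρ ^ 2) b (s ^ 2 • G) hG' hdet' (fun a v => by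
    refine (h a v).trans (le_of_eq ?_)
    have e1 : qf G (tl (WithLp.toLp 2 v)) = Fin.tail v ⬝ᵥ (G *ᵥ Fin.tail v) := rfl
    have e2 : (WithLp.toLp 2 v : Euc (n + 1)) 0 = v 0 := rfl
    have e3 : b ⬝ᵥ Fin.tail v = s * ρ * ρ' (tl (WithLp.toLp 2 v)) := by
      rw [hlin, Finset.mul_sum, dotProduct]
      exact Finset.sum_congr rfl fun j _ => by simp only [hb, Fin.tail]; ring
    rw [e1, e2, e3, Matrix.smul_mulVec, dotProduct_smul, smul_eq_mul]
    ring)
  have hinv : 0 ≤ b ⬝ᵥ ((s ^ 2 • G)⁻¹ *ᵥ b) := by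
    have := hG'.inv.dotProduct_mulVec_nonneg b
    simpa using this
  have h1 : √(ρ ^ 2 - b ⬝ᵥ ((s ^ 2 • G)⁻¹ *ᵥ b)) ≤ r := by
    refine (Real.sqrt_le_sqrt (by linarith : _ ≤ ρ ^ 2)).trans ?_
    rw [Real.sqrt_sq hρ0]
    exact hρr
  have h2 : √(s ^ 2 • G).det = s ^ n * √G.det := by
    rw [Matrix.det_smul, Fintype.card_fin, Real.sqrt_mul (by positivity), ← pow_mul, mul_comm 2 n,
      pow_mul, Real.sqrt_sq (by positivity)]
  calc |R.det| ≤ √(s ^ 2 • G).det * √(ρ ^ 2 - b ⬝ᵥ ((s ^ 2 • G)⁻¹ *ᵥ b)) := hkey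
    _ ≤ √(s ^ 2 • G).det * r := by gcongr
    _ = s ^ n * r * √G.det := by rw [h2]; ring

end Crest.Agent.R241.B8Cone
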