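import Crest.Agent.R241.B8Cone2
import Crest.Agent.R241.B10Int
import Crest.Agent.R241.G1c

/-!
# R241, block B8: the cone, boundary and support (owner: helper971)
-/

set_option autoImplicit false
set_option linter.unusedSectionVars false
set_option linter.unusedSimpArgs false

open MeasureTheory Filter Topology Set Asymptotics
open scoped ENNReal NNReal

universe u

namespace Crest.Agent.R241.B8Cone

open Crest.GeometryTopology.MetricCurrent
open Crest.GeometryTopology.Submanifold (Euc)
open Crest.Agent.R241.B8Fubini
open Crest.Agent.R241.B8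
open Crest.Agent.R241.B9
open Crest.Agent.R241.G1 (BL LipT isTestPair_iff ext_eq ext_sub_coord)
open Crest.Agent.R241.B1c1 (push push_apply push_of_not isTestPair_comp)

variable {X : Type u} [MetricSpace X] [MeasurableSpace X] [BorelSpace X] {n : ℕ}

theorem sub_coord {T : Functional X n} (hT : IsCurrent T) {f : X → ℝ} (hf : BL f)
    {π : Fin n → X → ℝ} (hπ : LipT π) (i : Fin n) {g h : X → ℝ}
    (hg : ∃ K : ℝ≥0, LipschitzWith K g) (hh : ∃ K : ℝ≥0, LipschitzWith K h) :
    T f (Function.update π i (g - h)) =
      T f (Function.update π i g) - T f (Function.update π i h) := by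
  have hgh : ∃ K : ℝ≥0, LipschitzWith K (g - h) := by
    obtain ⟨K, hK⟩ := hg
    obtain ⟨K', hK'⟩ := hh
    exact ⟨_, hK.sub hK'⟩
  rw [← ext_eq hT (hπ.update i hgh) hf, ← ext_eq hT (hπ.update i hg) hf,
    ← ext_eq hT (hπ.update i hh) hf]
  exact ext_sub_coord hT hf.bm hπ i hg hh

/-- A current supported in `K` only sees the values on `K` of the test pair. -/
theorem congr_supp {T : Functional X n} (hT : IsCurrent T) {K : Set X} (hK : IsSupportedIn K T)
    {f g : X → ℝ} {π σ : Fin n → X → ℝ} (hfπ : IsTestPair f π) (hgσ : IsTestPair g σ)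
    (hfg : ∀ x ∈ K, f x = g x) (h : ∀ i, ∀ x ∈ K, π i x = σ i x) : T f π = T g σ := by
  classical
  obtain ⟨hf, hπ⟩ := isTestPair_iff.1 hfπ
  obtain ⟨hg, hσ⟩ := isTestPair_iff.1 hgσ
  rw [B10.eq_of_eqOn hT hK hfπ (hg.isTestPair hπ) hfg]
  have key : ∀ s : Finset (Fin n), T g (fun i => if i ∈ s then σ i else π i) = T g π := by
    intro s
    induction s using Finset.induction_on with
    | empty => simp
    | insert a s ha ih =>
      set τ : Fin n → X → ℝ := fun i => if i ∈ s then σ i else π i with hτ
      have hτL : LipT τ := by
        intro i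
        by_cases hi : i ∈ s
        · simpa [hτ, hi] using hσ i
        · simpa [hτ, hi] using hπ i
      have h1 : (fun i => if i ∈ insert a s then σ i else π i) = Function.update τ a (σ a) := by
        funext i
        by_cases hi : i = a
        · subst hi; simp
        · simp [hτ, hi]
      have h2 : τ = Function.update τ a (π a) := by
        funext i
        by_cases hi : i = a
        · subst hi; simp [hτ, ha]
        · simp [hi]
      have h3 := sub_coord hT hg hτL a (hσ a) (hπ a)
      have hsub : ∃ K : ℝ≥0, LipschitzWith K (σ a - π a) := by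
        obtain ⟨K, hK⟩ := hσ a
        obtain ⟨K', hK'⟩ := hπ a
        exact ⟨_, hK.sub hK'⟩
      have h4 : T g (Function.update τ a (σ a - π a)) = 0 := by
        refine B10.eq_zero_of_eqOn_support hT hK (hg.isTestPair (hτL.update a hsub)) a ?_
        intro x hx
        simp [h a x hx]
      rw [h4, ← h2] at h3
      rw [h1, ← ih]
      linarith
  have := key Finset.univ
  simpa using this.symm

/-- A Lipschitz map which is the identity on the support does not change the current. -/
theorem push_eq_self {T : Functional X n} (hT : IsCurrent T) {K : Set X}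
    (hK : IsSupportedIn K T) {F : X → X} {L : ℝ≥0} (hF : LipschitzWith L F)
    (h : ∀ x ∈ K, F x = x) : push F T = T := by
  funext f π
  by_cases hf : IsTestPair f π
  · rw [push_apply hf]
    exact congr_supp hT hK (isTestPair_comp hF hf) hf (fun x hx => by rw [h x hx])
      fun i x hx => by rw [h x hx]
  · rw [push_of_not hf, hT.eq_zero_of_not_test _ _ hf]

theorem push_const {T : Functional X (n + 1)} (hT : IsCurrent T) (x : X) :
    push (fun _ : X => x) T = 0 := by
  funext f π
  by_cases hf : IsTestPair f π
  · rw [push_apply hf]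
    refine hT.locality _ _ (isTestPair_comp (LipschitzWith.const x) hf)
      ⟨0, univ, π 0 x, isOpen_univ, subset_univ _, fun _ _ => rfl⟩
  · rw [push_of_not hf]; rfl

end Crest.Agent.R241.B8Cone
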