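import Crest.Agent.R241.B8Cone3
import Crest.Agent.R241.B5u
import Crest.Agent.R241.B4Norm

/-!
# R241, block B8: the cone, mass bound and final statement (owner: helper971)

* `chsOf F`: the chart family of `FVCharts`.
* `cone_of_charts`: the cone inequality for a cycle with chart data.
-/

set_option autoImplicit false
set_option linter.unusedSectionVars false
set_option linter.unusedSimpArgs false

open MeasureTheory Filter Topology Set Asymptotics
open scoped ENNReal NNReal

universe u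

namespace Crest.Agent.R241.B8Cone

open Crest.GeometryTopology.MetricCurrent
open Crest.GeometryTopology.Submanifold (Euc)
open Crest.Agent.R241.B8Fubini
open Crest.Agent.R241.B8
open Crest.Agent.R241.B9
open Crest.Agent.R241.B5u
open Crest.Agent.R241.G1 (BL LipT isTestPair_iff)
open Crest.Agent.R241.B1c1 (push push_apply push_of_not isTestPair_comp)
open Matrix

/-! ### quadratic forms -/

theorem abs_qf_le {n : ℕ} (G : Matrix (Fin n) (Fin n) ℝ) (v : Euc n) :
    |qf G v| ≤ (∑ a, ∑ b, |G a b|) * ‖v‖ ^ 2 := by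
  unfold qf
  simp only [dotProduct, mulVec, Finset.mul_sum, Finset.sum_mul]
  refine (Finset.abs_sum_le_sum_abs _ _).trans (Finset.sum_le_sum fun a _ => ?_)
  refine (Finset.abs_sum_le_sum_abs _ _).trans (Finset.sum_le_sum fun b _ => ?_)
  rw [abs_mul, abs_mul]
  have h1 : |v a| ≤ ‖v‖ := by
    have := EuclideanSpace.norm_sq_eq v
    have h2 : ‖v a‖ ^ 2 ≤ ‖v‖ ^ 2 := by
      rw [this]
      exact Finset.single_le_sum (f := fun i => ‖v i‖ ^ 2) (fun i _ => by positivity)
        (Finset.mem_univ a)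
    simpa using abs_le_of_sq_le_sq' h2 (norm_nonneg _)|>.2
  have h1' : |v b| ≤ ‖v‖ := by
    have := EuclideanSpace.norm_sq_eq v
    have h2 : ‖v b‖ ^ 2 ≤ ‖v‖ ^ 2 := by
      rw [this]
      exact Finset.single_le_sum (f := fun i => ‖v i‖ ^ 2) (fun i _ => by positivity)
        (Finset.mem_univ b)
    simpa using abs_le_of_sq_le_sq' h2 (norm_nonneg _)|>.2
  calc |v a| * (|G a b| * |v b|) ≤ ‖v‖ * (|G a b| * ‖v‖) := by gcongr
    _ = |G a b| * ‖v‖ ^ 2 := by ring

/-! ### a.e. statements on product charts -/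

theorem ae_prodSet_ne_zero {n : ℕ} (E : Set (Euc n)) :
    ∀ᵐ w ∂(volume.restrict (prodSet E)), w 0 ≠ 0 := by
  refine ae_restrict_of_ae ?_
  have h2 : ∀ᵐ q ∂(volume.prod volume : Measure (ℝ × Euc n)), q.1 ≠ 0 := by
    have := Measure.quasiMeasurePreserving_fst (μ := (volume : Measure ℝ))
      (ν := (volume : Measure (Euc n)))
    exact this.ae (Measure.ae_ne volume 0)
  exact (measurePreserving_splitE n).quasiMeasurePreserving.ae h2

theorem integrable_prodSet {n : ℕ} {E : Set (Euc n)} {a : ℝ → ℝ} {b : Euc n → ℝ}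
    (ha : IntegrableOn a (Icc (0 : ℝ) 1)) (hb : IntegrableOn b E) :
    IntegrableOn (fun w : Euc (n + 1) => a (w 0) * b (tl w)) (prodSet E) := by
  have h := (measurePreserving_splitE n).restrict_preimage_emb (splitE n).measurableEmbedding
    (Icc (0 : ℝ) 1 ×ˢ E)
  rw [← prodSet_eq, ← Measure.prod_restrict] at h
  exact (h.integrable_comp_emb (splitE n).measurableEmbedding).2 (ha.mul_prod hb)


/-! ### the chart family of `FVCharts` -/

variable {X : Type u} [MetricSpace X] [MeasurableSpace X] [BorelSpace X] {κ : ℝ} {K : Set X}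
  [CompactSpace K] {m : ℕ} {T : Functional X (m + 1)} {P : A.PreData (m + 1) κ K}

theorem real_muJ (F : FVCharts T P) (i : ℕ) :
    (muJ (F.E i) (F.φ i) (fun z => (F.θ i z : ℝ)) fun z => √(F.G i z).det).real univ
      = ∫ z in F.E i, |(F.θ i z : ℝ)| * √(F.G i z).det := by
  obtain ⟨L, hL⟩ := F.lipφ i
  exact real_univ_muJ (F.measE i) hL (F.intG i) (Eventually.of_forall fun z => Real.sqrt_nonneg _)

/-- the chart family. -/
noncomputable def chsOf (F : FVCharts T P) : Chs (m + 1) X where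
  E := F.E
  φ := F.φ
  θ := F.θ
  L := fun i => (F.lipφ i).choose
  μ := fun i => muJ (F.E i) (F.φ i) (fun z => (F.θ i z : ℝ)) fun z => √(F.G i z).det
  measE := F.measE
  lip := fun i => (F.lipφ i).choose_spec
  int := F.intθ
  cur := fun i => B1Cur.isCurrent_chartAction (F.measE i) (F.lipφ i).choose_spec (F.intθ i)
  fin := fun i => isFiniteMeasure_muJ (F.intG i)
  ctrl := fun i => controls_chartAction_det (F.measE i) (F.lipφ i).choose_spec (F.intθ i)
    (Eventually.of_forall fun z => F.psd i z) (F.md i) (F.intG i)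
  summ := F.summ.congr fun i => (real_muJ F i).symm

theorem chsOf_T (F : FVCharts T P) (hT : IsCurrent T) : (chsOf F).T = T := by
  funext f π
  by_cases hf : IsTestPair f π
  · exact (F.act f π hf).tsum_eq
  · rw [hT.eq_zero_of_not_test _ _ hf]
    simp [Chs.T, chartAction, hf]

/-- the total mass in the charts. -/
theorem tsum_eq_tau (F : FVCharts T P) :
    ∑' i, ∫ z in F.E i, |(F.θ i z : ℝ)| * √(F.G i z).det = P.τ.real univ := by
  have := P.fin
  have h1 : (P.τ.map (Subtype.val : K → X)) univ = P.τ univ := by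
    rw [Measure.map_apply measurable_subtype_coe MeasurableSet.univ, preimage_univ]
  rw [F.tau_eq, Measure.sum_apply _ MeasurableSet.univ] at h1
  have h2 : ∀ i, (((volume.restrict (F.E i)).withDensity
      fun z => ENNReal.ofReal (|(F.θ i z : ℝ)| * √(F.G i z).det)).map (F.φ i)) univ
      = ENNReal.ofReal (∫ z in F.E i, |(F.θ i z : ℝ)| * √(F.G i z).det) := by
    intro i
    have hf : IsFiniteMeasure (muJ (F.E i) (F.φ i) (fun z => (F.θ i z : ℝ))
      fun z => √(F.G i z).det) := isFiniteMeasure_muJ (F.intG i)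
    rw [← real_muJ F i, ofReal_measureReal]
    rfl
  simp_rw [h2] at h1
  rw [← ENNReal.ofReal_tsum_of_nonneg (fun i => integral_nonneg fun z => by positivity) F.summ]
    at h1
  rw [Measure.real, ← h1, ENNReal.toReal_ofReal]
  exact tsum_nonneg fun i => integral_nonneg fun z => by positivity

/-! ### the contraction -/

/-- contraction of the ball to its centre. -/
noncomputable def coneH {k : ℝ} (C : CATk k X) (x : X) (r s : ℝ) (y : X) : X :=
  C.geo x (Cat2.retr C x r y) s

theorem hLip_coneH {k : ℝ} (C : CATk k X) (x : X) {r : ℝ} (hr : 0 ≤ r) :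
    HLip (max 1 r.toNNReal) (coneH C x r) := by
  intro s hs s' hs' y y'
  unfold coneH
  have h1 := Cat1.dist_geo_geo' C x x (Cat2.retr C x r y) (Cat2.retr C x r y') hs hs'
  have h2 : dist (Cat2.retr C x r y) (Cat2.retr C x r y') ≤ dist y y' := by
    simpa using (Cat2.retr_lipschitz C x hr).dist_le_mul y y'
  have h3 : dist x (Cat2.retr C x r y') ≤ r := by
    have := Cat2.retr_mem C x hr y'
    rwa [Metric.mem_closedBall, dist_comm] at this
  rw [dist_self, mul_zero, zero_add] at h1
  have e1 : (1 : ℝ) ≤ ((max 1 r.toNNReal : ℝ≥0) : ℝ) := by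
    rw [NNReal.coe_max]; exact le_max_left _ _
  have e2 : r ≤ ((max 1 r.toNNReal : ℝ≥0) : ℝ) := by
    rw [NNReal.coe_max]; exact (Real.le_coe_toNNReal r).trans (le_max_right _ _)
  calc dist (C.geo x (Cat2.retr C x r y) s) (C.geo x (Cat2.retr C x r y') s')
      ≤ s * dist (Cat2.retr C x r y) (Cat2.retr C x r y') + |s - s'| * dist x (Cat2.retr C x r y') := h1
    _ ≤ 1 * dist y y' + |s - s'| * r := by
        have := hs.2
        have := hs.1
        gcongr
    _ ≤ ((max 1 r.toNNReal : ℝ≥0) : ℝ) * dist y y'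
        + |s - s'| * ((max 1 r.toNNReal : ℝ≥0) : ℝ) := by gcongr
    _ = _ := by ring

theorem coneH_mapsTo {k : ℝ} (C : CATk k X) (hK : C.IsConv K) {x : X} (hx : x ∈ K) {r : ℝ}
    (hr : 0 ≤ r) {s : ℝ} (hs : s ∈ Icc (0 : ℝ) 1) : MapsTo (coneH C x r s) K K := by
  intro y hy
  refine hK x hx _ ?_ s hs
  exact Cat3.pt_mem C hK hx hy (le_min hr dist_nonneg) (min_le_right _ _)

/-! ### the Jacobian -/

theorem ub_retr {k : ℝ} (C : CATk k X) (x : X) {r : ℝ} (hr : 0 ≤ r) {n : ℕ} {E : Set (Euc n)}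
    {φ : Euc n → X} {z : Euc n} {q : Euc n → ℝ} (h : UB E φ z q) :
    UB E (fun z => Cat2.retr C x r (φ z)) z q := by
  intro ε hε
  filter_upwards [h ε hε] with w hw
  refine le_trans ?_ hw
  have := (Cat2.retr_lipschitz C x hr).dist_le_mul (φ w) (φ z)
  rw [NNReal.coe_one, one_mul] at this
  exact pow_le_pow_left₀ dist_nonneg this 2

theorem good_cone {k : ℝ} (C : CATk k X) (x : X) {r : ℝ} (hr : 0 ≤ r) {n : ℕ} {E : Set (Euc n)}
    {φ : Euc n → X} {G : Matrix (Fin n) (Fin n) ℝ} (hG : G.PosSemidef) (hdet : G.det ≠ 0)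
    {w₀ : Euc (n + 1)} (hw₀ : w₀ ∈ prodSet E) (h0 : w₀ 0 ≠ 0) (h : UB E φ (tl w₀) (qf G))
    (hd : DifferentiableWithinAt ℝ (fun z => dist x (Cat2.retr C x r (φ z))) E (tl w₀)) :
    ∃ q, Good (prodSet E) (fun w => coneH C x r (w 0) (φ (tl w))) w₀
      (w₀ 0 ^ n * r * √G.det) q := by
  set ρ := dist x (Cat2.retr C x r (φ (tl w₀))) with hρ
  set ρ' := fderivWithin ℝ (fun z => dist x (Cat2.retr C x r (φ z))) E (tl w₀) with hρ'
  have hρr : ρ ≤ r := by
    have := Cat2.retr_mem C x hr (φ (tl w₀))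
    rwa [Metric.mem_closedBall, dist_comm] at this
  refine ⟨fun v => w₀ 0 ^ 2 * qf G (tl v) + v 0 * (ρ ^ 2 * v 0
        + w₀ 0 * (2 * ρ * ρ' (tl v))), ?_, ?_, ?_, ?_⟩
  · have h1 := (continuous_qf G).comp (continuous_tl (n := n))
    have h2 := ρ'.continuous.comp (continuous_tl (n := n))
    have h3 : Continuous fun v : Euc (n + 1) => v 0 := by fun_prop
    exact (continuous_const.mul h1).add (h3.mul ((continuous_const.mul h3).add
      (continuous_const.mul (continuous_const.mul h2))))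
  · intro t v
    have e1 : tl (t • v) = t • tl v := by ext i; simp [tl]
    have e2 : (t • v) 0 = t * v 0 := rfl
    simp only [e1, e2, qf_smul, map_smul, smul_eq_mul]
    ring
  · exact ub_cone C x hw₀ (abs_qf_le G) (ub_retr C x hr h) hd.hasFDerivWithinAt
  · intro R hR
    exact det_cone hG hdet (lt_of_le_of_ne hw₀.1.1 (Ne.symm h0)) dist_nonneg hρr ρ' R
      fun a v => hR a v

theorem integral_pow' (m : ℕ) : ∫ s in Icc (0 : ℝ) 1, s ^ (m + 1) = 1 / (m + 2 : ℝ) := by
  rw [integral_Icc_eq_integral_Ioc, ← intervalIntegral.integral_of_le zero_le_one,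
    _root_.integral_pow]
  norm_num
  ring

/-- mass of the cone over one chart. -/
theorem mass_piece_cone {k : ℝ} (C : CATk k X) (x : X) {r : ℝ} (hr : 0 ≤ r)
    (F : FVCharts T P) (i : ℕ) :
    mass ((chsOf F).piece (coneH C x r) i)
      ≤ r / (m + 2 : ℝ) * ∫ z in F.E i, |(F.θ i z : ℝ)| * √(F.G i z).det := by
  have hlip := (chsOf F).lipschitz_piece (hLip_coneH C x hr) i
  have hθ : Integrable (fun w => (F.θ i (tl w) : ℝ)) (volume.restrict (prodSet (F.E i))) :=
    (chsOf F).integrable_piece i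
  have hpow : IntegrableOn (fun s : ℝ => s ^ (m + 1) * r) (Icc (0 : ℝ) 1) :=
    (by fun_prop : Continuous fun s : ℝ => s ^ (m + 1) * r).continuousOn.integrableOn_compact
      isCompact_Icc
  have hint : IntegrableOn (fun w : Euc (m + 1 + 1) => |(F.θ i (tl w) : ℝ)| *
      (w 0 ^ (m + 1) * r * √(F.G i (tl w)).det)) (prodSet (F.E i)) := by
    refine (integrable_prodSet hpow (F.intG i)).congr_fun (fun w _ => ?_)
      (measurableSet_prodSet (F.measE i))
    simp only
    ring
  have hnn : ∀ᵐ w ∂(volume.restrict (prodSet (F.E i))),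
      0 ≤ w 0 ^ (m + 1) * r * √(F.G i (tl w)).det := by
    filter_upwards [ae_restrict_mem (measurableSet_prodSet (F.measE i))] with w hw
    have := hw.1.1
    positivity
  have hrl : ∃ L : ℝ≥0, LipschitzWith L fun y : X => dist x (Cat2.retr C x r y) :=
    ⟨1 * 1, (LipschitzWith.dist_right x).comp (Cat2.retr_lipschitz C x hr)⟩
  obtain ⟨L, hL⟩ := F.lipφ i
  have hgood : ∀ᵐ w ∂(volume.restrict (prodSet (F.E i))), ∃ q : Euc (m + 1 + 1) → ℝ,
      Good (prodSet (F.E i)) (fun w => coneH C x r (w 0) (F.φ i (tl w))) w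
        (w 0 ^ (m + 1) * r * √(F.G i (tl w)).det) q := by
    filter_upwards [ae_restrict_mem (measurableSet_prodSet (F.measE i)),
      ae_prodSet_ne_zero (F.E i), ae_prodSet_of_ae (F.md i), ae_prodSet_of_ae (F.det_ne i),
      ae_prodSet_of_ae (B1Cur.ae_good (F.measE i) hL hrl)] with w hw h0 h1 h2 h3
    exact good_cone C x hr (F.psd i (tl w)) h2 hw h0 h1 h3.2
  have h1 : mass ((chsOf F).piece (coneH C x r) i) ≤ ∫ w in prodSet (F.E i),
      |(F.θ i (tl w) : ℝ)| * (w 0 ^ (m + 1) * r * √(F.G i (tl w)).det) :=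
    mass_chartAction_le (measurableSet_prodSet (F.measE i)) hlip hθ hint hnn hgood
  refine h1.trans (le_of_eq ?_)
  rw [setIntegral_prodSet _ hint]
  simp only [consE_zero, tl_consE]
  have h4 : ∀ s : ℝ, ∫ z in F.E i, |(F.θ i z : ℝ)| * (s ^ (m + 1) * r * √(F.G i z).det)
      = s ^ (m + 1) * (r * ∫ z in F.E i, |(F.θ i z : ℝ)| * √(F.G i z).det) := by
    intro s
    rw [← integral_const_mul, ← integral_const_mul]
    exact integral_congr_ae (Eventually.of_forall fun z => by simp only; ring)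
  simp_rw [h4]
  rw [integral_mul_const, integral_pow']
  ring

/-- **The cone inequality** for a cycle with chart data. -/
theorem cone_of_charts [SecondCountableTopology X] {k : ℝ} (C : CATk k X) (hK : C.IsConv K)
    {x : X} (hx : x ∈ K) {r : ℝ} (hr : 0 ≤ r) (hT : IsCyc (K ∩ Metric.closedBall x r) T)
    (F : FVCharts T P) (hm : mass T = P.τ.real univ) :
    ∃ S : Functional X (m + 2), IsInt K S ∧ bd S = T ∧ mass S ≤ r / (m + 2 : ℝ) * mass T := by
  have hTT := chsOf_T F hT.int.cur
  have hcyc : bd (chsOf F).T = 0 := by rw [hTT]; exact hT.cyc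
  have hH := hLip_coneH C x hr
  refine ⟨(chsOf F).R (coneH C x r), ?_, ?_, ?_⟩
  · refine (chsOf F).isInt_R hcyc hH (K := K) F.mapsK (fun s hs => coneH_mapsTo C hK hx hr hs) ?_
    refine B4Norm.rect_of_charts (fun i => measurableSet_prodSet ((chsOf F).measE i))
      (fun i => ⟨_, (chsOf F).lipschitz_piece hH i⟩) (fun i => (chsOf F).integrable_piece i)
      ((chsOf F).summable_mass_piece hH) fun f π hf => (chsOf F).hasSum_R hH hf
  · rw [(chsOf F).bd_R_eq hcyc hH, hTT]
    have e0 : coneH C x r 0 = fun _ => x := by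
      funext y; exact C.geo_zero _ _
    have e1 : push (coneH C x r 1) T = T := by
      refine push_eq_self hT.int.cur hT.int.supp (Chs.lipschitz_H hH ⟨zero_le_one, le_rfl⟩)
        fun y hy => ?_
      unfold coneH
      rw [C.geo_one, Cat2.retr_eq C x hy.2]
    rw [e1, e0, push_const hT.int.cur, sub_zero]
  · have h1 := B10.mass_le_of_hasSum (fun i => (chsOf F).isCurrent_piece hH i)
      (F.summ.mul_left (r / (m + 2 : ℝ))) (mass_piece_cone C x hr F)
      (fun f π hf => (chsOf F).hasSum_R hH hf)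
    rwa [tsum_mul_left, tsum_eq_tau F, ← hm] at h1

/-- **CONE**, from the existence of chart data (block B5c). -/
theorem coneTarget [SecondCountableTopology X] {k : ℝ} (C : CATk k X) (hK : C.IsConv K)
    (hFV : ∀ T : Functional X (m + 1), IsCyc K T → ∃ (P : A.PreData (m + 1) κ K),
      Nonempty (FVCharts T P) ∧ mass T = P.τ.real univ) : ConeTarget X K m := by
  intro T x r hx hr hT
  have hT' : IsCyc K T := ⟨⟨hT.int.cur, hT.int.rect, hT.int.bdcur,
    B10.isSupportedIn_mono inter_subset_left hT.int.supp⟩, hT.cyc⟩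
  obtain ⟨P, ⟨F⟩, hm⟩ := hFV T hT'
  exact cone_of_charts C hK hx hr hT F hm

end Crest.Agent.R241.B8Cone
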