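import Crest.Agent.R241.B8
import Crest.Agent.R241.B1c1
import Crest.Agent.R241.B1Cur
import Crest.Agent.R241.B10Int
import Crest.Agent.R241.B10Complete
import Crest.Agent.R241.Defs

/-!
# R241, block B8: the swept functional is an integral current (owner: helper971)

* `isCurrent_push`, `controls_push`: push-forward under Lipschitz maps.
* `Chs.isCurrent_T`, `Chs.isCurrent_piece`, `Chs.isCurrent_R`.
* `Chs.bd_R_eq`: `bd (c.R H) = push (H 1) c.T - push (H 0) c.T`.
* `Chs.isInt_R`: `IsInt K (c.R H)` given integer rectifiability of `c.R H` (block B4).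
-/

set_option autoImplicit false
set_option linter.unusedSectionVars false
set_option linter.unusedSimpArgs false

open MeasureTheory Filter Topology Set
open scoped ENNReal NNReal

namespace Crest.Agent.R241.B8

open Crest.GeometryTopology.MetricCurrent
open Crest.GeometryTopology.Submanifold (Euc)
open Crest.Agent.R241.G1
open Crest.Agent.R241.B8Abs
open Crest.Agent.R241.B8Stek
open Crest.Agent.R241.B8Fubini
open Crest.Agent.R241.B1c1 (push push_apply push_of_not isTestPair_comp)

universe u v

variable {X : Type u} [MetricSpace X] [MeasurableSpace X] [BorelSpace X]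
variable {Y : Type v} [MetricSpace Y] [MeasurableSpace Y] [BorelSpace Y]

theorem controls_push {k : ℕ} {T : Functional X k} (hT : IsCurrent T) {F : X → Y} {L : ℝ≥0}
    (hF : LipschitzWith L F) {μ : Measure X} [IsFiniteMeasure μ] (hμ : Controls T μ) :
    Controls (push F T) ((L ^ k) • Measure.map F μ) := by
  intro f π hfπ hπ
  have hf : BL f := (isTestPair_iff.1 hfπ).1
  have hfF : BL (fun x => f (F x)) := (isTestPair_iff.1 (isTestPair_comp hF hfπ)).1
  rw [push_apply hfπ, integral_smul_nnreal_measure,
    integral_map hF.continuous.measurable.aemeasurable hf.abs.measurable.aestronglyMeasurable]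
  have h := G1.abs_le_of_controls hT hμ hfF (π := fun i x => π i (F x)) (K := fun _ => L)
    (fun i => by have := (hπ i).comp hF; rw [one_mul] at this; exact this)
  simpa [NNReal.smul_def] using h

theorem isCurrent_push {k : ℕ} {T : Functional X k} (hT : IsCurrent T) {F : X → Y} {L : ℝ≥0}
    (hF : LipschitzWith L F) : IsCurrent (push F T) where
  eq_zero_of_not_test f π h := push_of_not h
  add_left f g π hf hg := by
    rw [push_apply (B10.isTestPair_add hf hg), push_apply hf, push_apply hg]
    exact hT.add_left _ _ _ (isTestPair_comp hF hf) (isTestPair_comp hF hg)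
  smul_left c f π hf := by
    rw [push_apply (B10.isTestPair_smul c hf), push_apply hf]
    exact hT.smul_left c _ _ (isTestPair_comp hF hf)
  add_coord f π i g hf hg := by
    obtain ⟨Kg, hKg⟩ := hg
    have h1 : ∃ K : ℝ≥0, LipschitzWith K (π i + g) := by
      obtain ⟨K, hK⟩ := hf.2.2 i
      exact ⟨K + Kg, hK.add hKg⟩
    rw [push_apply (B10.isTestPair_update hf i h1), push_apply hf,
      push_apply (B10.isTestPair_update hf i ⟨Kg, hKg⟩)]
    have e : ∀ u : Y → ℝ, (fun j x => Function.update π i u j (F x))
        = Function.update (fun j x => π j (F x)) i (fun x => u (F x)) := fun u => by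
      funext j x
      by_cases hj : j = i
      · subst hj; simp
      · simp [Function.update_of_ne hj]
    rw [e, e]
    exact hT.add_coord _ _ i _ (isTestPair_comp hF hf) ⟨_, hKg.comp hF⟩
  smul_coord f π i c hf := by
    have h1 : ∃ K : ℝ≥0, LipschitzWith K (c • π i) := by
      obtain ⟨K, hK⟩ := hf.2.2 i
      exact ⟨_, lipschitzWith_smul hK c⟩
    rw [push_apply (B10.isTestPair_update hf i h1), push_apply hf]
    have e : ∀ u : Y → ℝ, (fun j x => Function.update π i u j (F x))
        = Function.update (fun j x => π j (F x)) i (fun x => u (F x)) := fun u => by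
      funext j x
      by_cases hj : j = i
      · subst hj; simp
      · simp [Function.update_of_ne hj]
    rw [e]
    exact hT.smul_coord _ _ i c (isTestPair_comp hF hf)
  continuity f π πs hf hC hlim := by
    obtain ⟨C, hC⟩ := hC
    have hts : ∀ j, IsTestPair f (πs j) := fun j => ⟨hf.1, hf.2.1, fun i => ⟨C, hC j i⟩⟩
    simp_rw [push_apply hf, fun j => push_apply (F := F) (T := T) (hts j)]
    exact hT.continuity _ _ _ (isTestPair_comp hF hf) ⟨C * L, fun j i => (hC j i).comp hF⟩
      fun i x => hlim i (F x)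
  locality f π hf h := by
    obtain ⟨i, U, c, hU, hsupp, hc⟩ := h
    rw [push_apply hf]
    refine hT.locality _ _ (isTestPair_comp hF hf) ⟨i, F ⁻¹' U, c, hU.preimage hF.continuous,
      fun x hx => hsupp ?_, fun x hx => hc _ hx⟩
    simpa using hx
  finite_mass := by
    obtain ⟨μ, hμf, hμ⟩ := hT.finite_mass
    exact ⟨_, inferInstance, controls_push hT hF hμ⟩

namespace Chs

variable {k : ℕ}

theorem mass_chart_le (c : Chs k X) (i : ℕ) :
    mass (chartAction (c.E i) (c.φ i) (c.θ i)) ≤ (c.μ i univ).toReal := B10.mass_le (c.ctrl i)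

theorem isCurrent_T (c : Chs k X) : IsCurrent c.T := by
  refine B10.isCurrent_of_hasSum c.cur ?_ (fun f π hf => ?_) (fun f π hf => ?_)
  · exact Summable.of_nonneg_of_le (fun i => B10.mass_nonneg _) c.mass_chart_le c.summ
  · obtain ⟨h1, h2⟩ := isTestPair_iff.1 hf
    exact (c.summable_chart h1 h2).hasSum
  · simp [T, chartAction, hf]

variable {H : ℝ → X → Y} {C : ℝ≥0}

theorem integrable_piece (c : Chs k X) (i : ℕ) :
    Integrable (fun w => (c.θ i (tl w) : ℝ)) (volume.restrict (prodSet (c.E i))) := by
  have h := (measurePreserving_splitE k).restrict_preimage_emb (splitE k).measurableEmbedding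
    (Icc (0 : ℝ) 1 ×ˢ (c.E i))
  rw [← prodSet_eq, ← Measure.prod_restrict] at h
  exact (h.integrable_comp_emb (splitE k).measurableEmbedding).2
    ((c.int i).comp_snd (volume.restrict (Icc (0 : ℝ) 1)))

theorem lipschitz_piece (c : Chs k X) (hH : HLip C H) (i : ℕ) :
    LipschitzOnWith (C * (1 + c.L i)) (fun w : Euc (k + 1) => H (w 0) (c.φ i (tl w)))
      (prodSet (c.E i)) := by
  refine LipschitzOnWith.of_dist_le_mul fun w hw w' hw' => ?_
  refine (hH _ hw.1 _ hw'.1 _ _).trans ?_
  have h1 := dist_zero_le w w'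
  have h2 := ((c.lip i).dist_le_mul _ hw.2 _ hw'.2).trans
    (mul_le_mul_of_nonneg_left (dist_tl_le w w') (c.L i).2)
  push_cast
  rw [mul_assoc]
  refine mul_le_mul_of_nonneg_left ?_ C.2
  linarith

theorem isCurrent_piece (c : Chs k X) (hH : HLip C H) (i : ℕ) : IsCurrent (c.piece H i) :=
  B1Cur.isCurrent_chartAction (measurableSet_prodSet (c.measE i)) (c.lipschitz_piece hH i)
    (c.integrable_piece i)

theorem mass_piece_le [SecondCountableTopology X] (c : Chs k X) (hH : HLip C H) (i : ℕ) :
    mass (c.piece H i) ≤ ((c.sweepMeas C H i) univ).toReal := B10.mass_le (c.controls_piece hH i)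

theorem summable_mass_piece [SecondCountableTopology X] (c : Chs k X) (hH : HLip C H) :
    Summable fun i => mass (c.piece H i) :=
  Summable.of_nonneg_of_le (fun i => B10.mass_nonneg _) (c.mass_piece_le hH)
    (c.summable_sweepMeas hH)

theorem hasSum_R [SecondCountableTopology X] (c : Chs k X) (hH : HLip C H) {f : Y → ℝ}
    {π : Fin (k + 1) → Y → ℝ} (hf : IsTestPair f π) :
    HasSum (fun i => c.piece H i f π) (c.R H f π) :=
  (B10.summable_apply (c.isCurrent_piece hH) (c.summable_mass_piece hH) hf).hasSum

theorem isCurrent_R [SecondCountableTopology X] (c : Chs k X) (hH : HLip C H) :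
    IsCurrent (c.R H) := by
  refine B10.isCurrent_of_hasSum (c.isCurrent_piece hH) (c.summable_mass_piece hH)
    (fun f π hf => c.hasSum_R hH hf) (fun f π hf => ?_)
  simp [R, piece, chartAction, hf]

theorem lipschitz_H (hH : HLip C H) {s : ℝ} (hs : s ∈ Icc (0 : ℝ) 1) : LipschitzWith C (H s) := by
  refine LipschitzWith.of_dist_le_mul fun x y => ?_
  simpa using hH s hs s hs x y

/-- **Boundary of the swept functional.** -/
theorem bd_R_eq (c : Chs (k + 1) X) (hc : bd c.T = 0) (hH : HLip C H) :
    bd (c.R H) = push (H 1) c.T - push (H 0) c.T := by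
  funext f π
  by_cases hf : IsTestPair f π
  · rw [c.homotopy c.isCurrent_T hc hH hf, Pi.sub_apply, Pi.sub_apply, push_apply hf,
      push_apply hf]
  · rw [Pi.sub_apply, Pi.sub_apply, push_of_not hf, push_of_not hf, B10.bd_apply_not hf, sub_zero]

theorem isCurrent_bd_R (c : Chs (k + 1) X) (hc : bd c.T = 0) (hH : HLip C H) :
    IsCurrent (bd (c.R H)) := by
  rw [c.bd_R_eq hc hH]
  exact B10.IsCurrent.sub
    (isCurrent_push c.isCurrent_T (lipschitz_H hH ⟨zero_le_one, le_rfl⟩))
    (isCurrent_push c.isCurrent_T (lipschitz_H hH ⟨le_rfl, zero_le_one⟩))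

theorem supp_R (c : Chs k X) {K : Set X} {K' : Set Y} (hK : ∀ i, MapsTo (c.φ i) (c.E i) K)
    (hHK : ∀ s ∈ Icc (0 : ℝ) 1, MapsTo (H s) K K') : IsSupportedIn K' (c.R H) := by
  intro f π hf h0
  simp only [R]
  refine (tsum_congr fun i => ?_).trans tsum_zero
  simp only [piece, chartAction, if_pos hf]
  refine (setIntegral_congr_fun (measurableSet_prodSet (c.measE i)) fun w hw => ?_).trans
    (integral_zero _ _)
  rw [h0 _ (hHK _ hw.1 (hK i hw.2))]
  simp

/-- The swept functional of a cycle is an integral current. -/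
theorem isInt_R [SecondCountableTopology X] (c : Chs (k + 1) X) (hc : bd c.T = 0)
    (hH : HLip C H) {K : Set X} {K' : Set Y} (hK : ∀ i, MapsTo (c.φ i) (c.E i) K)
    (hHK : ∀ s ∈ Icc (0 : ℝ) 1, MapsTo (H s) K K') (hrect : IsIntegerRectifiable (c.R H)) :
    IsInt K' (c.R H) where
  cur := c.isCurrent_R hH
  rect := hrect
  bdcur := c.isCurrent_bd_R hc hH
  supp := c.supp_R hK hHK

end Chs

end Crest.Agent.R241.B8
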