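import Crest.Agent.R241.B8Abs
import Crest.Agent.R241.B1Weak

/-!
# R241, block B8: Steklov averages (owner: helper971)
-/

set_option autoImplicit false
set_option linter.unusedSectionVars false

open MeasureTheory Filter Topology Set
open scoped ENNReal NNReal

namespace Crest.Agent.R241.B8Stek

open Crest.GeometryTopology.MetricCurrent
open Crest.GeometryTopology.Submanifold (Euc)
open Crest.Agent.R241.G1
open Crest.Agent.R241.B8Abs

universe u

variable {X : Type u} [MetricSpace X]

/-- Steklov average in the parameter. -/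
noncomputable def stek (ε : ℝ) (F : ℝ → X → ℝ) (s : ℝ) (x : X) : ℝ :=
  ∫ u in (0 : ℝ)..1, F (s + ε * u) x

/-- joint Lipschitz condition -/
def JL (C : ℝ≥0) (F : ℝ → X → ℝ) : Prop :=
  ∀ s s' x x', |F s x - F s' x'| ≤ C * (|s - s'| + dist x x')

theorem JL.continuous_left {C : ℝ≥0} {F : ℝ → X → ℝ} (hF : JL C F) (x : X) :
    Continuous fun s => F s x := by
  refine (LipschitzWith.of_dist_le_mul (K := C) fun s s' => ?_).continuous
  rw [Real.dist_eq, Real.dist_eq]
  simpa using hF s s' x x

theorem JL.intervalIntegrable {C : ℝ≥0} {F : ℝ → X → ℝ} (hF : JL C F) (x : X) (ε s a b : ℝ) :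
    IntervalIntegrable (fun u => F (s + ε * u) x) volume a b :=
  ((hF.continuous_left x).comp (by fun_prop : Continuous fun u : ℝ => s + ε * u)).intervalIntegrable
    _ _

theorem stek_JL {C : ℝ≥0} {F : ℝ → X → ℝ} (hF : JL C F) (ε : ℝ) : JL C (stek ε F) := by
  intro s s' x x'
  unfold stek
  rw [← intervalIntegral.integral_sub (hF.intervalIntegrable x ε s 0 1)
    (hF.intervalIntegrable x' ε s' 0 1)]
  have h := intervalIntegral.norm_integral_le_of_norm_le_const (a := (0 : ℝ)) (b := 1)
    (C := C * (|s - s'| + dist x x')) (f := fun u => F (s + ε * u) x - F (s' + ε * u) x')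
    (fun u _ => by
      rw [Real.norm_eq_abs]
      have := hF (s + ε * u) (s' + ε * u) x x'
      simpa using this)
  simpa using h

theorem abs_stek_le {F : ℝ → X → ℝ} {B : ℝ} (hB : ∀ s x, |F s x| ≤ B) (ε s : ℝ) (x : X) :
    |stek ε F s x| ≤ B := by
  have h := intervalIntegral.norm_integral_le_of_norm_le_const (a := (0 : ℝ)) (b := 1)
    (C := B) (f := fun u => F (s + ε * u) x) (fun u _ => hB _ _)
  simpa [stek] using h

theorem abs_stek_sub_le {C : ℝ≥0} {F : ℝ → X → ℝ} (hF : JL C F) {ε : ℝ} (hε : 0 ≤ ε) (s : ℝ)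
    (x : X) : |stek ε F s x - F s x| ≤ C * ε := by
  have h0 : stek ε F s x - F s x = ∫ u in (0 : ℝ)..1, (F (s + ε * u) x - F s x) := by
    unfold stek
    rw [intervalIntegral.integral_sub (hF.intervalIntegrable x ε s 0 1) (by simp)]
    simp
  rw [h0]
  have h := intervalIntegral.norm_integral_le_of_norm_le_const (a := (0 : ℝ)) (b := 1)
    (C := C * ε) (f := fun u => F (s + ε * u) x - F s x) (fun u hu => by
      rw [Real.norm_eq_abs]
      rw [uIoc_of_le zero_le_one] at hu
      have := hF (s + ε * u) s x x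
      simp only [add_sub_cancel_left, dist_self, add_zero] at this
      refine this.trans ?_
      rw [abs_of_nonneg (mul_nonneg hε hu.1.le)]
      have : ε * u ≤ ε * 1 := mul_le_mul_of_nonneg_left hu.2 hε
      have hC := C.coe_nonneg
      nlinarith)
  simpa using h

theorem hasDerivAt_stek {C : ℝ≥0} {F : ℝ → X → ℝ} (hF : JL C F) {ε : ℝ} (hε : 0 < ε) (s : ℝ)
    (x : X) : HasDerivAt (fun s => stek ε F s x) ((F (s + ε) x - F s x) / ε) s := by
  have hc := hF.continuous_left x
  have e : (fun s => stek ε F s x)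
      = fun s => ε⁻¹ * ((∫ u in (0 : ℝ)..(s + ε), F u x) - ∫ u in (0 : ℝ)..s, F u x) := by
    funext s
    unfold stek
    rw [intervalIntegral.integral_interval_sub_left (hc.intervalIntegrable _ _)
      (hc.intervalIntegrable _ _)]
    have := intervalIntegral.integral_comp_add_mul (fun u => F u x) (a := 0) (b := 1) hε.ne' s
    rw [this]
    simp
  rw [e]
  have h1 : HasDerivAt (fun s => ∫ u in (0 : ℝ)..s, F u x) (F s x) s :=
    intervalIntegral.integral_hasDerivAt_right (hc.intervalIntegrable _ _)
      (hc.stronglyMeasurableAtFilter _ _) hc.continuousAt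
  have h2 : HasDerivAt (fun s => ∫ u in (0 : ℝ)..s, F u x) (F (s + ε) x) (s + ε) :=
    intervalIntegral.integral_hasDerivAt_right (hc.intervalIntegrable _ _)
      (hc.stronglyMeasurableAtFilter _ _) hc.continuousAt
  have h3 : HasDerivAt (fun s => ∫ u in (0 : ℝ)..(s + ε), F u x) (F (s + ε) x) s := by
    have := h2.comp_add_const s ε
    exact this
  have h4 := (h3.sub h1).const_mul ε⁻¹
  refine h4.congr_deriv ?_
  rw [div_eq_inv_mul]

/-- the family of Steklov averages of a tuple. -/
noncomputable def fam {k : ℕ} (Q : Fin (k + 1) → ℝ → X → ℝ) {C : ℝ≥0} (hQ : ∀ a, JL C (Q a))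
    (ε : ℝ≥0) (hε : 0 < ε) : Fam k X where
  P a := stek ε (Q a)
  D a s x := (Q a (s + ε) x - Q a s x) / ε
  C := C
  K := 2 * C / ε
  hP a := stek_JL (hQ a) ε
  hPd a s x := hasDerivAt_stek (hQ a) (by exact_mod_cast hε) s x
  hDL a s s' x x' := by
    have hε' : (0 : ℝ) < ε := by exact_mod_cast hε
    have h1 := hQ a (s + ε) (s' + ε) x x'
    have h2 := hQ a s s' x x'
    simp only [add_sub_add_right_eq_sub] at h1
    rw [← sub_div, abs_div, abs_of_pos hε', div_le_iff₀ hε']
    push_cast
    have h3 : 2 * (C : ℝ) / ε * (|s - s'| + dist x x') * ε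
        = C * (|s - s'| + dist x x') + C * (|s - s'| + dist x x') := by
      field_simp; ring
    rw [h3]
    calc |Q a (s + ε) x - Q a s x - (Q a (s' + ε) x' - Q a s' x')|
        = |(Q a (s + ε) x - Q a (s' + ε) x') - (Q a s x - Q a s' x')| := by ring_nf
      _ ≤ |Q a (s + ε) x - Q a (s' + ε) x'| + |Q a s x - Q a s' x'| := abs_sub _ _
      _ ≤ _ := add_le_add h1 h2
  hDB a s x := by
    have hε' : (0 : ℝ) < ε := by exact_mod_cast hε
    have h1 := hQ a (s + ε) s x x
    simp only [add_sub_cancel_left, dist_self, add_zero, abs_of_pos hε'] at h1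
    rw [abs_div, abs_of_pos hε', div_le_iff₀ hε']
    exact h1

/-! ### Weak continuity of Jacobians within a set -/

open Crest.Agent.R241.B1Null in
theorem weak_within {k : ℕ} {E : Set (Euc k)} (hE : MeasurableSet E) {g : Euc k → ℝ}
    (hg : IntegrableOn g E) {C : ℝ≥0} {u : ℕ → Fin k → Euc k → ℝ} {v : Fin k → Euc k → ℝ}
    (hu : ∀ n i, LipschitzOnWith C (u n i) E) (hv : ∀ i, LipschitzOnWith C (v i) E)
    {ε : ℕ → ℝ} (hε : Tendsto ε atTop (𝓝 0))
    (h : ∀ n i, ∀ z ∈ E, |u n i z - v i z| ≤ ε n) :
    Tendsto (fun n => ∫ z in E, g z * (Matrix.of fun i j =>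
        fderivWithin ℝ (u n i) E z (EuclideanSpace.single j 1)).det) atTop
      (𝓝 (∫ z in E, g z * (Matrix.of fun i j =>
        fderivWithin ℝ (v i) E z (EuclideanSpace.single j 1)).det)) := by
  rcases Set.eq_empty_or_nonempty E with rfl | ⟨z₀, hz₀⟩
  · simp
  rcases Nat.eq_zero_or_pos k with hk | hk
  · subst hk
    simp [Matrix.det_isEmpty]
  have hε0 : ∀ n, 0 ≤ ε n := fun n => (abs_nonneg _).trans (h n ⟨0, hk⟩ z₀ hz₀)
  choose V hV hVE using fun i => (hv i).extend_real
  choose W hW hWE using fun n i => (hu n i).extend_real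
  set W' : ℕ → Fin k → Euc k → ℝ := fun n i z => max (V i z - ε n) (min (V i z + ε n) (W n i z))
    with hW'
  have hW'L : ∀ n i, LipschitzWith C (W' n i) := fun n i => by
    have h1 : LipschitzWith C (fun z => V i z - ε n) := by
      refine LipschitzWith.of_dist_le_mul fun x y => ?_
      simpa using (hV i).dist_le_mul x y
    have h2 : LipschitzWith C (fun z => V i z + ε n) := by
      refine LipschitzWith.of_dist_le_mul fun x y => ?_
      simpa using (hV i).dist_le_mul x y
    have h3 := h2.min (hW n i)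
    rw [max_self] at h3
    have h4 := h1.max h3
    rwa [max_self] at h4
  have hW'E : ∀ n i, EqOn (u n i) (W' n i) E := fun n i z hz => by
    have h1 := h n i z hz
    rw [abs_le] at h1
    simp only [hW']
    rw [← hWE n i hz, ← hVE i hz, min_eq_right (by linarith), max_eq_right (by linarith)]
  have hclose : ∀ n i z, |W' n i z - V i z| ≤ ε n := fun n i z => by
    simp only [hW']
    have h0 := hε0 n
    rw [abs_le]
    constructor
    · have := le_max_left (V i z - ε n) (min (V i z + ε n) (W n i z))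
      linarith
    · have : max (V i z - ε n) (min (V i z + ε n) (W n i z)) ≤ V i z + ε n :=
        max_le (by linarith) (min_le_left _ _)
      linarith
  have hg' : Integrable (E.indicator g) := (integrable_indicator_iff hE).2 hg
  have key := B1Weak.tendsto_integral_mul_det hg' hW'L hV hε hclose
  have e1 : ∀ (a b : Fin k → Euc k → ℝ), (∀ i, EqOn (a i) (b i) E) → (∀ i, LipschitzWith C (b i)) →
      ∫ z, E.indicator g z * (DM b z).det = ∫ z in E, g z * (Matrix.of fun i j =>
        fderivWithin ℝ (a i) E z (EuclideanSpace.single j 1)).det := by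
    intro a b hab hb
    rw [← integral_indicator hE]
    have h1 : ∀ᵐ z ∂(volume.restrict E), ∀ i, fderivWithin ℝ (a i) E z = fderiv ℝ (b i) z := by
      rw [ae_all_iff]
      exact fun i => B1Density.ae_fderivWithin_eq_of_lipschitz volume hE (hab i) (hb i)
    rw [ae_restrict_iff' hE] at h1
    refine integral_congr_ae ?_
    filter_upwards [h1] with z hz
    by_cases hzE : z ∈ E
    · rw [indicator_of_mem hzE, indicator_of_mem hzE]
      congr 2
      ext i j
      simp [DM, hz hzE i]
    · rw [indicator_of_notMem hzE, indicator_of_notMem hzE, zero_mul]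
  rw [← e1 v V hVE hV]
  simp_rw [fun n => (e1 (u n) (W' n) (hW'E n) (hW'L n)).symm]
  exact key

end Crest.Agent.R241.B8Stek
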