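import Crest.Agent.R241.CBall_534
import Crest.Agent.R241.B8Cone4
import Crest.Agent.R241.B5d

/-!
# R241: ConeTarget on compact convex subsets (owner: helper534)
-/

set_option autoImplicit false

open MeasureTheory Filter Topology Set
open scoped ENNReal NNReal

universe u

namespace Crest.Agent.R241.CBall

open Crest.GeometryTopology.MetricCurrent

theorem quad {X : Type u} [MetricSpace X] {k : ℝ} (C : CATk k X) (a b c e : X) :
    dist a c ^ 2 + dist b e ^ 2 ≤
      dist a b ^ 2 + dist b c ^ 2 + dist c e ^ 2 + dist e a ^ 2 := by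
  have h := Cat1.quadrilateral C a b c e
  rw [dist_comm e a]
  nlinarith [sq_nonneg (dist a b - dist c e)]

theorem coneAll : ConeAll.{u} := by
  intro X _ _ _ _ k hk C K hc hconv m
  rcases K.eq_empty_or_nonempty with rfl | hne
  · intro T x r hx; exact absurd hx (notMem_empty x)
  · have : Nonempty K := hne.to_subtype
    refine B8Cone.coneTarget (κ := k) C hconv fun T hT => ?_
    obtain ⟨P, h1, -, h2, -⟩ := B5d.exists_fvCharts (quad C) hT.int.rect hT.int.supp k
    exact ⟨P, h1, h2⟩

end Crest.Agent.R241.CBall
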