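import Crest.Agent.R241.B9g
import Crest.Agent.R241.B5d
import Crest.Agent.R241.CCone_534

/-!
# R241, block B9: FVarTarget on compact convex subsets (helper992)
-/

set_option autoImplicit false
set_option linter.unusedSectionVars false

open MeasureTheory Filter Topology Set
open scoped ENNReal NNReal

universe u

namespace Crest.Agent.R241.B9Final

open Crest.GeometryTopology.MetricCurrent

variable {X : Type u} [MetricSpace X] [MeasurableSpace X] [BorelSpace X]

/-- the zero first variation data (empty `K`). -/
noncomputable def zeroData (n : ℕ) (k : ℝ) (K : Type u) [MetricSpace K] [CompactSpace K]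
    [MeasurableSpace K] [BorelSpace K] : A.PreData n k K where
  τ := 0
  fin := inferInstance
  G := fun _ _ _ => 0
  G_meas := fun _ _ _ _ => aestronglyMeasurable_const
  G_comm := fun _ _ _ _ => by simp
  G_add := fun _ _ _ _ _ _ => by simp
  G_smul := fun _ _ _ _ _ => by simp
  G_mul := fun _ _ _ _ _ _ => by simp
  G_chain := fun _ _ _ _ _ _ _ _ _ => by simp
  G_nonneg := fun _ _ => by simp
  G_bound := fun _ _ _ => by simp
  G_z := fun _ => by simp
  dens := by simp

/-- **FVAR** on compact convex subsets of `CAT(-k²)` spaces. -/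
theorem fvarTarget [SecondCountableTopology X] {k : ℝ} (hk : 0 ≤ k) (C : CATk k X) {K : Set X}
    [CompactSpace K] (hK : C.IsConv K) (m : ℕ) : FVarTarget X k K m := by
  intro T hT
  rcases K.eq_empty_or_nonempty with rfl | hne
  · have hT0 : T = 0 := by
      funext f π
      by_cases h : IsTestPair f π
      · exact hT.int.supp f π h fun x hx => absurd hx (notMem_empty x)
      · exact hT.int.cur.eq_zero_of_not_test f π h
    subst hT0
    refine ⟨zeroData (m + 1) k _, ?_, ?_, fun x => absurd x.2 (notMem_empty _)⟩
    · intro f π _ _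
      simp [zeroData]
    · rw [B10.mass_zero]
      simp [zeroData]
  · have : Nonempty K := hne.to_subtype
    obtain ⟨P, ⟨ch⟩, h1, h2, -⟩ :=
      B5d.exists_fvCharts (CBall.quad C) hT.int.rect hT.int.supp k
    exact ⟨P, h1, h2, fun x f hf hf0 ε hε => B9g.fvar_of_charts hk C hK hT ch h2 x f hf hf0 ε hε⟩

/-- `FVarAll`, unconditional. -/
theorem fvarAll : CBall.FVarAll.{u} := by
  intro X _ _ _ _ k hk C K _ hK m
  exact fvarTarget hk C hK m

end Crest.Agent.R241.B9Final
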