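import Crest.Agent.R241.B9Defs
import Crest.Agent.R241.B8Int

/-!
# R241, block B9: integration against `P.τ` in the charts (helper16, L1 of helper992)

* `ext0 Ψ`: extension by zero of `Ψ : K → ℝ≥0∞`.
* `lintegral_tau`: `∫⁻ Ψ dτ = Σ_i ∫⁻_{E i} |θ_i| √det G_i · Ψ(φ_i z)`.
* `ae_transfer`: `τ`-a.e. properties hold a.e. in the charts (where `θ ≠ 0`).
* `integral_tau`: the Bochner version.
* `chs`: the family of charts as `B8.Chs`, `chs_T`.
-/

set_option autoImplicit false
set_option linter.unusedSectionVars false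

open MeasureTheory Filter Topology Set
open scoped ENNReal NNReal

universe u

namespace Crest.Agent.R241.B9Int

open Crest.GeometryTopology.MetricCurrent
open Crest.GeometryTopology.Submanifold (Euc)
open Crest.Agent.R241.B9

open Classical in
/-- extension by zero. -/
noncomputable def ext0 {X : Type u} {K : Set X} (Ψ : K → ℝ≥0∞) : X → ℝ≥0∞ :=
  fun y => if h : y ∈ K then Ψ ⟨y, h⟩ else 0

open Classical in
/-- extension by zero, real version. -/
noncomputable def extR {X : Type u} {K : Set X} (Ψ : K → ℝ) : X → ℝ :=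
  fun y => if h : y ∈ K then Ψ ⟨y, h⟩ else 0

theorem ext0_of_mem {X : Type u} {K : Set X} (Ψ : K → ℝ≥0∞) {y : X} (h : y ∈ K) :
    ext0 Ψ y = Ψ ⟨y, h⟩ := by rw [ext0, dif_pos h]

theorem ext0_of_notMem {X : Type u} {K : Set X} (Ψ : K → ℝ≥0∞) {y : X} (h : y ∉ K) :
    ext0 Ψ y = 0 := by rw [ext0, dif_neg h]

theorem ext0_val {X : Type u} {K : Set X} (Ψ : K → ℝ≥0∞) (y : K) : ext0 Ψ (y : X) = Ψ y :=
  ext0_of_mem Ψ y.2

theorem extR_of_mem {X : Type u} {K : Set X} (Ψ : K → ℝ) {y : X} (h : y ∈ K) :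
    extR Ψ y = Ψ ⟨y, h⟩ := by rw [extR, dif_pos h]

theorem extR_of_notMem {X : Type u} {K : Set X} (Ψ : K → ℝ) {y : X} (h : y ∉ K) :
    extR Ψ y = 0 := by rw [extR, dif_neg h]

theorem extR_val {X : Type u} {K : Set X} (Ψ : K → ℝ) (y : K) : extR Ψ (y : X) = Ψ y :=
  extR_of_mem Ψ y.2

theorem ofReal_extR {X : Type u} {K : Set X} (Ψ : K → ℝ) (y : X) :
    ENNReal.ofReal (extR Ψ y) = ext0 (fun y => ENNReal.ofReal (Ψ y)) y := by
  by_cases h : y ∈ K
  · rw [extR_of_mem _ h, ext0_of_mem _ h]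
  · rw [extR_of_notMem _ h, ext0_of_notMem _ h, ENNReal.ofReal_zero]

section
variable {X : Type u} [MetricSpace X] [MeasurableSpace X] [BorelSpace X] {k : ℝ}
  {K : Set X} [CompactSpace K] {m : ℕ} {T : Functional X (m + 1)}
  {P : A.PreData (m + 1) k K}

theorem isCompact_K (K : Set X) [CompactSpace K] : IsCompact K :=
  isCompact_iff_compactSpace.2 inferInstance

theorem measurableSet_K (K : Set X) [CompactSpace K] : MeasurableSet K :=
  (isCompact_K K).isClosed.measurableSet

theorem measurableEmbedding_val (K : Set X) [CompactSpace K] :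
    MeasurableEmbedding (Subtype.val : K → X) :=
  MeasurableEmbedding.subtype_coe (measurableSet_K K)

/-- the density in the `i`-th chart -/
noncomputable def dens (ch : FVCharts T P) (i : ℕ) (z : Euc (m + 1)) : ℝ≥0∞ :=
  ENNReal.ofReal (|(ch.θ i z : ℝ)| * √(ch.G i z).det)

theorem aemeasurable_dens (ch : FVCharts T P) (i : ℕ) :
    AEMeasurable (dens ch i) (volume.restrict (ch.E i)) :=
  (ch.intG i).aestronglyMeasurable.aemeasurable.ennreal_ofReal

theorem aemeasurable_φ (ch : FVCharts T P) (i : ℕ) :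
    AEMeasurable (ch.φ i) (volume.restrict (ch.E i)) := by
  obtain ⟨L, hL⟩ := ch.lipφ i
  exact hL.continuousOn.aemeasurable (ch.measE i)

theorem aemeasurable_φ' (ch : FVCharts T P) (i : ℕ) :
    AEMeasurable (ch.φ i) ((volume.restrict (ch.E i)).withDensity (dens ch i)) :=
  (aemeasurable_φ ch i).mono_ac (withDensity_absolutelyContinuous _ _)

theorem aemeasurable_ext0 (ch : FVCharts T P) {Ψ : K → ℝ≥0∞} (hΨ : AEMeasurable Ψ P.τ) (i : ℕ) :
    AEMeasurable (ext0 Ψ)
      (((volume.restrict (ch.E i)).withDensity (dens ch i)).map (ch.φ i)) := by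
  have h1 : AEMeasurable (ext0 Ψ) (P.τ.map (Subtype.val : K → X)) := by
    rw [(measurableEmbedding_val K).aemeasurable_map_iff]
    refine hΨ.congr (Eventually.of_forall fun y => ?_)
    exact (ext0_val Ψ y).symm
  rw [ch.tau_eq] at h1
  exact h1.mono_measure (Measure.le_sum (fun i => ((volume.restrict (ch.E i)).withDensity
      fun z => ENNReal.ofReal (|(ch.θ i z : ℝ)| * √(ch.G i z).det)).map (ch.φ i)) i)

theorem lintegral_tau (ch : FVCharts T P) {Ψ : K → ℝ≥0∞} (hΨ : AEMeasurable Ψ P.τ) :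
    ∫⁻ y, Ψ y ∂P.τ = ∑' i, ∫⁻ z in ch.E i,
      ENNReal.ofReal (|(ch.θ i z : ℝ)| * √(ch.G i z).det) * ext0 Ψ (ch.φ i z) := by
  have h0 : ∫⁻ y, Ψ y ∂P.τ = ∫⁻ y, ext0 Ψ y ∂(P.τ.map (Subtype.val : K → X)) := by
    rw [(measurableEmbedding_val K).lintegral_map]
    exact lintegral_congr fun y => (ext0_val Ψ y).symm
  rw [h0, ch.tau_eq, lintegral_sum_measure]
  refine tsum_congr fun i => ?_
  have h1 := aemeasurable_ext0 ch hΨ i
  have h2 := aemeasurable_φ' ch i
  change ∫⁻ y, ext0 Ψ y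
    ∂(((volume.restrict (ch.E i)).withDensity (dens ch i)).map (ch.φ i)) = _
  rw [lintegral_map' h1 h2]
  exact lintegral_withDensity_eq_lintegral_mul₀' (aemeasurable_dens ch i)
    (h1.comp_aemeasurable h2)

/-- `τ`-a.e. properties hold in the charts, where the density does not vanish. -/
theorem ae_transfer (ch : FVCharts T P) {p : K → Prop} (hp : ∀ᵐ y ∂P.τ, p y) (i : ℕ) :
    ∀ᵐ z ∂(volume.restrict (ch.E i)), ch.θ i z ≠ 0 → ∀ hz : ch.φ i z ∈ K,
      p ⟨ch.φ i z, hz⟩ := by
  obtain ⟨t, hst, htm, ht0⟩ := exists_measurable_superset_of_null (ae_iff.1 hp)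
  set Ψ : K → ℝ≥0∞ := t.indicator (fun _ => 1) with hΨdef
  have hΨm : Measurable Ψ := measurable_const.indicator htm
  have h1 := lintegral_tau ch hΨm.aemeasurable
  have h2 : ∫⁻ y, Ψ y ∂P.τ = 0 := by
    rw [hΨdef, lintegral_indicator htm]
    simp [ht0]
  rw [h2] at h1
  have h3 : ∫⁻ z in ch.E i,
      ENNReal.ofReal (|(ch.θ i z : ℝ)| * √(ch.G i z).det) * ext0 Ψ (ch.φ i z) = 0 :=
    ENNReal.tsum_eq_zero.1 h1.symm i
  have hm : Measurable (ext0 Ψ) := by
    have : ext0 Ψ = Function.extend (Subtype.val : K → X) Ψ (fun _ => 0) := by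
      funext y
      by_cases hy : y ∈ K
      · rw [ext0_of_mem _ hy]
        exact (Subtype.val_injective.extend_apply Ψ (fun _ => 0) ⟨y, hy⟩).symm
      · rw [ext0_of_notMem _ hy, Function.extend_apply']
        rintro ⟨z, rfl⟩
        exact hy z.2
    rw [this]
    exact (measurableEmbedding_val K).measurable_extend hΨm measurable_const
  have h4 : AEMeasurable (fun z => ENNReal.ofReal (|(ch.θ i z : ℝ)| * √(ch.G i z).det) *
      ext0 Ψ (ch.φ i z)) (volume.restrict (ch.E i)) :=
    (aemeasurable_dens ch i).mul (hm.comp_aemeasurable (aemeasurable_φ ch i))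
  rw [lintegral_eq_zero_iff' h4] at h3
  filter_upwards [h3, ch.det_ne i] with z hz hdet hθ hzK
  have hpos : 0 < |(ch.θ i z : ℝ)| * √(ch.G i z).det := by
    have h5 : 0 < |(ch.θ i z : ℝ)| := abs_pos.2 (by exact_mod_cast hθ)
    have h6 : 0 < (ch.G i z).det := lt_of_le_of_ne (ch.psd i z).det_nonneg (Ne.symm hdet)
    positivity
  have h7 : ext0 Ψ (ch.φ i z) = 0 := by
    rcases mul_eq_zero.1 hz with h | h
    · exact absurd h (ENNReal.ofReal_pos.2 hpos).ne'
    · exact h
  by_contra hcon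
  have h8 : (⟨ch.φ i z, hzK⟩ : K) ∈ t := hst hcon
  rw [ext0_of_mem _ hzK, hΨdef, indicator_of_mem h8] at h7
  exact one_ne_zero h7

/-- the form of helper992 -/
theorem transfer (ch : FVCharts T P) {p : K → Prop} (hp : ∀ᵐ y ∂P.τ, p y) (i : ℕ) :
    ∀ᵐ z ∂(volume.restrict (ch.E i)), ch.θ i z ≠ 0 → (ch.G i z).det ≠ 0 →
      ∀ hz : ch.φ i z ∈ K, p ⟨ch.φ i z, hz⟩ := by
  filter_upwards [ae_transfer ch hp i] with z hz h1 _ h2
  exact hz h1 h2

/-- the chart form with membership discharged. -/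
theorem ae_transfer' (ch : FVCharts T P) {p : K → Prop} (hp : ∀ᵐ y ∂P.τ, p y) (i : ℕ) :
    ∀ᵐ z ∂(volume.restrict (ch.E i)), ch.θ i z ≠ 0 → ∃ hz : ch.φ i z ∈ K,
      p ⟨ch.φ i z, hz⟩ := by
  filter_upwards [ae_transfer ch hp i, ae_restrict_mem (ch.measE i)] with z hz hE h1
  exact ⟨ch.mapsK i hE, hz h1 _⟩

/-- total mass -/
theorem tau_univ (ch : FVCharts T P) : P.τ univ = ∑' i, ∫⁻ z in ch.E i,
      ENNReal.ofReal (|(ch.θ i z : ℝ)| * √(ch.G i z).det) := by
  have h := lintegral_tau ch (Ψ := fun _ => 1) measurable_const.aemeasurable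
  rw [lintegral_one] at h
  rw [h]
  refine tsum_congr fun i => ?_
  refine lintegral_congr_ae ?_
  filter_upwards [ae_restrict_mem (ch.measE i)] with z hE
  rw [ext0_of_mem _ (ch.mapsK i hE), mul_one]

theorem integrable_chart (ch : FVCharts T P) {f : K → ℝ} (hf : Integrable f P.τ) (i : ℕ) :
    Integrable (fun z => |(ch.θ i z : ℝ)| * √(ch.G i z).det * extR f (ch.φ i z))
      (volume.restrict (ch.E i)) := by
  have h1 : Integrable (extR f) (P.τ.map (Subtype.val : K → X)) := by
    rw [(measurableEmbedding_val K).integrable_map_iff]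
    exact hf.congr (Eventually.of_forall fun y => (extR_val f y).symm)
  rw [ch.tau_eq] at h1
  have h2 : Integrable (extR f)
      (((volume.restrict (ch.E i)).withDensity (dens ch i)).map (ch.φ i)) :=
    h1.mono_measure (Measure.le_sum (fun i => ((volume.restrict (ch.E i)).withDensity
      fun z => ENNReal.ofReal (|(ch.θ i z : ℝ)| * √(ch.G i z).det)).map (ch.φ i)) i)
  have h3 := (integrable_map_measure h2.aestronglyMeasurable (aemeasurable_φ' ch i)).1 h2
  have hfin : ∀ᵐ z ∂(volume.restrict (ch.E i)), dens ch i z < ⊤ :=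
    Eventually.of_forall fun z => ENNReal.ofReal_lt_top
  rw [integrable_withDensity_iff_integrable_smul₀' (aemeasurable_dens ch i) hfin] at h3
  refine h3.congr (Eventually.of_forall fun z => ?_)
  have h0 : 0 ≤ |(ch.θ i z : ℝ)| * √(ch.G i z).det := by positivity
  simp only [Function.comp, dens, smul_eq_mul, ENNReal.toReal_ofReal h0]

/-- Bochner version -/
theorem hasSum_integral_tau (ch : FVCharts T P) {f : K → ℝ} (hf : Integrable f P.τ) :
    HasSum (fun i => ∫ z in ch.E i, |(ch.θ i z : ℝ)| * √(ch.G i z).det * extR f (ch.φ i z))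
      (∫ y, f y ∂P.τ) := by
  have h1 : Integrable (extR f) (P.τ.map (Subtype.val : K → X)) := by
    rw [(measurableEmbedding_val K).integrable_map_iff]
    exact hf.congr (Eventually.of_forall fun y => (extR_val f y).symm)
  have h0 : ∫ y, f y ∂P.τ = ∫ y, extR f y ∂(P.τ.map (Subtype.val : K → X)) := by
    rw [(measurableEmbedding_val K).integral_map]
    exact integral_congr_ae (Eventually.of_forall fun y => (extR_val f y).symm)
  rw [h0]
  rw [ch.tau_eq] at h1 ⊢
  have h4 := hasSum_integral_measure h1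
  refine h4.congr_fun fun i => ?_
  have h2 : Integrable (extR f)
      (((volume.restrict (ch.E i)).withDensity (dens ch i)).map (ch.φ i)) :=
    h1.mono_measure (Measure.le_sum (fun i => ((volume.restrict (ch.E i)).withDensity
      fun z => ENNReal.ofReal (|(ch.θ i z : ℝ)| * √(ch.G i z).det)).map (ch.φ i)) i)
  have hfin : ∀ᵐ z ∂(volume.restrict (ch.E i)), dens ch i z < ⊤ :=
    Eventually.of_forall fun z => ENNReal.ofReal_lt_top
  change ∫ z in ch.E i, _ = ∫ y, extR f y
    ∂(((volume.restrict (ch.E i)).withDensity (dens ch i)).map (ch.φ i))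
  rw [integral_map (aemeasurable_φ' ch i) h2.aestronglyMeasurable,
    integral_withDensity_eq_integral_toReal_smul₀ (aemeasurable_dens ch i) hfin]
  refine integral_congr_ae (Eventually.of_forall fun z => ?_)
  have h0 : 0 ≤ |(ch.θ i z : ℝ)| * √(ch.G i z).det := by positivity
  simp only [dens, smul_eq_mul, ENNReal.toReal_ofReal h0]

/-! ### the family of charts as `B8.Chs` -/

/-- the controlling measure of the `i`-th chart -/
noncomputable def cμ (ch : FVCharts T P) (i : ℕ) : Measure X :=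
  ((volume.restrict (ch.E i)).withDensity
      fun z => ENNReal.ofReal (|(ch.θ i z : ℝ)| * √(ch.G i z).det)).map (ch.φ i)

theorem cμ_univ (ch : FVCharts T P) (i : ℕ) :
    cμ ch i univ = ∫⁻ z in ch.E i, ENNReal.ofReal (|(ch.θ i z : ℝ)| * √(ch.G i z).det) := by
  change (((volume.restrict (ch.E i)).withDensity (dens ch i)).map (ch.φ i)) univ = _
  rw [Measure.map_apply_of_aemeasurable (aemeasurable_φ' ch i) MeasurableSet.univ,
    preimage_univ, withDensity_apply _ MeasurableSet.univ, Measure.restrict_univ]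
  rfl

theorem cμ_univ' (ch : FVCharts T P) (i : ℕ) :
    cμ ch i univ = ENNReal.ofReal (∫ z in ch.E i, |(ch.θ i z : ℝ)| * √(ch.G i z).det) := by
  rw [cμ_univ, ofReal_integral_eq_lintegral_ofReal (ch.intG i)
    (Eventually.of_forall fun z => by positivity)]

/-- the charts of `FVCharts` as a `Chs` -/
noncomputable def chs (ch : FVCharts T P)
    (hctrl : ∀ i, Controls (chartAction (ch.E i) (ch.φ i) (ch.θ i)) (cμ ch i)) :
    B8.Chs (m + 1) X where
  E := ch.E
  φ := ch.φ
  θ := ch.θ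
  L i := (ch.lipφ i).choose
  μ := cμ ch
  measE := ch.measE
  lip i := (ch.lipφ i).choose_spec
  int := ch.intθ
  cur i := B1Cur.isCurrent_chartAction (ch.measE i) (ch.lipφ i).choose_spec (ch.intθ i)
  fin i := ⟨by rw [cμ_univ']; exact ENNReal.ofReal_lt_top⟩
  ctrl := hctrl
  summ := by
    refine ch.summ.congr fun i => ?_
    rw [cμ_univ', ENNReal.toReal_ofReal (integral_nonneg fun z => by positivity)]

@[simp] theorem chs_E (ch : FVCharts T P) (h) : (chs ch h).E = ch.E := rfl
@[simp] theorem chs_φ (ch : FVCharts T P) (h) : (chs ch h).φ = ch.φ := rfl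
@[simp] theorem chs_θ (ch : FVCharts T P) (h) : (chs ch h).θ = ch.θ := rfl
@[simp] theorem chs_μ (ch : FVCharts T P) (h) : (chs ch h).μ = cμ ch := rfl

theorem chs_T (ch : FVCharts T P)
    (h : ∀ i, Controls (chartAction (ch.E i) (ch.φ i) (ch.θ i)) (cμ ch i))
    (hT : IsCurrent T) : (chs ch h).T = T := by
  funext f π
  by_cases ht : IsTestPair f π
  · exact (ch.act f π ht).tsum_eq
  · rw [hT.eq_zero_of_not_test f π ht]
    exact (B8.Chs.isCurrent_T (chs ch h)).eq_zero_of_not_test f π ht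

theorem mapsTo_chs (ch : FVCharts T P) (h) (i : ℕ) :
    MapsTo ((chs ch h).φ i) ((chs ch h).E i) K := ch.mapsK i

end

end Crest.Agent.R241.B9Int
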