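import Crest.Agent.R241.B9Int
import Crest.Agent.R241.B5u

/-!
# R241, block B9: `chs` without hypothesis (helper16)
-/

set_option autoImplicit false
set_option linter.unusedSectionVars false

open MeasureTheory Filter Topology Set
open scoped ENNReal NNReal

universe u

namespace Crest.Agent.R241.B9Int

open Crest.GeometryTopology.MetricCurrent
open Crest.GeometryTopology.Submanifold (Euc)
open Crest.Agent.R241.B9

variable {X : Type u} [MetricSpace X] [MeasurableSpace X] [BorelSpace X] {k : ℝ}
  {K : Set X} [CompactSpace K] {m : ℕ} {T : Functional X (m + 1)}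
  {P : A.PreData (m + 1) k K}

theorem controls_chart (ch : FVCharts T P) (i : ℕ) :
    Controls (chartAction (ch.E i) (ch.φ i) (ch.θ i)) (cμ ch i) := by
  obtain ⟨L, hL⟩ := ch.lipφ i
  exact B5u.controls_chartAction_det (ch.measE i) hL (ch.intθ i)
    (Eventually.of_forall fun z => ch.psd i z) (ch.md i) (ch.intG i)

/-- **the charts of `FVCharts` as a `Chs`**, no hypotheses. -/
noncomputable def chs' (ch : FVCharts T P) : B8.Chs (m + 1) X := chs ch (controls_chart ch)

@[simp] theorem chs'_E (ch : FVCharts T P) : (chs' ch).E = ch.E := rfl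
@[simp] theorem chs'_φ (ch : FVCharts T P) : (chs' ch).φ = ch.φ := rfl
@[simp] theorem chs'_θ (ch : FVCharts T P) : (chs' ch).θ = ch.θ := rfl
@[simp] theorem chs'_μ (ch : FVCharts T P) : (chs' ch).μ = cμ ch := rfl

theorem chs'_T (ch : FVCharts T P) (hT : IsCurrent T) : (chs' ch).T = T := chs_T ch _ hT

theorem mapsTo_chs' (ch : FVCharts T P) (i : ℕ) :
    MapsTo ((chs' ch).φ i) ((chs' ch).E i) K := ch.mapsK i

theorem ub_chs' (ch : FVCharts T P) (i : ℕ) : ∀ᵐ z ∂(volume.restrict ((chs' ch).E i)),
    UB ((chs' ch).E i) ((chs' ch).φ i) z (qf (ch.G i z)) := ch.md i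

theorem lintegral_dens_ne_top (ch : FVCharts T P) (i : ℕ) : ∫⁻ z in ch.E i,
      ENNReal.ofReal (|(ch.θ i z : ℝ)| * √(ch.G i z).det) ≠ ⊤ := by
  rw [← cμ_univ, cμ_univ']
  exact ENNReal.ofReal_ne_top

/-- total mass, real version -/
theorem hasSum_tau_real_univ (ch : FVCharts T P) :
    HasSum (fun i => ∫ z in ch.E i, |(ch.θ i z : ℝ)| * √(ch.G i z).det) (P.τ.real univ) := by
  haveI := P.fin
  have h := hasSum_integral_tau ch (f := fun _ => (1 : ℝ)) (integrable_const _)
  simp only [integral_const, smul_eq_mul, mul_one] at h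
  refine h.congr_fun fun i => ?_
  refine integral_congr_ae ?_
  filter_upwards [ae_restrict_mem (ch.measE i)] with z hE
  rw [extR_of_mem _ (ch.mapsK i hE), mul_one]

theorem tau_real_univ (ch : FVCharts T P) :
    P.τ.real univ = ∑' i, ∫ z in ch.E i, |(ch.θ i z : ℝ)| * √(ch.G i z).det :=
  (hasSum_tau_real_univ ch).tsum_eq.symm

/-- the mass of `T` is at most the total mass of `τ`. -/
theorem mass_le (ch : FVCharts T P) : mass T ≤ P.τ.real univ := by
  haveI := P.fin
  have h := B5u.controls_of_fvCharts ch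
  have hfin : IsFiniteMeasure (P.τ.map (Subtype.val : K → X)) := by infer_instance
  refine csInf_le ⟨0, ?_⟩ ⟨P.τ.map (Subtype.val : K → X), hfin, h, ?_⟩
  · rintro r ⟨μ, _, _, rfl⟩
    exact ENNReal.toReal_nonneg
  · rw [Measure.map_apply measurable_subtype_coe MeasurableSet.univ, preimage_univ]
    rfl

end Crest.Agent.R241.B9Int
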