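import Crest.Agent.R241.B8Int
import Crest.Agent.R241.B5u

/-!
# R241, block B9 (L2): the mass of a swept functional is at most the integral of upper Jacobians
(helper675)
-/

set_option autoImplicit false
set_option linter.unusedSectionVars false

open MeasureTheory Filter Topology Set
open scoped ENNReal NNReal
open Matrix

universe u v

namespace Crest.Agent.R241.B9Mass

open Crest.GeometryTopology.MetricCurrent
open Crest.GeometryTopology.Submanifold (Euc)
open B8Fubini B8 B8.Chs B9 B8Abs G1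

variable {X : Type u} [MetricSpace X] [MeasurableSpace X] [BorelSpace X]
variable {Y : Type v} [MetricSpace Y] [MeasurableSpace Y] [BorelSpace Y] {k : ℕ}

/-- the sum of the masses of a series of currents, in `ℝ≥0∞` form. -/
theorem ofReal_mass_le_tsum {T : ℕ → Functional Y k} {S : Functional Y k}
    (hT : ∀ i, IsCurrent (T i)) {a : ℕ → ℝ≥0∞}
    (hm : ∀ i, a i ≠ ∞ → mass (T i) ≤ (a i).toReal)
    (hS : ∀ f π, IsTestPair f π → HasSum (fun i => T i f π) (S f π)) :
    ENNReal.ofReal (mass S) ≤ ∑' i, a i := by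
  by_cases htop : ∑' i, a i = ∞
  · rw [htop]; exact le_top
  have hfin : ∀ i, a i ≠ ∞ := fun i => ENNReal.ne_top_of_tsum_ne_top htop i
  have hsum : Summable fun i => (a i).toReal := ENNReal.summable_toReal htop
  have h1 := B10.mass_le_of_hasSum hT hsum (fun i => hm i (hfin i)) hS
  calc ENNReal.ofReal (mass S) ≤ ENNReal.ofReal (∑' i, (a i).toReal) :=
        ENNReal.ofReal_le_ofReal h1
    _ = ∑' i, ENNReal.ofReal (a i).toReal :=
        ENNReal.ofReal_tsum_of_nonneg (fun i => ENNReal.toReal_nonneg) hsum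
    _ = ∑' i, a i := tsum_congr fun i => ENNReal.ofReal_toReal (hfin i)

/-- one chart, in `ℝ≥0∞` form. -/
theorem mass_chartAction_le_toReal {E : Set (Euc k)} {φ : Euc k → X} {θ : Euc k → ℤ} {L : ℝ≥0}
    (hE : MeasurableSet E) (hφ : LipschitzOnWith L φ E)
    (hθ : IntegrableOn (fun z => (θ z : ℝ)) E) {J : Euc k → ℝ}
    (hJm : AEStronglyMeasurable J (volume.restrict E)) (hJ0 : ∀ᵐ z ∂(volume.restrict E), 0 ≤ J z)
    (hJ : ∀ᵐ z ∂(volume.restrict E), ∃ q : Euc k → ℝ, B5u.Good E φ z (J z) q)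
    (hfin : ∫⁻ z in E, ENNReal.ofReal (|(θ z : ℝ)| * J z) ≠ ∞) :
    mass (chartAction E φ θ) ≤ (∫⁻ z in E, ENNReal.ofReal (|(θ z : ℝ)| * J z)).toReal := by
  have hnn : ∀ᵐ z ∂(volume.restrict E), 0 ≤ |(θ z : ℝ)| * J z := by
    filter_upwards [hJ0] with z hz using mul_nonneg (abs_nonneg _) hz
  have hm : AEStronglyMeasurable (fun z => |(θ z : ℝ)| * J z) (volume.restrict E) := by
    have h1 : AEStronglyMeasurable (fun z => |(θ z : ℝ)|) (volume.restrict E) := by
      simpa [Real.norm_eq_abs] using hθ.aestronglyMeasurable.norm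
    exact h1.mul hJm
  have hint : IntegrableOn (fun z => |(θ z : ℝ)| * J z) E :=
    (lintegral_ofReal_ne_top_iff_integrable hm hnn).1 hfin
  have h2 := B5u.mass_chartAction_le hE hφ hθ hint hJ0 hJ
  rwa [integral_eq_lintegral_of_nonneg_ae hnn hm] at h2

/-- **(L2)** mass of the swept functional. -/
theorem mass_R_le [SecondCountableTopology X] (c : Chs k X) {H : ℝ → X → Y} {C : ℝ≥0}
    (hH : HLip C H) {J : ℕ → Euc (k + 1) → ℝ} (hJm : ∀ i, Measurable (J i))
    (hJ0 : ∀ i w, 0 ≤ J i w)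
    (hJ : ∀ i, ∀ᵐ w ∂(volume.restrict (prodSet (c.E i))), ∃ q : Euc (k + 1) → ℝ,
      B5u.Good (prodSet (c.E i)) (fun w => H (w 0) (c.φ i (tl w))) w (J i w) q) :
    ENNReal.ofReal (mass (c.R H)) ≤
      ∑' i, ∫⁻ w in prodSet (c.E i), ENNReal.ofReal (|(c.θ i (tl w) : ℝ)| * J i w) := by
  refine ofReal_mass_le_tsum (c.isCurrent_piece hH) (fun i hi => ?_)
    (fun f π hf => c.hasSum_R hH hf)
  exact mass_chartAction_le_toReal (measurableSet_prodSet (c.measE i)) (c.lipschitz_piece hH i)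
    (c.integrable_piece i) (hJm i).aestronglyMeasurable (Eventually.of_forall (hJ0 i)) (hJ i) hi

/-- **(L2)** with the hypothesis in helper992's form (the form `q` continuous and
2-homogeneous). -/
theorem mass_R_le' [SecondCountableTopology X] (c : Chs k X) {H : ℝ → X → Y} {C : ℝ≥0}
    (hH : HLip C H) {J : ℕ → Euc (k + 1) → ℝ} (hJm : ∀ i, Measurable (J i))
    (hJ0 : ∀ i w, 0 ≤ J i w)
    (hJ : ∀ i, ∀ᵐ w ∂(volume.restrict (prodSet (c.E i))), ∃ q : Euc (k + 1) → ℝ,
      Continuous q ∧ (∀ (t : ℝ) v, q (t • v) = t ^ 2 * q v) ∧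
      UB (prodSet (c.E i)) (fun w => H (w 0) (c.φ i (tl w))) w q ∧
      ∀ R : Matrix (Fin (k + 1)) (Fin (k + 1)) ℝ,
        (∀ (a : Fin (k + 1)) (v : Fin (k + 1) → ℝ), (R a ⬝ᵥ v) ^ 2 ≤ q (WithLp.toLp 2 v)) →
          |R.det| ≤ J i w) :
    ENNReal.ofReal (mass (c.R H)) ≤
      ∑' i, ∫⁻ w in prodSet (c.E i), ENNReal.ofReal (|(c.θ i (tl w) : ℝ)| * J i w) := by
  refine mass_R_le c hH hJm hJ0 fun i => ?_
  filter_upwards [hJ i] with w ⟨q, h1, h2, h3, h4⟩
  exact ⟨q, h1, h2, h3, h4⟩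

/-- mass of the current `c.T` itself (used for sanity and for (L3)). -/
theorem mass_T_le (c : Chs k X) {J : ℕ → Euc k → ℝ} (hJm : ∀ i, Measurable (J i))
    (hJ0 : ∀ i w, 0 ≤ J i w)
    (hJ : ∀ i, ∀ᵐ w ∂(volume.restrict (c.E i)), ∃ q : Euc k → ℝ,
      B5u.Good (c.E i) (c.φ i) w (J i w) q) :
    ENNReal.ofReal (mass c.T) ≤
      ∑' i, ∫⁻ z in c.E i, ENNReal.ofReal (|(c.θ i z : ℝ)| * J i z) := by
  refine ofReal_mass_le_tsum c.cur (fun i hi => ?_) (fun f π hf => ?_)
  · exact mass_chartAction_le_toReal (c.measE i) (c.lip i) (c.int i)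
      (hJm i).aestronglyMeasurable (Eventually.of_forall (hJ0 i)) (hJ i) hi
  · obtain ⟨h1, h2⟩ := isTestPair_iff.1 hf
    exact (c.summable_chart h1 h2).hasSum

/-- **(L3)** mass of the push-forward of `c.T` under a Lipschitz map. -/
theorem mass_push_le (c : Chs k X) {ψ : X → Y} {L : ℝ≥0} (hψ : LipschitzWith L ψ)
    {J : ℕ → Euc k → ℝ} (hJm : ∀ i, Measurable (J i)) (hJ0 : ∀ i w, 0 ≤ J i w)
    (hJ : ∀ i, ∀ᵐ w ∂(volume.restrict (c.E i)), ∃ q : Euc k → ℝ,
      B5u.Good (c.E i) (fun z => ψ (c.φ i z)) w (J i w) q) :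
    ENNReal.ofReal (mass (B1c1.push ψ c.T)) ≤
      ∑' i, ∫⁻ z in c.E i, ENNReal.ofReal (|(c.θ i z : ℝ)| * J i z) := by
  have hlip : ∀ i, LipschitzOnWith (L * c.L i) (fun z => ψ (c.φ i z)) (c.E i) := fun i =>
    (hψ.lipschitzOnWith (s := univ)).comp (c.lip i) (mapsTo_univ _ _)
  refine ofReal_mass_le_tsum (T := fun i => chartAction (c.E i) (fun z => ψ (c.φ i z)) (c.θ i))
    (fun i => B1Cur.isCurrent_chartAction (c.measE i) (hlip i) (c.int i)) (fun i hi => ?_)
    (fun f π hf => ?_)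
  · exact mass_chartAction_le_toReal (c.measE i) (hlip i) (c.int i)
      (hJm i).aestronglyMeasurable (Eventually.of_forall (hJ0 i)) (hJ i) hi
  · have hf' := B1c1.isTestPair_comp hψ hf
    obtain ⟨h1, h2⟩ := isTestPair_iff.1 hf'
    have h3 := (c.summable_chart h1 h2).hasSum
    rw [B1c1.push_apply hf]
    have e : (fun i => chartAction (c.E i) (fun z => ψ (c.φ i z)) (c.θ i) f π)
        = fun i => chartAction (c.E i) (c.φ i) (c.θ i) (fun x => f (ψ x))
          (fun j x => π j (ψ x)) := by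
      funext i
      simp only [chartAction, if_pos hf, if_pos hf']
    rw [e]
    exact h3

end Crest.Agent.R241.B9Mass
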