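import Crest.Agent.R241.B5u
import Crest.Agent.R241.B8Int
import Crest.Agent.R241.B10Mass

/-!
# R241, block B9, lemma L3: mass of a push-forward by the upper mass lemma (owner: helper534)
-/

set_option autoImplicit false
set_option linter.unusedSectionVars false

open MeasureTheory Filter Topology Set
open scoped ENNReal NNReal

universe u v

namespace Crest.Agent.R241.B9Mass2

open Crest.GeometryTopology.MetricCurrent
open Crest.GeometryTopology.Submanifold (Euc)
open Crest.Agent.R241.B9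
open Crest.Agent.R241.B5u
open Crest.Agent.R241.B1c1 (push push_apply isTestPair_comp)
open Matrix

variable {X : Type u} [MetricSpace X] [MeasurableSpace X] [BorelSpace X]
variable {Y : Type v} [MetricSpace Y] [MeasurableSpace Y] [BorelSpace Y]
variable {k : ℕ}

/-- A functional which is the sum of Lipschitz chart actions with pointwise Jacobian bounds `J i`
has mass at most `∑ ∫ |θ| J`. -/
theorem ofReal_mass_le {ι : Type*} [Countable ι] {T : Functional Y k} {E : ι → Set (Euc k)}
    {φ : ι → Euc k → Y} {θ : ι → Euc k → ℤ} {J : ι → Euc k → ℝ}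
    (hE : ∀ i, MeasurableSet (E i)) (hφ : ∀ i, ∃ L : ℝ≥0, LipschitzOnWith L (φ i) (E i))
    (hθ : ∀ i, Integrable (fun z => (θ i z : ℝ)) (volume.restrict (E i)))
    (hJm : ∀ i, AEMeasurable (J i) (volume.restrict (E i)))
    (hJ : ∀ i, ∀ᵐ z ∂(volume.restrict (E i)), ∃ q : Euc k → ℝ, Good (E i) (φ i) z (J i z) q)
    (hT : ∀ f π, IsTestPair f π →
      HasSum (fun i => chartAction (E i) (φ i) (θ i) f π) (T f π)) :
    ENNReal.ofReal (mass T) ≤
      ∑' i, ∫⁻ z, ENNReal.ofReal (|(θ i z : ℝ)| * J i z) ∂(volume.restrict (E i)) := by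
  by_cases hfin : ∑' i, ∫⁻ z, ENNReal.ofReal (|(θ i z : ℝ)| * J i z) ∂(volume.restrict (E i)) = ⊤
  · rw [hfin]; exact le_top
  have hi : ∀ i, ∫⁻ z, ENNReal.ofReal (|(θ i z : ℝ)| * J i z) ∂(volume.restrict (E i)) ≠ ⊤ :=
    ENNReal.ne_top_of_tsum_ne_top hfin
  -- nonnegativity of `J` and integrability
  have hJ0 : ∀ i, ∀ᵐ z ∂(volume.restrict (E i)), 0 ≤ J i z := fun i => by
    obtain ⟨L, hL⟩ := hφ i
    have h1 := ae_abs_jac_le_of_good (hE i) hL (hJ i) (π := fun _ _ => (0 : ℝ))
      (fun _ => (LipschitzWith.const (0 : ℝ)).weaken (by simp))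
    exact h1.mono fun z hz => (abs_nonneg _).trans hz
  have hJi : ∀ i, IntegrableOn (fun z => |(θ i z : ℝ)| * J i z) (E i) := fun i => by
    have hm : AEMeasurable (fun z => |(θ i z : ℝ)| * J i z) (volume.restrict (E i)) :=
      (hθ i).aemeasurable.abs.mul (hJm i)
    have h0 : ∀ᵐ z ∂(volume.restrict (E i)), 0 ≤ |(θ i z : ℝ)| * J i z := by
      filter_upwards [hJ0 i] with z hz using mul_nonneg (abs_nonneg _) hz
    exact (lintegral_ofReal_ne_top_iff_integrable hm.aestronglyMeasurable h0).1 (hi i)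
  have hμf : ∀ i, IsFiniteMeasure (muJ (E i) (φ i) (fun z => (θ i z : ℝ)) (J i)) := fun i =>
    isFiniteMeasure_muJ (hJi i)
  have hctrl : ∀ i, Controls (chartAction (E i) (φ i) (θ i))
      (muJ (E i) (φ i) (fun z => (θ i z : ℝ)) (J i)) := fun i => by
    obtain ⟨L, hL⟩ := hφ i
    exact controls_chartAction (hE i) hL (hθ i) (hJi i) (hJ i)
  have hle : ∀ i, muJ (E i) (φ i) (fun z => (θ i z : ℝ)) (J i) univ =
      ∫⁻ z, ENNReal.ofReal (|(θ i z : ℝ)| * J i z) ∂(volume.restrict (E i)) := fun i => by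
    obtain ⟨L, hL⟩ := hφ i
    have hm : AEMeasurable (φ i) ((volume.restrict (E i)).withDensity
        fun z => ENNReal.ofReal (|(θ i z : ℝ)| * J i z)) :=
      (B1Cur.aemeasurable_phi (hE i) hL).mono_ac (withDensity_absolutelyContinuous _ _)
    unfold muJ
    rw [Measure.map_apply_of_aemeasurable hm MeasurableSet.univ, preimage_univ,
      withDensity_apply _ MeasurableSet.univ, Measure.restrict_univ]
  have hsum : Summable fun i => (muJ (E i) (φ i) (fun z => (θ i z : ℝ)) (J i)).real univ := by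
    unfold Measure.real
    simp_rw [hle]
    exact ENNReal.summable_toReal hfin
  have hC := controls_hasSum (T := T) hsum hctrl hT
  have hfm : IsFiniteMeasure (Measure.sum fun i =>
      muJ (E i) (φ i) (fun z => (θ i z : ℝ)) (J i)) := by
    constructor
    rw [Measure.sum_apply _ MeasurableSet.univ]
    simp_rw [hle]
    exact lt_top_iff_ne_top.2 hfin
  have h2 := B10.mass_le hC
  calc ENNReal.ofReal (mass T) ≤ ENNReal.ofReal ((Measure.sum fun i =>
      muJ (E i) (φ i) (fun z => (θ i z : ℝ)) (J i)) univ).toReal := ENNReal.ofReal_le_ofReal h2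
    _ = (Measure.sum fun i => muJ (E i) (φ i) (fun z => (θ i z : ℝ)) (J i)) univ :=
        ENNReal.ofReal_toReal (measure_ne_top _ _)
    _ = _ := by
        rw [Measure.sum_apply _ MeasurableSet.univ]
        simp_rw [hle]

/-- **L3**: mass of the push-forward of `c.T`. -/
theorem ofReal_mass_push_le (c : B8.Chs k X) {ψ : X → Y} {L : ℝ≥0} (hψ : LipschitzWith L ψ)
    {J : ℕ → Euc k → ℝ} (hJm : ∀ i, AEMeasurable (J i) (volume.restrict (c.E i)))
    (hJ : ∀ i, ∀ᵐ z ∂(volume.restrict (c.E i)), ∃ q : Euc k → ℝ,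
      Good (c.E i) (fun w => ψ (c.φ i w)) z (J i z) q) :
    ENNReal.ofReal (mass (push ψ c.T)) ≤
      ∑' i, ∫⁻ z, ENNReal.ofReal (|(c.θ i z : ℝ)| * J i z) ∂(volume.restrict (c.E i)) := by
  refine ofReal_mass_le (φ := fun i w => ψ (c.φ i w)) c.measE
    (fun i => ⟨L * c.L i, hψ.comp_lipschitzOnWith (c.lip i)⟩) c.int hJm hJ ?_
  intro f π hf
  have hf' := isTestPair_comp hψ hf
  rw [push_apply hf]
  obtain ⟨h1, h2⟩ := G1.isTestPair_iff.1 hf'
  have h3 := (c.summable_chart h1 h2).hasSum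
  have h4 : ∀ i, chartAction (c.E i) (fun w => ψ (c.φ i w)) (c.θ i) f π =
      chartAction (c.E i) (c.φ i) (c.θ i) (fun x => f (ψ x)) (fun j x => π j (ψ x)) := fun i => by
    simp only [chartAction, if_pos hf, if_pos hf']
  simp_rw [h4]
  exact h3

end Crest.Agent.R241.B9Mass2
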