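import Mathlib
import Crest.Agent.R241.Defs

/-!
# R241, block B9 (first variation), part a: two-point inequality for contractions (helper992)

`B k u v = u + v + k² u v`;  `cosh (k r) = 1 + k² zk k r`,  `sn² = 2 zk + k² zk²`.
-/

set_option autoImplicit false

open Set

universe u

namespace Crest.Agent.R241.B9a

/-- `C_k(r) = cosh (k r)`. -/
noncomputable def cs (k r : ℝ) : ℝ := Real.cosh (k * r)

/-- `B_k(u,v) = u + v + k² u v`. -/
def Bk (k u v : ℝ) : ℝ := u + v + k ^ 2 * (u * v)

theorem cs_eq (k r : ℝ) : cs k r = 1 + k ^ 2 * zk k r := by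
  unfold cs zk
  split_ifs with h
  · simp [h]
  · field_simp
    ring

theorem one_le_cs (k r : ℝ) : 1 ≤ cs k r := Real.one_le_cosh _

theorem zk_nonneg (k r : ℝ) : 0 ≤ zk k r := by
  unfold zk
  split_ifs with h
  · positivity
  · have := Real.one_le_cosh (k * r)
    apply div_nonneg <;> nlinarith [sq_nonneg k]

theorem sn_sq (k r : ℝ) : sn k r ^ 2 = 2 * zk k r + k ^ 2 * zk k r ^ 2 := by
  unfold sn zk
  split_ifs with h
  · simp [h]; ring
  · have := Real.cosh_sq (k * r)
    field_simp
    nlinarith [this]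

theorem k_mul_sn (k r : ℝ) : k * sn k r = Real.sinh (k * r) := by
  unfold sn
  split_ifs with h
  · simp [h]
  · field_simp

theorem sn_zero (k : ℝ) : sn k 0 = 0 := by
  unfold sn; split_ifs <;> simp

theorem zk_zero (k : ℝ) : zk k 0 = 0 := by
  unfold zk; split_ifs <;> simp

theorem sn_pos {k r : ℝ} (hk : 0 ≤ k) (hr : 0 < r) : 0 < sn k r := by
  unfold sn
  split_ifs with h
  · exact hr
  · have hk' : 0 < k := lt_of_le_of_ne hk (Ne.symm h)
    exact div_pos (Real.sinh_pos_iff.2 (by positivity)) hk'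

theorem sn_nonneg {k r : ℝ} (hk : 0 ≤ k) (hr : 0 ≤ r) : 0 ≤ sn k r := by
  rcases hr.eq_or_lt with h | h
  · rw [← h, sn_zero]
  · exact (sn_pos hk h).le

theorem sq_le_sinh_sq (y : ℝ) : y ^ 2 ≤ Real.sinh y ^ 2 := by
  rcases le_total 0 y with h | h
  · have := Real.self_le_sinh_iff.2 h
    nlinarith
  · have := Real.sinh_le_self_iff.2 h
    nlinarith

theorem one_add_half_sq_le_cosh (x : ℝ) : 1 + x ^ 2 / 2 ≤ Real.cosh x := by
  have h1 : Real.cosh x = 2 * Real.sinh (x / 2) ^ 2 + 1 := by
    have h2 := Real.cosh_two_mul (x / 2)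
    have h3 := Real.cosh_sq (x / 2)
    have h4 : 2 * (x / 2) = x := by ring
    rw [h4] at h2
    linarith
  have h5 := sq_le_sinh_sq (x / 2)
  nlinarith

/-- `r²/2 ≤ zk k r`. -/
theorem half_sq_le_zk (k r : ℝ) : r ^ 2 / 2 ≤ zk k r := by
  unfold zk
  split_ifs with h
  · exact le_rfl
  · have := one_add_half_sq_le_cosh (k * r)
    have hk : 0 < k ^ 2 := by positivity
    rw [le_div_iff₀ hk]
    nlinarith

/-- The two-point inequality: comparison of two geodesics issuing from `x`. -/
theorem two_point {k : ℝ} {X : Type u} [MetricSpace X] (C : CATk k X) (hk : 0 ≤ k)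
    {x y y' : X} (hr : 0 < dist x y) (hr' : 0 < dist x y') {s s' : ℝ}
    (hs : s ∈ Icc (0 : ℝ) 1) (hs' : s' ∈ Icc (0 : ℝ) 1) {l l' a a' : ℝ}
    (ha : a = (1 - s) * dist x y) (ha' : a' = (1 - s') * dist x y')
    (hl : l * sn k (dist x y) = sn k a) (hl' : l' * sn k (dist x y') = sn k a') :
    zk k (dist (C.geo y x s) (C.geo y' x s')) ≤
      l * l' * zk k (dist y y') + Bk k (zk k a) (zk k a')
        - l * l' * Bk k (zk k (dist x y)) (zk k (dist x y')) := by
  have hdx : dist x (C.geo y x s) = a := by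
    have := C.dist_geo y x s hs 1 ⟨zero_le_one, le_rfl⟩
    rw [C.geo_one, dist_comm, dist_comm y x] at this
    rw [this, ha, abs_sub_comm, abs_of_nonneg (by linarith [hs.2])]
  have hdx' : dist x (C.geo y' x s') = a' := by
    have := C.dist_geo y' x s' hs' 1 ⟨zero_le_one, le_rfl⟩
    rw [C.geo_one, dist_comm, dist_comm y' x] at this
    rw [this, ha', abs_sub_comm, abs_of_nonneg (by linarith [hs'.2])]
  by_cases hk0 : k = 0
  · subst hk0
    have h1 := C.cat0 (C.geo y' x s') y x s hs
    have h2 := C.cat0 y y' x s' hs'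
    have hl1 : l = 1 - s := by
      simp only [sn, if_true] at hl
      rw [ha] at hl
      exact mul_right_cancel₀ hr.ne' hl
    have hl1' : l' = 1 - s' := by
      simp only [sn, if_true] at hl'
      rw [ha'] at hl'
      exact mul_right_cancel₀ hr'.ne' hl'
    simp only [zk, if_true, Bk]
    rw [dist_comm (C.geo y' x s') (C.geo y x s), dist_comm (C.geo y' x s') y,
      dist_comm (C.geo y' x s') x, hdx', dist_comm y x] at h1
    rw [dist_comm y x, dist_comm y' x] at h2
    subst hl1 hl1' ha ha'
    have hs1 : 0 ≤ 1 - s := by linarith [hs.2]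
    have h3 := mul_le_mul_of_nonneg_left h2 hs1
    nlinarith [h1, h3]
  · have hkpos : 0 < k := lt_of_le_of_ne hk (Ne.symm hk0)
    have h1 := C.catk (C.geo y' x s') y x s hs
    have h2 := C.catk y y' x s' hs'
    rw [dist_comm (C.geo y' x s') (C.geo y x s), dist_comm (C.geo y' x s') y,
      dist_comm (C.geo y' x s') x, hdx', dist_comm y x] at h1
    rw [dist_comm y x, dist_comm y' x] at h2
    set r := dist x y
    set r' := dist x y'
    set δ := dist y y'
    have e1 : (1 - s) * (k * r) = k * a := by rw [ha]; ring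
    have e1' : (1 - s') * (k * r') = k * a' := by rw [ha']; ring
    have e2 : s * (k * r) = k * r - k * a := by rw [ha]; ring
    have e2' : s' * (k * r') = k * r' - k * a' := by rw [ha']; ring
    rw [e1, e2, Real.sinh_sub] at h1
    rw [e1', e2', Real.sinh_sub] at h2
    have hS : 0 < Real.sinh (k * r) := Real.sinh_pos_iff.2 (by positivity)
    have hS' : 0 < Real.sinh (k * r') := Real.sinh_pos_iff.2 (by positivity)
    have hL : Real.sinh (k * a) = l * Real.sinh (k * r) := by
      rw [← k_mul_sn, ← k_mul_sn, ← hl]; ring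
    have hL' : Real.sinh (k * a') = l' * Real.sinh (k * r') := by
      rw [← k_mul_sn, ← k_mul_sn, ← hl']; ring
    have hs1 : 0 ≤ 1 - s := by linarith [hs.2]
    have hann : 0 ≤ a := by rw [ha]; positivity
    have hln : 0 ≤ l := by
      have h5 : 0 ≤ Real.sinh (k * a) := Real.sinh_nonneg_iff.2 (by positivity)
      rw [hL] at h5
      exact nonneg_of_mul_nonneg_left h5 hS
    rw [hL] at h1
    rw [hL'] at h2
    -- divide by sinh
    have h1' : Real.cosh (k * dist (C.geo y x s) (C.geo y' x s')) ≤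
        l * Real.cosh (k * dist y (C.geo y' x s'))
          + (Real.cosh (k * a) - l * Real.cosh (k * r)) * Real.cosh (k * a') := by
      refine le_of_mul_le_mul_left ?_ hS
      nlinarith [h1]
    have h2' : Real.cosh (k * dist y (C.geo y' x s')) ≤
        l' * Real.cosh (k * δ)
          + (Real.cosh (k * a') - l' * Real.cosh (k * r')) * Real.cosh (k * r) := by
      refine le_of_mul_le_mul_left ?_ hS'
      nlinarith [h2]
    have h3 := mul_le_mul_of_nonneg_left h2' hln
    have h4 : Real.cosh (k * dist (C.geo y x s) (C.geo y' x s')) ≤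
        l * l' * Real.cosh (k * δ) + Real.cosh (k * a) * Real.cosh (k * a')
          - l * l' * (Real.cosh (k * r) * Real.cosh (k * r')) := by
      nlinarith [h1', h3]
    have c0 := cs_eq k (dist (C.geo y x s) (C.geo y' x s'))
    have c1 := cs_eq k δ
    have c2 := cs_eq k a
    have c3 := cs_eq k a'
    have c4 := cs_eq k r
    have c5 := cs_eq k r'
    simp only [cs] at c0 c1 c2 c3 c4 c5
    rw [c0, c1, c2, c3, c4, c5] at h4
    have hk2 : 0 < k ^ 2 := by positivity
    refine le_of_mul_le_mul_left ?_ hk2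
    unfold Bk
    linarith [h4]

end Crest.Agent.R241.B9a
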