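import Crest.Agent.R241.B9c
import Crest.Agent.R241.B8LinAlg

/-!
# R241, block B9 (first variation), part d: algebraic bounds and determinants (helper992)
-/

set_option autoImplicit false

open Set Filter Topology

namespace Crest.Agent.R241.B9d

open B9a B9b B9 B9c

theorem QH_eq {k T Z : ℝ} (hg : gg k T Z ≠ 0) (a b c : ℝ) :
    QH k T Z a b c = gg k T Z * c + (SS k Z * a ^ 2 - 2 * (1 - 2 * T * (1 + k ^ 2 * Z)) * (a * b)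
      - T ^ 2 * k ^ 2 * (2 - 4 * T * (1 + k ^ 2 * Z) + T ^ 2 * k ^ 2 * SS k Z) * b ^ 2)
        / gg k T Z := by
  have h2 : gg k T Z = 1 - 2 * T * (1 + k ^ 2 * Z) + T ^ 2 * k ^ 2 * SS k Z := rfl
  have h1 : QH k T Z a b c = gg k T Z * c + (SS k Z * ggD k T Z a b ^ 2 / 4
      + (ggD k T Z a b * (1 + k ^ 2 * Z) * b - k ^ 2 * zaD k T Z a b ^ 2
        + gg k T Z * (k ^ 2 * b ^ 2)) * gg k T Z) / gg k T Z := by
    unfold QH; field_simp; ring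
  rw [h1]
  congr 2
  simp only [ggD, zaD, h2, SS]
  ring

theorem QH_le {k T Z : ℝ} (hZ : 0 ≤ Z) (hT : 0 ≤ T) (hTZ : 2 * (T * (2 + k ^ 2 * Z)) ≤ 1)
    (a b c : ℝ) :
    QH k T Z a b c ≤ (1 - 2 * T * (1 + k ^ 2 * Z) + T ^ 2 * k ^ 2 * SS k Z) * c
      + SS k Z * a ^ 2 * (gg k T Z)⁻¹ - 2 * (a * b)
      + 2 * (T ^ 2 * k ^ 2 * SS k Z) * (a * b) * (gg k T Z)⁻¹ := by
  have hg := gg_pos (k := k) (T := T) (Z := Z) hTZ ⟨hT, le_rfl⟩ ⟨hZ, le_rfl⟩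
  have hg0 : 0 < gg k T Z := by linarith
  have hkZ : 0 ≤ k ^ 2 * Z := by positivity
  have hS := SS_nonneg (k := k) hZ
  rw [QH_eq hg0.ne']
  set g := gg k T Z with hgd
  have h2 : g = 1 - 2 * T * (1 + k ^ 2 * Z) + T ^ 2 * k ^ 2 * SS k Z := rfl
  have h3 : 0 ≤ T ^ 2 * k ^ 2 * (2 - 4 * T * (1 + k ^ 2 * Z) + T ^ 2 * k ^ 2 * SS k Z) * b ^ 2 := by
    have : 0 ≤ 2 - 4 * T * (1 + k ^ 2 * Z) + T ^ 2 * k ^ 2 * SS k Z := by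
      have h5 : 0 ≤ T ^ 2 * k ^ 2 * SS k Z := by positivity
      have h6 : 4 * T * (1 + k ^ 2 * Z) ≤ 2 := by nlinarith
      linarith
    positivity
  have h4 : 1 - 2 * T * (1 + k ^ 2 * Z) = g - T ^ 2 * k ^ 2 * SS k Z := by rw [h2]; ring
  rw [h4, sub_add_cancel]
  have h5 : (SS k Z * a ^ 2 - 2 * (g - T ^ 2 * k ^ 2 * SS k Z) * (a * b)
      - T ^ 2 * k ^ 2 * (2 - 4 * T * (1 + k ^ 2 * Z) + T ^ 2 * k ^ 2 * SS k Z) * b ^ 2) / g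
      ≤ (SS k Z * a ^ 2 - 2 * (g - T ^ 2 * k ^ 2 * SS k Z) * (a * b)) / g :=
    div_le_div_of_nonneg_right (by linarith) hg0.le
  have h6 : (SS k Z * a ^ 2 - 2 * (g - T ^ 2 * k ^ 2 * SS k Z) * (a * b)) / g
      = SS k Z * a ^ 2 * g⁻¹ - 2 * (a * b) + 2 * (T ^ 2 * k ^ 2 * SS k Z) * (a * b) * g⁻¹ := by
    field_simp; ring
  linarith [h5, h6.le]

section Bounds

variable {k M A Zb : ℝ}

theorem SS_mono {z z' : ℝ} (hz : 0 ≤ z) (h : z ≤ z') : SS k z ≤ SS k z' := by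
  unfold SS
  have : z ^ 2 ≤ z' ^ 2 := pow_le_pow_left₀ hz h 2
  have := mul_le_mul_of_nonneg_left this (sq_nonneg k)
  linarith

theorem small_of {t φ Z : ℝ} (ht0 : 0 ≤ t) (hφ : φ ∈ Icc (0 : ℝ) M)
    (hZ : Z ∈ Icc (0 : ℝ) Zb) (ht : 2 * (t * M * (2 + k ^ 2 * Zb)) ≤ 1) :
    2 * (t * φ * (2 + k ^ 2 * Z)) ≤ 1 := by
  have h1 : k ^ 2 * Z ≤ k ^ 2 * Zb := mul_le_mul_of_nonneg_left hZ.2 (sq_nonneg k)
  have h0 : 0 ≤ k ^ 2 * Z := mul_nonneg (sq_nonneg k) hZ.1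
  have hM : 0 ≤ M := hφ.1.trans hφ.2
  have h2 : t * φ * (2 + k ^ 2 * Z) ≤ t * M * (2 + k ^ 2 * Zb) := by
    have := hφ.2
    have := mul_nonneg ht0 hM
    gcongr
  linarith

/-- constant in `QH_le_one`. -/
def K1 (k M A Zb : ℝ) : ℝ :=
  M ^ 2 * k ^ 2 * SS k Zb + 4 * SS k Zb * A ^ 2 + 4 * (M ^ 2 * k ^ 2 * SS k Zb) * (A ^ 2 + SS k Zb)

set_option maxHeartbeats 1000000 in
theorem QH_le_one {t φ Z α β c : ℝ} (ht0 : 0 ≤ t) (ht1 : t ≤ 1) (hφ : φ ∈ Icc (0 : ℝ) M)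
    (hZ : Z ∈ Icc (0 : ℝ) Zb) (ht : 2 * (t * M * (2 + k ^ 2 * Zb)) ≤ 1) (hc : 0 ≤ c)
    (hα : α ^ 2 ≤ A ^ 2 * c) (hβ : β ^ 2 ≤ SS k Z * c) :
    QH k (t * φ) Z (t * α) β c ≤
      (1 - 2 * t * φ * (1 + k ^ 2 * Z) + K1 k M A Zb * t ^ 2) * c - 2 * t * (α * β) := by
  have hT0 : 0 ≤ t * φ := mul_nonneg ht0 hφ.1
  have hsm := small_of ht0 hφ hZ ht
  have hg := gg_pos (k := k) (T := t * φ) (Z := Z) hsm ⟨hT0, le_rfl⟩ ⟨hZ.1, le_rfl⟩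
  have hg0 : 0 < gg k (t * φ) Z := by linarith
  have hS := SS_nonneg (k := k) hZ.1
  have hSb := SS_mono (k := k) hZ.1 hZ.2
  have hSb0 : 0 ≤ SS k Zb := hS.trans hSb
  have hM0 : 0 ≤ M := hφ.1.trans hφ.2
  refine (QH_le hZ.1 hT0 hsm _ _ _).trans ?_
  set S := SS k Z with hSd
  set Sb := SS k Zb with hSbd
  set u := (gg k (t * φ) Z)⁻¹ with hu
  have hu0 : 0 ≤ u := by positivity
  have hu4 : u ≤ 4 := by
    rw [hu]
    calc (gg k (t * φ) Z)⁻¹ ≤ (1 / 4)⁻¹ := inv_anti₀ (by norm_num) hg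
      _ = 4 := by norm_num
  have hT2 : (t * φ) ^ 2 ≤ t ^ 2 * M ^ 2 := by
    rw [mul_pow]
    exact mul_le_mul_of_nonneg_left (pow_le_pow_left₀ hφ.1 hφ.2 2) (sq_nonneg t)
  have hX : (t * φ) ^ 2 * k ^ 2 * S ≤ t ^ 2 * (M ^ 2 * k ^ 2 * Sb) := by
    calc (t * φ) ^ 2 * k ^ 2 * S ≤ (t ^ 2 * M ^ 2) * k ^ 2 * Sb := by gcongr
      _ = _ := by ring
  have hX0 : 0 ≤ (t * φ) ^ 2 * k ^ 2 * S := by positivity
  -- the three error terms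
  have e1 : (t * φ) ^ 2 * k ^ 2 * S * c ≤ t ^ 2 * (M ^ 2 * k ^ 2 * Sb) * c :=
    mul_le_mul_of_nonneg_right hX hc
  have e2 : S * (t * α) ^ 2 * u ≤ t ^ 2 * (4 * Sb * A ^ 2) * c := by
    calc S * (t * α) ^ 2 * u = t ^ 2 * (S * α ^ 2 * u) := by ring
      _ ≤ t ^ 2 * (Sb * (A ^ 2 * c) * 4) := by gcongr
      _ = _ := by ring
  have e3 : 2 * ((t * φ) ^ 2 * k ^ 2 * S) * (t * α * β) * u ≤
      t ^ 2 * (4 * (M ^ 2 * k ^ 2 * Sb) * (A ^ 2 + Sb)) * c := by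
    have f1 : 2 * (t * α * β) ≤ (A ^ 2 + Sb) * c := by
      have h3 : 2 * |α * β| ≤ α ^ 2 + β ^ 2 := by
        rw [abs_mul]
        nlinarith [sq_nonneg (|α| - |β|), sq_abs α, sq_abs β]
      have h4 : 2 * (t * α * β) ≤ 2 * |α * β| := by
        have : t * α * β ≤ |α * β| := by
          calc t * α * β = t * (α * β) := by ring
            _ ≤ t * |α * β| := mul_le_mul_of_nonneg_left (le_abs_self _) ht0
            _ ≤ 1 * |α * β| := mul_le_mul_of_nonneg_right ht1 (abs_nonneg _)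
            _ = _ := one_mul _
        linarith
      have h5 : S * c ≤ Sb * c := mul_le_mul_of_nonneg_right hSb hc
      linarith
    calc 2 * ((t * φ) ^ 2 * k ^ 2 * S) * (t * α * β) * u
        = ((t * φ) ^ 2 * k ^ 2 * S) * u * (2 * (t * α * β)) := by ring
      _ ≤ ((t * φ) ^ 2 * k ^ 2 * S) * u * ((A ^ 2 + Sb) * c) :=
          mul_le_mul_of_nonneg_left f1 (by positivity)
      _ ≤ (t ^ 2 * (M ^ 2 * k ^ 2 * Sb)) * 4 * ((A ^ 2 + Sb) * c) := by gcongr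
      _ = _ := by ring
  simp only [K1, ← hSbd]
  have e4 : (1 - 2 * (t * φ) * (1 + k ^ 2 * Z) + (t * φ) ^ 2 * k ^ 2 * S) * c
      = (1 - 2 * t * φ * (1 + k ^ 2 * Z)) * c + (t * φ) ^ 2 * k ^ 2 * S * c := by ring
  have e5 : (1 - 2 * t * φ * (1 + k ^ 2 * Z) + (M ^ 2 * k ^ 2 * Sb + 4 * Sb * A ^ 2
      + 4 * (M ^ 2 * k ^ 2 * Sb) * (A ^ 2 + Sb)) * t ^ 2) * c
      = (1 - 2 * t * φ * (1 + k ^ 2 * Z)) * c + t ^ 2 * (M ^ 2 * k ^ 2 * Sb) * c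
        + t ^ 2 * (4 * Sb * A ^ 2) * c
        + t ^ 2 * (4 * (M ^ 2 * k ^ 2 * Sb) * (A ^ 2 + Sb)) * c := by ring
  rw [e4, e5]
  linarith [e1, e2, e3]

/-- constant in `QH_le_two`. -/
def K2 (k M A Zb : ℝ) : ℝ :=
  SS k Zb * (M ^ 2 + 2 * A ^ 2) + 16 * M * (1 + k ^ 2 * Zb) * SS k Zb * (M ^ 2 + A ^ 2)
    + (A ^ 2 + SS k Zb) + 8 * (M ^ 2 * k ^ 2 * SS k Zb) * (M ^ 2 + A ^ 2 + SS k Zb)

set_option maxHeartbeats 1000000 in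
theorem QH_le_two {s φ Z σ α β c : ℝ} (hs0 : 0 ≤ s) (hs1 : s ≤ 1) (hφ : φ ∈ Icc (0 : ℝ) M)
    (hZ : Z ∈ Icc (0 : ℝ) Zb) (hs : 2 * (s * M * (2 + k ^ 2 * Zb)) ≤ 1) (hc : 0 ≤ c)
    (hα : α ^ 2 ≤ A ^ 2 * c) (hβ : β ^ 2 ≤ SS k Z * c) :
    QH k (s * φ) Z (φ * σ + s * α) β c ≤
      (1 + K2 k M A Zb * s) * c + (SS k Z * φ ^ 2 + K2 k M A Zb * s) * σ ^ 2
        - 2 * φ * σ * β := by
  have hT0 : 0 ≤ s * φ := mul_nonneg hs0 hφ.1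
  have hsm := small_of hs0 hφ hZ hs
  have hg := gg_pos (k := k) (T := s * φ) (Z := Z) hsm ⟨hT0, le_rfl⟩ ⟨hZ.1, le_rfl⟩
  have hg0 : 0 < gg k (s * φ) Z := by linarith
  have hS := SS_nonneg (k := k) hZ.1
  have hSb := SS_mono (k := k) hZ.1 hZ.2
  have hSb0 : 0 ≤ SS k Zb := hS.trans hSb
  have hM0 : 0 ≤ M := hφ.1.trans hφ.2
  have hkZ : 0 ≤ k ^ 2 * Z := mul_nonneg (sq_nonneg k) hZ.1
  have hkZb : k ^ 2 * Z ≤ k ^ 2 * Zb := mul_le_mul_of_nonneg_left hZ.2 (sq_nonneg k)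
  refine (QH_le hZ.1 hT0 hsm _ _ _).trans ?_
  have hg1 : gg k (s * φ) Z ≤ 1 := gg_le_one hZ.1 hT0 (by linarith [mul_nonneg hT0 (by linarith : (0:ℝ) ≤ 2 + k ^ 2 * Z)])
  have hgd : gg k (s * φ) Z = 1 - 2 * (s * φ) * (1 + k ^ 2 * Z)
    + (s * φ) ^ 2 * k ^ 2 * SS k Z := rfl
  rw [← hgd]
  set g := gg k (s * φ) Z with hgdef
  set S := SS k Z with hSd
  set Sb := SS k Zb with hSbd
  set u := g⁻¹ with hu
  have hgu : g * u = 1 := mul_inv_cancel₀ hg0.ne'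
  have hu0 : 0 ≤ u := by positivity
  have hu4 : u ≤ 4 := by
    rw [hu]
    calc g⁻¹ ≤ (1 / 4)⁻¹ := inv_anti₀ (by norm_num) hg
      _ = 4 := by norm_num
  have hX0 : 0 ≤ (s * φ) ^ 2 * k ^ 2 * S := by positivity
  have hTM : s * φ ≤ s * M := mul_le_mul_of_nonneg_left hφ.2 hs0
  have hu1 : u ≤ 1 + 8 * s * M * (1 + k ^ 2 * Zb) := by
    have f1 : u - 1 = (1 - g) * u := by linarith
    have f2 : 1 - g ≤ 2 * (s * φ) * (1 + k ^ 2 * Z) := by rw [hgd]; linarith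
    have f3 : 2 * (s * φ) * (1 + k ^ 2 * Z) ≤ 2 * (s * M) * (1 + k ^ 2 * Zb) := by
      have : 0 ≤ s * M := mul_nonneg hs0 hM0
      gcongr
    have f4 : (1 - g) * u ≤ (2 * (s * M) * (1 + k ^ 2 * Zb)) * 4 :=
      mul_le_mul (f2.trans f3) hu4 hu0 (by
        have : 0 ≤ s * M := mul_nonneg hs0 hM0
        have : 0 ≤ 1 + k ^ 2 * Zb := by linarith
        positivity)
    linarith
  set a := φ * σ + s * α with ha
  have ha1 : a ^ 2 ≤ φ ^ 2 * σ ^ 2 + s * (M ^ 2 * σ ^ 2 + 2 * A ^ 2 * c) := by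
    have f1 : 2 * (φ * σ * α) ≤ M ^ 2 * σ ^ 2 + A ^ 2 * c := by
      have h1 : 2 * (φ * σ * α) ≤ (φ * σ) ^ 2 + α ^ 2 := by
        have := two_mul_le_add_sq (φ * σ) α
        linarith
      have h2 : (φ * σ) ^ 2 ≤ M ^ 2 * σ ^ 2 := by
        rw [mul_pow]
        exact mul_le_mul_of_nonneg_right (pow_le_pow_left₀ hφ.1 hφ.2 2) (sq_nonneg σ)
      linarith
    have f2 : s ^ 2 * α ^ 2 ≤ s * (A ^ 2 * c) := by
      have : s ^ 2 ≤ s := by nlinarith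
      exact mul_le_mul this hα (sq_nonneg _) hs0
    have f3 := mul_le_mul_of_nonneg_left f1 hs0
    have f4 : a ^ 2 = φ ^ 2 * σ ^ 2 + s * (2 * (φ * σ * α)) + s ^ 2 * α ^ 2 := by rw [ha]; ring
    rw [f4]; linarith
  have ha2 : a ^ 2 ≤ 2 * (M ^ 2 * σ ^ 2 + A ^ 2 * c) := by
    have f1 : a ^ 2 ≤ 2 * ((φ * σ) ^ 2 + (s * α) ^ 2) := by
      have := two_mul_le_add_sq (φ * σ) (s * α)
      have e : a ^ 2 = (φ * σ) ^ 2 + 2 * (φ * σ) * (s * α) + (s * α) ^ 2 := by rw [ha]; ring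
      linarith
    have h2 : (φ * σ) ^ 2 ≤ M ^ 2 * σ ^ 2 := by
      rw [mul_pow]
      exact mul_le_mul_of_nonneg_right (pow_le_pow_left₀ hφ.1 hφ.2 2) (sq_nonneg σ)
    have f2 : (s * α) ^ 2 ≤ A ^ 2 * c := by
      rw [mul_pow]
      have : s ^ 2 ≤ 1 := by nlinarith
      calc s ^ 2 * α ^ 2 ≤ 1 * (A ^ 2 * c) := mul_le_mul this hα (sq_nonneg _) zero_le_one
        _ = _ := one_mul _
    linarith
  -- the four error terms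
  have e0 : g * c ≤ c := by nlinarith
  have e1 : S * a ^ 2 * u ≤ S * φ ^ 2 * σ ^ 2 + Sb * (s * (M ^ 2 * σ ^ 2 + 2 * A ^ 2 * c))
      + Sb * (2 * (M ^ 2 * σ ^ 2 + A ^ 2 * c)) * (8 * s * M * (1 + k ^ 2 * Zb)) := by
    have h1kZb : 0 ≤ 1 + k ^ 2 * Zb := by linarith
    calc S * a ^ 2 * u ≤ S * a ^ 2 * (1 + 8 * s * M * (1 + k ^ 2 * Zb)) :=
          mul_le_mul_of_nonneg_left hu1 (by positivity)
      _ = S * a ^ 2 + S * a ^ 2 * (8 * s * M * (1 + k ^ 2 * Zb)) := by ring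
      _ ≤ S * (φ ^ 2 * σ ^ 2 + s * (M ^ 2 * σ ^ 2 + 2 * A ^ 2 * c))
          + Sb * (2 * (M ^ 2 * σ ^ 2 + A ^ 2 * c)) * (8 * s * M * (1 + k ^ 2 * Zb)) := by
          gcongr
      _ = S * φ ^ 2 * σ ^ 2 + S * (s * (M ^ 2 * σ ^ 2 + 2 * A ^ 2 * c))
          + Sb * (2 * (M ^ 2 * σ ^ 2 + A ^ 2 * c)) * (8 * s * M * (1 + k ^ 2 * Zb)) := by ring
      _ ≤ _ := by gcongr
  have e2 : -2 * (a * β) ≤ - 2 * φ * σ * β + s * ((A ^ 2 + Sb) * c) := by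
    have f1 : -2 * (α * β) ≤ (A ^ 2 + Sb) * c := by
      have h4 : -2 * (α * β) ≤ α ^ 2 + β ^ 2 := by
        have := two_mul_le_add_sq α (-β)
        rw [neg_sq] at this
        linarith
      have h5 : S * c ≤ Sb * c := mul_le_mul_of_nonneg_right hSb hc
      linarith
    have f2 := mul_le_mul_of_nonneg_left f1 hs0
    rw [ha]; linarith
  have e3 : 2 * ((s * φ) ^ 2 * k ^ 2 * S) * (a * β) * u ≤
      s * (M ^ 2 * k ^ 2 * Sb) * 4 * (2 * (M ^ 2 * σ ^ 2 + A ^ 2 * c) + Sb * c) := by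
    have f1 : 2 * (a * β) ≤ 2 * (M ^ 2 * σ ^ 2 + A ^ 2 * c) + Sb * c := by
      have : 2 * (a * β) ≤ a ^ 2 + β ^ 2 := by
        have := two_mul_le_add_sq a β
        linarith
      have h5 : S * c ≤ Sb * c := mul_le_mul_of_nonneg_right hSb hc
      linarith
    have f2 : (s * φ) ^ 2 * k ^ 2 * S ≤ s * (M ^ 2 * k ^ 2 * Sb) := by
      have g1 : (s * φ) ^ 2 ≤ s * M ^ 2 := by
        rw [mul_pow]
        have : s ^ 2 ≤ s := by nlinarith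
        exact mul_le_mul this (pow_le_pow_left₀ hφ.1 hφ.2 2) (sq_nonneg _) hs0
      calc (s * φ) ^ 2 * k ^ 2 * S ≤ (s * M ^ 2) * k ^ 2 * Sb := by gcongr
        _ = _ := by ring
    calc 2 * ((s * φ) ^ 2 * k ^ 2 * S) * (a * β) * u
        = ((s * φ) ^ 2 * k ^ 2 * S) * u * (2 * (a * β)) := by ring
      _ ≤ ((s * φ) ^ 2 * k ^ 2 * S) * u * (2 * (M ^ 2 * σ ^ 2 + A ^ 2 * c) + Sb * c) :=
          mul_le_mul_of_nonneg_left f1 (by positivity)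
      _ ≤ (s * (M ^ 2 * k ^ 2 * Sb)) * 4 * (2 * (M ^ 2 * σ ^ 2 + A ^ 2 * c) + Sb * c) := by
          gcongr
      _ = _ := by ring
  have hsum : g * c + S * a ^ 2 * u - 2 * (a * β)
      + 2 * ((s * φ) ^ 2 * k ^ 2 * S) * (a * β) * u ≤
      c + (S * φ ^ 2 * σ ^ 2 + Sb * (s * (M ^ 2 * σ ^ 2 + 2 * A ^ 2 * c))
      + Sb * (2 * (M ^ 2 * σ ^ 2 + A ^ 2 * c)) * (8 * s * M * (1 + k ^ 2 * Zb)))
      + (- 2 * φ * σ * β + s * ((A ^ 2 + Sb) * c))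
      + s * (M ^ 2 * k ^ 2 * Sb) * 4 * (2 * (M ^ 2 * σ ^ 2 + A ^ 2 * c) + Sb * c) := by
    linarith
  refine hsum.trans ?_
  -- compare coefficients
  have h1kZb : 0 ≤ 1 + k ^ 2 * Zb := by linarith
  have hσ := sq_nonneg σ
  have r1 : 0 ≤ Sb * (2 * A ^ 2) * (s * σ ^ 2) := by positivity
  have r2 : 0 ≤ Sb * M ^ 2 * (s * c) := by positivity
  have r3 : 0 ≤ 16 * M * (1 + k ^ 2 * Zb) * Sb * A ^ 2 * (s * σ ^ 2) := by positivity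
  have r4 : 0 ≤ 16 * M * (1 + k ^ 2 * Zb) * Sb * M ^ 2 * (s * c) := by positivity
  have r5 : 0 ≤ (A ^ 2 + Sb) * (s * σ ^ 2) := by positivity
  have r6 : 0 ≤ 8 * (M ^ 2 * k ^ 2 * Sb) * (A ^ 2 + Sb) * (s * σ ^ 2) := by positivity
  have r7 : 0 ≤ 8 * (M ^ 2 * k ^ 2 * Sb) * M ^ 2 * (s * c) := by positivity
  have r8 : 0 ≤ 4 * (M ^ 2 * k ^ 2 * Sb) * Sb * (s * c) := by positivity
  simp only [K2, ← hSbd]
  linarith [r1, r2, r3, r4, r5, r6, r7, r8]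

end Bounds

end Crest.Agent.R241.B9d
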