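import Crest.Agent.R241.B9d

/-!
# R241, block B9 (first variation), part e: determinants (helper992)
-/

set_option autoImplicit false

open Set Filter Topology Matrix
open scoped MatrixOrder

namespace Crest.Agent.R241.B9e

open B8LinAlg

theorem det_le_exp {n : ℕ} {M : Matrix (Fin n) (Fin n) ℝ} (hM : M.PosSemidef) :
    M.det ≤ Real.exp (M.trace - n) := by
  have hH := hM.1
  rw [hH.det_eq_prod_eigenvalues, hH.trace_eq_sum_eigenvalues]
  simp only [RCLike.ofReal_real_eq_id, id]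
  have : ∑ i, hH.eigenvalues i - n = ∑ i : Fin n, (hH.eigenvalues i - 1) := by simp
  rw [this, Real.exp_sum]
  apply Finset.prod_le_prod
  · intro i _; exact hM.eigenvalues_nonneg i
  · intro i _
    have := Real.add_one_le_exp (hH.eigenvalues i - 1)
    linarith

theorem det_le_det_mul_exp {n : ℕ} {G M : Matrix (Fin n) (Fin n) ℝ} (hG : G.PosSemidef)
    (hdet : G.det ≠ 0) (hM : M.PosSemidef) :
    M.det ≤ G.det * Real.exp ((G⁻¹ * M).trace - n) := by
  obtain ⟨B, hB⟩ := CStarAlgebra.nonneg_iff_eq_star_mul_self.mp hG.nonneg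
  have hB' : G = Bᵀ * B := by
    rw [hB, Matrix.star_eq_conjTranspose, Matrix.conjTranspose_eq_transpose_of_trivial]
  have hdetG : G.det = B.det ^ 2 := by
    rw [hB', Matrix.det_mul, Matrix.det_transpose]; ring
  have hBdet : B.det ≠ 0 := by
    intro h0
    apply hdet
    rw [hdetG, h0]; ring
  have hBu : IsUnit B.det := isUnit_iff_ne_zero.2 hBdet
  have hN := hM.conjTranspose_mul_mul_same B⁻¹
  rw [Matrix.conjTranspose_eq_transpose_of_trivial] at hN
  have h1 := det_le_exp hN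
  have h2 : (B⁻¹ᵀ * M * B⁻¹).trace = (G⁻¹ * M).trace := by
    rw [Matrix.mul_assoc, Matrix.trace_mul_comm, Matrix.mul_assoc, Matrix.trace_mul_comm, hB',
      Matrix.mul_inv_rev, Matrix.transpose_nonsing_inv]
  have h3 : (B⁻¹ᵀ * M * B⁻¹).det = M.det / G.det := by
    rw [Matrix.det_mul, Matrix.det_mul, Matrix.det_transpose, Matrix.det_nonsing_inv,
      Ring.inverse_eq_inv', hdetG]
    field_simp
  rw [h2, h3] at h1
  have hGpos : 0 < G.det := by rw [hdetG]; positivity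
  rw [div_le_iff₀ hGpos] at h1
  linarith

theorem trace_mul_vecMulVec {n : ℕ} (N : Matrix (Fin n) (Fin n) ℝ) (a b : Fin n → ℝ) :
    (N * vecMulVec a b).trace = b ⬝ᵥ (N *ᵥ a) := by
  rw [Matrix.mul_vecMulVec, Matrix.trace_vecMulVec, dotProduct_comm]

theorem inv_symm {n : ℕ} {G : Matrix (Fin n) (Fin n) ℝ} (hG : G.PosSemidef) (a b : Fin n → ℝ) :
    b ⬝ᵥ (G⁻¹ *ᵥ a) = a ⬝ᵥ (G⁻¹ *ᵥ b) := by
  have h1 : G⁻¹ᵀ = G⁻¹ := by
    have := hG.inv.1
    rwa [Matrix.IsHermitian, Matrix.conjTranspose_eq_transpose_of_trivial] at this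
  rw [Matrix.dotProduct_mulVec, ← Matrix.mulVec_transpose, h1, dotProduct_comm]

theorem quad_eq {n : ℕ} (G : Matrix (Fin n) (Fin n) ℝ) (c t : ℝ) (al be v : Fin n → ℝ) :
    v ⬝ᵥ ((c • G - t • (vecMulVec al be + vecMulVec be al)) *ᵥ v) =
      c * (v ⬝ᵥ (G *ᵥ v)) - 2 * t * ((al ⬝ᵥ v) * (be ⬝ᵥ v)) := by
  rw [Matrix.sub_mulVec, Matrix.smul_mulVec, Matrix.smul_mulVec, Matrix.add_mulVec,
    Matrix.vecMulVec_mulVec, Matrix.vecMulVec_mulVec]
  simp only [dotProduct_sub, dotProduct_smul, dotProduct_add, smul_eq_mul,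
    MulOpposite.smul_eq_mul_unop, MulOpposite.unop_op]
  rw [dotProduct_comm v al, dotProduct_comm v be]
  ring

theorem abs_det_le_one {n : ℕ} (hn : 0 < n) (R G : Matrix (Fin n) (Fin n) ℝ)
    (hG : G.PosSemidef) (hdet : G.det ≠ 0) (al be : Fin n → ℝ) (c t : ℝ)
    (h : ∀ (i : Fin n) (v : Fin n → ℝ), (R i ⬝ᵥ v) ^ 2 ≤
      c * (v ⬝ᵥ (G *ᵥ v)) - 2 * t * ((al ⬝ᵥ v) * (be ⬝ᵥ v))) :
    |R.det| ≤ √G.det * Real.exp (n * (c - 1) / 2 - t * (al ⬝ᵥ (G⁻¹ *ᵥ be))) := by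
  set M : Matrix (Fin n) (Fin n) ℝ := c • G - t • (vecMulVec al be + vecMulVec be al) with hM
  have hGs : Gᵀ = G := by
    have := hG.1
    rwa [Matrix.IsHermitian, Matrix.conjTranspose_eq_transpose_of_trivial] at this
  have hMs : Mᵀ = M := by
    rw [hM]
    simp only [transpose_sub, transpose_smul, transpose_add, hGs, transpose_vecMulVec]
    rw [add_comm (vecMulVec be al)]
  have hMp : M.PosSemidef := by
    rw [Matrix.posSemidef_iff_dotProduct_mulVec]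
    refine ⟨?_, fun v => ?_⟩
    · rw [Matrix.IsHermitian, Matrix.conjTranspose_eq_transpose_of_trivial, hMs]
    · have h1 := h ⟨0, hn⟩ v
      rw [star_trivial, hM, quad_eq]
      exact (sq_nonneg _).trans h1
  have h1 := abs_det_le_sqrt_det R M hMp fun i v => by rw [hM, quad_eq]; exact h i v
  have h2 := det_le_det_mul_exp hG hdet hMp
  have h3 : (G⁻¹ * M).trace = n * c - 2 * t * (al ⬝ᵥ (G⁻¹ *ᵥ be)) := by
    rw [hM, Matrix.mul_sub, Matrix.mul_smul, Matrix.mul_smul, Matrix.mul_add,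
      Matrix.nonsing_inv_mul _ (isUnit_iff_ne_zero.2 hdet), Matrix.trace_sub, Matrix.trace_smul,
      Matrix.trace_smul, Matrix.trace_add, trace_mul_vecMulVec, trace_mul_vecMulVec,
      inv_symm hG al be, Matrix.trace_one]
    simp only [Fintype.card_fin, smul_eq_mul]
    ring
  rw [h3] at h2
  refine h1.trans ((Real.sqrt_le_sqrt h2).trans (le_of_eq ?_))
  rw [Real.sqrt_mul hG.det_nonneg, Real.sqrt_eq_rpow (Real.exp _), ← Real.exp_mul]
  congr 2
  ring

theorem abs_det_le_two {n : ℕ} (R : Matrix (Fin (n + 1)) (Fin (n + 1)) ℝ)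
    (G : Matrix (Fin n) (Fin n) ℝ) (hG : G.PosSemidef) (hdet : G.det ≠ 0) (b : Fin n → ℝ)
    {a c : ℝ} (hc : 0 < c)
    (h : ∀ (i : Fin (n + 1)) (w : Fin (n + 1) → ℝ), (R i ⬝ᵥ w) ^ 2 ≤
      c * (Fin.tail w ⬝ᵥ (G *ᵥ Fin.tail w)) + a * w 0 ^ 2 + 2 * w 0 * (b ⬝ᵥ Fin.tail w)) :
    |R.det| ≤ √(c ^ n * G.det) * √(a - (b ⬝ᵥ (G⁻¹ *ᵥ b)) / c) := by
  have hcu : IsUnit c := isUnit_iff_ne_zero.2 hc.ne'
  have hdet' : (c • G).det = c ^ n * G.det := by
    rw [Matrix.det_smul, Fintype.card_fin]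
  have h1 := abs_det_le_of_bordered R a b (c • G) (hG.smul hc.le)
    (by rw [hdet']; exact mul_ne_zero (pow_ne_zero _ hc.ne') hdet) (fun i w => by
      have := h i w
      rw [Matrix.smul_mulVec, dotProduct_smul, smul_eq_mul]
      linarith)
  rw [hdet'] at h1
  have h2 : (c • G)⁻¹ = c⁻¹ • G⁻¹ := by
    have := Matrix.inv_smul' (A := G) (Units.mk0 c hc.ne') (isUnit_iff_ne_zero.2 hdet)
    simpa [Units.smul_def] using this
  rw [h2, Matrix.smul_mulVec, dotProduct_smul, smul_eq_mul, inv_mul_eq_div] at h1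
  exact h1

end Crest.Agent.R241.B9e
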