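import Crest.Agent.R241.B9e
import Crest.Agent.R241.B1Density
import Crest.Agent.R241.B8Fubini
import Crest.Agent.R241.B5u

/-!
# R241, block B9 (first variation), part f: pointwise Jacobian bounds (helper992)
-/

set_option autoImplicit false
set_option linter.unusedSectionVars false

open Set Filter Topology Asymptotics Matrix
open scoped NNReal

universe u

namespace Crest.Agent.R241.B9f

open B9a B9b B9 B9c B9d B9e
open Crest.GeometryTopology.Submanifold (Euc)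

section General

variable {V : Type*} [NormedAddCommGroup V] [NormedSpace ℝ V]

theorem sq_le_of_UB {X : Type*} [PseudoMetricSpace X] {E : Set V} {z : V}
    (htc : tangentConeAt ℝ E z = univ) {φ : V → X} {q : V → ℝ} (hq : Continuous q)
    (hq2 : ∀ (c : ℝ) (v : V), q (c • v) = c ^ 2 * q v) (h : UB E φ z q) {u : V → ℝ}
    {u' : V →L[ℝ] ℝ} (hu : HasFDerivWithinAt u u' E z) {κ : ℝ}
    (hκ : ∀ᶠ w in 𝓝[E] z, |u w - u z| ≤ κ * dist (φ w) (φ z)) (v : V) :
    (u' v) ^ 2 ≤ κ ^ 2 * q v := by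
  have hv : v ∈ tangentConeAt ℝ E z := by rw [htc]; trivial
  obtain ⟨ι, l, hl, c, d, hd, hds, hcd⟩ := exists_fun_of_mem_tangentConeAt hv
  have hlim := hu.lim hd hds hcd
  have hto : Tendsto (fun n => z + d n) l (𝓝[E] z) := by
    rw [tendsto_nhdsWithin_iff]
    exact ⟨by simpa using tendsto_const_nhds.add hd, hds⟩
  have key : ∀ ε : ℝ, 0 < ε → (u' v) ^ 2 ≤ κ ^ 2 * (q v + ε * ‖v‖ ^ 2) := by
    intro ε hε
    have h1 : Tendsto (fun n => (c n • (u (z + d n) - u z)) ^ 2) l (𝓝 ((u' v) ^ 2)) := hlim.pow 2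
    have h2 : Tendsto (fun n => κ ^ 2 * (q (c n • d n) + ε * ‖c n • d n‖ ^ 2)) l
        (𝓝 (κ ^ 2 * (q v + ε * ‖v‖ ^ 2))) :=
      (((hq.tendsto v).comp hcd).add ((hcd.norm.pow 2).const_mul ε)).const_mul _
    refine le_of_tendsto_of_tendsto h1 h2 ?_
    filter_upwards [hto.eventually (h ε hε), hto.eventually hκ] with n h3 h4
    rw [add_sub_cancel_left] at h3
    have h5 : (u (z + d n) - u z) ^ 2 ≤ κ ^ 2 * (q (d n) + ε * ‖d n‖ ^ 2) := by
      rw [← sq_abs (u (z + d n) - u z)]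
      calc |u (z + d n) - u z| ^ 2 ≤ (κ * dist (φ (z + d n)) (φ z)) ^ 2 :=
            pow_le_pow_left₀ (abs_nonneg _) h4 2
        _ = κ ^ 2 * dist (φ (z + d n)) (φ z) ^ 2 := by ring
        _ ≤ _ := mul_le_mul_of_nonneg_left h3 (sq_nonneg _)
    rw [smul_eq_mul, mul_pow, hq2, norm_smul, mul_pow, Real.norm_eq_abs, sq_abs]
    calc c n ^ 2 * (u (z + d n) - u z) ^ 2 ≤ c n ^ 2 * (κ ^ 2 * (q (d n) + ε * ‖d n‖ ^ 2)) :=
          mul_le_mul_of_nonneg_left h5 (sq_nonneg _)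
      _ = _ := by ring
  have h3 : Tendsto (fun ε : ℝ => κ ^ 2 * (q v + ε * ‖v‖ ^ 2)) (𝓝[>] 0)
      (𝓝 (κ ^ 2 * (q v + 0 * ‖v‖ ^ 2))) := by
    have : Continuous fun ε : ℝ => κ ^ 2 * (q v + ε * ‖v‖ ^ 2) := by fun_prop
    exact (this.tendsto 0).mono_left nhdsWithin_le_nhds
  rw [zero_mul, add_zero] at h3
  exact ge_of_tendsto h3 (by filter_upwards [self_mem_nhdsWithin] with ε hε using key ε hε)

theorem zeta_sq_le {k : ℝ} (hk : 0 ≤ k) {X : Type u} [MetricSpace X] (x : X) {E : Set V} {z : V}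
    (htc : tangentConeAt ℝ E z = univ) {φ : V → X} {q : V → ℝ} (hq : Continuous q)
    (hq2 : ∀ (c : ℝ) (v : V), q (c • v) = c ^ 2 * q v) {B : ℝ} (hB : ∀ v, |q v| ≤ B * ‖v‖ ^ 2)
    (h : UB E φ z q) {ζ' : V →L[ℝ] ℝ}
    (hζ : HasFDerivWithinAt (fun w => zk k (dist x (φ w))) ζ' E z) (v : V) :
    (ζ' v) ^ 2 ≤ SS k (zk k (dist x (φ z))) * q v := by
  set r := dist x (φ z) with hr
  have hsn0 : 0 ≤ sn k r := sn_nonneg hk dist_nonneg
  have hcont : Tendsto (fun w => dist x (φ w)) (𝓝[E] z) (𝓝 r) := by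
    have h1 := eventually_le hB h
    have h2 : Tendsto (fun w : V => (B + 1) * ‖w - z‖ ^ 2) (𝓝[E] z) (𝓝 0) := by
      have : Continuous fun w : V => (B + 1) * ‖w - z‖ ^ 2 := by fun_prop
      have h1 := this.tendsto z
      simp only [sub_self, norm_zero, ne_eq, OfNat.ofNat_ne_zero, not_false_eq_true,
        zero_pow, mul_zero] at h1
      exact h1.mono_left nhdsWithin_le_nhds
    have h3 : Tendsto (fun w => dist (φ w) (φ z) ^ 2) (𝓝[E] z) (𝓝 0) :=
      tendsto_of_tendsto_of_tendsto_of_le_of_le' tendsto_const_nhds h2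
        (Eventually.of_forall fun w => sq_nonneg _) h1
    have h4 : Tendsto (fun w => dist (φ w) (φ z)) (𝓝[E] z) (𝓝 0) := by
      have := h3.sqrt
      simpa [Real.sqrt_sq] using this
    rw [tendsto_iff_dist_tendsto_zero]
    refine squeeze_zero (fun w => dist_nonneg) (fun w => ?_) h4
    rw [Real.dist_eq, hr, dist_comm x, dist_comm x]
    exact abs_dist_sub_le _ _ _
  have hder := Cat2.hasDerivAt_zk k r
  have key : ∀ ε : ℝ, 0 < ε → (ζ' v) ^ 2 ≤ (sn k r + ε) ^ 2 * q v := by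
    intro ε hε
    refine sq_le_of_UB htc hq hq2 h hζ ?_ v
    have h1 : ∀ᶠ a in 𝓝 r, |zk k a - zk k r| ≤ (sn k r + ε) * |a - r| := by
      have h2 := (hasDerivAt_iff_isLittleO.1 hder).def hε
      filter_upwards [h2] with a ha
      rw [Real.norm_eq_abs, Real.norm_eq_abs, smul_eq_mul] at ha
      have e : zk k a - zk k r = (zk k a - zk k r - (a - r) * sn k r) + (a - r) * sn k r := by
        ring
      rw [e]
      refine (abs_add_le _ _).trans ?_
      rw [abs_mul, abs_of_nonneg hsn0]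
      linarith
    filter_upwards [hcont.eventually h1] with w hw
    refine hw.trans (mul_le_mul_of_nonneg_left ?_ (by positivity))
    rw [hr, dist_comm x, dist_comm x]
    exact abs_dist_sub_le _ _ _
  have h3 : Tendsto (fun ε : ℝ => (sn k r + ε) ^ 2 * q v) (𝓝[>] 0)
      (𝓝 ((sn k r + 0) ^ 2 * q v)) := by
    have : Continuous fun ε : ℝ => (sn k r + ε) ^ 2 * q v := by fun_prop
    exact (this.tendsto 0).mono_left nhdsWithin_le_nhds
  rw [add_zero, sn_sq] at h3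
  exact ge_of_tendsto h3 (by filter_upwards [self_mem_nhdsWithin] with ε hε using key ε hε)

end General

section Euclid

variable {n : ℕ}

theorem continuous_qf (G : Matrix (Fin n) (Fin n) ℝ) : Continuous (qf G) := by
  unfold qf
  simp only [dotProduct, mulVec]
  fun_prop

theorem qf_smul (G : Matrix (Fin n) (Fin n) ℝ) (c : ℝ) (v : Euc n) :
    qf G (c • v) = c ^ 2 * qf G v := by
  unfold qf
  have : (fun i => (c • v) i) = c • (fun i => v i) := by ext i; simp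
  rw [this, mulVec_smul, smul_dotProduct, dotProduct_smul, smul_eq_mul, smul_eq_mul]
  ring

theorem exists_qf_bound (G : Matrix (Fin n) (Fin n) ℝ) :
    ∃ B : ℝ, 0 ≤ B ∧ ∀ v : Euc n, |qf G v| ≤ B * ‖v‖ ^ 2 := by
  refine ⟨∑ i, ∑ j, |G i j|, by positivity, fun v => ?_⟩
  unfold qf
  simp only [dotProduct, mulVec, Finset.mul_sum]
  refine (Finset.abs_sum_le_sum_abs _ _).trans ?_
  rw [Finset.sum_mul]
  refine Finset.sum_le_sum fun i _ => ?_
  refine (Finset.abs_sum_le_sum_abs _ _).trans ?_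
  rw [Finset.sum_mul]
  refine Finset.sum_le_sum fun j _ => ?_
  have hi : |v i| ≤ ‖v‖ := PiLp.norm_apply_le v i
  have hj : |v j| ≤ ‖v‖ := PiLp.norm_apply_le v j
  rw [abs_mul, abs_mul]
  calc |v i| * (|G i j| * |v j|) = |G i j| * (|v i| * |v j|) := by ring
    _ ≤ |G i j| * (‖v‖ * ‖v‖) := by gcongr
    _ = _ := by ring

theorem qf_nonneg {G : Matrix (Fin n) (Fin n) ℝ} (hG : G.PosSemidef) (v : Euc n) :
    0 ≤ qf G v := by
  have := hG.dotProduct_mulVec_nonneg (fun i => v i)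
  simpa [qf] using this

theorem clm_eq_dot (L : Euc n →L[ℝ] ℝ) (v : Euc n) :
    L v = (fun l => L (EuclideanSpace.single l 1)) ⬝ᵥ (fun i => v i) := by
  have h2 : v = ∑ j, (v j) • EuclideanSpace.single j (1 : ℝ) := by
    ext i
    simp [Finset.sum_apply, Pi.single_apply]
  conv_lhs => rw [h2]
  rw [map_sum]
  simp only [map_smul, smul_eq_mul, dotProduct]
  exact Finset.sum_congr rfl fun i _ => mul_comm _ _

theorem QH_hom (k T Z s a b c : ℝ) :
    QH k T Z (s * a) (s * b) (s ^ 2 * c) = s ^ 2 * QH k T Z a b c := by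
  unfold QH ggD zaD; ring

theorem continuous_QH (k T Z : ℝ) {W : Type*} [TopologicalSpace W] {a b c : W → ℝ}
    (ha : Continuous a) (hb : Continuous b) (hc : Continuous c) :
    Continuous fun v => QH k T Z (a v) (b v) (c v) := by
  unfold QH ggD zaD
  fun_prop

/-- a good point of a chart, for the contraction towards `x` with speed `F`. -/
structure Good {X : Type u} [MetricSpace X] (k : ℝ) (x : X) (F : X → ℝ) (E : Set (Euc n))
    (φ : Euc n → X) (G : Matrix (Fin n) (Fin n) ℝ) (z : Euc n) : Prop where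
  mem : z ∈ E
  tc : tangentConeAt ℝ E z = univ
  ub : UB E φ z (qf G)
  psd : G.PosSemidef
  det : G.det ≠ 0
  dF : DifferentiableWithinAt ℝ (fun w => F (φ w)) E z
  dz : DifferentiableWithinAt ℝ (fun w => zk k (dist x (φ w))) E z

variable {X : Type u} [MetricSpace X] {k : ℝ} {x : X} {F : X → ℝ} {E : Set (Euc n)}
  {φ : Euc n → X} {G : Matrix (Fin n) (Fin n) ℝ} {z : Euc n}

theorem Good.alpha_sq_le {A : ℝ≥0} (hF : LipschitzWith A F) (h : Good k x F E φ G z)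
    (v : Euc n) : (fderivWithin ℝ (fun w => F (φ w)) E z v) ^ 2 ≤ (A : ℝ) ^ 2 * qf G v := by
  refine sq_le_of_UB h.tc (continuous_qf G) (qf_smul G) h.ub h.dF.hasFDerivWithinAt ?_ v
  filter_upwards with w
  have := hF.dist_le_mul (φ w) (φ z)
  rwa [Real.dist_eq] at this

theorem Good.beta_sq_le (hk : 0 ≤ k) (h : Good k x F E φ G z) (v : Euc n) :
    (fderivWithin ℝ (fun w => zk k (dist x (φ w))) E z v) ^ 2 ≤
      SS k (zk k (dist x (φ z))) * qf G v := by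
  obtain ⟨B, -, hB⟩ := exists_qf_bound G
  exact zeta_sq_le hk x h.tc (continuous_qf G) (qf_smul G) hB h.ub h.dz.hasFDerivWithinAt v

/-- the carré du champ of `z_x` is at most `sn²`. -/
theorem Good.gamma_le (hk : 0 ≤ k) (h : Good k x F E φ G z) :
    pd E (fun w => zk k (dist x (φ w))) z ⬝ᵥ
      (G⁻¹ *ᵥ pd E (fun w => zk k (dist x (φ w))) z) ≤ SS k (zk k (dist x (φ z))) := by
  set b := pd E (fun w => zk k (dist x (φ w))) z with hb
  set v : Euc n := WithLp.toLp 2 (G⁻¹ *ᵥ b) with hv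
  have h1 := h.beta_sq_le hk v
  rw [clm_eq_dot] at h1
  have h2 : (fun i => v i) = G⁻¹ *ᵥ b := rfl
  have h3 : qf G v = b ⬝ᵥ (G⁻¹ *ᵥ b) := by
    unfold qf
    rw [h2, mulVec_mulVec, Matrix.mul_nonsing_inv _ (isUnit_iff_ne_zero.2 h.det), one_mulVec,
      dotProduct_comm]
  rw [h2, h3] at h1
  have h4 : (b ⬝ᵥ (G⁻¹ *ᵥ b)) ^ 2 ≤ SS k (zk k (dist x (φ z))) * (b ⬝ᵥ (G⁻¹ *ᵥ b)) := h1
  by_contra hlt
  rw [not_le] at hlt
  have h5 := SS_nonneg (k := k) (zk_nonneg k (dist x (φ z)))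
  nlinarith

theorem Good.gamma_nonneg (h : Good k x F E φ G z) (b : Fin n → ℝ) :
    0 ≤ b ⬝ᵥ (G⁻¹ *ᵥ b) := by
  have := h.psd.inv.dotProduct_mulVec_nonneg b
  simpa using this

/-- Jacobian bound for the contraction map at a fixed time. -/
theorem Good.jac_one (hn : 0 < n) (hk : 0 ≤ k) (C : CATk k X) {A : ℝ≥0} (hF : LipschitzWith A F)
    {M Zb t : ℝ} (hF0 : ∀ y, 0 ≤ F y) (hFM : ∀ y, F y ≤ M) (h : Good k x F E φ G z)
    (hZb : zk k (dist x (φ z)) ≤ Zb) (ht0 : 0 ≤ t) (ht1 : t ≤ 1)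
    (ht : 2 * (t * M * (2 + k ^ 2 * Zb)) ≤ 1) :
    ∃ q : Euc n → ℝ, B5u.Good E (fun w => HH C x F t (φ w)) z
        (√G.det * Real.exp
          (-t * (n * (1 + k ^ 2 * zk k (dist x (φ z))) * F (φ z)
            + pd E (fun w => F (φ w)) z ⬝ᵥ (G⁻¹ *ᵥ pd E (fun w => zk k (dist x (φ w))) z))
            + n * K1 k M A Zb / 2 * t ^ 2)) q := by
  set Z := zk k (dist x (φ z)) with hZ
  have hZm : Z ∈ Icc (0 : ℝ) Zb := ⟨zk_nonneg _ _, hZb⟩
  have hφm : F (φ z) ∈ Icc (0 : ℝ) M := ⟨hF0 _, hFM _⟩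
  obtain ⟨B, -, hB⟩ := exists_qf_bound G
  have hτ : HasFDerivWithinAt (fun w => t * F (φ w))
      (t • fderivWithin ℝ (fun w => F (φ w)) E z) E z := h.dF.hasFDerivWithinAt.const_mul t
  have hsm := small_of (k := k) ht0 hφm hZm ht
  have hub := ub_Hpt hk C x hB h.ub (τ := fun w => t * F (φ w))
    (ζ := fun w => zk k (dist x (φ w))) (fun w => rfl) hτ h.dz.hasFDerivWithinAt
    (Eventually.of_forall fun w => mul_nonneg ht0 (hF0 _)) (mul_nonneg ht0 (hF0 _))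
    (by
      show t * F (φ z) * (2 + k ^ 2 * zk k (dist x (φ z))) < 1
      rw [← hZ]; linarith)
  refine ⟨_, ?_, ?_, hub, fun R hR => ?_⟩
  · exact continuous_QH _ _ _ (ContinuousLinearMap.continuous _)
      (ContinuousLinearMap.continuous _) (continuous_qf G)
  · intro s v
    rw [qf_smul, map_smul, map_smul, smul_eq_mul, smul_eq_mul, QH_hom]
  set al := pd E (fun w => F (φ w)) z with hal
  set be := pd E (fun w => zk k (dist x (φ w))) z with hbe
  have key : ∀ (i : Fin n) (v : Fin n → ℝ), (R i ⬝ᵥ v) ^ 2 ≤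
      (1 - 2 * t * F (φ z) * (1 + k ^ 2 * Z) + K1 k M A Zb * t ^ 2) * (v ⬝ᵥ (G *ᵥ v))
        - 2 * t * ((al ⬝ᵥ v) * (be ⬝ᵥ v)) := by
    intro i v
    have h1 := hR i v
    have h2 := h.alpha_sq_le hF (WithLp.toLp 2 v)
    have h3 := h.beta_sq_le hk (WithLp.toLp 2 v)
    have h4 := QH_le_one (M := M) (A := A) (Zb := Zb) ht0 ht1 hφm hZm ht
      (qf_nonneg h.psd (WithLp.toLp 2 v)) h2 h3
    refine h1.trans (h4.trans (le_of_eq ?_))
    rw [clm_eq_dot, clm_eq_dot]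
    rfl
  have h5 := abs_det_le_one hn R G h.psd h.det al be _ t key
  refine h5.trans (le_of_eq ?_)
  congr 2
  ring

end Euclid

section Swept

open B8Fubini

variable {n : ℕ} {X : Type u} [MetricSpace X] {k : ℝ} {x : X} {F : X → ℝ} {E : Set (Euc n)}
  {φ : Euc n → X} {G : Matrix (Fin n) (Fin n) ℝ}

/-- the tail as a continuous linear map. -/
noncomputable def tlL (n : ℕ) : Euc (n + 1) →L[ℝ] Euc n :=
  LinearMap.toContinuousLinearMap
    { toFun := tl
      map_add' := fun a b => by ext i; rfl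
      map_smul' := fun c a => by ext i; rfl }

theorem tlL_apply (w : Euc (n + 1)) : tlL n w = tl w := rfl

/-- the first coordinate as a continuous linear map. -/
noncomputable def hdL (n : ℕ) : Euc (n + 1) →L[ℝ] ℝ := EuclideanSpace.proj 0

theorem hdL_apply (w : Euc (n + 1)) : hdL n w = w 0 := rfl

theorem tl_sub (a b : Euc (n + 1)) : tl (a - b) = tl a - tl b := (tlL n).map_sub a b

theorem norm_tl_le (a : Euc (n + 1)) : ‖tl a‖ ≤ ‖a‖ := by
  rw [EuclideanSpace.norm_eq, EuclideanSpace.norm_eq]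
  apply Real.sqrt_le_sqrt
  rw [Fin.sum_univ_succ]
  have : ∑ i : Fin n, ‖(tl a) i‖ ^ 2 = ∑ i : Fin n, ‖a i.succ‖ ^ 2 := rfl
  rw [this]
  have := sq_nonneg ‖a 0‖
  linarith

theorem tendsto_tl (w : Euc (n + 1)) : Tendsto tl (𝓝[prodSet E] w) (𝓝[E] (tl w)) := by
  rw [tendsto_nhdsWithin_iff]
  refine ⟨(continuous_tl.tendsto w).mono_left nhdsWithin_le_nhds, ?_⟩
  filter_upwards [self_mem_nhdsWithin] with w' hw' using hw'.2

theorem ub_tl {w : Euc (n + 1)} (h : UB E φ (tl w) (qf G)) :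
    UB (prodSet E) (fun w' => φ (tl w')) w (fun v => qf G (tl v)) := by
  intro ε hε
  filter_upwards [(tendsto_tl w).eventually (h ε hε)] with w' hw'
  rw [tl_sub]
  refine hw'.trans (add_le_add le_rfl (mul_le_mul_of_nonneg_left ?_ hε.le))
  rw [← tl_sub]
  exact pow_le_pow_left₀ (norm_nonneg _) (norm_tl_le _) 2

theorem hasFDeriv_tl {u : Euc n → ℝ} {w : Euc (n + 1)} {u' : Euc n →L[ℝ] ℝ}
    (hu : HasFDerivWithinAt u u' E (tl w)) :
    HasFDerivWithinAt (fun w' => u (tl w')) (u'.comp (tlL n)) (prodSet E) w := by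
  have h1 : HasFDerivWithinAt (tl : Euc (n + 1) → Euc n) (tlL n) (prodSet E) w :=
    (tlL n).hasFDerivWithinAt
  exact hu.comp w h1 (fun w' hw' => hw'.2)

/-- Jacobian bound for the swept chart. -/
theorem Good.jac_two (hk : 0 ≤ k) (C : CATk k X) {A : ℝ≥0} (hF : LipschitzWith A F)
    {M Zb t : ℝ} (hF0 : ∀ y, 0 ≤ F y) (hFM : ∀ y, F y ≤ M) {w : Euc (n + 1)}
    (hw : w 0 ∈ Icc (0 : ℝ) 1) (h : Good k x F E φ G (tl w))
    (hZb : zk k (dist x (φ (tl w))) ≤ Zb) (ht0 : 0 ≤ t) (ht1 : t ≤ 1)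
    (ht : 2 * (t * M * (2 + k ^ 2 * Zb)) ≤ 1) (hA0 : 0 ≤ Zb) :
    ∃ q : Euc (n + 1) → ℝ,
      B5u.Good (prodSet E) (fun w' => HH C x F (t * w' 0) (φ (tl w'))) w
        (t * √G.det * (√((1 + K2 k M A Zb * t) ^ n) *
          (F (φ (tl w)) * √(SS k (zk k (dist x (φ (tl w))))
            - pd E (fun w => zk k (dist x (φ w))) (tl w) ⬝ᵥ
              (G⁻¹ *ᵥ pd E (fun w => zk k (dist x (φ w))) (tl w)))
            + √(K2 k M A Zb * t * (1 + M ^ 2 * SS k Zb))))) q := by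
  set z := tl w with hz
  set Z := zk k (dist x (φ z)) with hZ
  have hZm : Z ∈ Icc (0 : ℝ) Zb := ⟨zk_nonneg _ _, hZb⟩
  have hφm : F (φ z) ∈ Icc (0 : ℝ) M := ⟨hF0 _, hFM _⟩
  have hM0 : 0 ≤ M := hφm.1.trans hφm.2
  obtain ⟨B, hB0, hB⟩ := exists_qf_bound G
  have hB' : ∀ v : Euc (n + 1), |qf G (tl v)| ≤ B * ‖v‖ ^ 2 := fun v =>
    (hB _).trans (mul_le_mul_of_nonneg_left
      (pow_le_pow_left₀ (norm_nonneg _) (norm_tl_le _) 2) hB0)
  set α := fderivWithin ℝ (fun w => F (φ w)) E z with hα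
  set β := fderivWithin ℝ (fun w => zk k (dist x (φ w))) E z with hβ
  have hFd : HasFDerivWithinAt (fun w' => F (φ (tl w'))) (α.comp (tlL n)) (prodSet E) w :=
    hasFDeriv_tl (u := fun w => F (φ w)) h.dF.hasFDerivWithinAt
  have hZd : HasFDerivWithinAt (fun w' => zk k (dist x (φ (tl w')))) (β.comp (tlL n))
      (prodSet E) w :=
    hasFDeriv_tl (u := fun w => zk k (dist x (φ w))) h.dz.hasFDerivWithinAt
  have hs : HasFDerivWithinAt (fun w' : Euc (n + 1) => t * w' 0) (t • hdL n) (prodSet E) w :=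
    ((hdL n).hasFDerivWithinAt).const_mul t
  have hτ : HasFDerivWithinAt (fun w' : Euc (n + 1) => t * w' 0 * F (φ (tl w')))
      ((t * w 0) • (α.comp (tlL n)) + F (φ z) • (t • hdL n)) (prodSet E) w := hs.mul hFd
  have htw0 : 0 ≤ t * w 0 := mul_nonneg ht0 hw.1
  have htwt : t * w 0 ≤ t := by
    calc t * w 0 ≤ t * 1 := mul_le_mul_of_nonneg_left hw.2 ht0
      _ = t := mul_one t
  have h2Zb : 0 ≤ 2 + k ^ 2 * Zb := by positivity
  have htw : 2 * (t * w 0 * M * (2 + k ^ 2 * Zb)) ≤ 1 := by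
    have : t * w 0 * M * (2 + k ^ 2 * Zb) ≤ t * M * (2 + k ^ 2 * Zb) := by gcongr
    linarith
  have hsm := small_of (k := k) htw0 hφm hZm htw
  have hub := ub_Hpt hk C x hB' (ub_tl h.ub) (τ := fun w' => t * w' 0 * F (φ (tl w')))
    (ζ := fun w' => zk k (dist x (φ (tl w')))) (fun w => rfl) hτ hZd
    (by
      filter_upwards [self_mem_nhdsWithin] with w' hw'
      exact mul_nonneg (mul_nonneg ht0 hw'.1.1) (hF0 _))
    (mul_nonneg htw0 (hF0 _))
    (by
      show t * w 0 * F (φ z) * (2 + k ^ 2 * zk k (dist x (φ z))) < 1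
      rw [← hZ]; linarith)
  refine ⟨_, ?_, ?_, hub, fun R hR => ?_⟩
  · exact continuous_QH _ _ _ (ContinuousLinearMap.continuous _)
      (ContinuousLinearMap.continuous _) ((continuous_qf G).comp continuous_tl)
  · intro s v
    simp only
    have e : tl (s • v) = s • tl v := (tlL n).map_smul s v
    rw [e, qf_smul, map_smul, map_smul, smul_eq_mul, smul_eq_mul, QH_hom]
  set be := pd E (fun w => zk k (dist x (φ w))) z with hbe
  set K := K2 k M A Zb with hK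
  have hSb0 : 0 ≤ SS k Zb := SS_nonneg hA0
  have hSZ : 0 ≤ SS k Z := SS_nonneg hZm.1
  have hSle : SS k Z ≤ SS k Zb := SS_mono hZm.1 hZm.2
  have hK0 : 0 ≤ K := by rw [hK]; unfold K2; positivity
  have hKt : 0 ≤ K * t := mul_nonneg hK0 ht0
  have hKtw : K * (t * w 0) ≤ K * t := mul_le_mul_of_nonneg_left htwt hK0
  have key : ∀ (i : Fin (n + 1)) (v : Fin (n + 1) → ℝ), (R i ⬝ᵥ v) ^ 2 ≤
      (1 + K * t) * (Fin.tail v ⬝ᵥ (G *ᵥ Fin.tail v))
        + (t ^ 2 * (SS k Z * F (φ z) ^ 2 + K * t)) * v 0 ^ 2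
        + 2 * v 0 * (((-(t * F (φ z))) • be) ⬝ᵥ Fin.tail v) := by
    intro i v
    have h1 := hR i v
    set tv : Euc n := tl (WithLp.toLp 2 v) with htv
    have h2 := h.alpha_sq_le hF tv
    have h3 := h.beta_sq_le hk tv
    have hc := qf_nonneg h.psd tv
    have h4 := QH_le_two (M := M) (A := A) (Zb := Zb) (σ := t * v 0) htw0 (htwt.trans ht1) hφm
      hZm htw hc h2 h3
    have e1 : qf G tv = Fin.tail v ⬝ᵥ (G *ᵥ Fin.tail v) := rfl
    have e2 : fderivWithin ℝ (fun w => zk k (dist x (φ w))) E (tl w) tv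
        = be ⬝ᵥ Fin.tail v := by rw [clm_eq_dot]; rfl
    refine h1.trans (le_trans (le_of_eq ?_) (h4.trans ?_))
    · simp only [_root_.smul_apply, smul_eq_mul, _root_.add_apply,
        ContinuousLinearMap.comp_apply, tlL_apply, hdL_apply]
      have e3 : t * w 0 * α (tl (WithLp.toLp 2 v)) + F (φ z) * (t * (WithLp.toLp 2 v) 0)
        = F (φ z) * (t * v 0) + t * w 0 * α tv := by
        rw [← htv]; ring
      rw [e3]
    · rw [e1, e2, smul_dotProduct, smul_eq_mul, ← hK]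
      have e4 : (1 + K * (t * w 0)) * (Fin.tail v ⬝ᵥ (G *ᵥ Fin.tail v)) ≤
          (1 + K * t) * (Fin.tail v ⬝ᵥ (G *ᵥ Fin.tail v)) :=
        mul_le_mul_of_nonneg_right (by linarith) (by rw [← e1]; exact hc)
      have e5 : (SS k Z * F (φ z) ^ 2 + K * (t * w 0)) * (t * v 0) ^ 2 ≤
          (SS k Z * F (φ z) ^ 2 + K * t) * (t * v 0) ^ 2 :=
        mul_le_mul_of_nonneg_right (by linarith) (sq_nonneg _)
      have e6 : (t ^ 2 * (SS k Z * F (φ z) ^ 2 + K * t)) * v 0 ^ 2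
          = (SS k Z * F (φ z) ^ 2 + K * t) * (t * v 0) ^ 2 := by ring
      have e7 : 2 * v 0 * (-(t * F (φ z)) * (be ⬝ᵥ Fin.tail v))
          = -(2 * F (φ z) * (t * v 0) * (be ⬝ᵥ Fin.tail v)) := by ring
      rw [e6, e7]
      linarith
  have hcpos : 0 < 1 + K * t := by linarith
  have h5 := abs_det_le_two R G h.psd h.det _ hcpos key
  refine h5.trans ?_
  have hΓ := h.gamma_le hk
  have hΓ0 := h.gamma_nonneg be
  rw [← hbe, ← hZ] at hΓ
  set Γ := be ⬝ᵥ (G⁻¹ *ᵥ be) with hΓd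
  have e8 : ((-(t * F (φ z))) • be) ⬝ᵥ (G⁻¹ *ᵥ ((-(t * F (φ z))) • be))
      = t ^ 2 * (F (φ z) ^ 2 * Γ) := by
    rw [mulVec_smul, smul_dotProduct, dotProduct_smul, smul_eq_mul, smul_eq_mul]
    ring
  rw [e8]
  have h6 : t ^ 2 * (SS k Z * F (φ z) ^ 2 + K * t) - t ^ 2 * (F (φ z) ^ 2 * Γ) / (1 + K * t)
      ≤ t ^ 2 * (F (φ z) * √(SS k Z - Γ) + √(K * t * (1 + M ^ 2 * SS k Zb))) ^ 2 := by
    have f1 : F (φ z) ^ 2 * Γ * (1 - K * t) ≤ F (φ z) ^ 2 * Γ / (1 + K * t) := by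
      rw [le_div_iff₀ hcpos]
      have : (1 - K * t) * (1 + K * t) ≤ 1 := by nlinarith [sq_nonneg (K * t)]
      have h0 : 0 ≤ F (φ z) ^ 2 * Γ := by positivity
      calc F (φ z) ^ 2 * Γ * (1 - K * t) * (1 + K * t)
          = F (φ z) ^ 2 * Γ * ((1 - K * t) * (1 + K * t)) := by ring
        _ ≤ F (φ z) ^ 2 * Γ * 1 := mul_le_mul_of_nonneg_left this h0
        _ = _ := mul_one _
    have f2 : F (φ z) ^ 2 * Γ * (K * t) ≤ M ^ 2 * SS k Zb * (K * t) := by
      have g1 : F (φ z) ^ 2 ≤ M ^ 2 := pow_le_pow_left₀ hφm.1 hφm.2 2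
      have g2 : Γ ≤ SS k Zb := hΓ.trans hSle
      gcongr
    have f3 : SS k Z * F (φ z) ^ 2 + K * t - F (φ z) ^ 2 * Γ / (1 + K * t) ≤
        F (φ z) ^ 2 * (SS k Z - Γ) + K * t * (1 + M ^ 2 * SS k Zb) := by linarith
    have f4 : F (φ z) ^ 2 * (SS k Z - Γ) + K * t * (1 + M ^ 2 * SS k Zb) ≤
        (F (φ z) * √(SS k Z - Γ) + √(K * t * (1 + M ^ 2 * SS k Zb))) ^ 2 := by
      have g1 : √(SS k Z - Γ) ^ 2 = SS k Z - Γ := Real.sq_sqrt (by linarith)
      have g2 : √(K * t * (1 + M ^ 2 * SS k Zb)) ^ 2 = K * t * (1 + M ^ 2 * SS k Zb) :=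
        Real.sq_sqrt (by positivity)
      have g3 : 0 ≤ F (φ z) * √(SS k Z - Γ) * √(K * t * (1 + M ^ 2 * SS k Zb)) := by
        have := hφm.1
        positivity
      have g4 : (F (φ z) * √(SS k Z - Γ) + √(K * t * (1 + M ^ 2 * SS k Zb))) ^ 2
          = F (φ z) ^ 2 * √(SS k Z - Γ) ^ 2 + √(K * t * (1 + M ^ 2 * SS k Zb)) ^ 2
            + 2 * (F (φ z) * √(SS k Z - Γ) * √(K * t * (1 + M ^ 2 * SS k Zb))) := by ring
      rw [g4, g1, g2]
      linarith
    have f5 : t ^ 2 * (F (φ z) ^ 2 * Γ) / (1 + K * t) = t ^ 2 * (F (φ z) ^ 2 * Γ / (1 + K * t)) := by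
      ring
    rw [f5, ← mul_sub]
    exact mul_le_mul_of_nonneg_left (f3.trans f4) (sq_nonneg t)
  have h7 : √(t ^ 2 * (SS k Z * F (φ z) ^ 2 + K * t) - t ^ 2 * (F (φ z) ^ 2 * Γ) / (1 + K * t))
      ≤ t * (F (φ z) * √(SS k Z - Γ) + √(K * t * (1 + M ^ 2 * SS k Zb))) := by
    refine (Real.sqrt_le_sqrt h6).trans (le_of_eq ?_)
    rw [← mul_pow, Real.sqrt_sq]
    have := hφm.1
    positivity
  calc √((1 + K * t) ^ n * G.det) * √(t ^ 2 * (SS k Z * F (φ z) ^ 2 + K * t)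
        - t ^ 2 * (F (φ z) ^ 2 * Γ) / (1 + K * t))
      ≤ √((1 + K * t) ^ n * G.det) *
        (t * (F (φ z) * √(SS k Z - Γ) + √(K * t * (1 + M ^ 2 * SS k Zb)))) :=
        mul_le_mul_of_nonneg_left h7 (Real.sqrt_nonneg _)
    _ = _ := by
        rw [Real.sqrt_mul (by positivity)]
        ring

end Swept

end Crest.Agent.R241.B9f
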