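import Mathlib
import Crest.Agent.R241.ADefs

/-!
# R241, block B9h: extension of a Lipschitz function from a compact set, with cut-off
(owner: helper534)
-/

set_option autoImplicit false

open MeasureTheory Filter Topology Set
open scoped ENNReal NNReal

universe u

namespace Crest.Agent.R241.B9h

variable {X : Type u} [MetricSpace X]

/-- A nonnegative Lipschitz function on a compact set extends to a bounded nonnegative Lipschitz
function on `X` vanishing outside a ball. -/
theorem exists_extension {K : Set X} (hK : IsCompact K) (x : X) {f : K → ℝ}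
    (hf : A.Lip f) (h0 : ∀ y, 0 ≤ f y) :
    ∃ (F : X → ℝ) (L : ℝ≥0) (M R : ℝ), LipschitzWith L F ∧ (∀ y : K, F y = f y) ∧
      (∀ y, 0 ≤ F y) ∧ (∀ y, F y ≤ M) ∧ 0 ≤ M ∧ 0 ≤ R ∧ (∀ y, R < dist x y → F y = 0) ∧
      K ⊆ Metric.closedBall x R := by
  obtain ⟨L, hL⟩ := hf
  -- McShane extension
  obtain ⟨g, hg, hgf⟩ : ∃ g : X → ℝ, LipschitzWith L g ∧ ∀ y : K, g y = f y := by
    classical
    let f' : X → ℝ := fun y => if h : y ∈ K then f ⟨y, h⟩ else 0
    have hf' : LipschitzOnWith L f' K := by
      refine LipschitzOnWith.of_dist_le_mul fun y hy z hz => ?_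
      simp only [f', dif_pos hy, dif_pos hz]
      exact hL.dist_le_mul ⟨y, hy⟩ ⟨z, hz⟩
    obtain ⟨g, hg, hgf⟩ := hf'.extend_real
    refine ⟨g, hg, fun y => ?_⟩
    rw [← hgf y.2]
    simp [f', dif_pos y.2]
  -- bounds
  obtain ⟨R₁, hR₁⟩ := hK.isBounded.subset_closedBall x
  have hcomp : IsCompact (g '' K) := hK.image hg.continuous
  obtain ⟨M₁, hM₁⟩ := hcomp.bddAbove
  set R₀ := max R₁ 0 with hR₀
  set M := max M₁ 0 with hM
  have hR₀0 : 0 ≤ R₀ := le_max_right _ _
  have hM0 : 0 ≤ M := le_max_right _ _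
  have hKR : K ⊆ Metric.closedBall x R₀ :=
    hR₁.trans (Metric.closedBall_subset_closedBall (le_max_left _ _))
  have hfM : ∀ y : K, f y ≤ M := fun y => by
    rw [← hgf y]; exact (hM₁ (mem_image_of_mem g y.2)).trans (le_max_left _ _)
  have hc : LipschitzWith (M.toNNReal) (fun y => M * (R₀ + 1 - dist x y)) := by
    refine LipschitzWith.of_dist_le_mul fun y z => ?_
    rw [Real.dist_eq, Real.coe_toNNReal _ hM0, ← mul_sub, abs_mul, abs_of_nonneg hM0]
    refine mul_le_mul_of_nonneg_left ?_ hM0
    have h1 : (R₀ + 1 - dist x y) - (R₀ + 1 - dist x z) = dist x z - dist x y := by ring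
    rw [h1, abs_sub_comm, dist_comm x y, dist_comm x z]
    exact abs_dist_sub_le y z x
  refine ⟨fun y => max 0 (min (g y) (M * (R₀ + 1 - dist x y))), max L M.toNNReal,
    M * (R₀ + 1), R₀ + 1, ?_, ?_, ?_, ?_, by positivity, by positivity, ?_, ?_⟩
  · simpa using (LipschitzWith.const (0 : ℝ)).max (hg.min hc)
  · intro y
    have h1 : f y ≤ M * (R₀ + 1 - dist x (y : X)) := by
      have h2 : dist x (y : X) ≤ R₀ := by rw [dist_comm]; exact hKR y.2
      nlinarith [hfM y]
    simp only [hgf y]
    rw [min_eq_left h1, max_eq_right (h0 y)]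
  · intro y; exact le_max_left _ _
  · intro y
    refine max_le (by positivity) ((min_le_right _ _).trans ?_)
    refine mul_le_mul_of_nonneg_left ?_ hM0
    linarith [dist_nonneg (x := x) (y := y)]
  · intro y hy
    have h1 : M * (R₀ + 1 - dist x y) ≤ 0 := by nlinarith
    exact max_eq_left ((min_le_right _ _).trans h1)
  · exact hKR.trans (Metric.closedBall_subset_closedBall (by linarith))

end Crest.Agent.R241.B9h
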