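import Crest.Agent.R241.B9f
import Crest.Agent.R241.B9h
import Crest.Agent.R241.B9Int2
import Crest.Agent.R241.B9Mass2_534
import Crest.Agent.R241.B4Norm
import Crest.Agent.R241.B5b
import Crest.Agent.R241.ABasic

/-!
# R241, block B9 (first variation), part g: integration and FVAR (helper992)
-/

set_option autoImplicit false
set_option linter.unusedSectionVars false

open MeasureTheory Filter Topology Set
open scoped ENNReal NNReal

universe u

namespace Crest.Agent.R241.B9g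

open Crest.GeometryTopology.MetricCurrent
open Crest.GeometryTopology.Submanifold (Euc)
open B9b B9 B9f B9Int B8Fubini
open Matrix

/-! ### truncated `z` -/

section Trunc

variable {X : Type u} [MetricSpace X]

/-- `z_x` truncated at distance `R` (globally Lipschitz). -/
noncomputable def zt (k : ℝ) (x : X) (R : ℝ) (y : X) : ℝ := zk k (min (dist x y) R)

theorem lip_zt (k : ℝ) (x : X) {R : ℝ} (hR : 0 ≤ R) : A.Lip (zt k x R) := by
  obtain ⟨c, hc0, hc⟩ := exists_zk_lip k R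
  refine ⟨c.toNNReal, LipschitzWith.of_dist_le_mul fun y y' => ?_⟩
  rw [Real.coe_toNNReal _ hc0, Real.dist_eq]
  have h1 := hc (min (dist x y) R) ⟨le_min dist_nonneg hR, min_le_right _ _⟩
    (min (dist x y') R) ⟨le_min dist_nonneg hR, min_le_right _ _⟩
  refine h1.trans (mul_le_mul_of_nonneg_left ?_ hc0)
  have h2 := abs_min_sub_min_le_max (dist x y) R (dist x y') R
  rw [sub_self, abs_zero] at h2
  refine h2.trans (max_le ?_ dist_nonneg)
  rw [dist_comm x y, dist_comm x y']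
  exact abs_dist_sub_le _ _ _

theorem zt_eq {k : ℝ} {x : X} {R : ℝ} {y : X} (h : dist x y ≤ R) :
    zt k x R y = zk k (dist x y) := by
  unfold zt; rw [min_eq_left h]

end Trunc

theorem pd_congr {n : ℕ} {E : Set (Euc n)} {u v : Euc n → ℝ} (h : EqOn u v E) {z : Euc n}
    (hz : z ∈ E) : pd E u z = pd E v z := by
  funext l
  unfold pd
  rw [fderivWithin_congr h (h hz)]

theorem aemeasurable_pd {n : ℕ} {E : Set (Euc n)} (hE : MeasurableSet E) {u : Euc n → ℝ}
    (hu : ∃ C : ℝ≥0, LipschitzOnWith C u E) (l : Fin n) :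
    AEMeasurable (fun z => pd E u z l) (volume.restrict E) := by
  obtain ⟨C, hC⟩ := hu
  obtain ⟨U, hU1, hU2⟩ := hC.extend_real
  refine ⟨fun z => fderiv ℝ U z (EuclideanSpace.single l 1),
    measurable_fderiv_apply_const ℝ U _, ?_⟩
  filter_upwards [B1Density.ae_fderivWithin_eq_of_lipschitz volume hE hU2 hU1] with z hz
  simp only [pd, hz]

theorem aemeasurable_pair {n : ℕ} {E : Set (Euc n)} (hE : MeasurableSet E) {u v : Euc n → ℝ}
    (hu : ∃ C : ℝ≥0, LipschitzOnWith C u E) (hv : ∃ C : ℝ≥0, LipschitzOnWith C v E)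
    {G : Euc n → Matrix (Fin n) (Fin n) ℝ} (hG : ∀ a b, Measurable fun z => G z a b) :
    AEMeasurable (fun z => pd E u z ⬝ᵥ ((G z)⁻¹ *ᵥ pd E v z)) (volume.restrict E) := by
  simp only [dotProduct, mulVec]
  refine Finset.aemeasurable_fun_sum _ fun i _ => (aemeasurable_pd hE hu i).mul
    (Finset.aemeasurable_fun_sum _ fun j _ => ?_)
  exact (B5b.measurable_inv hG i j).aemeasurable.mul (aemeasurable_pd hE hv j)

/-! ### Tonelli on the product chart -/

theorem map_tl {n : ℕ} {E : Set (Euc n)} :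
    (volume.restrict (prodSet E)).map tl = volume.restrict E := by
  have h := (measurePreserving_splitE n).restrict_preimage_emb (splitE n).measurableEmbedding
    (Icc (0 : ℝ) 1 ×ˢ E)
  rw [← prodSet_eq, ← Measure.prod_restrict] at h
  have h1 : (tl : Euc (n + 1) → Euc n) = Prod.snd ∘ (splitE n) := by
    funext w; rfl
  rw [h1, ← Measure.map_map measurable_snd (splitE n).measurable, h.map_eq,
    Measure.map_snd_prod]
  simp

theorem lintegral_tl {n : ℕ} {E : Set (Euc n)} {g : Euc n → ℝ≥0∞}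
    (hg : AEMeasurable g (volume.restrict E)) :
    ∫⁻ w in prodSet E, g (tl w) = ∫⁻ z in E, g z := by
  conv_rhs => rw [← map_tl]
  rw [lintegral_map' (by rw [map_tl]; exact hg) measurable_tl.aemeasurable]

theorem aemeasurable_tl {n : ℕ} {E : Set (Euc n)} {β : Type*} [MeasurableSpace β]
    {g : Euc n → β} (hg : AEMeasurable g (volume.restrict E)) :
    AEMeasurable (fun w => g (tl w)) (volume.restrict (prodSet E)) := by
  have : AEMeasurable g ((volume.restrict (prodSet E)).map tl) := by rw [map_tl]; exact hg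
  exact this.comp_measurable measurable_tl

/-! ### facts on the charts -/

section Charts

variable {X : Type u} [MetricSpace X] [MeasurableSpace X] [BorelSpace X] {k : ℝ}
  {K : Set X} [CompactSpace K] {m : ℕ} {T : Functional X (m + 1)}
  {P : A.PreData (m + 1) k K}

theorem lip_comp (ch : FVCharts T P) (i : ℕ) {F : X → ℝ} (hF : A.Lip F) :
    ∃ C : ℝ≥0, LipschitzOnWith C (fun w => F (ch.φ i w)) (ch.E i) := by
  obtain ⟨C, hC⟩ := hF
  obtain ⟨L, hL⟩ := ch.lipφ i
  exact ⟨C * L, hC.comp_lipschitzOnWith hL⟩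

variable {x : K} {R : ℝ} (hKR : K ⊆ Metric.closedBall (x : X) R)

include hKR in
theorem eqOn_zt (ch : FVCharts T P) (i : ℕ) :
    EqOn (fun w => zt k (x : X) R (ch.φ i w)) (fun w => zk k (dist (x : X) (ch.φ i w)))
      (ch.E i) := fun w hw => by
  have h := hKR (ch.mapsK i hw)
  rw [Metric.mem_closedBall, dist_comm] at h
  exact zt_eq h

include hKR in
theorem lip_zk (ch : FVCharts T P) (hR : 0 ≤ R) (i : ℕ) :
    ∃ C : ℝ≥0, LipschitzOnWith C (fun w => zk k (dist (x : X) (ch.φ i w))) (ch.E i) := by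
  obtain ⟨C, hC⟩ := lip_comp ch i (lip_zt k (x : X) hR)
  refine ⟨C, LipschitzOnWith.of_dist_le_mul fun w hw w' hw' => ?_⟩
  have h1 := eqOn_zt (k := k) hKR ch i hw
  have h2 := eqOn_zt (k := k) hKR ch i hw'
  simp only at h1 h2
  rw [← h1, ← h2]
  exact hC.dist_le_mul w hw w' hw'

include hKR in
theorem ae_good (ch : FVCharts T P) (hR : 0 ≤ R) {F : X → ℝ} (hF : A.Lip F) (i : ℕ) :
    ∀ᵐ z ∂(volume.restrict (ch.E i)),
      B9f.Good k (x : X) F (ch.E i) (ch.φ i) (ch.G i z) z := by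
  obtain ⟨L, hL⟩ := ch.lipφ i
  filter_upwards [ae_restrict_mem (ch.measE i), B5u.ae_tangentCone_eq_univ volume (ch.E i),
    ch.md i, ch.det_ne i, B1Cur.ae_good (ch.measE i) hL hF,
    B1Cur.ae_good (ch.measE i) hL (lip_zt k (x : X) hR)] with z h1 h2 h3 h4 h5 h6
  exact ⟨h1, h2, h3, ch.psd i z, h4, h5.2,
    h6.2.congr (fun w hw => (eqOn_zt hKR ch i hw).symm) (eqOn_zt hKR ch i h1).symm⟩

include hKR in
theorem zt_val : (fun y : K => zt k (x : X) R y) = A.zd k x := by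
  funext y
  have h := hKR y.2
  rw [Metric.mem_closedBall, dist_comm] at h
  rw [zt_eq h]
  rfl

include hKR in
theorem ae_G1 (ch : FVCharts T P) (hR : 0 ≤ R) {F : X → ℝ} (hF : A.Lip F) {f : K → ℝ}
    (hFf : ∀ y : K, F y = f y) (i : ℕ) :
    ∀ᵐ z ∂(volume.restrict (ch.E i)), ∀ hz : ch.φ i z ∈ K,
      P.G f (A.zd k x) ⟨ch.φ i z, hz⟩ =
        pd (ch.E i) (fun w => F (ch.φ i w)) z ⬝ᵥ
          ((ch.G i z)⁻¹ *ᵥ pd (ch.E i) (fun w => zk k (dist (x : X) (ch.φ i w))) z) := by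
  filter_upwards [ch.G_eq i F (zt k (x : X) R) hF (lip_zt k (x : X) hR),
    ae_restrict_mem (ch.measE i)] with z h1 h2 hz
  have h3 := h1 hz
  rw [zt_val hKR] at h3
  have h4 : (fun y : K => F y) = f := funext hFf
  rw [h4] at h3
  rw [h3]
  have h5 : pd (ch.E i) (zt k (x : X) R ∘ ch.φ i) z =
      pd (ch.E i) (fun w => zk k (dist (x : X) (ch.φ i w))) z := pd_congr (eqOn_zt hKR ch i) h2
  rw [h5]
  rfl

include hKR in
theorem ae_G2 (ch : FVCharts T P) (hR : 0 ≤ R) (i : ℕ) :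
    ∀ᵐ z ∂(volume.restrict (ch.E i)), ∀ hz : ch.φ i z ∈ K,
      P.G (A.zd k x) (A.zd k x) ⟨ch.φ i z, hz⟩ =
        pd (ch.E i) (fun w => zk k (dist (x : X) (ch.φ i w))) z ⬝ᵥ
          ((ch.G i z)⁻¹ *ᵥ pd (ch.E i) (fun w => zk k (dist (x : X) (ch.φ i w))) z) := by
  filter_upwards [ae_G1 hKR ch hR (lip_zt k (x : X) hR) (f := A.zd k x)
    (fun y => congrFun (zt_val hKR) y) i, ae_restrict_mem (ch.measE i)] with z h1 h2 hz
  rw [h1 hz]
  have h5 : pd (ch.E i) (fun w => zt k (x : X) R (ch.φ i w)) z =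
      pd (ch.E i) (fun w => zk k (dist (x : X) (ch.φ i w))) z := pd_congr (eqOn_zt hKR ch i) h2
  rw [h5]

/-- the integrand of the first variation. -/
noncomputable def g1 (P : A.PreData (m + 1) k K) (x : K) (f : K → ℝ) (y : K) : ℝ :=
  ((m + 1 : ℕ) : ℝ) * (1 + k ^ 2 * A.zd k x y) * f y + P.G f (A.zd k x) y

theorem continuous_zdf {f : K → ℝ} (hf : A.Lip f) (x : K) :
    Continuous fun y => ((m + 1 : ℕ) : ℝ) * (1 + k ^ 2 * A.zd k x y) * f y := by
  have h1 := A.continuous_zd (K := K) k x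
  have h2 := hf.continuous
  fun_prop

theorem aestronglyMeasurable_g1 (P : A.PreData (m + 1) k K) (x : K) {f : K → ℝ} (hf : A.Lip f) :
    AEStronglyMeasurable (g1 P x f) P.τ :=
  (continuous_zdf hf x).aestronglyMeasurable.add (P.G_meas f (A.zd k x) hf (A.lip_zd k x))

theorem integrable_g1 (P : A.PreData (m + 1) k K) (x : K) {f : K → ℝ} (hf : A.Lip f) :
    Integrable (g1 P x f) P.τ :=
  (P.integrable_of_continuous (continuous_zdf hf x)).add (P.integrable_G hf (A.lip_zd k x))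

theorem exists_g1_bound (P : A.PreData (m + 1) k K) (x : K) {f : K → ℝ} (hf : A.Lip f) :
    ∃ B : ℝ, 0 ≤ B ∧ ∀ᵐ y ∂P.τ, |g1 P x f y| ≤ B := by
  obtain ⟨B1, hB1, hB1'⟩ := A.exists_bound_of_continuous (continuous_zdf (k := k) (m := m) hf x)
  obtain ⟨C, hC0, hC⟩ := P.exists_G_bound hf
  obtain ⟨C', hC0', hC'⟩ := P.exists_G_bound (A.lip_zd k x)
  refine ⟨B1 + C * C', by positivity, ?_⟩
  filter_upwards [hC, hC', P.abs_G_le hf (A.lip_zd k x)] with y h1 h2 h3
  refine (abs_add_le _ _).trans (add_le_add (hB1' y) ?_)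
  refine h3.trans (mul_le_mul ?_ ?_ (Real.sqrt_nonneg _) hC0)
  · rw [← Real.sqrt_sq hC0]; exact Real.sqrt_le_sqrt h1
  · rw [← Real.sqrt_sq hC0']; exact Real.sqrt_le_sqrt h2

section Mass

variable {F : X → ℝ} {A0 : ℝ≥0} {M : ℝ} {f : K → ℝ} {t : ℝ}

include hKR in
theorem zk_le (hk : 0 ≤ k) (ch : FVCharts T P) (hR : 0 ≤ R) {i : ℕ} {z : Euc (m + 1)}
    (hz : z ∈ ch.E i) : zk k (dist (x : X) (ch.φ i z)) ≤ zk k (R + 1) := by
  have h := hKR (ch.mapsK i hz)
  rw [Metric.mem_closedBall, dist_comm] at h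
  exact (zk_strictMonoOn hk).monotoneOn (mem_Ici.2 dist_nonneg) (mem_Ici.2 (by linarith))
    (by linarith)

include hKR in
theorem mass_one (hk : 0 ≤ k) (C : CATk k X) (ch : FVCharts T P) (hT : IsCurrent T)
    (hF : LipschitzWith A0 F) (hF0 : ∀ y, 0 ≤ F y) (hFM : ∀ y, F y ≤ M) (hR : 0 ≤ R)
    (hFR : ∀ y, R < dist (x : X) y → F y = 0) (hf : A.Lip f) (hFf : ∀ y : K, F y = f y)
    (ht0 : 0 ≤ t) (ht1 : t ≤ 1) (ht : 2 * (t * M * (2 + k ^ 2 * zk k (R + 1))) ≤ 1) :
    ENNReal.ofReal (mass (B1c1.push (HH C (x : X) F t) T)) ≤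
      ∫⁻ y, ENNReal.ofReal (Real.exp (-t * g1 P x f y
        + ((m + 1 : ℕ) : ℝ) * B9d.K1 k M A0 (zk k (R + 1)) / 2 * t ^ 2)) ∂P.τ := by
  set c1 := ((m + 1 : ℕ) : ℝ) * B9d.K1 k M A0 (zk k (R + 1)) / 2 with hc1
  obtain ⟨L, hL0, hL⟩ := exists_lip_HH C hk (x : X) hF hF0 hFM hFR hR ht0 ht
  have hψ : LipschitzWith L.toNNReal (HH C (x : X) F t) := by
    refine LipschitzWith.of_dist_le_mul fun y y' => ?_
    rw [Real.coe_toNNReal _ hL0]
    have := hL t ⟨ht0, le_rfl⟩ t ⟨ht0, le_rfl⟩ y y'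
    simpa using this
  set J : ℕ → Euc (m + 1) → ℝ := fun i z => √(ch.G i z).det * Real.exp
    (-t * (((m + 1 : ℕ) : ℝ) * (1 + k ^ 2 * zk k (dist (x : X) (ch.φ i z))) * F (ch.φ i z)
      + pd (ch.E i) (fun w => F (ch.φ i w)) z ⬝ᵥ ((ch.G i z)⁻¹ *ᵥ
        pd (ch.E i) (fun w => zk k (dist (x : X) (ch.φ i w))) z)) + c1 * t ^ 2) with hJ
  have hLipF : A.Lip F := ⟨A0, hF⟩
  have hJm : ∀ i, AEMeasurable (J i) (volume.restrict (ch.E i)) := by
    intro i
    have h1 := aemeasurable_pair (ch.measE i) (lip_comp ch i hLipF) (lip_zk hKR ch hR i)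
      (ch.measG i)
    have h2 : AEMeasurable (fun z => F (ch.φ i z)) (volume.restrict (ch.E i)) := by
      obtain ⟨C', hC'⟩ := lip_comp ch i hLipF
      exact hC'.continuousOn.aemeasurable (ch.measE i)
    have h3 : AEMeasurable (fun z => zk k (dist (x : X) (ch.φ i z)))
        (volume.restrict (ch.E i)) := by
      obtain ⟨C', hC'⟩ := lip_zk (k := k) hKR ch hR i
      exact hC'.continuousOn.aemeasurable (ch.measE i)
    have h4 : AEMeasurable (fun z => √(ch.G i z).det) (volume.restrict (ch.E i)) :=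
      (B1Null.measurable_det (ch.measG i)).sqrt.aemeasurable
    refine h4.mul (Real.measurable_exp.comp_aemeasurable ?_)
    exact (((((h3.const_mul (k ^ 2)).const_add 1).const_mul _).mul h2).add h1).const_mul (-t)
      |>.add_const _
  have hgood : ∀ i, ∀ᵐ z ∂(volume.restrict ((chs' ch).E i)), ∃ q : Euc (m + 1) → ℝ,
      B5u.Good ((chs' ch).E i) (fun w => HH C (x : X) F t ((chs' ch).φ i w)) z (J i z) q := by
    intro i
    filter_upwards [ae_good hKR ch hR hLipF i, ae_restrict_mem (ch.measE i)] with z h1 h2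
    obtain ⟨q, hq⟩ := h1.jac_one (Nat.succ_pos m) hk C hF hF0 hFM (zk_le hKR hk ch hR h2)
      ht0 ht1 ht
    exact ⟨q, hq⟩
  have h1 := B9Mass2.ofReal_mass_push_le (chs' ch) hψ hJm hgood
  rw [chs'_T ch hT] at h1
  refine h1.trans (le_of_eq ?_)
  rw [lintegral_tau ch]
  · refine tsum_congr fun i => lintegral_congr_ae ?_
    filter_upwards [ae_restrict_mem (ch.measE i), ae_G1 hKR ch hR hLipF hFf i] with z hz hG
    have hzK := ch.mapsK i hz
    rw [ext0_of_mem _ hzK, ← ENNReal.ofReal_mul (by positivity)]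
    simp only [chs'_θ, hJ, g1]
    rw [hG hzK, ← hFf ⟨ch.φ i z, hzK⟩]
    exact congrArg ENNReal.ofReal (mul_assoc _ _ _).symm
  · refine ENNReal.measurable_ofReal.comp_aemeasurable
      (Real.measurable_exp.comp_aemeasurable ?_)
    exact ((aestronglyMeasurable_g1 P x hf).aemeasurable.const_mul (-t)).add_const _

/-! ### the homotopy -/

/-- the homotopy parametrized by `[0, 1]`. -/
noncomputable def HT (C : CATk k X) (x : X) (F : X → ℝ) (t s : ℝ) (y : X) : X :=
  HH C x F (t * s) y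

theorem exists_HLip (hk : 0 ≤ k) (C : CATk k X) (x : X) (hF : LipschitzWith A0 F)
    (hF0 : ∀ y, 0 ≤ F y) (hFM : ∀ y, F y ≤ M) (hR : 0 ≤ R)
    (hFR : ∀ y, R < dist (x : X) y → F y = 0) (ht0 : 0 ≤ t) (ht1 : t ≤ 1)
    (ht : 2 * (t * M * (2 + k ^ 2 * zk k (R + 1))) ≤ 1) :
    ∃ L : ℝ≥0, B8.HLip L (HT C x F t) := by
  obtain ⟨L, hL0, hL⟩ := exists_lip_HH C hk x hF hF0 hFM hFR hR ht0 ht
  refine ⟨L.toNNReal, fun s hs s' hs' y y' => ?_⟩
  rw [Real.coe_toNNReal _ hL0]
  have h1 : ∀ s ∈ Icc (0 : ℝ) 1, t * s ∈ Icc (0 : ℝ) t := fun s hs =>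
    ⟨mul_nonneg ht0 hs.1, by nlinarith [hs.2]⟩
  refine (hL _ (h1 s hs) _ (h1 s' hs') y y').trans (mul_le_mul_of_nonneg_left ?_ hL0)
  have h2 : |t * s - t * s'| ≤ |s - s'| := by
    rw [← mul_sub, abs_mul, abs_of_nonneg ht0]
    exact mul_le_of_le_one_left (abs_nonneg _) ht1
  linarith

include hKR in
theorem mass_two [SecondCountableTopology X] (hk : 0 ≤ k) (C : CATk k X) (ch : FVCharts T P)
    (hF : LipschitzWith A0 F) (hF0 : ∀ y, 0 ≤ F y) (hFM : ∀ y, F y ≤ M) (hR : 0 ≤ R)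
    (hFR : ∀ y, R < dist (x : X) y → F y = 0) (hf : A.Lip f) (hFf : ∀ y : K, F y = f y)
    (ht0 : 0 ≤ t) (ht1 : t ≤ 1) (ht : 2 * (t * M * (2 + k ^ 2 * zk k (R + 1))) ≤ 1) :
    ENNReal.ofReal (mass ((chs' ch).R (HT C (x : X) F t))) ≤
      ∫⁻ y, ENNReal.ofReal (t * (√((1 + B9d.K2 k M A0 (zk k (R + 1)) * t) ^ (m + 1)) *
        (f y * P.q x y + √(B9d.K2 k M A0 (zk k (R + 1)) * t *
          (1 + M ^ 2 * SS k (zk k (R + 1))))))) ∂P.τ := by
  set K2 := B9d.K2 k M A0 (zk k (R + 1)) with hK2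
  set δ := √(K2 * t * (1 + M ^ 2 * SS k (zk k (R + 1)))) with hδ
  obtain ⟨L, hH⟩ := exists_HLip hk C (x : X) hF hF0 hFM hR hFR ht0 ht1 ht
  set J : ℕ → Euc (m + 1) → ℝ := fun i z => t * √(ch.G i z).det * (√((1 + K2 * t) ^ (m + 1)) *
    (F (ch.φ i z) * √(SS k (zk k (dist (x : X) (ch.φ i z)))
      - pd (ch.E i) (fun w => zk k (dist (x : X) (ch.φ i w))) z ⬝ᵥ
        ((ch.G i z)⁻¹ *ᵥ pd (ch.E i) (fun w => zk k (dist (x : X) (ch.φ i w))) z)) + δ)) with hJ
  have hLipF : A.Lip F := ⟨A0, hF⟩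
  have hθm : ∀ i, AEMeasurable (fun z => |(ch.θ i z : ℝ)|) (volume.restrict (ch.E i)) :=
    fun i => (ch.intθ i).aemeasurable.abs
  have hJm : ∀ i, AEMeasurable (J i) (volume.restrict (ch.E i)) := by
    intro i
    have h1 := aemeasurable_pair (ch.measE i) (lip_zk (k := k) hKR ch hR i)
      (lip_zk (k := k) hKR ch hR i) (ch.measG i)
    have h2 : AEMeasurable (fun z => F (ch.φ i z)) (volume.restrict (ch.E i)) := by
      obtain ⟨C', hC'⟩ := lip_comp ch i hLipF
      exact hC'.continuousOn.aemeasurable (ch.measE i)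
    have h3 : AEMeasurable (fun z => zk k (dist (x : X) (ch.φ i z)))
        (volume.restrict (ch.E i)) := by
      obtain ⟨C', hC'⟩ := lip_zk (k := k) hKR ch hR i
      exact hC'.continuousOn.aemeasurable (ch.measE i)
    have h3' : AEMeasurable (fun z => SS k (zk k (dist (x : X) (ch.φ i z))))
        (volume.restrict (ch.E i)) := by
      unfold SS
      exact (h3.const_mul 2).add ((h3.pow_const 2).const_mul _)
    have h4 : AEMeasurable (fun z => √(ch.G i z).det) (volume.restrict (ch.E i)) :=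
      (B1Null.measurable_det (ch.measG i)).sqrt.aemeasurable
    exact (h4.const_mul t).mul (((h2.mul (h3'.sub h1).sqrt).add_const δ).const_mul _)
  have hgood : ∀ i, ∀ᵐ w ∂(volume.restrict (prodSet ((chs' ch).E i))),
      ∃ q : Euc (m + 1 + 1) → ℝ, B5u.Good (prodSet ((chs' ch).E i))
        (fun w' => HT C (x : X) F t (w' 0) ((chs' ch).φ i (tl w'))) w (J i (tl w)) q := by
    intro i
    filter_upwards [ae_prodSet_of_ae (ae_good hKR ch hR hLipF i),
      ae_restrict_mem (measurableSet_prodSet (ch.measE i))] with w h1 h2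
    exact h1.jac_two hk C hF hF0 hFM h2.1 (zk_le hKR hk ch hR h2.2)
      ht0 ht1 ht (A.zk_nonneg _ _)
  have h1 := B9Mass2.ofReal_mass_le (T := (chs' ch).R (HT C (x : X) F t))
    (E := fun i => prodSet ((chs' ch).E i))
    (φ := fun i w => HT C (x : X) F t (w 0) ((chs' ch).φ i (tl w)))
    (θ := fun i w => (chs' ch).θ i (tl w)) (J := fun i w => J i (tl w))
    (fun i => measurableSet_prodSet ((chs' ch).measE i))
    (fun i => ⟨_, (chs' ch).lipschitz_piece hH i⟩) ((chs' ch).integrable_piece)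
    (fun i => aemeasurable_tl (hJm i)) hgood (fun f π hf => (chs' ch).hasSum_R hH hf)
  refine h1.trans (le_of_eq ?_)
  rw [lintegral_tau ch]
  · refine tsum_congr fun i => ?_
    have h2 : ∫⁻ w in prodSet (ch.E i), ENNReal.ofReal (|(ch.θ i (tl w) : ℝ)| * J i (tl w)) =
        ∫⁻ z in ch.E i, ENNReal.ofReal (|(ch.θ i z : ℝ)| * J i z) :=
      lintegral_tl (g := fun z => ENNReal.ofReal (|(ch.θ i z : ℝ)| * J i z))
        (ENNReal.measurable_ofReal.comp_aemeasurable ((hθm i).mul (hJm i)))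
    refine h2.trans (lintegral_congr_ae ?_)
    filter_upwards [ae_restrict_mem (ch.measE i), ae_G2 hKR ch hR i] with z hz hG
    have hzK := ch.mapsK i hz
    rw [ext0_of_mem _ hzK, ← ENNReal.ofReal_mul (by positivity)]
    simp only [hJ, A.PreData.q]
    rw [hG hzK, ← hFf ⟨ch.φ i z, hzK⟩]
    refine congrArg ENNReal.ofReal ?_
    have e : A.zd k x ⟨ch.φ i z, hzK⟩ = zk k (dist (x : X) (ch.φ i z)) := rfl
    rw [e]
    unfold SS
    ring
  · refine ENNReal.measurable_ofReal.comp_aemeasurable ?_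
    exact ((((hf.continuous.aemeasurable).mul
      (P.q_meas x).aemeasurable).add_const δ).const_mul _).const_mul t

/-! ### real analysis -/

theorem real_one (P : A.PreData (m + 1) k K) (x : K) {f : K → ℝ} (hf : A.Lip f) (c1 : ℝ) :
    ∃ C0 : ℝ, 0 ≤ C0 ∧ ∀ᶠ t in 𝓝[>] (0 : ℝ), ∀ a : ℝ,
      ENNReal.ofReal a ≤ ∫⁻ y, ENNReal.ofReal (Real.exp (-t * g1 P x f y + c1 * t ^ 2)) ∂P.τ →
      a ≤ P.τ.real univ - t * fvar P x f + C0 * t ^ 2 := by
  have hfin := P.fin
  obtain ⟨B, hB0, hB⟩ := exists_g1_bound P x hf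
  set B' := B + |c1| with hB'
  have hB'0 : 0 ≤ B' := by positivity
  refine ⟨(|c1| + B' ^ 2) * P.τ.real univ, by positivity, ?_⟩
  have e1 : ∀ᶠ t in 𝓝[>] (0 : ℝ), 0 < t := eventually_mem_nhdsWithin
  have e2 : ∀ᶠ t in 𝓝[>] (0 : ℝ), t ≤ 1 := by
    refine nhdsWithin_le_nhds ?_
    exact (eventually_lt_nhds zero_lt_one).mono fun t h => h.le
  have e3 : ∀ᶠ t in 𝓝[>] (0 : ℝ), t * B' < 1 := by
    refine nhdsWithin_le_nhds ?_
    have : Tendsto (fun t : ℝ => t * B') (𝓝 0) (𝓝 (0 * B')) := by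
      exact (continuous_id.mul continuous_const).tendsto 0
    rw [zero_mul] at this
    exact this.eventually_lt_const zero_lt_one
  filter_upwards [e1, e2, e3] with t ht0 ht1 htB a ha
  have hint : Integrable (g1 P x f) P.τ := integrable_g1 P x hf
  have hle : ∀ᵐ y ∂P.τ, Real.exp (-t * g1 P x f y + c1 * t ^ 2) ≤
      1 - t * g1 P x f y + (|c1| + B' ^ 2) * t ^ 2 := by
    filter_upwards [hB] with y hy
    set Y := -t * g1 P x f y + c1 * t ^ 2 with hY
    have h1 : |Y| ≤ t * B' := by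
      refine (abs_add_le _ _).trans ?_
      rw [abs_mul, abs_mul, abs_neg, abs_of_pos ht0, abs_of_nonneg (sq_nonneg t)]
      have h2 : t * |g1 P x f y| ≤ t * B := mul_le_mul_of_nonneg_left hy ht0.le
      have h3 : |c1| * t ^ 2 ≤ |c1| * t := by
        refine mul_le_mul_of_nonneg_left ?_ (abs_nonneg _)
        nlinarith
      rw [hB']; nlinarith
    have h2 : |Y| ≤ 1 := h1.trans htB.le
    have h3 := Real.abs_exp_sub_one_sub_id_le h2
    have h4 := (abs_le.1 h3).2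
    have h5 : Y ^ 2 ≤ (t * B') ^ 2 := by
      rw [← sq_abs Y]
      exact pow_le_pow_left₀ (abs_nonneg _) h1 2
    have h6 : c1 * t ^ 2 ≤ |c1| * t ^ 2 := mul_le_mul_of_nonneg_right (le_abs_self _) (sq_nonneg t)
    have h7 : Y = -t * g1 P x f y + c1 * t ^ 2 := hY
    nlinarith
  have hint2 : Integrable (fun y => 1 - t * g1 P x f y + (|c1| + B' ^ 2) * t ^ 2) P.τ :=
    ((integrable_const 1).sub (hint.const_mul t)).add (integrable_const _)
  have h1 : ENNReal.ofReal a ≤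
      ENNReal.ofReal (∫ y, (1 - t * g1 P x f y + (|c1| + B' ^ 2) * t ^ 2) ∂P.τ) := by
    rw [ofReal_integral_eq_lintegral_ofReal hint2
      (hle.mono fun y hy => (Real.exp_pos _).le.trans hy)]
    refine ha.trans (lintegral_mono_ae ?_)
    filter_upwards [hle] with y hy using ENNReal.ofReal_le_ofReal hy
  have h0 : 0 ≤ ∫ y, (1 - t * g1 P x f y + (|c1| + B' ^ 2) * t ^ 2) ∂P.τ :=
    integral_nonneg_of_ae (hle.mono fun y hy => (Real.exp_pos _).le.trans hy)
  have h2 := (ENNReal.ofReal_le_ofReal_iff h0).1 h1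
  refine h2.trans (le_of_eq ?_)
  have hi : Integrable (fun y => 1 - t * g1 P x f y) P.τ :=
    (integrable_const 1).sub (hint.const_mul t)
  rw [integral_add hi (integrable_const _),
    integral_sub (integrable_const 1) (hint.const_mul t), integral_const_mul, integral_const,
    integral_const, smul_eq_mul, smul_eq_mul]
  have : fvar P x f = ∫ y, g1 P x f y ∂P.τ := rfl
  rw [this]
  ring

theorem real_two (P : A.PreData (m + 1) k K) (x : K) {f : K → ℝ} (hf : A.Lip f)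
    (hf0 : ∀ y, 0 ≤ f y) {t K2 δ a : ℝ} (ht0 : 0 ≤ t) (hδ : 0 ≤ δ)
    (ha : ENNReal.ofReal a ≤ ∫⁻ y, ENNReal.ofReal (t * (√((1 + K2 * t) ^ (m + 1)) *
        (f y * P.q x y + δ))) ∂P.τ) :
    a ≤ t * (√((1 + K2 * t) ^ (m + 1)) *
      (∫ y, f y * P.q x y ∂P.τ + δ * P.τ.real univ)) := by
  have hfin := P.fin
  have hint := P.integrable_mul_q hf.continuous x
  have hint2 : Integrable (fun y => t * (√((1 + K2 * t) ^ (m + 1)) *
        (f y * P.q x y + δ))) P.τ :=
    ((hint.add (integrable_const δ)).const_mul _).const_mul t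
  have hnn : ∀ y, 0 ≤ t * (√((1 + K2 * t) ^ (m + 1)) * (f y * P.q x y + δ)) := fun y =>
    mul_nonneg ht0 (mul_nonneg (Real.sqrt_nonneg _)
      (add_nonneg (mul_nonneg (hf0 y) (P.q_nonneg x y)) hδ))
  rw [← ofReal_integral_eq_lintegral_ofReal hint2 (Eventually.of_forall hnn)] at ha
  have h2 := (ENNReal.ofReal_le_ofReal_iff (integral_nonneg hnn)).1 ha
  refine h2.trans (le_of_eq ?_)
  rw [integral_const_mul, integral_const_mul, integral_add hint (integrable_const δ),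
    integral_const, smul_eq_mul]
  ring

theorem eventually_two (m : ℕ) (I τ K2 S ε : ℝ) (hε : 0 < ε) :
    ∀ᶠ t in 𝓝[>] (0 : ℝ), √((1 + K2 * t) ^ (m + 1)) * (I + √(K2 * t * S) * τ) ≤ I + ε := by
  have h : Continuous fun t : ℝ => √((1 + K2 * t) ^ (m + 1)) * (I + √(K2 * t * S) * τ) := by
    fun_prop
  have h1 := h.tendsto 0
  simp only [mul_zero, add_zero, one_pow, Real.sqrt_one, zero_mul, Real.sqrt_zero, one_mul] at h1
  exact nhdsWithin_le_nhds ((h1.eventually_lt_const (by linarith : I < I + ε)).mono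
    fun t ht => ht.le)

theorem push_id {n : ℕ} {T : Functional X n} (hT : IsCurrent T) {φ : X → X} (hφ : ∀ y, φ y = y) :
    B1c1.push φ T = T := by
  have : φ = id := funext hφ
  subst this
  funext f π
  by_cases h : IsTestPair f π
  · rw [B1c1.push_apply h]; rfl
  · rw [B1c1.push_of_not h, hT.eq_zero_of_not_test _ _ h]

/-- **First variation from chart data.** -/
theorem fvar_of_charts [SecondCountableTopology X] (hk : 0 ≤ k) (C : CATk k X) (hK : C.IsConv K)
    (hT : IsCyc K T) (ch : FVCharts T P) (hmass : mass T = P.τ.real univ) (x : K) (f : K → ℝ)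
    (hf : A.Lip f) (hf0 : ∀ y, 0 ≤ f y) (ε : ℝ) (hε : 0 < ε) :
    ∀ᶠ t in 𝓝[>] (0 : ℝ), ∃ R : Functional X (m + 2), IsInt K R ∧
      mass R ≤ t * (∫ y, f y * P.q x y ∂P.τ + ε) ∧
      mass (T + bd R) ≤ mass T - t * fvar P x f + ε * t := by
  have hKc : IsCompact K := isCompact_iff_compactSpace.2 ‹_›
  obtain ⟨F, A0, M, R, hF, hFf, hF0, hFM, hM0, hR, hFR, hKR⟩ :=
    B9h.exists_extension hKc (x : X) hf hf0
  have hTc := hT.int.cur
  set Zb := zk k (R + 1) with hZb
  have hZb0 : 0 ≤ Zb := A.zk_nonneg _ _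
  obtain ⟨C0, hC0, hone⟩ := real_one P x hf (((m + 1 : ℕ) : ℝ) * B9d.K1 k M A0 Zb / 2)
  have e1 : ∀ᶠ t in 𝓝[>] (0 : ℝ), 0 < t := eventually_mem_nhdsWithin
  have e2 : ∀ᶠ t in 𝓝[>] (0 : ℝ), t ≤ 1 :=
    nhdsWithin_le_nhds ((eventually_lt_nhds zero_lt_one).mono fun t h => h.le)
  have e3 : ∀ᶠ t in 𝓝[>] (0 : ℝ), 2 * (t * M * (2 + k ^ 2 * Zb)) ≤ 1 := by
    have h : Continuous fun t : ℝ => 2 * (t * M * (2 + k ^ 2 * Zb)) := by fun_prop
    have h1 := h.tendsto 0
    simp only [zero_mul, mul_zero] at h1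
    exact nhdsWithin_le_nhds ((h1.eventually_lt_const zero_lt_one).mono fun t ht => ht.le)
  have e4 : ∀ᶠ t in 𝓝[>] (0 : ℝ), C0 * t ≤ ε := by
    have h : Continuous fun t : ℝ => C0 * t := by fun_prop
    have h1 := h.tendsto 0
    simp only [mul_zero] at h1
    exact nhdsWithin_le_nhds ((h1.eventually_lt_const hε).mono fun t ht => ht.le)
  have e5 := eventually_two m (∫ y, f y * P.q x y ∂P.τ) (P.τ.real univ)
    (B9d.K2 k M A0 Zb) (1 + M ^ 2 * SS k Zb) ε hε
  filter_upwards [e1, e2, e3, e4, e5, hone] with t ht0 ht1 ht htε ht2 htone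
  obtain ⟨L, hH⟩ := exists_HLip hk C (x : X) hF hF0 hFM hR hFR ht0.le ht1 ht
  have hcT : (chs' ch).T = T := chs'_T ch hTc
  have hbd0 : bd (chs' ch).T = 0 := by rw [hcT]; exact hT.cyc
  refine ⟨(chs' ch).R (HT C (x : X) F t), ?_, ?_, ?_⟩
  · refine (chs' ch).isInt_R hbd0 hH (mapsTo_chs' ch) (fun s hs y hy => ?_) ?_
    · exact HH_mem C hK x.2 hy _ _
    · exact B4Norm.rect_of_charts
        (E := fun i => prodSet ((chs' ch).E i))
        (φ := fun i w => HT C (x : X) F t (w 0) ((chs' ch).φ i (tl w)))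
        (θ := fun i w => (chs' ch).θ i (tl w))
        (fun i => measurableSet_prodSet ((chs' ch).measE i))
        (fun i => ⟨_, (chs' ch).lipschitz_piece hH i⟩) ((chs' ch).integrable_piece)
        ((chs' ch).summable_mass_piece hH) (fun f π hf => (chs' ch).hasSum_R hH hf)
  · have h1 := mass_two hKR hk C ch hF hF0 hFM hR hFR hf hFf ht0.le ht1 ht
    have h2 := real_two P x hf hf0 ht0.le (Real.sqrt_nonneg _) h1
    exact h2.trans (mul_le_mul_of_nonneg_left ht2 ht0.le)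
  · have h1 := mass_one hKR hk C ch hTc hF hF0 hFM hR hFR hf hFf ht0.le ht1 ht
    have h2 := htone _ h1
    have h3 : T + bd ((chs' ch).R (HT C (x : X) F t)) = B1c1.push (HH C (x : X) F t) T := by
      rw [(chs' ch).bd_R_eq hbd0 hH, hcT]
      have e0 : B1c1.push (HT C (x : X) F t 0) T = T :=
        push_id hTc fun y => by unfold HT; rw [mul_zero]; exact HH_zero C hk _ _ _
      have e1 : HT C (x : X) F t 1 = HH C (x : X) F t := by
        funext y; unfold HT; rw [mul_one]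
      rw [e0, e1]
      abel
    rw [h3, hmass]
    nlinarith

end Mass

end Charts

end Crest.Agent.R241.B9g
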