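import Crest.Agent.R241.Targets

/-!
# R241, block E3: cut-off of unbounded sets (Eilenberg's inequality)  (helper882)
-/

set_option autoImplicit false

open MeasureTheory Filter Topology Set
open scoped ENNReal NNReal

namespace Crest.Agent.R241.Cut882

open Crest.GeometryTopology.Submanifold (Euc relBoundary)

/-- **Eilenberg's inequality** (constant one, with diameters). -/
theorem eilenberg {X : Type*} [MetricSpace X] [MeasurableSpace X] [BorelSpace X] {f : X → ℝ}
    (hf : LipschitzWith 1 f) (d : ℕ) (hd : 1 ≤ d) (s : Set X) :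
    ∃ g : ℝ → ℝ≥0∞, Measurable g ∧ ∫⁻ t, g t ≤ μH[((d + 1 : ℕ) : ℝ)] s ∧
      ∀ t, μH[(d : ℝ)] (s ∩ f ⁻¹' {t}) ≤ g t := by
  by_cases htop : μH[((d + 1 : ℕ) : ℝ)] s = ⊤
  · exact ⟨fun _ => ⊤, measurable_const, by rw [htop]; exact le_top, fun t => le_top⟩
  -- covers
  have hcov : ∀ j : ℕ, ∃ t : ℕ → Set X, s ⊆ ⋃ n, t n ∧
      (∀ n, Metric.ediam (t n) ≤ ((j : ℝ≥0∞) + 1)⁻¹) ∧
      ∑' n, ⨆ _ : (t n).Nonempty, Metric.ediam (t n) ^ ((d + 1 : ℕ) : ℝ) ≤
        μH[((d + 1 : ℕ) : ℝ)] s + ((j : ℝ≥0∞) + 1)⁻¹ := by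
    intro j
    have hr : (0 : ℝ≥0∞) < ((j : ℝ≥0∞) + 1)⁻¹ := by
      apply ENNReal.inv_pos.2
      simp
    have h1 : ⨅ (t : ℕ → Set X) (_ : s ⊆ ⋃ n, t n)
        (_ : ∀ n, Metric.ediam (t n) ≤ ((j : ℝ≥0∞) + 1)⁻¹),
        ∑' n, ⨆ _ : (t n).Nonempty, Metric.ediam (t n) ^ ((d + 1 : ℕ) : ℝ) ≤
        μH[((d + 1 : ℕ) : ℝ)] s := by
      rw [Measure.hausdorffMeasure_apply]
      exact le_iSup₂ (f := fun (r : ℝ≥0∞) (_ : 0 < r) => ⨅ (t : ℕ → Set X)
        (_ : s ⊆ ⋃ n, t n) (_ : ∀ n, Metric.ediam (t n) ≤ r),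
        ∑' n, ⨆ _ : (t n).Nonempty, Metric.ediam (t n) ^ ((d + 1 : ℕ) : ℝ)) _ hr
    have h2 := lt_of_le_of_lt h1 (ENNReal.lt_add_right htop hr.ne')
    simp only [iInf_lt_iff] at h2
    obtain ⟨t, ht1, ht2, ht3⟩ := h2
    exact ⟨t, ht1, ht2, ht3.le⟩
  choose t ht1 ht2 ht3 using hcov
  set I : ℕ → ℕ → Set ℝ := fun j n => closure (f '' (t j n)) with hI
  have hIm : ∀ j n, MeasurableSet (I j n) := fun j n => isClosed_closure.measurableSet
  set g : ℕ → ℝ → ℝ≥0∞ := fun j x =>
    ∑' n, (I j n).indicator (fun _ => Metric.ediam (t j n) ^ (d : ℝ)) x with hg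
  have hgm : ∀ j, Measurable (g j) := fun j =>
    Measurable.ennreal_tsum fun n => measurable_const.indicator (hIm j n)
  have hdpos : (0 : ℝ) < d := by exact_mod_cast hd
  have hgint : ∀ j, ∫⁻ x, g j x ≤ μH[((d + 1 : ℕ) : ℝ)] s + ((j : ℝ≥0∞) + 1)⁻¹ := by
    intro j
    refine le_trans ?_ (ht3 j)
    simp only [hg]
    rw [lintegral_tsum fun n => (measurable_const.indicator (hIm j n)).aemeasurable]
    apply ENNReal.tsum_le_tsum
    intro n
    rw [lintegral_indicator (hIm j n), setLIntegral_const]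
    rcases (t j n).eq_empty_or_nonempty with he | hne
    · simp [hI, he]
    · simp only [hne, iSup_pos]
      have hvol : volume (I j n) ≤ Metric.ediam (t j n) := by
        calc volume (I j n) ≤ Metric.ediam (I j n) := Real.volume_le_diam _
          _ = Metric.ediam (f '' (t j n)) := Metric.ediam_closure _
          _ ≤ (1 : ℝ≥0) * Metric.ediam (t j n) := hf.ediam_image_le _
          _ = Metric.ediam (t j n) := by simp
      calc Metric.ediam (t j n) ^ (d : ℝ) * volume (I j n)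
          ≤ Metric.ediam (t j n) ^ (d : ℝ) * Metric.ediam (t j n) := by gcongr
        _ = Metric.ediam (t j n) ^ ((d + 1 : ℕ) : ℝ) := by
          have hfin : Metric.ediam (t j n) ≠ ⊤ :=
            ne_top_of_le_ne_top (by simp) (ht2 j n)
          push_cast
          by_cases h0 : Metric.ediam (t j n) = 0
          · rw [h0, ENNReal.zero_rpow_of_pos hdpos, ENNReal.zero_rpow_of_pos (by linarith)]
            simp
          · rw [ENNReal.rpow_add _ _ h0 hfin, ENNReal.rpow_one]
  refine ⟨fun x => liminf (fun j => g j x) atTop, Measurable.liminf hgm, ?_, ?_⟩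
  · calc ∫⁻ x, liminf (fun j => g j x) atTop ≤ liminf (fun j => ∫⁻ x, g j x) atTop :=
          lintegral_liminf_le hgm
      _ ≤ liminf (fun j : ℕ => μH[((d + 1 : ℕ) : ℝ)] s + ((j : ℝ≥0∞) + 1)⁻¹) atTop :=
          liminf_le_liminf (Eventually.of_forall hgint)
      _ = μH[((d + 1 : ℕ) : ℝ)] s := by
          apply Tendsto.liminf_eq
          have h : Tendsto (fun j : ℕ => ((j : ℝ≥0∞) + 1)⁻¹) atTop (𝓝 0) := by
            have h0 := (ENNReal.tendsto_inv_nat_nhds_zero).comp (tendsto_add_atTop_nat 1)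
            refine h0.congr fun j => ?_
            simp
          simpa using tendsto_const_nhds.add h
  · intro x
    have h := Measure.hausdorffMeasure_le_liminf_tsum (ι := fun _ : ℕ => ℕ) (d : ℝ)
      (s ∩ f ⁻¹' {x}) (l := atTop) (fun j : ℕ => ((j : ℝ≥0∞) + 1)⁻¹) ?_
      (fun j n => t j n ∩ f ⁻¹' {x}) ?_ ?_
    · refine h.trans (liminf_le_liminf (Eventually.of_forall fun j => ?_))
      apply ENNReal.tsum_le_tsum
      intro n
      by_cases hx : x ∈ I j n
      · rw [indicator_of_mem hx]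
        gcongr
        exact inter_subset_left
      · have : t j n ∩ f ⁻¹' {x} = ∅ := by
          rw [eq_empty_iff_forall_notMem]
          rintro y ⟨hy1, hy2⟩
          apply hx
          exact subset_closure ⟨y, hy1, hy2⟩
        rw [this, Metric.ediam_empty, ENNReal.zero_rpow_of_pos hdpos]
        exact zero_le
    · have h0 := (ENNReal.tendsto_inv_nat_nhds_zero).comp (tendsto_add_atTop_nat 1)
      refine h0.congr fun j => ?_
      simp
    · exact Eventually.of_forall fun j n => (Metric.ediam_mono inter_subset_left).trans (ht2 j n)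
    · refine Eventually.of_forall fun j => ?_
      rintro y ⟨hy1, hy2⟩
      obtain ⟨n, hn⟩ := mem_iUnion.1 (ht1 j hy1)
      exact mem_iUnion.2 ⟨n, hn, hy2⟩

theorem relBoundary_inter_ball {N : ℕ} {S E : Set (Euc N)} (hS : IsClosed S) (hES : E ⊆ S)
    (R : ℝ) :
    relBoundary S (E ∩ Metric.ball 0 R) ⊆
      relBoundary S E ∪ (E ∩ (fun x : Euc N => ‖x‖) ⁻¹' {R}) := by
  rintro x ⟨hx1, hx2⟩
  have hxE : x ∈ closure E := closure_mono inter_subset_left hx1
  have hxS : x ∈ S := hS.closure_subset_iff.2 hES hxE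
  have hxR : ‖x‖ ≤ R := by
    have h := closure_mono (s := E ∩ Metric.ball 0 R) inter_subset_right hx1
    have h2 := Metric.closure_ball_subset_closedBall h
    simpa using h2
  by_cases hb : x ∈ closure (S \ E)
  · exact Or.inl ⟨hxE, hb⟩
  · right
    have hxin : x ∈ E := by
      by_contra h
      exact hb (subset_closure ⟨hxS, h⟩)
    refine ⟨hxin, ?_⟩
    have hsub : S \ (E ∩ Metric.ball 0 R) ⊆ (S \ E) ∪ (S \ Metric.ball 0 R) := by
      rintro y ⟨hy1, hy2⟩
      by_cases h : y ∈ E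
      · exact Or.inr ⟨hy1, fun h' => hy2 ⟨h, h'⟩⟩
      · exact Or.inl ⟨hy1, h⟩
    have h3 := closure_mono hsub hx2
    rw [closure_union] at h3
    rcases h3 with h3 | h3
    · exact absurd h3 hb
    · have h4 : x ∈ closure {y : Euc N | R ≤ ‖y‖} := by
        refine closure_mono ?_ h3
        rintro y ⟨_, hy⟩
        simpa using hy
      rw [(isClosed_le continuous_const continuous_norm).closure_eq] at h4
      exact le_antisymm hxR h4

theorem cutTarget : CutTarget := by
  intro d N hd S E hS hES hopen hvol hper ε hε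
  obtain ⟨U, hU, hEU⟩ := hopen
  have hEm : MeasurableSet E := by
    rw [hEU]; exact hS.measurableSet.inter hU.measurableSet
  -- the tail
  have htail : ∃ n : ℕ, Measure.euclideanHausdorffMeasure (d + 1) (E \ Metric.ball 0 (n : ℝ)) ≤
      ENNReal.ofReal ε := by
    have h1 : Tendsto (fun n : ℕ => Measure.euclideanHausdorffMeasure (d + 1)
        (E \ Metric.ball (0 : Euc N) (n : ℝ))) atTop
        (𝓝 (Measure.euclideanHausdorffMeasure (d + 1)
          (⋂ n : ℕ, E \ Metric.ball (0 : Euc N) (n : ℝ)))) := by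
      apply tendsto_measure_iInter_atTop
      · intro n
        exact (hEm.diff Metric.isOpen_ball.measurableSet).nullMeasurableSet
      · intro a b hab
        exact sdiff_subset_sdiff_right (Metric.ball_subset_ball (by exact_mod_cast hab))
      · exact ⟨0, ne_top_of_le_ne_top hvol.ne (measure_mono sdiff_subset)⟩
    have h2 : (⋂ n : ℕ, E \ Metric.ball (0 : Euc N) (n : ℝ)) = ∅ := by
      rw [eq_empty_iff_forall_notMem]
      intro x hx
      obtain ⟨n, hn⟩ := exists_nat_gt ‖x‖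
      have := (mem_iInter.1 hx n).2
      apply this
      simpa using hn
    rw [h2, measure_empty] at h1
    have h3 := h1.eventually (ge_mem_nhds (ENNReal.ofReal_pos.2 hε))
    exact h3.exists
  obtain ⟨n, hn⟩ := htail
  set E' : Set (Euc N) := E \ Metric.ball 0 (n : ℝ) with hE'
  obtain ⟨g, hgm, hgi, hgle⟩ := eilenberg (X := Euc N) (f := fun x => ‖x‖) lipschitzWith_one_norm
    d hd E'
  set c1 := Measure.addHaarScalarFactor (volume : Measure (EuclideanSpace ℝ (Fin (d + 1))))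
    μH[((d + 1 : ℕ) : ℝ)] with hc1
  set c0 := Measure.addHaarScalarFactor (volume : Measure (EuclideanSpace ℝ (Fin d)))
    μH[(d : ℝ)] with hc0
  have hc1ne : c1 ≠ 0 := Measure.addHaarScalarFactor_volume_hausdorffMeasure_ne_zero (d + 1)
  have hE'fin : μH[((d + 1 : ℕ) : ℝ)] E' < ⊤ := by
    have h1 : Measure.euclideanHausdorffMeasure (d + 1) E' < ⊤ :=
      lt_of_le_of_lt (measure_mono sdiff_subset) hvol
    rw [Measure.euclideanHausdorffMeasure_def, Measure.smul_apply, ENNReal.smul_def,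
      smul_eq_mul] at h1
    by_contra hcon
    rw [not_lt, top_le_iff] at hcon
    rw [hcon, ENNReal.mul_top] at h1
    · exact absurd h1 (lt_irrefl _)
    · exact_mod_cast hc1ne
  -- a good radius
  have hR : ∃ R : ℝ, (n : ℝ) < R ∧ (c0 : ℝ≥0∞) * g R ≤ ENNReal.ofReal ε := by
    by_contra hcon
    push Not at hcon
    have h1 : ∫⁻ t in Ioi (n : ℝ), ENNReal.ofReal ε ≤ ∫⁻ t in Ioi (n : ℝ), (c0 : ℝ≥0∞) * g t := by
      apply setLIntegral_mono (hgm.const_mul _)
      intro t ht
      exact (hcon t ht).le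
    have h2 : ∫⁻ t in Ioi (n : ℝ), (c0 : ℝ≥0∞) * g t < ⊤ := by
      calc ∫⁻ t in Ioi (n : ℝ), (c0 : ℝ≥0∞) * g t ≤ ∫⁻ t, (c0 : ℝ≥0∞) * g t :=
            setLIntegral_le_lintegral _ _
        _ = (c0 : ℝ≥0∞) * ∫⁻ t, g t := lintegral_const_mul _ hgm
        _ ≤ (c0 : ℝ≥0∞) * μH[((d + 1 : ℕ) : ℝ)] E' := by gcongr
        _ < ⊤ := ENNReal.mul_lt_top ENNReal.coe_lt_top hE'fin
    rw [setLIntegral_const, Real.volume_Ioi, ENNReal.mul_top (ENNReal.ofReal_pos.2 hε).ne'] at h1
    exact absurd (lt_of_le_of_lt h1 h2) (lt_irrefl _)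
  obtain ⟨R, hnR, hgR⟩ := hR
  have hR0 : 0 < R := lt_of_le_of_lt (Nat.cast_nonneg n) hnR
  refine ⟨R, hR0, ?_, ?_⟩
  · refine le_trans (measure_mono ?_) hn
    exact sdiff_subset_sdiff_right (Metric.ball_subset_ball hnR.le)
  · refine (measure_mono (relBoundary_inter_ball hS hES R)).trans ?_
    refine (measure_union_le _ _).trans ?_
    gcongr
    rw [Measure.euclideanHausdorffMeasure_def, Measure.smul_apply, ENNReal.smul_def, smul_eq_mul]
    refine le_trans ?_ hgR
    gcongr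
    refine le_trans (measure_mono ?_) (hgle R)
    rintro x ⟨hx1, hx2⟩
    refine ⟨⟨hx1, ?_⟩, hx2⟩
    have hx2' : ‖x‖ = R := hx2
    simp only [Metric.mem_ball, dist_zero_right, not_lt]
    linarith

end Crest.Agent.R241.Cut882
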