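import Crest.Agent.R241.D1

/-!
R241, block D1b: smooth ambient extension `Pt` of the orthogonal projection onto the tangent space,
second fundamental form.
-/

set_option autoImplicit false

open Set Filter Topology
open scoped ContDiff RealInnerProductSpace
open Crest.GeometryTopology.Submanifold

noncomputable section

namespace Crest.Agent.R241.D

section Linear

variable {n N : ℕ}

/-- The adjoint as a real-linear continuous map. -/
def adjL : (Euc n →L[ℝ] Euc N) →L[ℝ] (Euc N →L[ℝ] Euc n) where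
  toFun := fun A => ContinuousLinearMap.adjoint A
  map_add' := fun A B => map_add _ A B
  map_smul' := fun c A => by simp
  cont := ContinuousLinearMap.adjoint.continuous

/-- Left pseudo-inverse `(AᵀA)⁻¹Aᵀ`. -/
def pinv (A : Euc n →L[ℝ] Euc N) : Euc N →L[ℝ] Euc n :=
  (ContinuousLinearMap.adjoint A ∘L A).inverse ∘L ContinuousLinearMap.adjoint A

theorem isInvertible_gram {A : Euc n →L[ℝ] Euc N} (hA : Function.Injective A) :
    (ContinuousLinearMap.adjoint A ∘L A).IsInvertible := by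
  have hinj : Function.Injective ((ContinuousLinearMap.adjoint A ∘L A : Euc n →L[ℝ] Euc n) :
      Euc n →ₗ[ℝ] Euc n) := by
    rw [← LinearMap.ker_eq_bot, LinearMap.ker_eq_bot']
    intro v hv
    have h1 : ⟪A v, A v⟫ = 0 := by
      have h2 : ContinuousLinearMap.adjoint A (A v) = 0 := hv
      rw [← ContinuousLinearMap.adjoint_inner_right, h2, inner_zero_right]
    rw [inner_self_eq_zero] at h1
    exact hA (by rw [h1, map_zero])
  let L := LinearEquiv.ofInjectiveEndo _ hinj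
  refine ⟨L.toContinuousLinearEquiv, ?_⟩
  ext1 v
  rfl

theorem pinv_comp {A : Euc n →L[ℝ] Euc N} (hA : Function.Injective A) :
    pinv A ∘L A = ContinuousLinearMap.id ℝ (Euc n) := by
  have h := isInvertible_gram hA
  rw [pinv, ContinuousLinearMap.comp_assoc]
  exact h.inverse_comp_self

theorem pinv_apply_self {A : Euc n →L[ℝ] Euc N} (hA : Function.Injective A) (v : Euc n) :
    pinv A (A v) = v := by
  have := congrArg (fun L => L v) (pinv_comp hA)
  simpa using this

theorem comp_pinv {A : Euc n →L[ℝ] Euc N} (hA : Function.Injective A) :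
    A ∘L pinv A = (LinearMap.range (A : Euc n →ₗ[ℝ] Euc N)).starProjection := by
  ext1 v
  symm
  apply Submodule.eq_starProjection_of_mem_of_inner_eq_zero
  · exact ⟨pinv A v, rfl⟩
  · rintro _ ⟨w, rfl⟩
    have h := isInvertible_gram hA
    have h1 : ContinuousLinearMap.adjoint A (v - A (pinv A v)) = 0 := by
      rw [map_sub]
      have h2 : ContinuousLinearMap.adjoint A (A (pinv A v)) = ContinuousLinearMap.adjoint A v := by
        have h3 := congrArg (fun L => L (ContinuousLinearMap.adjoint A v)) h.self_comp_inverse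
        simpa [pinv] using h3
      rw [h2, sub_self]
    have h4 : ⟪v - A (pinv A v), A w⟫ = 0 := by
      rw [← ContinuousLinearMap.adjoint_inner_left, h1, inner_zero_left]
    simpa using h4

theorem contDiffAt_pinv {A : Euc n →L[ℝ] Euc N} (hA : Function.Injective A) :
    ContDiffAt ℝ ∞ (pinv (n := n) (N := N)) A := by
  have h := isInvertible_gram hA
  have hadj : ContDiff ℝ ∞ (fun A : Euc n →L[ℝ] Euc N => ContinuousLinearMap.adjoint A) :=
    (adjL (n := n) (N := N)).contDiff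
  have h1 : ContDiffAt ℝ ∞ (fun A : Euc n →L[ℝ] Euc N => ContinuousLinearMap.adjoint A ∘L A) A :=
    (hadj.clm_comp contDiff_id).contDiffAt
  have h2 : ContDiffAt ℝ ∞ (fun A : Euc n →L[ℝ] Euc N =>
      (ContinuousLinearMap.adjoint A ∘L A).inverse) A :=
    ContDiffAt.comp (g := ContinuousLinearMap.inverse)
      (f := fun A : Euc n →L[ℝ] Euc N => ContinuousLinearMap.adjoint A ∘L A) A
      h.contDiffAt_map_inverse h1
  exact h2.clm_comp hadj.contDiffAt

end Linear

variable {n N : ℕ} {S : Set (Euc N)} {p : Euc N} {f : Euc n → Euc N} {V : Set (Euc n)}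

theorem exists_local_Pt (hS : IsSubmanifold n N S) {p : Euc N} (hp : p ∈ S) :
    ∃ O : Set (Euc N), IsOpen O ∧ p ∈ O ∧ ∃ P : Euc N → Euc N →L[ℝ] Euc N,
      ContDiffOn ℝ ∞ P O ∧ ∀ q ∈ O, q ∈ S → P q = (Tan S q).starProjection := by
  obtain ⟨f, V, hf⟩ := hS p hp
  obtain ⟨O, ℓ, hO, hxO, hℓ, hℓV, hℓx, hℓS⟩ := exists_coord hf hf.zero_mem
  rw [hf.map_zero] at hxO
  refine ⟨O, hO, hxO, fun q => (fderiv ℝ f (ℓ q)) ∘L pinv (fderiv ℝ f (ℓ q)), ?_, ?_⟩
  · have h1 : ContDiffOn ℝ ∞ (fderiv ℝ f) V := hf.contDiffOn.fderiv_of_isOpen hf.isOpen (by simp)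
    have h2 : ContDiffOn ℝ ∞ (fun q => fderiv ℝ f (ℓ q)) O := h1.comp hℓ hℓV
    have h3 : ContDiffOn ℝ ∞ (fun q => pinv (fderiv ℝ f (ℓ q))) O := by
      intro q hq
      exact (contDiffAt_pinv (hf.injective_fderiv _ (hℓV q hq))).comp_contDiffWithinAt q (h2 q hq)
    exact h2.clm_comp h3
  · intro q hq hqS
    change fderiv ℝ f (ℓ q) ∘L pinv (fderiv ℝ f (ℓ q)) = _
    rw [comp_pinv (hf.injective_fderiv _ (hℓV q hq))]
    have := range_fderiv_eq_Tan hf (hℓV q hq)
    rw [hℓS q hq hqS] at this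
    simp only [this]

theorem exists_Pt (hS : IsSubmanifold n N S) (hcl : IsClosed S) :
    ∃ P : Euc N → Euc N →L[ℝ] Euc N, ContDiff ℝ ∞ P ∧
      ∀ q ∈ S, P q = (Tan S q).starProjection := by
  have ht : ∀ q : Euc N, Convex ℝ {L : Euc N →L[ℝ] Euc N | q ∈ S → L = (Tan S q).starProjection} := by
    intro q
    by_cases hq : q ∈ S
    · have : {L : Euc N →L[ℝ] Euc N | q ∈ S → L = (Tan S q).starProjection} =
        {(Tan S q).starProjection} := by
        ext L; simp [hq]
      rw [this]; exact convex_singleton _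
    · have : {L : Euc N →L[ℝ] Euc N | q ∈ S → L = (Tan S q).starProjection} = univ := by
        ext L; simp [hq]
      rw [this]; exact convex_univ
  obtain ⟨g, hg⟩ := exists_contMDiffMap_forall_mem_convex_of_local (n := (⊤ : ℕ∞))
    (modelWithCornersSelf ℝ (Euc N)) ht (by
      intro x
      by_cases hx : x ∈ S
      · obtain ⟨O, hO, hxO, P, hP, hPS⟩ := exists_local_Pt hS hx
        exact ⟨O, hO.mem_nhds hxO, P, hP.contMDiffOn, hPS⟩
      · exact ⟨Sᶜ, hcl.isOpen_compl.mem_nhds hx, fun _ => 0, contMDiffOn_const,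
          fun y hy h => absurd h hy⟩)
  exact ⟨g, g.contMDiff.contDiff, fun q hq => hg q hq⟩

/-- `P` is a smooth ambient extension of the orthogonal projections onto the tangent spaces. -/
structure IsProj (S : Set (Euc N)) (P : Euc N → Euc N →L[ℝ] Euc N) : Prop where
  smooth : ContDiff ℝ ∞ P
  eq : ∀ q ∈ S, P q = (Tan S q).starProjection

theorem exists_isProj (hS : IsSubmanifold n N S) (hcl : IsClosed S) :
    ∃ P : Euc N → Euc N →L[ℝ] Euc N, IsProj S P := by
  obtain ⟨P, h1, h2⟩ := exists_Pt hS hcl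
  exact ⟨P, h1, h2⟩

variable {P : Euc N → Euc N →L[ℝ] Euc N}

/-- The second fundamental form (for tangent `X`, `Y`). -/
def II (P : Euc N → Euc N →L[ℝ] Euc N) (q X Y : Euc N) : Euc N := fderiv ℝ P q X Y

theorem exists_curve_of_mem_Tan (hS : IsSubmanifold n N S) {q : Euc N} (hq : q ∈ S) {X : Euc N}
    (hX : X ∈ Tan S q) :
    ∃ γ : ℝ → Euc N, γ 0 = q ∧ HasDerivAt γ X 0 ∧ ∀ᶠ t in 𝓝 0, γ t ∈ S := by
  obtain ⟨f, V, hf⟩ := hS q hq
  have h0 := range_fderiv_eq_Tan hf hf.zero_mem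
  rw [hf.map_zero] at h0
  rw [← h0] at hX
  obtain ⟨w, rfl⟩ := hX
  obtain ⟨U, hU, hUS⟩ := hf.image_open V le_rfl hf.isOpen
  refine ⟨fun t => f (t • w), by simp [hf.map_zero], ?_, ?_⟩
  · have h2 : HasDerivAt (fun t : ℝ => t • w) w 0 := by
      simpa using ((hasDerivAt_id (0 : ℝ)).smul_const w)
    have h3 : HasFDerivAt f (fderiv ℝ f 0) ((0 : ℝ) • w) := by
      rw [zero_smul]
      exact ((hf.contDiffOn.contDiffAt (hf.isOpen.mem_nhds hf.zero_mem)).differentiableAt
        (by simp)).hasFDerivAt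
    exact h3.comp_hasDerivAt (0 : ℝ) h2
  · have : Tendsto (fun t : ℝ => t • w) (𝓝 0) (𝓝 0) := by
      have : Continuous (fun t : ℝ => t • w) := by fun_prop
      simpa using this.tendsto 0
    filter_upwards [this.eventually (hf.isOpen.mem_nhds hf.zero_mem)] with t ht
    have : f (t • w) ∈ f '' V := ⟨_, ht, rfl⟩
    rw [hUS] at this
    exact this.1

namespace IsProj

theorem hasFDerivAt (hP : IsProj S P) (q : Euc N) : HasFDerivAt P (fderiv ℝ P q) q :=
  (hP.smooth.contDiffAt.differentiableAt (by simp)).hasFDerivAt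

theorem hasDerivAt_comp (hP : IsProj S P) {γ : ℝ → Euc N} {v : Euc N} {t : ℝ}
    (h : HasDerivAt γ v t) : HasDerivAt (fun s => P (γ s)) (fderiv ℝ P (γ t) v) t :=
  (hP.hasFDerivAt (γ t)).comp_hasDerivAt t h

theorem apply_eq_self_iff (hP : IsProj S P) {q : Euc N} (hq : q ∈ S) {v : Euc N} :
    P q v = v ↔ v ∈ Tan S q := by
  rw [hP.eq q hq, Submodule.starProjection_eq_self_iff]

theorem apply_self (hP : IsProj S P) {q : Euc N} (hq : q ∈ S) {v : Euc N} (hv : v ∈ Tan S q) :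
    P q v = v := (hP.apply_eq_self_iff hq).2 hv

theorem apply_mem (hP : IsProj S P) {q : Euc N} (hq : q ∈ S) (v : Euc N) :
    P q v ∈ Tan S q := by
  rw [hP.eq q hq]
  exact Submodule.starProjection_apply_mem _ _

theorem idem (hP : IsProj S P) {q : Euc N} (hq : q ∈ S) (v : Euc N) :
    P q (P q v) = P q v := hP.apply_self hq (hP.apply_mem hq v)

theorem symm (hP : IsProj S P) {q : Euc N} (hq : q ∈ S) (v w : Euc N) :
    ⟪P q v, w⟫ = ⟪v, P q w⟫ := by
  rw [hP.eq q hq]
  exact Submodule.starProjection_isSymmetric (Tan S q) v w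

/-- The derivative of `P` in a tangent direction is symmetric. -/
theorem fderiv_symm (hP : IsProj S P) (hS : IsSubmanifold n N S) {q : Euc N} (hq : q ∈ S)
    {X : Euc N} (hX : X ∈ Tan S q) (v w : Euc N) :
    ⟪fderiv ℝ P q X v, w⟫ = ⟪v, fderiv ℝ P q X w⟫ := by
  obtain ⟨γ, h0, hγ, hγS⟩ := exists_curve_of_mem_Tan hS hq hX
  have h1 := hP.hasDerivAt_comp hγ
  rw [h0] at h1
  have h2 : HasDerivAt (fun t => ⟪P (γ t) v, w⟫) ⟪fderiv ℝ P q X v, w⟫ 0 := by
    have h3 : HasDerivAt (fun t => P (γ t) v) (fderiv ℝ P q X v) 0 := by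
      simpa using h1.clm_apply (hasDerivAt_const (0 : ℝ) v)
    simpa using h3.inner ℝ (hasDerivAt_const (0 : ℝ) w)
  have h4 : HasDerivAt (fun t => ⟪v, P (γ t) w⟫) ⟪v, fderiv ℝ P q X w⟫ 0 := by
    have h3 : HasDerivAt (fun t => P (γ t) w) (fderiv ℝ P q X w) 0 := by
      simpa using h1.clm_apply (hasDerivAt_const (0 : ℝ) w)
    simpa using (hasDerivAt_const (0 : ℝ) v).inner ℝ h3
  have h5 : (fun t => ⟪P (γ t) v, w⟫) =ᶠ[𝓝 0] fun t => ⟪v, P (γ t) w⟫ := by
    filter_upwards [hγS] with t ht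
    exact hP.symm ht v w
  exact (h4.congr_of_eventuallyEq h5).unique h2 |>.symm

/-- Leibniz rule for `P ∘ P = P` in tangent directions. -/
theorem fderiv_idem (hP : IsProj S P) (hS : IsSubmanifold n N S) {q : Euc N} (hq : q ∈ S)
    {X : Euc N} (hX : X ∈ Tan S q) (v : Euc N) :
    fderiv ℝ P q X (P q v) + P q (fderiv ℝ P q X v) = fderiv ℝ P q X v := by
  obtain ⟨γ, h0, hγ, hγS⟩ := exists_curve_of_mem_Tan hS hq hX
  have h1 := hP.hasDerivAt_comp hγ
  rw [h0] at h1
  have h3 : HasDerivAt (fun t => P (γ t) v) (fderiv ℝ P q X v) 0 := by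
    simpa using h1.clm_apply (hasDerivAt_const (0 : ℝ) v)
  have h4 : HasDerivAt (fun t => P (γ t) (P (γ t) v))
      (fderiv ℝ P q X (P q v) + P q (fderiv ℝ P q X v)) 0 := by
    have := h1.clm_apply h3
    simpa [h0] using this
  have h5 : (fun t => P (γ t) (P (γ t) v)) =ᶠ[𝓝 0] fun t => P (γ t) v := by
    filter_upwards [hγS] with t ht
    exact hP.idem ht v
  exact (h3.congr_of_eventuallyEq h5).unique h4 |>.symm

theorem P_fderiv_tan (hP : IsProj S P) (hS : IsSubmanifold n N S) {q : Euc N} (hq : q ∈ S)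
    {X Y : Euc N} (hX : X ∈ Tan S q) (hY : Y ∈ Tan S q) :
    P q (fderiv ℝ P q X Y) = 0 := by
  have := hP.fderiv_idem hS hq hX Y
  rw [hP.apply_self hq hY] at this
  simpa using this

/-- Second derivatives of a parametrisation. -/
theorem fderiv_param (hP : IsProj S P) (hf : IsLocalParam n N S p f V) {x : Euc n} (hx : x ∈ V)
    (u v : Euc n) :
    fderiv ℝ P (f x) (fderiv ℝ f x u) (fderiv ℝ f x v) =
      fderiv ℝ (fderiv ℝ f) x u v - P (f x) (fderiv ℝ (fderiv ℝ f) x u v) := by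
  have hcd : ContDiffAt ℝ ∞ f x := hf.contDiffOn.contDiffAt (hf.isOpen.mem_nhds hx)
  have hfx : HasFDerivAt f (fderiv ℝ f x) x := (hcd.differentiableAt (by simp)).hasFDerivAt
  have hfx2 : HasFDerivAt (fderiv ℝ f) (fderiv ℝ (fderiv ℝ f) x) x :=
    ((hcd.fderiv_right (m := ∞) (by simp)).differentiableAt (by simp)).hasFDerivAt
  have hline : HasDerivAt (fun t : ℝ => x + t • u) u 0 := by
    simpa using ((hasDerivAt_id (0 : ℝ)).smul_const u).const_add x
  have e0 : x + (0 : ℝ) • u = x := by simp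
  have h1 : HasDerivAt (fun t : ℝ => f (x + t • u)) (fderiv ℝ f x u) 0 :=
    HasFDerivAt.comp_hasDerivAt (0 : ℝ) (by rw [e0]; exact hfx) hline
  have h2 : HasDerivAt (fun t : ℝ => fderiv ℝ f (x + t • u)) (fderiv ℝ (fderiv ℝ f) x u) 0 :=
    HasFDerivAt.comp_hasDerivAt (0 : ℝ) (by rw [e0]; exact hfx2) hline
  have h3 : HasDerivAt (fun t : ℝ => fderiv ℝ f (x + t • u) v) (fderiv ℝ (fderiv ℝ f) x u v) 0 := by
    simpa using h2.clm_apply (hasDerivAt_const (0 : ℝ) v)
  have h4 := hP.hasDerivAt_comp h1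
  have h5 : HasDerivAt (fun t : ℝ => P (f (x + t • u)) (fderiv ℝ f (x + t • u) v))
      (fderiv ℝ P (f x) (fderiv ℝ f x u) (fderiv ℝ f x v) +
        P (f x) (fderiv ℝ (fderiv ℝ f) x u v)) 0 := by
    simpa [e0] using h4.clm_apply h3
  have h6 : (fun t : ℝ => P (f (x + t • u)) (fderiv ℝ f (x + t • u) v)) =ᶠ[𝓝 0]
      fun t : ℝ => fderiv ℝ f (x + t • u) v := by
    have : Tendsto (fun t : ℝ => x + t • u) (𝓝 0) (𝓝 x) := by
      have : Continuous (fun t : ℝ => x + t • u) := by fun_prop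
      simpa using this.tendsto 0
    filter_upwards [this.eventually (hf.isOpen.mem_nhds hx)] with t ht
    have hr := range_fderiv_eq_Tan hf ht
    obtain ⟨U, hU, hUS⟩ := hf.image_open V le_rfl hf.isOpen
    have hm : f (x + t • u) ∈ S := by
      have : f (x + t • u) ∈ f '' V := ⟨_, ht, rfl⟩
      rw [hUS] at this
      exact this.1
    apply hP.apply_self hm
    rw [← hr]
    exact ⟨v, rfl⟩
  have h7 := (h3.congr_of_eventuallyEq h6).unique h5
  exact eq_sub_of_add_eq h7.symm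

theorem II_symm (hP : IsProj S P) (hS : IsSubmanifold n N S) {q : Euc N} (hq : q ∈ S)
    {X Y : Euc N} (hX : X ∈ Tan S q) (hY : Y ∈ Tan S q) :
    fderiv ℝ P q X Y = fderiv ℝ P q Y X := by
  obtain ⟨f, V, hf⟩ := hS q hq
  have h0 := range_fderiv_eq_Tan hf hf.zero_mem
  rw [hf.map_zero] at h0
  rw [← h0] at hX hY
  obtain ⟨u, rfl⟩ := hX
  obtain ⟨v, rfl⟩ := hY
  have hcd : ContDiffAt ℝ ∞ f 0 := hf.contDiffOn.contDiffAt (hf.isOpen.mem_nhds hf.zero_mem)
  have hsymm : fderiv ℝ (fderiv ℝ f) 0 u v = fderiv ℝ (fderiv ℝ f) 0 v u :=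
    (hcd.isSymmSndFDerivAt (by
      rw [minSmoothness_of_isRCLikeNormedField]
      exact WithTop.coe_le_coe.2 le_top)) u v
  have h1 := hP.fderiv_param hf hf.zero_mem u v
  have h2 := hP.fderiv_param hf hf.zero_mem v u
  rw [hf.map_zero] at h1 h2
  change fderiv ℝ P q (fderiv ℝ f 0 u) (fderiv ℝ f 0 v) = fderiv ℝ P q (fderiv ℝ f 0 v) (fderiv ℝ f 0 u)
  rw [h1, h2, hsymm]

end IsProj

end Crest.Agent.R241.D
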