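import Mathlib
import Crest.Prelude.Def_Submanifold
import Crest.Prelude.Def_SubmanifoldIsoperimetric
import Crest.Agent.Lib.ODEFlow

/-!
R241, block D: extrinsic geometry of a closed submanifold `S ⊆ ℝ^N`.

`Geo n N κ S` packages everything that the Riemannian part needs about `S`:
tangent spaces `T x`, a globally smooth field `P` of operators which at points of `S` is the
orthogonal projection onto `T x`.  The second fundamental form is `(D_v P) w`.
-/

set_option autoImplicit false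

open Set Filter Topology
open scoped ContDiff
open Crest.GeometryTopology.Submanifold

noncomputable section

namespace Crest.Agent.R241.DDefs

/-- Extrinsic smooth data of a closed `n`-dimensional submanifold `S` of Euclidean `N`-space with
sectional curvature `≤ κ`. -/
structure Geo (n N : ℕ) (κ : ℝ) (S : Set (Euc N)) where
  /-- tangent space at `x` (only meaningful for `x ∈ S`) -/
  T : Euc N → Submodule ℝ (Euc N)
  /-- globally smooth field, at points of `S` the orthogonal projection onto `T x` -/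
  P : Euc N → Euc N →L[ℝ] Euc N
  isClosed : IsClosed S
  contDiff_P : ContDiff ℝ ∞ P
  P_eq : ∀ x ∈ S, P x = (T x).starProjection
  finrank_T : ∀ x ∈ S, Module.finrank ℝ (T x) = n
  /-- curves in `S` have velocity in `T` -/
  deriv_mem : ∀ (c : ℝ → Euc N) (c' : Euc N) (t : ℝ), (∀ᶠ s in 𝓝 t, c s ∈ S) →
    HasDerivAt c c' t → c' ∈ T (c t)
  /-- any two tangent vectors are the partial derivatives of a smooth surface germ in `S` -/
  exists_surface : ∀ x ∈ S, ∀ v ∈ T x, ∀ w ∈ T x, ∃ α : ℝ × ℝ → Euc N,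
    α 0 = x ∧ ContDiffAt ℝ ∞ α 0 ∧ (∀ᶠ q in 𝓝 (0 : ℝ × ℝ), α q ∈ S) ∧
      fderiv ℝ α 0 (1, 0) = v ∧ fderiv ℝ α 0 (0, 1) = w
  /-- local geodesics -/
  exists_geod : ∀ x ∈ S, ∀ v ∈ T x, ∃ (c c' : ℝ → Euc N), c 0 = x ∧ c' 0 = v ∧
    ∀ᶠ t in 𝓝 (0 : ℝ), c t ∈ S ∧ HasDerivAt c (c' t) t ∧
      HasDerivAt c' (fderiv ℝ P (c t) (c' t) (c' t)) t
  /-- Gauss: sectional curvature at most `κ` -/
  curv : ∀ x ∈ S, ∀ v ∈ T x, ∀ w ∈ T x,
    @inner ℝ (Euc N) _ (fderiv ℝ P x v v) (fderiv ℝ P x w w) - ‖fderiv ℝ P x v w‖ ^ 2 ≤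
      κ * (‖v‖ ^ 2 * ‖w‖ ^ 2 - @inner ℝ (Euc N) _ v w ^ 2)

/-- D1 target: the hypotheses of S0372/S0373 give `Geo` data. -/
def D1Target : Prop :=
  ∀ (n N : ℕ) (κ : ℝ) (S : Set (Euc N)), IsSubmanifold n N S → IsClosed S →
    (∀ p ∈ S, ∀ (f : Euc n → Euc N) (V : Set (Euc n)), IsLocalParam n N S p f V →
      ∀ u v : Euc n, secNum f 0 u v ≤ κ * gramDet f 0 u v) →
    ∃ G : Geo n N κ S, ∀ p ∈ S, ∀ (f : Euc n → Euc N) (V : Set (Euc n)),
      IsLocalParam n N S p f V → ∀ u ∈ V, G.T (f u) = LinearMap.range (fderiv ℝ f u).toLinearMap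

end Crest.Agent.R241.DDefs
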