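import Crest.Agent.R241.D1b
import Crest.Agent.R241.DDefs

/-!
R241, block D1c: curvature, local geodesics, and the construction of `Geo` from the hypotheses
of S0372/S0373.
-/

set_option autoImplicit false

open Set Filter Topology
open scoped ContDiff RealInnerProductSpace
open Crest.GeometryTopology.Submanifold
open Crest.Agent.R241.DDefs

noncomputable section

namespace Crest.Agent.R241.D

variable {n N : ℕ} {S : Set (Euc N)} {p : Euc N} {f : Euc n → Euc N} {V : Set (Euc n)}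
variable {P : Euc N → Euc N →L[ℝ] Euc N}

theorem sum_stdVec (u : Euc n) : ∑ i, u i • stdVec n i = u := by
  ext j
  simp [stdVec, Finset.sum_apply, Pi.single_apply]

theorem fderiv_eq_sum_pd (f : Euc n → Euc N) (x u : Euc n) :
    fderiv ℝ f x u = ∑ i, u i • pd f x i := by
  conv_lhs => rw [← sum_stdVec u]
  simp [map_sum, pd]

theorem mem_S (hf : IsLocalParam n N S p f V) {x : Euc n} (hx : x ∈ V) : f x ∈ S := by
  obtain ⟨U, hU, hUS⟩ := hf.image_open V le_rfl hf.isOpen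
  have : f x ∈ f '' V := ⟨_, hx, rfl⟩
  rw [hUS] at this
  exact this.1

theorem hess_eq (hf : IsLocalParam n N S p f V) {x : Euc n} (hx : x ∈ V) (i j : Fin n) :
    hess f x i j = fderiv ℝ (fderiv ℝ f) x (stdVec n i) (stdVec n j) := by
  have hcd : ContDiffAt ℝ ∞ f x := hf.contDiffOn.contDiffAt (hf.isOpen.mem_nhds hx)
  have hfx2 : HasFDerivAt (fderiv ℝ f) (fderiv ℝ (fderiv ℝ f) x) x :=
    ((hcd.fderiv_right (m := ∞) (by simp)).differentiableAt (by simp)).hasFDerivAt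
  have h1 : HasFDerivAt (fun y => fderiv ℝ f y (stdVec n j))
      ((fderiv ℝ (fderiv ℝ f) x).flip (stdVec n j)) x := by
    have := hfx2.clm_apply (hasFDerivAt_const (stdVec n j) x)
    simpa using this
  rw [hess]
  change fderiv ℝ (fun y => fderiv ℝ f y (stdVec n j)) x (stdVec n i) = _
  rw [h1.fderiv]
  rfl

theorem sff_eq (hP : IsProj S P) (hf : IsLocalParam n N S p f V) {x : Euc n} (hx : x ∈ V)
    (i j : Fin n) : sff f x i j = fderiv ℝ P (f x) (pd f x i) (pd f x j) := by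
  have h1 := hP.fderiv_param hf hx (stdVec n i) (stdVec n j)
  change fderiv ℝ P (f x) (pd f x i) (pd f x j) = _ at h1
  rw [h1, sff, normalPart, hess_eq hf hx, hP.eq (f x) (mem_S hf hx)]
  have := tangentAt_eq_Tan hf hx
  simp only [this]

/-- expansion of the curvature numerator. -/
theorem sum_bilin {E F : Type*} [NormedAddCommGroup E] [NormedSpace ℝ E]
    [NormedAddCommGroup F] [InnerProductSpace ℝ F] {m : ℕ}
    (B : E →L[ℝ] E →L[ℝ] F) (e : Fin m → E) (u v : Fin m → ℝ) :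
    ∑ i, ∑ j, ∑ k, ∑ l, u i * v j * v k * u l *
        (⟪B (e i) (e l), B (e j) (e k)⟫ - ⟪B (e i) (e k), B (e j) (e l)⟫) =
      ⟪B (∑ i, u i • e i) (∑ i, u i • e i), B (∑ i, v i • e i) (∑ i, v i • e i)⟫ -
      ⟪B (∑ i, u i • e i) (∑ i, v i • e i), B (∑ i, v i • e i) (∑ i, u i • e i)⟫ := by
  have hB : ∀ a b : Fin m → ℝ, B (∑ i, a i • e i) (∑ i, b i • e i) =
      ∑ i, ∑ j, (a i * b j) • B (e i) (e j) := by
    intro a b
    simp only [map_sum, map_smul, _root_.sum_apply, _root_.smul_apply,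
      Finset.smul_sum, smul_smul]
    rw [Finset.sum_comm]
    refine Finset.sum_congr rfl fun i _ => Finset.sum_congr rfl fun j _ => ?_
    rw [mul_comm]
  have hI : ∀ a b c d : Fin m → ℝ,
      ⟪∑ i, ∑ j, (a i * b j) • B (e i) (e j), ∑ i, ∑ j, (c i * d j) • B (e i) (e j)⟫ =
      ∑ i, ∑ j, ∑ k, ∑ l, a i * b j * c k * d l * ⟪B (e i) (e j), B (e k) (e l)⟫ := by
    intro a b c d
    rw [sum_inner]
    refine Finset.sum_congr rfl fun i _ => ?_
    rw [sum_inner]
    refine Finset.sum_congr rfl fun j _ => ?_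
    rw [inner_sum]
    refine Finset.sum_congr rfl fun k _ => ?_
    rw [inner_sum]
    refine Finset.sum_congr rfl fun l _ => ?_
    rw [real_inner_smul_left, real_inner_smul_right]
    ring
  rw [hB u u, hB v v, hB u v, hB v u, hI, hI]
  simp only [mul_sub, Finset.sum_sub_distrib]
  congr 1
  · refine Finset.sum_congr rfl fun i _ => ?_
    calc ∑ j, ∑ k, ∑ l, u i * v j * v k * u l * ⟪B (e i) (e l), B (e j) (e k)⟫
        = ∑ j, ∑ l, ∑ k, u i * v j * v k * u l * ⟪B (e i) (e l), B (e j) (e k)⟫ :=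
          Finset.sum_congr rfl fun j _ => Finset.sum_comm
      _ = ∑ l, ∑ j, ∑ k, u i * v j * v k * u l * ⟪B (e i) (e l), B (e j) (e k)⟫ :=
          Finset.sum_comm
      _ = _ := by
          refine Finset.sum_congr rfl fun l _ => Finset.sum_congr rfl fun j _ =>
            Finset.sum_congr rfl fun k _ => ?_
          ring
  · refine Finset.sum_congr rfl fun i _ => ?_
    calc ∑ j, ∑ k, ∑ l, u i * v j * v k * u l * ⟪B (e i) (e k), B (e j) (e l)⟫
        = ∑ k, ∑ j, ∑ l, u i * v j * v k * u l * ⟪B (e i) (e k), B (e j) (e l)⟫ :=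
          Finset.sum_comm
      _ = _ := by
          refine Finset.sum_congr rfl fun k _ => Finset.sum_congr rfl fun j _ =>
            Finset.sum_congr rfl fun l _ => ?_
          ring

theorem secNum_eq (hP : IsProj S P) (hS : IsSubmanifold n N S)
    (hf : IsLocalParam n N S p f V) {x : Euc n} (hx : x ∈ V)
    (u v : Euc n) :
    secNum f x u v =
      ⟪fderiv ℝ P (f x) (fderiv ℝ f x u) (fderiv ℝ f x u),
        fderiv ℝ P (f x) (fderiv ℝ f x v) (fderiv ℝ f x v)⟫ -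
      ‖fderiv ℝ P (f x) (fderiv ℝ f x u) (fderiv ℝ f x v)‖ ^ 2 := by
  have h1 : secNum f x u v = ∑ i, ∑ j, ∑ k, ∑ l, u i * v j * v k * u l *
      (⟪fderiv ℝ P (f x) (pd f x i) (pd f x l), fderiv ℝ P (f x) (pd f x j) (pd f x k)⟫ -
       ⟪fderiv ℝ P (f x) (pd f x i) (pd f x k), fderiv ℝ P (f x) (pd f x j) (pd f x l)⟫) := by
    simp only [secNum, riem, sff_eq hP hf hx]
  rw [h1, sum_bilin (fderiv ℝ P (f x)) (pd f x) u v, ← fderiv_eq_sum_pd, ← fderiv_eq_sum_pd]
  have hu : fderiv ℝ f x u ∈ Tan S (f x) := by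
    rw [← range_fderiv_eq_Tan hf hx]; exact ⟨u, rfl⟩
  have hv : fderiv ℝ f x v ∈ Tan S (f x) := by
    rw [← range_fderiv_eq_Tan hf hx]; exact ⟨v, rfl⟩
  rw [hP.II_symm hS (mem_S hf hx) hv hu, real_inner_self_eq_norm_sq]

theorem gramDet_eq (f : Euc n → Euc N) (x u v : Euc n) :
    gramDet f x u v = ‖fderiv ℝ f x u‖ ^ 2 * ‖fderiv ℝ f x v‖ ^ 2 -
      ⟪fderiv ℝ f x u, fderiv ℝ f x v⟫ ^ 2 := by
  rw [gramDet, real_inner_self_eq_norm_sq, real_inner_self_eq_norm_sq]

/-- local geodesics through a parametrisation. -/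
theorem exists_geod (hP : IsProj S P) (hS : IsSubmanifold n N S) {x : Euc N} (hx : x ∈ S)
    {v : Euc N} (hv : v ∈ Tan S x) :
    ∃ (c c' : ℝ → Euc N), c 0 = x ∧ c' 0 = v ∧
      ∀ᶠ t in 𝓝 (0 : ℝ), c t ∈ S ∧ HasDerivAt c (c' t) t ∧
        HasDerivAt c' (fderiv ℝ P (c t) (c' t) (c' t)) t := by
  obtain ⟨f, V, hf⟩ := hS x hx
  have h0 := range_fderiv_eq_Tan hf hf.zero_mem
  rw [hf.map_zero] at h0
  rw [← h0] at hv
  obtain ⟨w, rfl⟩ := hv
  -- the vector field
  let X : Euc n × Euc n → Euc n × Euc n := fun q =>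
    (q.2, -(pinv (fderiv ℝ f q.1) (fderiv ℝ (fderiv ℝ f) q.1 q.2 q.2)))
  have hcd : ContDiffAt ℝ ∞ f 0 := hf.contDiffOn.contDiffAt (hf.isOpen.mem_nhds hf.zero_mem)
  have hcd1 : ContDiffAt ℝ ∞ (fderiv ℝ f) 0 := hcd.fderiv_right (m := ∞) (by simp)
  have hcd2 : ContDiffAt ℝ ∞ (fderiv ℝ (fderiv ℝ f)) 0 := hcd1.fderiv_right (m := ∞) (by simp)
  have hX : ContDiffAt ℝ ∞ X (0, w) := by
    have hfst : ContDiffAt ℝ ∞ (fun q : Euc n × Euc n => q.1) (0, w) := contDiffAt_fst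
    have hsnd : ContDiffAt ℝ ∞ (fun q : Euc n × Euc n => q.2) (0, w) := contDiffAt_snd
    have h1 : ContDiffAt ℝ ∞ (fun q : Euc n × Euc n => fderiv ℝ f q.1) (0, w) :=
      ContDiffAt.comp (g := fderiv ℝ f) (f := fun q : Euc n × Euc n => q.1) (0, w) hcd1 hfst
    have h2 : ContDiffAt ℝ ∞ (fun q : Euc n × Euc n => fderiv ℝ (fderiv ℝ f) q.1) (0, w) :=
      ContDiffAt.comp (g := fderiv ℝ (fderiv ℝ f)) (f := fun q : Euc n × Euc n => q.1)
        (0, w) hcd2 hfst
    have h3 : ContDiffAt ℝ ∞ (fun q : Euc n × Euc n => pinv (fderiv ℝ f q.1)) (0, w) :=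
      ContDiffAt.comp (g := pinv (n := n) (N := N)) (f := fun q : Euc n × Euc n => fderiv ℝ f q.1)
        (0, w) (contDiffAt_pinv (hf.injective_fderiv 0 hf.zero_mem)) h1
    exact hsnd.prodMk (h3.clm_apply ((h2.clm_apply hsnd).clm_apply hsnd)).neg
  obtain ⟨α, hα0, ε, hε, hα⟩ :=
    (hX.of_le (by simp : (1 : WithTop ℕ∞) ≤ ∞)).exists_forall_mem_closedBall_exists_eq_forall_mem_Ioo_hasDerivAt₀ 0
  rw [zero_sub, zero_add] at hα
  have hcont : ContinuousAt α 0 := (hα 0 ⟨by linarith, hε⟩).continuousAt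
  have hcont1 : ContinuousAt (fun t => (α t).1) 0 := continuous_fst.continuousAt.comp hcont
  have hV : ∀ᶠ t in 𝓝 (0 : ℝ), (α t).1 ∈ V := by
    have h1 : V ∈ 𝓝 ((fun t => (α t).1) 0) := by
      simp only [hα0]
      exact hf.isOpen.mem_nhds hf.zero_mem
    exact hcont1.eventually h1
  refine ⟨fun t => f (α t).1, fun t => fderiv ℝ f (α t).1 (α t).2, ?_, ?_, ?_⟩
  · simp [hα0, hf.map_zero]
  · simp [hα0]
  · filter_upwards [hV, Ioo_mem_nhds (by linarith : -ε < 0) hε] with t htV ht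
    have hd := hα t ht
    have hd1 : HasDerivAt (fun t => (α t).1) (α t).2 t :=
      (hasFDerivAt_fst (𝕜 := ℝ) (p := α t)).comp_hasDerivAt t hd
    have hd2 : HasDerivAt (fun t => (α t).2)
        (-(pinv (fderiv ℝ f (α t).1) (fderiv ℝ (fderiv ℝ f) (α t).1 (α t).2 (α t).2))) t :=
      (hasFDerivAt_snd (𝕜 := ℝ) (p := α t)).comp_hasDerivAt t hd
    have hct : ContDiffAt ℝ ∞ f (α t).1 := hf.contDiffOn.contDiffAt (hf.isOpen.mem_nhds htV)
    have hft : HasFDerivAt f (fderiv ℝ f (α t).1) (α t).1 :=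
      (hct.differentiableAt (by simp)).hasFDerivAt
    have hft2 : HasFDerivAt (fderiv ℝ f) (fderiv ℝ (fderiv ℝ f) (α t).1) (α t).1 :=
      ((hct.fderiv_right (m := ∞) (by simp)).differentiableAt (by simp)).hasFDerivAt
    refine ⟨mem_S hf htV, hft.comp_hasDerivAt t hd1, ?_⟩
    have h1 : HasDerivAt (fun t => fderiv ℝ f (α t).1)
        (fderiv ℝ (fderiv ℝ f) (α t).1 (α t).2) t := hft2.comp_hasDerivAt t hd1
    have h2 := h1.clm_apply hd2
    refine h2.congr_deriv ?_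
    rw [hP.fderiv_param hf htV, map_neg]
    have h3 := comp_pinv (hf.injective_fderiv _ htV)
    have h4 := congrArg (fun L => L (fderiv ℝ (fderiv ℝ f) (α t).1 (α t).2 (α t).2)) h3
    simp only [ContinuousLinearMap.coe_comp, Function.comp_apply] at h4
    rw [h4, ← sub_eq_add_neg]
    have h5 := range_fderiv_eq_Tan hf htV
    rw [hP.eq _ (mem_S hf htV)]
    simp only [h5]

/-- surface germs -/
theorem exists_surface (hS : IsSubmanifold n N S) {x : Euc N} (hx : x ∈ S)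
    {v w : Euc N} (hv : v ∈ Tan S x) (hw : w ∈ Tan S x) :
    ∃ α : ℝ × ℝ → Euc N,
      α 0 = x ∧ ContDiffAt ℝ ∞ α 0 ∧ (∀ᶠ q in 𝓝 (0 : ℝ × ℝ), α q ∈ S) ∧
        fderiv ℝ α 0 (1, 0) = v ∧ fderiv ℝ α 0 (0, 1) = w := by
  obtain ⟨f, V, hf⟩ := hS x hx
  have h0 := range_fderiv_eq_Tan hf hf.zero_mem
  rw [hf.map_zero] at h0
  rw [← h0] at hv hw
  obtain ⟨a, rfl⟩ := hv
  obtain ⟨b, rfl⟩ := hw
  let L : ℝ × ℝ →L[ℝ] Euc n :=
    (ContinuousLinearMap.fst ℝ ℝ ℝ).smulRight a + (ContinuousLinearMap.snd ℝ ℝ ℝ).smulRight b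
  have hL0 : L 0 = 0 := map_zero L
  have hcd : ContDiffAt ℝ ∞ f 0 := hf.contDiffOn.contDiffAt (hf.isOpen.mem_nhds hf.zero_mem)
  have hfx : HasFDerivAt f (fderiv ℝ f 0) 0 := (hcd.differentiableAt (by simp)).hasFDerivAt
  have hcomp : HasFDerivAt (fun q => f (L q)) ((fderiv ℝ f 0) ∘L L) 0 := by
    apply HasFDerivAt.comp
    · rw [hL0]; exact hfx
    · exact L.hasFDerivAt
  refine ⟨fun q => f (L q), by simp [hL0, hf.map_zero], ?_, ?_, ?_, ?_⟩
  · apply ContDiffAt.comp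
    · rw [hL0]; exact hcd
    · exact L.contDiff.contDiffAt
  · have : ContinuousAt L 0 := L.continuous.continuousAt
    have h1 : ∀ᶠ q in 𝓝 (0 : ℝ × ℝ), L q ∈ V := by
      apply this.eventually (f := L)
      rw [hL0]
      exact hf.isOpen.mem_nhds hf.zero_mem
    exact h1.mono fun q hq => mem_S hf hq
  · rw [hcomp.fderiv]; simp [L]
  · rw [hcomp.fderiv]; simp [L]

theorem d1 : D1Target := by
  intro n N κ S hS hcl hsec
  obtain ⟨P, hP⟩ := exists_isProj hS hcl
  refine ⟨{ T := Tan S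
            P := P
            isClosed := hcl
            contDiff_P := hP.smooth
            P_eq := hP.eq
            finrank_T := fun x hx => finrank_Tan hS hx
            deriv_mem := fun c c' t h1 h2 => mem_Tan_of_curve h2 h1
            exists_surface := fun x hx v hv w hw => exists_surface hS hx hv hw
            exists_geod := fun x hx v hv => exists_geod hP hS hx hv
            curv := ?_ }, ?_⟩
  · intro x hx v hv w hw
    obtain ⟨f, V, hf⟩ := hS x hx
    have h0 := range_fderiv_eq_Tan hf hf.zero_mem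
    rw [hf.map_zero] at h0
    rw [← h0] at hv hw
    obtain ⟨a, rfl⟩ := hv
    obtain ⟨b, rfl⟩ := hw
    have h1 := hsec x hx f V hf a b
    rw [secNum_eq hP hS hf hf.zero_mem, gramDet_eq, hf.map_zero] at h1
    exact h1
  · intro p hp f V hf u hu
    exact (range_fderiv_eq_Tan hf hu).symm

end Crest.Agent.R241.D
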