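import Crest.Agent.R241.D3Zk

/-!
R241, block D3 (helper842): from the Gauss lemma and the Jacobi inequality to the Hessian comparison
`Hess z_p ≥ (1 + k² z_p) g` in the form of a Lie derivative, and along geodesics.
-/

set_option autoImplicit false

open Set Filter Topology
open scoped ContDiff InnerProductSpace

noncomputable section

namespace Crest.Agent.R241.D3S

open Crest.Agent.R241

variable {E F : Type*} [NormedAddCommGroup E] [InnerProductSpace ℝ E]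
  [NormedAddCommGroup F] [InnerProductSpace ℝ F]

theorem two_le_infty : (2 : WithTop ℕ∞) ≤ ∞ := by
  exact WithTop.coe_le_coe.2 (le_top : (2 : ℕ∞) ≤ ⊤)

/-- A smooth chart satisfying the Gauss lemma. -/
structure GaussChart (Φ : E → F) : Prop where
  smooth : ContDiff ℝ ∞ Φ
  gauss : ∀ v w : E, ⟪fderiv ℝ Φ v v, fderiv ℝ Φ v w⟫_ℝ = ⟪v, w⟫_ℝ

/-- A polar chart: Gauss lemma and Jacobi inequality (curvature `≤ -k²`). -/
structure Polar (k : ℝ) (Φ : E → F) : Prop extends GaussChart Φ where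
  jac : ∀ u w : E, ‖u‖ = 1 → ⟪u, w⟫_ℝ = 0 → ∀ t : ℝ, 0 < t →
    deriv (fun t : ℝ => ‖fderiv ℝ Φ (t • u) (t • w)‖ ^ 2) t ^ 2
        + 4 * k ^ 2 * (‖fderiv ℝ Φ (t • u) (t • w)‖ ^ 2) ^ 2
      ≤ 2 * ‖fderiv ℝ Φ (t • u) (t • w)‖ ^ 2
        * deriv (deriv (fun t : ℝ => ‖fderiv ℝ Φ (t • u) (t • w)‖ ^ 2)) t

/-- `⟨(D²Φ)(X,w), DΦ w⟩ + ⟨DΦ (DX w), DΦ w⟩ = ½ (L_X G)(w,w)`. -/
def lieD (k : ℝ) (Φ : E → F) (v w : E) : ℝ :=
  ⟪fderiv ℝ (fderiv ℝ Φ) v (Xf k v) w, fderiv ℝ Φ v w⟫_ℝ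
    + ⟪fderiv ℝ Φ v (fderiv ℝ (Xf k : E → E) v w), fderiv ℝ Φ v w⟫_ℝ

namespace GaussChart

variable {k : ℝ} {Φ : E → F}

theorem diff (hP : GaussChart Φ) : Differentiable ℝ Φ := hP.smooth.differentiable (by simp)

theorem diff2 (hP : GaussChart Φ) : Differentiable ℝ (fderiv ℝ Φ) :=
  (hP.smooth.fderiv_right (m := ∞) (by simp)).differentiable (by simp)

theorem inner_zero (hP : GaussChart Φ) (a w : E) :
    ⟪fderiv ℝ Φ 0 a, fderiv ℝ Φ 0 w⟫_ℝ = ⟪a, w⟫_ℝ := by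
  have hcont : Continuous (fun t : ℝ => ⟪fderiv ℝ Φ (t • a) a, fderiv ℝ Φ (t • a) w⟫_ℝ) := by
    have h1 : Continuous (fderiv ℝ Φ) := hP.smooth.continuous_fderiv (by simp)
    have h2 : Continuous (fun t : ℝ => fderiv ℝ Φ (t • a)) := h1.comp (by fun_prop)
    exact (h2.clm_apply continuous_const).inner (h2.clm_apply continuous_const)
  have h1 : Tendsto (fun t : ℝ => ⟪fderiv ℝ Φ (t • a) a, fderiv ℝ Φ (t • a) w⟫_ℝ) (𝓝[>] 0)
      (𝓝 (⟪fderiv ℝ Φ 0 a, fderiv ℝ Φ 0 w⟫_ℝ)) := by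
    have := (hcont.tendsto 0).mono_left (nhdsWithin_le_nhds (s := Ioi (0 : ℝ)))
    simpa using this
  have h2 : Tendsto (fun t : ℝ => ⟪fderiv ℝ Φ (t • a) a, fderiv ℝ Φ (t • a) w⟫_ℝ) (𝓝[>] 0)
      (𝓝 (⟪a, w⟫_ℝ)) := by
    refine tendsto_const_nhds.congr' ?_
    filter_upwards [self_mem_nhdsWithin] with t ht
    have ht' : (0 : ℝ) < t := ht
    have := hP.gauss (t • a) w
    rw [map_smul, real_inner_smul_left, real_inner_smul_left] at this
    exact (mul_left_cancel₀ ht'.ne' this).symm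
  exact tendsto_nhds_unique h1 h2

theorem norm_zero (hP : GaussChart Φ) (w : E) : ‖fderiv ℝ Φ 0 w‖ = ‖w‖ := by
  have := hP.inner_zero w w
  rw [real_inner_self_eq_norm_sq, real_inner_self_eq_norm_sq] at this
  exact (sq_eq_sq₀ (norm_nonneg _) (norm_nonneg _)).1 this

/-- The quantity `G(t) = ‖DΦ(tu) w‖²` and its derivative. -/
theorem hasDerivAt_G (hP : GaussChart Φ) (u w : E) (t : ℝ) :
    HasDerivAt (fun t : ℝ => ‖fderiv ℝ Φ (t • u) w‖ ^ 2)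
      (2 * ⟪fderiv ℝ (fderiv ℝ Φ) (t • u) u w, fderiv ℝ Φ (t • u) w⟫_ℝ) t := by
  have e2 : HasDerivAt (fun t : ℝ => t • u) u t := by
    simpa using (hasDerivAt_id t).smul_const u
  have e1 : HasDerivAt (fun t : ℝ => fderiv ℝ Φ (t • u)) (fderiv ℝ (fderiv ℝ Φ) (t • u) u) t :=
    (hP.diff2 (t • u)).hasFDerivAt.comp_hasDerivAt t e2
  have e3 : HasDerivAt (fun t : ℝ => fderiv ℝ Φ (t • u) w)
      (fderiv ℝ (fderiv ℝ Φ) (t • u) u w) t := by
    have := e1.clm_apply (hasDerivAt_const t w)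
    simpa using this
  have e4 := e3.norm_sq
  refine e4.congr_deriv ?_
  rw [real_inner_comm]

theorem y_eq (t : ℝ) (u w : E) : ‖fderiv ℝ Φ (t • u) (t • w)‖ ^ 2 =
    t ^ 2 * ‖fderiv ℝ Φ (t • u) w‖ ^ 2 := by
  rw [map_smul, norm_smul, mul_pow, Real.norm_eq_abs, sq_abs]

theorem contDiff_y (hP : GaussChart Φ) (u w : E) :
    ContDiff ℝ ∞ (fun t : ℝ => ‖fderiv ℝ Φ (t • u) (t • w)‖ ^ 2) := by
  have h1 : ContDiff ℝ ∞ (fderiv ℝ Φ) := hP.smooth.fderiv_right (by simp)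
  have h2 : ContDiff ℝ ∞ (fun t : ℝ => fderiv ℝ Φ (t • u)) :=
    h1.comp (contDiff_id.smul contDiff_const)
  have h3 : ContDiff ℝ ∞ (fun t : ℝ => fderiv ℝ Φ (t • u) (t • w)) :=
    h2.clm_apply (contDiff_id.smul contDiff_const)
  exact h3.norm_sq ℝ

/-- Differentiated Gauss lemma. -/
theorem gauss_deriv (hP : GaussChart Φ) (v w h : E) :
    ⟪fderiv ℝ (fderiv ℝ Φ) v h v, fderiv ℝ Φ v w⟫_ℝ + ⟪fderiv ℝ Φ v h, fderiv ℝ Φ v w⟫_ℝ
      + ⟪fderiv ℝ Φ v v, fderiv ℝ (fderiv ℝ Φ) v h w⟫_ℝ = ⟪h, w⟫_ℝ := by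
  have e0 : HasFDerivAt (fderiv ℝ Φ) (fderiv ℝ (fderiv ℝ Φ) v) v := (hP.diff2 v).hasFDerivAt
  have e1 := e0.clm_apply (hasFDerivAt_id v)
  have e2 := e0.clm_apply (hasFDerivAt_const w v)
  have e3 := e1.inner ℝ e2
  have e4 : HasFDerivAt (fun v => ⟪v, w⟫_ℝ) _ v := (hasFDerivAt_id v).inner ℝ (hasFDerivAt_const w v)
  have e5 : (fun v => ⟪fderiv ℝ Φ v v, fderiv ℝ Φ v w⟫_ℝ) = fun v => ⟪v, w⟫_ℝ := by
    ext v; exact hP.gauss v w
  have e6 : HasFDerivAt (fun v => ⟪fderiv ℝ Φ v v, fderiv ℝ Φ v w⟫_ℝ) _ v := e3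
  rw [e5] at e6
  have e7 := e6.unique e4
  have := congrArg (fun L : E →L[ℝ] ℝ => L h) e7
  simp at this
  rw [inner_add_left] at this
  linarith

theorem gauss_X (hP : GaussChart Φ) (v w : E) :
    ⟪fderiv ℝ (fderiv ℝ Φ) v (Xf k v) v, fderiv ℝ Φ v w⟫_ℝ
      + ⟪fderiv ℝ Φ v v, fderiv ℝ (fderiv ℝ Φ) v (Xf k v) w⟫_ℝ = 0 := by
  have h1 := hP.gauss_deriv v w (Xf k v)
  have h2 : ⟪fderiv ℝ Φ v (Xf k v), fderiv ℝ Φ v w⟫_ℝ = ⟪Xf k v, w⟫_ℝ := by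
    simp only [Xf, map_smul, real_inner_smul_left, hP.gauss]
  linarith

theorem norm_sq_self (hP : GaussChart Φ) (v : E) : ‖fderiv ℝ Φ v v‖ ^ 2 = ‖v‖ ^ 2 := by
  rw [← real_inner_self_eq_norm_sq, ← real_inner_self_eq_norm_sq, hP.gauss]

/-- **Hessian comparison along geodesics**: `(z∘σ)'' ≥ |σ'|² (1 + k² z∘σ)`. -/
theorem hess_curve (hP : GaussChart Φ) {c c1 : ℝ → E} {c2 : E} {t : ℝ}
    (h1 : HasDerivAt c (c1 t) t) (h2 : HasDerivAt c1 c2 t)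
    (hn : ∀ w, ⟪fderiv ℝ (fderiv ℝ Φ) (c t) (c1 t) (c1 t) + fderiv ℝ Φ (c t) c2,
      fderiv ℝ Φ (c t) w⟫_ℝ = 0) :
    HasDerivAt (fun s => zk k ‖c s‖) ⟪Xf k (c t), c1 t⟫_ℝ t ∧
    HasDerivAt (fun s => ⟪Xf k (c s), c1 s⟫_ℝ) (lieD k Φ (c t) (c1 t)) t := by
  constructor
  · exact (hasFDerivAt_zk_norm k (c t)).comp_hasDerivAt t h1
  · have hX : HasDerivAt (fun s => Xf k (c s)) (fderiv ℝ (Xf k : E → E) (c t) (c1 t)) t :=
      ((contDiff_Xf k (n := 1)).differentiable (by norm_num) (c t)).hasFDerivAt.comp_hasDerivAt t h1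
    have h3 := hX.inner ℝ h2
    refine h3.congr_deriv ?_
    set v := c t with hv
    set w := c1 t with hw
    have g3 := hP.gauss_deriv v w w
    have hsymm : fderiv ℝ (fderiv ℝ Φ) v (Xf k v) w = fderiv ℝ (fderiv ℝ Φ) v w (Xf k v) := by
      have : IsSymmSndFDerivAt ℝ Φ v :=
        ((hP.smooth.of_le (two_le_infty)).contDiffAt (x := v)).isSymmSndFDerivAt (by simp)
      exact this.eq _ _
    have e1 := hn v
    rw [inner_add_left, real_inner_comm (fderiv ℝ Φ v v) (fderiv ℝ Φ v c2), hP.gauss,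
      real_inner_comm] at e1
    obtain ⟨a, ha⟩ := fderiv_sig k v w
    rw [lieD, hsymm, fderiv_Xf, ha]
    simp only [Xf, map_add, map_smul, inner_add_left, real_inner_smul_left, hP.gauss]
    linear_combination (-sig k v) * g3 + sig k v * e1

theorem lieD_zero (hP : GaussChart Φ) (w : E) : lieD k Φ 0 w = ‖w‖ ^ 2 := by
  have h1 : fderiv ℝ (Xf k : E → E) 0 w = w := by
    rw [fderiv_Xf_perp k (by simp : ⟪(0 : E), w⟫_ℝ = 0)]
    simp [sig, snq_zero]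
  rw [lieD, h1, real_inner_self_eq_norm_sq, hP.norm_zero]
  simp [Xf]

end GaussChart

namespace Polar

variable {k : ℝ} {Φ : E → F}

/-- Output of the Sturm comparison for perpendicular vectors. -/
theorem sturm_out (hP : Polar k Φ) {u w : E} (hu : ‖u‖ = 1) (huw : ⟪u, w⟫_ℝ = 0) {t : ℝ}
    (ht : 0 < t) :
    ‖w‖ ^ 2 * sn k t ^ 2 ≤ t ^ 2 * ‖fderiv ℝ Φ (t • u) w‖ ^ 2 ∧
    ‖fderiv ℝ Φ (t • u) w‖ ^ 2 * Real.cosh (k * t) ≤
      sn k t * ⟪fderiv ℝ (fderiv ℝ Φ) (t • u) u w, fderiv ℝ Φ (t • u) w⟫_ℝ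
        + sn k t / t * ‖fderiv ℝ Φ (t • u) w‖ ^ 2 := by
  by_cases hw : w = 0
  · subst hw; simp
  set y : ℝ → ℝ := fun t : ℝ => ‖fderiv ℝ Φ (t • u) (t • w)‖ ^ 2 with hy
  have hyc : ContDiff ℝ ∞ y := hP.toGaussChart.contDiff_y u w
  have hyd : ∀ t, HasDerivAt y (deriv y t) t := fun t =>
    (hyc.differentiable (by simp) t).hasDerivAt
  have hydc : ContDiff ℝ ∞ (deriv y) := (contDiff_infty_iff_deriv.1 hyc).2
  have hydd : ∀ t, HasDerivAt (deriv y) (deriv (deriv y) t) t := fun t =>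
    (hydc.differentiable (by simp) t).hasDerivAt
  set G : ℝ → ℝ := fun t : ℝ => ‖fderiv ℝ Φ (t • u) w‖ ^ 2 with hG
  have hyG : y = fun t => t ^ 2 * G t := by ext t; exact GaussChart.y_eq t u w
  set G1 : ℝ → ℝ := fun t => 2 * ⟪fderiv ℝ (fderiv ℝ Φ) (t • u) u w, fderiv ℝ Φ (t • u) w⟫_ℝ
    with hG1
  have hGd : ∀ t, HasDerivAt G (G1 t) t := fun t => hP.toGaussChart.hasDerivAt_G u w t
  have hyd1 : ∀ t, deriv y t = 2 * t * G t + t ^ 2 * G1 t := by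
    intro t
    have e1 : HasDerivAt (fun t : ℝ => t ^ 2) (2 * t) t := by
      simpa using (hasDerivAt_id t).fun_pow 2
    have := e1.mul (hGd t)
    rw [hyG]
    exact this.deriv
  have hGc : Continuous G := continuous_iff_continuousAt.2 fun t => (hGd t).continuousAt
  have hG1c : Continuous G1 := by
    have h1 : ContDiff ℝ ∞ (fderiv ℝ Φ) := hP.smooth.fderiv_right (by simp)
    have h2 : Continuous (fderiv ℝ (fderiv ℝ Φ)) := h1.continuous_fderiv (by simp)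
    have h3 : Continuous (fun t : ℝ => fderiv ℝ (fderiv ℝ Φ) (t • u)) := h2.comp (by fun_prop)
    have h4 : Continuous (fun t : ℝ => fderiv ℝ Φ (t • u)) := h1.continuous.comp (by fun_prop)
    exact continuous_const.mul (((h3.clm_apply continuous_const).clm_apply continuous_const).inner
      (h4.clm_apply continuous_const))
  have hG0 : G 0 = ‖w‖ ^ 2 := by
    simp only [hG, zero_smul]
    rw [hP.toGaussChart.norm_zero]
  have hc : 0 < ‖w‖ ^ 2 := by positivity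
  have hlim : Tendsto (fun t => y t / t ^ 2) (𝓝[>] 0) (𝓝 (‖w‖ ^ 2)) := by
    have h1 : Tendsto G (𝓝[>] 0) (𝓝 (‖w‖ ^ 2)) := by
      rw [← hG0]; exact (hGc.tendsto 0).mono_left nhdsWithin_le_nhds
    refine h1.congr' ?_
    filter_upwards [self_mem_nhdsWithin] with t ht
    have ht' : (0 : ℝ) < t := ht
    rw [hyG]
    field_simp
  have hlim1 : Tendsto (fun t => deriv y t / t) (𝓝[>] 0) (𝓝 (2 * ‖w‖ ^ 2)) := by
    have h1 : Tendsto (fun t => 2 * G t + t * G1 t) (𝓝[>] 0) (𝓝 (2 * ‖w‖ ^ 2)) := by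
      have : Continuous (fun t => 2 * G t + t * G1 t) := by fun_prop
      have := (this.tendsto 0).mono_left (nhdsWithin_le_nhds (s := Ioi (0 : ℝ)))
      simpa [hG0] using this
    refine h1.congr' ?_
    filter_upwards [self_mem_nhdsWithin] with t ht
    have ht' : (0 : ℝ) < t := ht
    rw [hyd1]
    field_simp
  obtain ⟨s1, s2⟩ := sturm (k := k) hc (fun t _ => hyd t) (fun t _ => hydd t) hlim hlim1
    (fun t ht => hP.jac u w hu huw t ht) ht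
  refine ⟨?_, ?_⟩
  · rw [hyG] at s1; exact s1
  · rw [hyd1, hyG] at s2
    simp only at s2
    have e1 : 2 * t ^ 2 * (G t * Real.cosh (k * t)) ≤
        2 * t ^ 2 * (sn k t * (G1 t / 2) + sn k t / t * G t) := by
      calc 2 * t ^ 2 * (G t * Real.cosh (k * t)) = 2 * (t ^ 2 * G t) * Real.cosh (k * t) := by ring
        _ ≤ (2 * t * G t + t ^ 2 * G1 t) * sn k t := s2
        _ = 2 * t ^ 2 * (sn k t * (G1 t / 2) + sn k t / t * G t) := by field_simp; ring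
    have e2 := le_of_mul_le_mul_left e1 (by positivity)
    have e3 : G1 t / 2 = ⟪fderiv ℝ (fderiv ℝ Φ) (t • u) u w, fderiv ℝ Φ (t • u) w⟫_ℝ := by
      simp only [hG1]; ring
    rw [e3] at e2
    exact e2

/-- **Rauch comparison** for perpendicular vectors. -/
theorem norm_perp (hP : Polar k Φ) {v w : E} (hv : v ≠ 0) (hvw : ⟪v, w⟫_ℝ = 0) :
    sn k ‖v‖ / ‖v‖ * ‖w‖ ≤ ‖fderiv ℝ Φ v w‖ := by
  have hn : 0 < ‖v‖ := norm_pos_iff.2 hv
  have hu : ‖(‖v‖⁻¹ • v)‖ = 1 := by rw [norm_smul, norm_inv, norm_norm, inv_mul_cancel₀ hn.ne']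
  have huw : ⟪‖v‖⁻¹ • v, w⟫_ℝ = 0 := by rw [real_inner_smul_left, hvw, mul_zero]
  have h1 := (hP.sturm_out hu huw hn).1
  rw [smul_smul, mul_inv_cancel₀ hn.ne', one_smul] at h1
  have hsn := sn_pos (k := k) hn
  have h2 : (‖w‖ * sn k ‖v‖) ^ 2 ≤ (‖v‖ * ‖fderiv ℝ Φ v w‖) ^ 2 := by
    rw [mul_pow, mul_pow]; exact h1
  have h3 := (sq_le_sq₀ (by positivity) (by positivity)).1 h2
  rw [div_mul_eq_mul_div, div_le_iff₀ hn]
  linarith

/-- `Φ` is expanding. -/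
theorem norm_le (hP : Polar k Φ) (v w : E) : ‖w‖ ≤ ‖fderiv ℝ Φ v w‖ := by
  by_cases hv : v = 0
  · subst hv; rw [hP.toGaussChart.norm_zero]
  have hn : 0 < ‖v‖ := norm_pos_iff.2 hv
  set a : ℝ := ⟪v, w⟫_ℝ / ‖v‖ ^ 2 with ha
  set w' : E := w - a • v with hw'
  have hperp : ⟪v, w'⟫_ℝ = 0 := by
    rw [hw', inner_sub_right, real_inner_smul_right, real_inner_self_eq_norm_sq, ha]
    field_simp
    ring
  have h1 := hP.norm_perp hv hperp
  have h2 : ‖w'‖ ≤ ‖fderiv ℝ Φ v w'‖ := by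
    refine le_trans ?_ h1
    have h3 : 1 ≤ sn k ‖v‖ / ‖v‖ := by
      rw [le_div_iff₀ hn, one_mul]; exact le_sn hn.le
    nlinarith [norm_nonneg w']
  have hw : w = a • v + w' := by rw [hw']; abel
  have e1 : ‖w‖ ^ 2 = a ^ 2 * ‖v‖ ^ 2 + ‖w'‖ ^ 2 := by
    rw [hw, ← real_inner_self_eq_norm_sq, inner_add_left, inner_add_right, inner_add_right,
      real_inner_smul_left, real_inner_smul_left, real_inner_smul_right, real_inner_smul_right,
      real_inner_comm v w', hperp, real_inner_self_eq_norm_sq, real_inner_self_eq_norm_sq]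
    ring
  have e2 : ‖fderiv ℝ Φ v w‖ ^ 2 = a ^ 2 * ‖v‖ ^ 2 + ‖fderiv ℝ Φ v w'‖ ^ 2 := by
    have hA : ⟪fderiv ℝ Φ v v, fderiv ℝ Φ v w'⟫_ℝ = 0 := by rw [hP.gauss, hperp]
    rw [hw, map_add, map_smul, ← real_inner_self_eq_norm_sq, inner_add_left, inner_add_right,
      inner_add_right,
      real_inner_smul_left, real_inner_smul_left, real_inner_smul_right, real_inner_smul_right,
      real_inner_comm (fderiv ℝ Φ v v) (fderiv ℝ Φ v w'), hA, real_inner_self_eq_norm_sq,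
      real_inner_self_eq_norm_sq, hP.toGaussChart.norm_sq_self]
    ring
  have h4 : ‖w'‖ ^ 2 ≤ ‖fderiv ℝ Φ v w'‖ ^ 2 := by
    apply pow_le_pow_left₀ (norm_nonneg _) h2
  exact (sq_le_sq₀ (norm_nonneg _) (norm_nonneg _)).1 (by linarith)

/-- **Hessian comparison** in Lie derivative form. -/
theorem lieD_ge (hP : Polar k Φ) (v w : E) :
    Real.cosh (k * ‖v‖) * ‖fderiv ℝ Φ v w‖ ^ 2 ≤ lieD k Φ v w := by
  by_cases hv : v = 0
  · subst hv
    have h1 : fderiv ℝ (Xf k : E → E) 0 w = w := by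
      rw [fderiv_Xf_perp k (by simp : ⟪(0 : E), w⟫_ℝ = 0)]
      simp [sig, snq_zero]
    rw [lieD, h1]
    simp [Xf]
  have hn : 0 < ‖v‖ := norm_pos_iff.2 hv
  set A := fderiv ℝ Φ v with hA
  set B := fderiv ℝ (fderiv ℝ Φ) v (Xf k v) with hB
  set C := Real.cosh (k * ‖v‖) with hC
  set a : ℝ := ⟪v, w⟫_ℝ / ‖v‖ ^ 2 with ha
  set w' : E := w - a • v with hw'
  have hperp : ⟪v, w'⟫_ℝ = 0 := by
    rw [hw', inner_sub_right, real_inner_smul_right, real_inner_self_eq_norm_sq, ha]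
    field_simp
    ring
  have hw : w = a • v + w' := by rw [hw']; abel
  have hDv : fderiv ℝ (Xf k : E → E) v v = C • v := fderiv_Xf_self k v
  have hDw' : fderiv ℝ (Xf k : E → E) v w' = sig k v • w' := fderiv_Xf_perp k hperp
  have g1 : ⟪A v, A v⟫_ℝ = ‖v‖ ^ 2 := by rw [hA, hP.gauss, real_inner_self_eq_norm_sq]
  have g2 : ⟪A v, A w'⟫_ℝ = 0 := by rw [hA, hP.gauss, hperp]
  have g2' : ⟪A w', A v⟫_ℝ = 0 := by rw [real_inner_comm]; exact g2
  have x1 : ⟪B v, A v⟫_ℝ + ⟪A v, B v⟫_ℝ = 0 := hP.toGaussChart.gauss_X v v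
  have x1' : ⟪B v, A v⟫_ℝ = 0 := by
    rw [real_inner_comm (B v) (A v)] at x1
    linarith
  have x2 : ⟪B v, A w'⟫_ℝ + ⟪A v, B w'⟫_ℝ = 0 := hP.toGaussChart.gauss_X v w'
  rw [real_inner_comm (B w') (A v)] at x2
  -- perpendicular part
  have hu : ‖(‖v‖⁻¹ • v)‖ = 1 := by rw [norm_smul, norm_inv, norm_norm, inv_mul_cancel₀ hn.ne']
  have huw : ⟪‖v‖⁻¹ • v, w'⟫_ℝ = 0 := by rw [real_inner_smul_left, hperp, mul_zero]
  have h1 := (hP.sturm_out hu huw hn).2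
  rw [smul_smul, mul_inv_cancel₀ hn.ne', one_smul] at h1
  have hBw' : ⟪B w', A w'⟫_ℝ = sn k ‖v‖ * ⟪fderiv ℝ (fderiv ℝ Φ) v (‖v‖⁻¹ • v) w', A w'⟫_ℝ := by
    have : Xf k v = sn k ‖v‖ • (‖v‖⁻¹ • v) := by
      rw [Xf, smul_smul, ← sig_mul_norm, mul_assoc, mul_inv_cancel₀ hn.ne', mul_one]
    rw [hB, this, map_smul]
    rw [smul_apply, real_inner_smul_left]
  have hsig : sn k ‖v‖ / ‖v‖ = sig k v := by
    rw [← sig_mul_norm]; field_simp
  rw [← hA, ← hBw', hsig] at h1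
  have key : lieD k Φ v w = a ^ 2 * (C * ‖v‖ ^ 2) + (⟪B w', A w'⟫_ℝ + sig k v * ‖A w'‖ ^ 2) := by
    have e0 : lieD k Φ v w = ⟪B w, A w⟫_ℝ + ⟪A (fderiv ℝ (Xf k : E → E) v w), A w⟫_ℝ := rfl
    have e1 : fderiv ℝ (Xf k : E → E) v w = (a * C) • v + sig k v • w' := by
      rw [hw, map_add, map_smul, hDv, hDw', smul_smul]
    rw [e0, e1, hw]
    simp only [map_add, map_smul, inner_add_left, inner_add_right, real_inner_smul_left,
      real_inner_smul_right, x1', g1, g2, g2']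
    rw [real_inner_self_eq_norm_sq]
    linear_combination a * x2
  have e2 : ‖A w‖ ^ 2 = a ^ 2 * ‖v‖ ^ 2 + ‖A w'‖ ^ 2 := by
    rw [← real_inner_self_eq_norm_sq, hw]
    simp only [map_add, map_smul, inner_add_left, inner_add_right, real_inner_smul_left,
      real_inner_smul_right, g1, g2, g2']
    rw [real_inner_self_eq_norm_sq]
    ring
  rw [key, e2]
  nlinarith

end Polar

end Crest.Agent.R241.D3S
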