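import Crest.Agent.R241.Defs

/-!
R241, block D3 (helper842): Sturm comparison, pure real analysis.
-/

set_option autoImplicit false

open Set Filter Topology
open scoped ContDiff

noncomputable section

namespace Crest.Agent.R241.D3S

open Crest.Agent.R241

theorem hasDerivAt_sn (k t : ℝ) : HasDerivAt (sn k) (Real.cosh (k * t)) t := by
  unfold sn
  by_cases hk : k = 0
  · subst hk
    simpa using hasDerivAt_id' t
  · simp only [hk, if_false]
    have h1 : HasDerivAt (fun t : ℝ => k * t) k t := by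
      simpa using (hasDerivAt_id t).const_mul k
    have h2 := (h1.sinh).div_const k
    refine h2.congr_deriv ?_
    field_simp

theorem sn_zero (k : ℝ) : sn k 0 = 0 := by
  unfold sn; split_ifs <;> simp

theorem continuous_sn (k : ℝ) : Continuous (sn k) :=
  continuous_iff_continuousAt.2 fun t => (hasDerivAt_sn k t).continuousAt

theorem hasDerivAt_cosh_mul (k t : ℝ) :
    HasDerivAt (fun t : ℝ => Real.cosh (k * t)) (k ^ 2 * sn k t) t := by
  have h1 : HasDerivAt (fun t : ℝ => k * t) k t := by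
    simpa using (hasDerivAt_id t).const_mul k
  refine (h1.cosh).congr_deriv ?_
  unfold sn
  by_cases hk : k = 0
  · subst hk; simp
  · simp only [hk, if_false]; field_simp

theorem cosh_eq_zk (k r : ℝ) : Real.cosh (k * r) = 1 + k ^ 2 * zk k r := by
  unfold zk
  by_cases hk : k = 0
  · subst hk; simp
  · simp only [hk, if_false]; field_simp; ring

theorem sn_sq (k r : ℝ) : sn k r ^ 2 = 2 * zk k r + k ^ 2 * zk k r ^ 2 := by
  unfold sn zk
  by_cases hk : k = 0
  · subst hk; simp; ring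
  · simp only [hk, if_false]
    have := Real.cosh_sq (k * r)
    field_simp
    nlinarith

theorem le_sn {k t : ℝ} (ht : 0 ≤ t) : t ≤ sn k t := by
  have hmono : MonotoneOn (fun t => sn k t - t) (Ici 0) := by
    apply monotoneOn_of_deriv_nonneg (convex_Ici 0)
    · exact ((continuous_sn k).sub continuous_id).continuousOn
    · exact fun t _ => ((hasDerivAt_sn k t).sub (hasDerivAt_id t)).differentiableAt.differentiableWithinAt
    · intro t _
      have := ((hasDerivAt_sn k t).sub (hasDerivAt_id t)).deriv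
      have h2 : deriv (fun t => sn k t - t) t = Real.cosh (k * t) - 1 := this
      rw [h2]
      have := Real.one_le_cosh (k * t)
      linarith
  have := hmono (mem_Ici.2 le_rfl) (mem_Ici.2 ht) ht
  simp only [sn_zero, sub_zero] at this
  linarith

theorem sn_pos {k t : ℝ} (ht : 0 < t) : 0 < sn k t := ht.trans_le (le_sn ht.le)

theorem tendsto_sn_div (k : ℝ) : Tendsto (fun t => sn k t / t) (𝓝[>] 0) (𝓝 1) := by
  have h := (hasDerivAt_sn k 0).tendsto_slope
  have h2 : Tendsto (slope (sn k) 0) (𝓝[>] 0) (𝓝 (Real.cosh (k * 0))) :=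
    h.mono_left (nhdsWithin_mono _ (fun x hx => (ne_of_gt hx : x ≠ 0)))
  simp only [mul_zero, Real.cosh_zero] at h2
  refine h2.congr' ?_
  filter_upwards [self_mem_nhdsWithin] with t ht
  rw [slope_def_field, sn_zero]
  simp

/-- A function which is monotone on `(0,a)` with limit `L` at `0+` is `≥ L`. -/
theorem le_of_monotoneOn_limit {f : ℝ → ℝ} {a L : ℝ} (hf : MonotoneOn f (Ioo 0 a))
    (hL : Tendsto f (𝓝[>] 0) (𝓝 L)) {t : ℝ} (ht : t ∈ Ioo 0 a) : L ≤ f t := by
  refine le_of_tendsto hL ?_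
  have : Ioo 0 t ∈ 𝓝[>] (0 : ℝ) := Ioo_mem_nhdsGT ht.1
  filter_upwards [this] with s hs
  exact hf ⟨hs.1, hs.2.trans ht.2⟩ ht hs.2.le

/-- Sturm comparison on an interval where `y` is positive. -/
theorem sturm_aux {k : ℝ} {y y1 y2 : ℝ → ℝ} {c a : ℝ} (hc : 0 < c)
    (h1 : ∀ t > 0, HasDerivAt y (y1 t) t) (h2 : ∀ t > 0, HasDerivAt y1 (y2 t) t)
    (hlim : Tendsto (fun t => y t / t ^ 2) (𝓝[>] 0) (𝓝 c))
    (hlim1 : Tendsto (fun t => y1 t / t) (𝓝[>] 0) (𝓝 (2 * c)))
    (hineq : ∀ t > 0, y1 t ^ 2 + 4 * k ^ 2 * y t ^ 2 ≤ 2 * y t * y2 t)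
    (hpos : ∀ t ∈ Ioo 0 a, 0 < y t) {t : ℝ} (ht : t ∈ Ioo 0 a) :
    c * sn k t ^ 2 ≤ y t ∧ 2 * y t * Real.cosh (k * t) ≤ y1 t * sn k t := by
  -- the monotone quantity
  set M : ℝ → ℝ := fun t => (y1 t * sn k t - 2 * y t * Real.cosh (k * t)) / Real.sqrt (y t)
    with hM
  have hMd : ∀ t ∈ Ioo 0 a, HasDerivAt M
      (((y2 t * sn k t + y1 t * Real.cosh (k * t) - (2 * y1 t * Real.cosh (k * t)
        + 2 * y t * (k ^ 2 * sn k t))) * Real.sqrt (y t)
        - (y1 t * sn k t - 2 * y t * Real.cosh (k * t)) * (y1 t / (2 * Real.sqrt (y t))))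
        / Real.sqrt (y t) ^ 2) t := by
    intro t ht
    have hyt := hpos t ht
    have e1 := (h2 t ht.1).mul (hasDerivAt_sn k t)
    have e2 := ((h1 t ht.1).const_mul 2).mul (hasDerivAt_cosh_mul k t)
    have e3 := (h1 t ht.1).sqrt hyt.ne'
    exact (e1.sub e2).div e3 (Real.sqrt_pos.2 hyt).ne'
  have hMnonneg : ∀ t ∈ Ioo 0 a, 0 ≤ ((y2 t * sn k t + y1 t * Real.cosh (k * t)
        - (2 * y1 t * Real.cosh (k * t) + 2 * y t * (k ^ 2 * sn k t))) * Real.sqrt (y t)
        - (y1 t * sn k t - 2 * y t * Real.cosh (k * t)) * (y1 t / (2 * Real.sqrt (y t))))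
        / Real.sqrt (y t) ^ 2 := by
    intro t ht
    have hyt := hpos t ht
    have hs : 0 < Real.sqrt (y t) := Real.sqrt_pos.2 hyt
    have hsq : Real.sqrt (y t) ^ 2 = y t := Real.sq_sqrt hyt.le
    have hsn := sn_pos (k := k) ht.1
    have key := hineq t ht.1
    apply div_nonneg _ (sq_nonneg _)
    have : (y2 t * sn k t + y1 t * Real.cosh (k * t)
        - (2 * y1 t * Real.cosh (k * t) + 2 * y t * (k ^ 2 * sn k t))) * Real.sqrt (y t)
        - (y1 t * sn k t - 2 * y t * Real.cosh (k * t)) * (y1 t / (2 * Real.sqrt (y t)))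
        = sn k t * (2 * y t * y2 t - (y1 t ^ 2 + 4 * k ^ 2 * y t ^ 2)) / (2 * Real.sqrt (y t)) := by
      field_simp
      have h4 : Real.sqrt (y t) ^ 2 = y t := hsq
      rw [h4]
      ring
    rw [this]
    apply div_nonneg _ (by positivity)
    exact mul_nonneg hsn.le (by linarith)
  have hMmono : MonotoneOn M (Ioo 0 a) := by
    apply monotoneOn_of_deriv_nonneg (convex_Ioo 0 a)
    · exact fun t ht => (hMd t ht).continuousAt.continuousWithinAt
    · rw [interior_Ioo]
      exact fun t ht => (hMd t ht).differentiableAt.differentiableWithinAt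
    · rw [interior_Ioo]
      intro t ht
      rw [(hMd t ht).deriv]
      exact hMnonneg t ht
  have hMlim : Tendsto M (𝓝[>] 0) (𝓝 0) := by
    have e0 : Tendsto (fun t : ℝ => t) (𝓝[>] 0) (𝓝 0) := tendsto_id.mono_left nhdsWithin_le_nhds
    have e1 : Tendsto (fun t : ℝ => Real.cosh (k * t)) (𝓝[>] 0) (𝓝 1) := by
      have : Continuous (fun t : ℝ => Real.cosh (k * t)) := by fun_prop
      have := (this.tendsto 0).mono_left (nhdsWithin_le_nhds (s := Ioi (0 : ℝ)))
      simpa using this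
    have e2 := tendsto_sn_div k
    have e3 : Tendsto (fun t => Real.sqrt (y t / t ^ 2)) (𝓝[>] 0) (𝓝 (Real.sqrt c)) :=
      hlim.sqrt
    have e4 : Tendsto (fun t => t * ((y1 t / t) * (sn k t / t) - 2 * (y t / t ^ 2)
        * Real.cosh (k * t)) / Real.sqrt (y t / t ^ 2)) (𝓝[>] 0)
        (𝓝 (0 * ((2 * c) * 1 - 2 * c * 1) / Real.sqrt c)) := by
      refine (e0.mul ((hlim1.mul e2).sub ((hlim.const_mul 2).mul e1))).div e3 ?_
      exact (Real.sqrt_pos.2 hc).ne'
    simp only [zero_mul, zero_div] at e4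
    refine e4.congr' ?_
    filter_upwards [self_mem_nhdsWithin] with t ht
    have ht' : (0 : ℝ) < t := ht
    have : Real.sqrt (y t / t ^ 2) = Real.sqrt (y t) / t := by
      rw [Real.sqrt_div' _ (sq_nonneg t), Real.sqrt_sq ht'.le]
    rw [this, hM]
    simp only
    by_cases hy : Real.sqrt (y t) = 0
    · simp [hy]
    · field_simp
  have hMt : ∀ t ∈ Ioo 0 a, 0 ≤ y1 t * sn k t - 2 * y t * Real.cosh (k * t) := by
    intro t ht
    have h := le_of_monotoneOn_limit hMmono hMlim ht
    have hs : 0 < Real.sqrt (y t) := Real.sqrt_pos.2 (hpos t ht)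
    rw [hM] at h
    simp only at h
    have := mul_nonneg h hs.le
    rwa [div_mul_cancel₀ _ hs.ne'] at this
  -- the quotient
  set g : ℝ → ℝ := fun t => y t / sn k t ^ 2 with hg
  have hgd : ∀ t ∈ Ioo 0 a, HasDerivAt g
      ((y1 t * sn k t ^ 2 - y t * (2 * sn k t * Real.cosh (k * t))) / (sn k t ^ 2) ^ 2) t := by
    intro t ht
    have hsn := sn_pos (k := k) ht.1
    have e1 : HasDerivAt (fun t => sn k t ^ 2) (2 * sn k t * Real.cosh (k * t)) t := by
      have := (hasDerivAt_sn k t).fun_pow 2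
      simpa using this
    exact (h1 t ht.1).div e1 (by positivity)
  have hgmono : MonotoneOn g (Ioo 0 a) := by
    apply monotoneOn_of_deriv_nonneg (convex_Ioo 0 a)
    · exact fun t ht => (hgd t ht).continuousAt.continuousWithinAt
    · rw [interior_Ioo]
      exact fun t ht => (hgd t ht).differentiableAt.differentiableWithinAt
    · rw [interior_Ioo]
      intro t ht
      rw [(hgd t ht).deriv]
      have hsn := sn_pos (k := k) ht.1
      apply div_nonneg _ (by positivity)
      have := mul_nonneg hsn.le (hMt t ht)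
      nlinarith
  have hglim : Tendsto g (𝓝[>] 0) (𝓝 c) := by
    have e1 : Tendsto (fun t => (y t / t ^ 2) / (sn k t / t) ^ 2) (𝓝[>] 0) (𝓝 (c / 1 ^ 2)) :=
      hlim.div ((tendsto_sn_div k).pow 2) (by norm_num)
    simp only [one_pow, div_one] at e1
    refine e1.congr' ?_
    filter_upwards [self_mem_nhdsWithin] with t ht
    have ht' : (0 : ℝ) < t := ht
    have hsn := sn_pos (k := k) ht'
    rw [hg]
    field_simp
  refine ⟨?_, by linarith [hMt t ht]⟩
  have h := le_of_monotoneOn_limit hgmono hglim ht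
  have hsn := sn_pos (k := k) ht.1
  rw [hg] at h
  simp only at h
  rwa [le_div_iff₀ (by positivity)] at h

/-- **Sturm comparison.** -/
theorem sturm {k : ℝ} {y y1 y2 : ℝ → ℝ} {c : ℝ} (hc : 0 < c)
    (h1 : ∀ t > 0, HasDerivAt y (y1 t) t) (h2 : ∀ t > 0, HasDerivAt y1 (y2 t) t)
    (hlim : Tendsto (fun t => y t / t ^ 2) (𝓝[>] 0) (𝓝 c))
    (hlim1 : Tendsto (fun t => y1 t / t) (𝓝[>] 0) (𝓝 (2 * c)))
    (hineq : ∀ t > 0, y1 t ^ 2 + 4 * k ^ 2 * y t ^ 2 ≤ 2 * y t * y2 t) {t : ℝ} (ht : 0 < t) :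
    c * sn k t ^ 2 ≤ y t ∧ 2 * y t * Real.cosh (k * t) ≤ y1 t * sn k t := by
  have hpos : ∀ t > 0, 0 < y t := by
    by_contra hcon
    push Not at hcon
    obtain ⟨t0, ht0, hyt0⟩ := hcon
    -- the set of zeros
    set Z : Set ℝ := {t | 0 < t ∧ y t ≤ 0} with hZ
    have hne : Z.Nonempty := ⟨t0, ht0, hyt0⟩
    have hbdd : BddBelow Z := ⟨0, fun t ht => ht.1.le⟩
    -- near zero `y > 0`
    have hev : ∀ᶠ t in 𝓝[>] (0 : ℝ), 0 < y t := by
      have := hlim.eventually (lt_mem_nhds hc)
      filter_upwards [this, self_mem_nhdsWithin] with t ht1 ht2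
      have ht2' : (0 : ℝ) < t := ht2
      have := mul_pos ht1 (pow_pos ht2' 2)
      rwa [div_mul_cancel₀ _ (pow_pos ht2' 2).ne'] at this
    obtain ⟨δ, hδ, hδs⟩ := mem_nhdsGT_iff_exists_Ioo_subset.1 hev
    have hδpos : (0 : ℝ) < δ := hδ
    set a := sInf Z with ha
    have haδ : δ ≤ a := by
      apply le_csInf hne
      intro t ht
      by_contra hlt
      push Not at hlt
      have := hδs ⟨ht.1, hlt⟩
      exact absurd ht.2 (not_le.2 this)
    have ha0 : 0 < a := hδpos.trans_le haδ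
    have hposa : ∀ t ∈ Ioo 0 a, 0 < y t := by
      intro t ht
      by_contra hle
      push Not at hle
      exact absurd (csInf_le hbdd ⟨ht.1, hle⟩) (not_le.2 ht.2)
    -- y a ≤ 0
    have hya : y a ≤ 0 := by
      by_contra hgt
      push Not at hgt
      have hcont : ContinuousAt y a := (h1 a ha0).continuousAt
      have hev2 := hcont.eventually (lt_mem_nhds hgt)
      obtain ⟨ε, hε, hball⟩ := Metric.eventually_nhds_iff.1 hev2
      obtain ⟨t, htZ, hta⟩ := exists_lt_of_csInf_lt hne (show sInf Z < a + ε by linarith)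
      have hat : a ≤ t := csInf_le hbdd htZ
      have : 0 < y t := hball (by rw [Real.dist_eq, abs_of_nonneg (by linarith)]; linarith)
      exact absurd htZ.2 (not_le.2 this)
    have hle : ∀ t ∈ Ioo 0 a, c * sn k t ^ 2 ≤ y t := fun t ht =>
      (sturm_aux hc h1 h2 hlim hlim1 hineq hposa ht).1
    have hlima : Tendsto y (𝓝[<] a) (𝓝 (y a)) := (h1 a ha0).continuousAt.tendsto.mono_left
      nhdsWithin_le_nhds
    have hlimb : Tendsto (fun t => c * sn k t ^ 2) (𝓝[<] a) (𝓝 (c * sn k a ^ 2)) := by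
      have : Continuous (fun t => c * sn k t ^ 2) := by
        have := continuous_sn k
        fun_prop
      exact (this.tendsto a).mono_left nhdsWithin_le_nhds
    have hfin : c * sn k a ^ 2 ≤ y a := by
      refine le_of_tendsto_of_tendsto hlimb hlima ?_
      filter_upwards [Ioo_mem_nhdsLT ha0] with t ht using hle t ht
    have hsn := sn_pos (k := k) ha0
    have : 0 < c * sn k a ^ 2 := by positivity
    linarith
  exact sturm_aux (a := t + 1) hc h1 h2 hlim hlim1 hineq (fun s hs => hpos s hs.1)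
    ⟨ht, by linarith⟩

end Crest.Agent.R241.D3S
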