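import Crest.Agent.R241.D3Sturm

/-!
R241, block D3 (helper842): the radial field `X(v) = (sinh (k|v|)/(k|v|)) v = grad z_k(|v|)`.
-/

set_option autoImplicit false

open Set Filter Topology
open scoped ContDiff InnerProductSpace Nat

noncomputable section

namespace Crest.Agent.R241.D3S

open Crest.Agent.R241

/-- the entire function `s ↦ ∑ s^j/(2j+1)!`, so that `sinh x = x * snq (x^2)`. -/
def snq : ℝ → ℝ := FormalMultilinearSeries.ofScalarsSum (E := ℝ) (fun j : ℕ => ((2 * j + 1)! : ℝ)⁻¹)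

theorem contDiff_snq {n : WithTop ℕ∞} : ContDiff ℝ n snq := by
  have hr : (FormalMultilinearSeries.ofScalars ℝ (fun j : ℕ => ((2 * j + 1)! : ℝ)⁻¹)).radius = ⊤ := by
    apply FormalMultilinearSeries.ofScalars_radius_eq_top_of_tendsto
    · exact Eventually.of_forall fun j => by positivity
    · have h1 : ∀ j : ℕ, ‖((2 * (j + 1) + 1)! : ℝ)⁻¹‖ / ‖((2 * j + 1)! : ℝ)⁻¹‖
          = 1 / (((2 * j + 3 : ℕ) : ℝ) * ((2 * j + 2 : ℕ) : ℝ)) := by
        intro j
        have : (2 * (j + 1) + 1)! = (2 * j + 3) * ((2 * j + 2) * (2 * j + 1)!) := by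
          rw [show 2 * (j + 1) + 1 = (2 * j + 2) + 1 by ring, Nat.factorial_succ,
            show 2 * j + 2 = (2 * j + 1) + 1 by ring, Nat.factorial_succ]
        rw [this, norm_inv, norm_inv, Real.norm_natCast, Real.norm_natCast]
        push_cast
        have hpos : ((2 * j + 1)! : ℝ) ≠ 0 := by positivity
        field_simp
      have h2 : Tendsto (fun j : ℕ => 1 / (((2 * j + 3 : ℕ) : ℝ) * ((2 * j + 2 : ℕ) : ℝ))) atTop
          (𝓝 0) := by
        refine squeeze_zero (g := fun j : ℕ => 1 / ((j : ℝ) + 1)) (fun j => by positivity)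
          (fun j => ?_) tendsto_one_div_add_atTop_nhds_zero_nat
        apply one_div_le_one_div_of_le (by positivity)
        push_cast
        nlinarith [(Nat.cast_nonneg j : (0 : ℝ) ≤ j)]
      exact h2.congr fun j => (h1 j).symm
  have hball := (FormalMultilinearSeries.ofScalars ℝ
    (fun j : ℕ => ((2 * j + 1)! : ℝ)⁻¹)).hasFPowerSeriesOnBall (by rw [hr]; exact ENNReal.zero_lt_top)
  rw [hr] at hball
  have hana : AnalyticOnNhd ℝ snq univ := by
    intro x _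
    exact hball.analyticAt_of_mem (by simp)
  exact hana.contDiff

theorem snq_sq (x : ℝ) : x * snq (x ^ 2) = Real.sinh x := by
  have h1 : snq (x ^ 2) = ∑' j : ℕ, ((2 * j + 1)! : ℝ)⁻¹ * (x ^ 2) ^ j := by
    rw [snq, FormalMultilinearSeries.ofScalarsSum_eq_tsum]
    simp [smul_eq_mul]
  rw [h1, ← tsum_mul_left, Real.sinh_eq_tsum]
  congr 1
  ext j
  rw [← pow_mul, pow_succ]
  field_simp

variable {E : Type*} [NormedAddCommGroup E] [InnerProductSpace ℝ E]

/-- `sinh (k|v|)/(k|v|)`. -/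
def sig (k : ℝ) (v : E) : ℝ := snq (k ^ 2 * ‖v‖ ^ 2)

theorem snq_zero : snq 0 = 1 := by
  have h1 : snq 0 = ∑' j : ℕ, ((2 * j + 1)! : ℝ)⁻¹ * (0 : ℝ) ^ j := by
    rw [snq, FormalMultilinearSeries.ofScalarsSum_eq_tsum]
    simp [smul_eq_mul]
  rw [h1, tsum_eq_single 0]
  · simp
  · intro j hj
    simp [hj]

theorem sn_eq (k r : ℝ) : sn k r = snq (k ^ 2 * r ^ 2) * r := by
  unfold sn
  split_ifs with hk
  · subst hk; simp [snq_zero]
  · have := snq_sq (k * r)
    rw [← this, show (k * r) ^ 2 = k ^ 2 * r ^ 2 by ring]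
    field_simp

omit [InnerProductSpace ℝ E] in
theorem sig_mul_norm (k : ℝ) (v : E) : sig k v * ‖v‖ = sn k ‖v‖ := (sn_eq k ‖v‖).symm

theorem contDiff_sig (k : ℝ) {n : WithTop ℕ∞} : ContDiff ℝ n (sig k : E → ℝ) := by
  unfold sig
  exact contDiff_snq.comp (contDiff_const.mul (contDiff_norm_sq ℝ))

/-- The gradient of `v ↦ zk k ‖v‖`. -/
def Xf (k : ℝ) (v : E) : E := sig k v • v

theorem contDiff_Xf (k : ℝ) {n : WithTop ℕ∞} : ContDiff ℝ n (Xf k : E → E) :=
  (contDiff_sig k).smul contDiff_id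

theorem fderiv_sig (k : ℝ) (v w : E) :
    ∃ a : ℝ, fderiv ℝ (sig k : E → ℝ) v w = a * ⟪v, w⟫_ℝ := by
  have h1 : HasFDerivAt (fun v : E => k ^ 2 * ‖v‖ ^ 2)
      (k ^ 2 • (2 • (innerSL ℝ v))) v := by
    have := (hasStrictFDerivAt_norm_sq v).hasFDerivAt.const_mul (k ^ 2)
    exact this
  have h2 : DifferentiableAt ℝ snq (k ^ 2 * ‖v‖ ^ 2) :=
    (contDiff_snq (n := 1)).differentiable (by norm_num) _
  have h3 := h2.hasDerivAt.comp_hasFDerivAt v h1
  have h4 : fderiv ℝ (sig k : E → ℝ) v = deriv snq (k ^ 2 * ‖v‖ ^ 2) • (k ^ 2 • (2 • (innerSL ℝ v))) :=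
    h3.fderiv
  refine ⟨deriv snq (k ^ 2 * ‖v‖ ^ 2) * (k ^ 2 * 2), ?_⟩
  rw [h4]
  simp
  ring

theorem fderiv_Xf (k : ℝ) (v w : E) :
    fderiv ℝ (Xf k : E → E) v w = sig k v • w + (fderiv ℝ (sig k : E → ℝ) v w) • v := by
  have h1 : HasFDerivAt (sig k : E → ℝ) (fderiv ℝ (sig k : E → ℝ) v) v :=
    ((contDiff_sig k (n := 1)).differentiable (by norm_num) v).hasFDerivAt
  have h2 := h1.smul (hasFDerivAt_id v)
  have h3 : fderiv ℝ (Xf k : E → E) v = _ := h2.fderiv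
  rw [h3]
  simp

theorem fderiv_Xf_perp (k : ℝ) {v w : E} (h : ⟪v, w⟫_ℝ = 0) :
    fderiv ℝ (Xf k : E → E) v w = sig k v • w := by
  obtain ⟨a, ha⟩ := fderiv_sig k v w
  rw [fderiv_Xf, ha, h]
  simp

theorem fderiv_Xf_self (k : ℝ) (v : E) :
    fderiv ℝ (Xf k : E → E) v v = Real.cosh (k * ‖v‖) • v := by
  by_cases hv : v = 0
  · simp [hv]
  have hn : 0 < ‖v‖ := norm_pos_iff.2 hv
  -- along the ray
  have h1 : HasDerivAt (fun t : ℝ => Xf k (t • v)) (fderiv ℝ (Xf k : E → E) v v) 1 := by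
    have e1 : HasFDerivAt (Xf k : E → E) (fderiv ℝ (Xf k : E → E) v) ((1 : ℝ) • v) := by
      rw [one_smul]
      exact ((contDiff_Xf k (n := 1)).differentiable (by norm_num) v).hasFDerivAt
    have e2 : HasDerivAt (fun t : ℝ => t • v) v 1 := by
      simpa using (hasDerivAt_id (1 : ℝ)).smul_const v
    exact e1.comp_hasDerivAt (1 : ℝ) e2
  have h2 : HasDerivAt (fun t : ℝ => (sn k (t * ‖v‖) / ‖v‖) • v) (Real.cosh (k * ‖v‖) • v) 1 := by
    have e1 : HasDerivAt (fun t : ℝ => t * ‖v‖) ‖v‖ 1 := by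
      simpa using (hasDerivAt_id (1 : ℝ)).mul_const ‖v‖
    have e2 : HasDerivAt (sn k) (Real.cosh (k * ‖v‖)) ((1 : ℝ) * ‖v‖) := by
      rw [one_mul]; exact hasDerivAt_sn k ‖v‖
    have e3 := ((e2.comp (1 : ℝ) e1).div_const ‖v‖).smul_const v
    refine e3.congr_deriv ?_
    rw [mul_div_assoc, div_self hn.ne', mul_one]
  have h3 : (fun t : ℝ => Xf k (t • v)) =ᶠ[𝓝 1] fun t : ℝ => (sn k (t * ‖v‖) / ‖v‖) • v := by
    filter_upwards [lt_mem_nhds (zero_lt_one : (0 : ℝ) < 1)] with t ht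
    have : sn k (t * ‖v‖) = sig k (t • v) * (t * ‖v‖) := by
      rw [sn_eq, sig, norm_smul, Real.norm_of_nonneg ht.le]
    rw [this, Xf, smul_smul]
    congr 1
    field_simp
  exact (h2.congr_of_eventuallyEq h3).unique h1 |>.symm

theorem hasDerivAt_zk (k r : ℝ) : HasDerivAt (zk k) (sn k r) r := by
  by_cases hk : k = 0
  · subst hk
    have h0 : zk 0 = fun r => r ^ 2 / 2 := by ext r; simp [zk]
    rw [h0]
    have := ((hasDerivAt_id r).fun_pow 2).div_const 2
    refine this.congr_deriv ?_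
    simp [sn]
  · have h0 : zk k = fun r => (Real.cosh (k * r) - 1) / k ^ 2 := by ext r; simp [zk, hk]
    rw [h0]
    have := ((hasDerivAt_cosh_mul k r).sub_const 1).div_const (k ^ 2)
    refine this.congr_deriv ?_
    field_simp

theorem zk_zero (k : ℝ) : zk k 0 = 0 := by
  unfold zk; split_ifs <;> simp

theorem hasFDerivAt_zk_norm (k : ℝ) (v : E) :
    HasFDerivAt (fun v : E => zk k ‖v‖) (innerSL ℝ (Xf k v)) v := by
  by_cases hv : v = 0
  · subst hv
    have h1 := hasDerivAt_zk k 0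
    rw [sn_zero] at h1
    have h2 : (fun r : ℝ => zk k r) =o[𝓝 0] fun r : ℝ => r := by
      have := h1.isLittleO
      simpa [zk_zero] using this
    have h3 : (fun v : E => zk k ‖v‖) =o[𝓝 0] fun v : E => ‖v‖ :=
      h2.comp_tendsto tendsto_norm_zero
    have h4 : (fun v : E => zk k ‖v‖) =o[𝓝 0] fun v : E => v := h3.of_norm_right
    rw [hasFDerivAt_iff_isLittleO_nhds_zero]
    simpa [zk_zero, Xf] using h4
  · have hn : ‖v‖ ≠ 0 := norm_ne_zero_iff.2 hv
    have h1 : HasFDerivAt (fun v : E => ‖v‖) (‖v‖⁻¹ • innerSL ℝ v) v := by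
      have e1 := (hasStrictFDerivAt_norm_sq v).hasFDerivAt.sqrt (by positivity)
      have e2 : (fun v : E => Real.sqrt (‖v‖ ^ 2)) = fun v : E => ‖v‖ := by
        ext v; exact Real.sqrt_sq (norm_nonneg v)
      have e3 : HasFDerivAt (fun v : E => ‖v‖) _ v := e2 ▸ e1
      refine e3.congr_fderiv ?_
      ext w
      rw [Real.sqrt_sq (norm_nonneg v)]
      simp
      field_simp
    have h2 := (hasDerivAt_zk k ‖v‖).comp_hasFDerivAt v h1
    refine h2.congr_fderiv ?_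
    ext w
    rw [← sig_mul_norm]
    simp [Xf]
    field_simp

theorem contDiff_zk_norm (k : ℝ) : ContDiff ℝ ∞ (fun v : E => zk k ‖v‖) := by
  rw [contDiff_infty_iff_fderiv]
  refine ⟨fun v => (hasFDerivAt_zk_norm k v).differentiableAt, ?_⟩
  have : fderiv ℝ (fun v : E => zk k ‖v‖) = fun v => innerSL ℝ (Xf k v) := by
    ext1 v; exact (hasFDerivAt_zk_norm k v).fderiv
  rw [this]
  exact (innerSL ℝ : E →L[ℝ] E →L[ℝ] ℝ).contDiff.comp (contDiff_Xf k)

end Crest.Agent.R241.D3S
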