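import Crest.Agent.R241.D4Top
import Mathlib

/-!
# R241, block D4, part 2 (helper816): lifting Lipschitz paths through expanding local homeos

`p : E → X` local homeomorphism between metric spaces, `E` proper, locally
`dist a b ≤ C * dist (p a) (p b)`.  Then Lipschitz paths lift, and if `X` is locally Lipschitz
contractible then `p` has uniform local sections.
-/

set_option autoImplicit false

open Set Filter Topology unitInterval
open scoped NNReal

namespace Crest.Agent.R241.D4Lift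

open D4Top

variable {E X : Type*} [MetricSpace E] [MetricSpace X] {p : E → X}

/-- uniform local sections over a compact set of `E` -/
theorem unif_section (hp : IsLocalHomeomorph p) {K : Set E} (hK : IsCompact K) :
    ∃ δ > 0, ∀ e ∈ K, ∃ τ : X → E, ContinuousOn τ (Metric.ball (p e) δ) ∧
      (∀ y ∈ Metric.ball (p e) δ, p (τ y) = y) ∧ τ (p e) = e := by
  refine hK.induction_on (p := fun s => ∃ δ > 0, ∀ e ∈ s, ∃ τ : X → E,
      ContinuousOn τ (Metric.ball (p e) δ) ∧
      (∀ y ∈ Metric.ball (p e) δ, p (τ y) = y) ∧ τ (p e) = e) ⟨1, one_pos, by simp⟩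
    (fun s t hst ⟨δ, hδ, h⟩ => ⟨δ, hδ, fun e he => h e (hst he)⟩)
    (fun s t ⟨δ, hδ, h⟩ ⟨δ', hδ', h'⟩ => ⟨min δ δ', lt_min hδ hδ', ?_⟩) ?_
  · rintro e (he | he)
    · obtain ⟨τ, h1, h2, h3⟩ := h e he
      exact ⟨τ, h1.mono (Metric.ball_subset_ball (min_le_left _ _)),
        fun y hy => h2 y (Metric.ball_subset_ball (min_le_left _ _) hy), h3⟩
    · obtain ⟨τ, h1, h2, h3⟩ := h' e he
      exact ⟨τ, h1.mono (Metric.ball_subset_ball (min_le_right _ _)),
        fun y hy => h2 y (Metric.ball_subset_ball (min_le_right _ _) hy), h3⟩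
  · intro e₀ _
    obtain ⟨h, he₀, rfl⟩ := hp e₀
    obtain ⟨δ, hδ, hball⟩ := Metric.isOpen_iff.1 h.open_target (h e₀) (h.map_source he₀)
    have hcont : ContinuousAt h e₀ := h.continuousAt he₀
    refine ⟨h.source ∩ h ⁻¹' Metric.ball (h e₀) (δ / 2),
      mem_nhdsWithin_of_mem_nhds (Filter.inter_mem (h.open_source.mem_nhds he₀)
        (hcont.preimage_mem_nhds (Metric.ball_mem_nhds _ (half_pos hδ)))), δ / 2, half_pos hδ, ?_⟩
    rintro e ⟨he, he'⟩
    have hsub : Metric.ball (h e) (δ / 2) ⊆ h.target := by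
      refine Subset.trans ?_ hball
      intro y hy
      rw [Metric.mem_ball] at hy ⊢
      have h2 : dist (h e) (h e₀) < δ / 2 := he'
      calc dist y (h e₀) ≤ dist y (h e) + dist (h e) (h e₀) := dist_triangle _ _ _
        _ < δ := by linarith
    exact ⟨h.symm, h.continuousOn_symm.mono hsub, fun y hy => h.right_inv (hsub hy),
      h.left_inv he⟩

/-- local expansion condition -/
def LocExp (p : E → X) (C : ℝ≥0) : Prop :=
  ∀ e, ∀ᶠ q in 𝓝 (e, e), dist (q : E × E).1 q.2 ≤ C * dist (p q.1) (p q.2)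

/-- a priori Lipschitz bound for lifts -/
theorem lipschitz_of_lift {C : ℝ≥0} (hC : LocExp p C) {K : ℝ≥0} {c : ℝ → X} {a b : ℝ}
    (hc : LipschitzOnWith K c (Icc a b)) {w : ℝ → E} (hw : ContinuousOn w (Icc a b))
    (hwc : ∀ t ∈ Icc a b, p (w t) = c t) : LipschitzOnWith (C * K) w (Icc a b) := by
  have key : ∀ s ∈ Icc a b, ∀ t ∈ Icc s b, dist (w t) (w s) ≤ (C * K) * (t - s) := by
    intro s hs
    have hsub : Icc s b ⊆ Icc a b := Icc_subset_Icc_left hs.1
    have := IsClosed.Icc_subset_of_forall_exists_gt (a := s) (b := b)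
      (s := {t | dist (w t) (w s) ≤ (C * K) * (t - s)}) ?_ ?_ ?_
    · exact fun t ht => this ht
    · have h1 : ContinuousOn (fun t => dist (w t) (w s)) (Icc s b) :=
        (continuous_id.dist continuous_const).comp_continuousOn (hw.mono hsub)
      have h2 : ContinuousOn (fun t : ℝ => ((C : ℝ) * K) * (t - s)) (Icc s b) := by fun_prop
      have := isClosed_Icc.isClosed_le h1 h2
      convert this using 1
      ext t
      simp only [mem_inter_iff, mem_ofPred_eq]
      tauto
    · simp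
    · rintro x ⟨hx, hx1, hx2⟩ y hy
      have hxab : x ∈ Icc a b := ⟨hs.1.trans hx1, hx2.le⟩
      -- near `x`
      have hev := hC (w x)
      have hwx : Tendsto w (𝓝[Icc a b] x) (𝓝 (w x)) := hw x hxab
      have h1 : ∀ᶠ t in 𝓝[Icc a b] x, dist (w t) (w x) ≤ C * dist (p (w t)) (p (w x)) :=
        (hwx.prodMk_nhds tendsto_const_nhds).eventually hev
      have h2 : 𝓝[Ioc x (min y b)] x ≤ 𝓝[Icc a b] x := by
        refine nhdsWithin_mono _ ?_
        intro t ht
        exact ⟨hxab.1.trans ht.1.le, ht.2.trans (min_le_right _ _)⟩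
      have hlt : x < min y b := lt_min hy hx2
      have h3 : (𝓝[Ioc x (min y b)] x).NeBot := by
        rw [nhdsWithin_Ioc_eq_nhdsGT hlt]
        infer_instance
      have h5 : ∀ᶠ t in 𝓝[Ioc x (min y b)] x,
          dist (w t) (w x) ≤ C * dist (p (w t)) (p (w x)) := h2 h1
      obtain ⟨t, ht, ht'⟩ := (h5.and self_mem_nhdsWithin).exists
      refine ⟨t, ?_, ht'.1, ht'.2.trans (min_le_left _ _)⟩
      have htab : t ∈ Icc a b := ⟨hxab.1.trans ht'.1.le, ht'.2.trans (min_le_right _ _)⟩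
      simp only [mem_ofPred_eq]
      have h4 : dist (c t) (c x) ≤ K * (t - x) := by
        have := hc.dist_le_mul t htab x hxab
        rwa [Real.dist_eq, abs_of_nonneg (by linarith [ht'.1])] at this
      rw [hwc t htab, hwc x hxab] at ht
      have hx' : dist (w x) (w s) ≤ (C * K) * (x - s) := hx
      calc dist (w t) (w s) ≤ dist (w t) (w x) + dist (w x) (w s) := dist_triangle _ _ _
        _ ≤ C * (K * (t - x)) + (C * K) * (x - s) := by
            refine add_le_add (ht.trans ?_) hx'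
            exact mul_le_mul_of_nonneg_left h4 C.2
        _ = (C * K) * (t - s) := by ring
  refine LipschitzOnWith.of_dist_le_mul fun t ht s hs => ?_
  rw [Real.dist_eq]
  push_cast
  rcases le_total s t with h | h
  · rw [abs_of_nonneg (by linarith)]
    exact key s hs t ⟨h, ht.2⟩
  · rw [abs_of_nonpos (by linarith), dist_comm, neg_sub]
    exact key t ht s ⟨h, hs.2⟩

/-- Lipschitz paths lift. -/
theorem exists_lift [ProperSpace E] (hp : IsLocalHomeomorph p) {C : ℝ≥0} (hC : LocExp p C)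
    {K : ℝ≥0} {c : ℝ → X} (hc : LipschitzOnWith K c (Icc 0 1)) {w₀ : E} (h0 : p w₀ = c 0) :
    ∃ w : ℝ → E, LipschitzOnWith (C * K) w (Icc 0 1) ∧ (∀ t ∈ Icc (0 : ℝ) 1, p (w t) = c t) ∧
      w 0 = w₀ := by
  obtain ⟨δ, hδ, hsec⟩ := unif_section hp (isCompact_closedBall w₀ (C * K : ℝ))
  obtain ⟨m, hm⟩ := exists_nat_gt ((K : ℝ) / δ)
  have hm0 : (0 : ℝ) < m := lt_of_le_of_lt (by positivity) hm
  have hKm : (K : ℝ) / m < δ := by
    rw [div_lt_iff₀ hδ] at hm
    rw [div_lt_iff₀ hm0]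
    linarith
  have step : ∀ k : ℕ, k ≤ m → ∃ w : ℝ → E, ContinuousOn w (Icc 0 (k / m : ℝ)) ∧
      (∀ t ∈ Icc (0 : ℝ) (k / m), p (w t) = c t) ∧ w 0 = w₀ := by
    intro k
    induction k with
    | zero =>
      intro _
      refine ⟨fun _ => w₀, continuousOn_const, fun t ht => ?_, rfl⟩
      have : t = 0 := le_antisymm (by simpa using ht.2) ht.1
      rw [this, h0]
    | succ k ih =>
      intro hk
      obtain ⟨w, hwc, hwp, hw0⟩ := ih (by omega)
      have hk1 : ((k : ℝ) / m) ≤ 1 := by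
        rw [div_le_one hm0]; exact_mod_cast (by omega : k ≤ m)
      have hk2 : (((k + 1 : ℕ) : ℝ) / m) ≤ 1 := by
        rw [div_le_one hm0]; exact_mod_cast hk
      have hk0 : 0 ≤ (k : ℝ) / m := by positivity
      have hkk : (k : ℝ) / m ≤ ((k + 1 : ℕ) : ℝ) / m := by
        push_cast; gcongr; linarith
      have hlip := lipschitz_of_lift hC (hc.mono (Icc_subset_Icc_right hk1)) hwc hwp
      set e := w ((k : ℝ) / m) with he
      have hemem : e ∈ Metric.closedBall w₀ (C * K : ℝ) := by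
        rw [Metric.mem_closedBall, ← hw0, he]
        have := hlip.dist_le_mul ((k : ℝ) / m) ⟨hk0, le_rfl⟩ 0 ⟨le_rfl, hk0⟩
        refine this.trans ?_
        rw [Real.dist_eq, sub_zero, abs_of_nonneg hk0]
        push_cast
        calc (C : ℝ) * K * ((k : ℝ) / m) ≤ (C * K) * 1 := by gcongr
          _ = C * K := by ring
      obtain ⟨τ, hτc, hτp, hτe⟩ := hsec e hemem
      have hpe : p e = c ((k : ℝ) / m) := hwp _ ⟨hk0, le_rfl⟩
      have hball : ∀ t ∈ Icc ((k : ℝ) / m) (((k + 1 : ℕ) : ℝ) / m),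
          c t ∈ Metric.ball (p e) δ := by
        intro t ht
        rw [Metric.mem_ball, hpe]
        have := hc.dist_le_mul t ⟨hk0.trans ht.1, ht.2.trans hk2⟩ ((k : ℝ) / m) ⟨hk0, hk1⟩
        refine lt_of_le_of_lt (this.trans ?_) hKm
        rw [Real.dist_eq, abs_of_nonneg (by linarith [ht.1])]
        have h3 : t - (k : ℝ) / m ≤ 1 / m := by
          have := ht.2
          push_cast at this
          rw [add_div] at this
          linarith
        calc (K : ℝ) * (t - (k : ℝ) / m) ≤ K * (1 / m) := by gcongr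
          _ = K / m := by ring
      refine ⟨fun t => if t ≤ (k : ℝ) / m then w t else τ (c t), ?_, ?_, ?_⟩
      · have hcc : ContinuousOn c (Icc 0 1) := hc.continuousOn
        refine ContinuousOn.if ?_ ?_ ?_
        · rintro t ⟨ht, ht'⟩
          have : t = (k : ℝ) / m := frontier_Iic_subset _ ht'
          rw [this, ← hpe, hτe]
        · rw [show closure {a : ℝ | a ≤ (k : ℝ) / m} = Iic ((k : ℝ) / m) from closure_Iic _]
          exact hwc.mono fun t ht => ⟨ht.1.1, ht.2⟩
        · have hcl : closure {a : ℝ | ¬ a ≤ (k : ℝ) / m} ⊆ Ici ((k : ℝ) / m) := by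
            have : {a : ℝ | ¬ a ≤ (k : ℝ) / m} = Ioi ((k : ℝ) / m) := by
              ext a; simp
            rw [this, closure_Ioi]
          refine ContinuousOn.mono (s := Icc ((k : ℝ) / m) (((k + 1 : ℕ) : ℝ) / m)) ?_
            fun t ht => ⟨hcl ht.2, ht.1.2⟩
          exact hτc.comp (hcc.mono (Icc_subset_Icc hk0 hk2)) hball
      · intro t ht
        dsimp only
        split_ifs with h
        · exact hwp t ⟨ht.1, h⟩
        · exact hτp _ (hball t ⟨le_of_not_ge h, ht.2⟩)
      · dsimp only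
        rw [if_pos hk0, hw0]
  obtain ⟨w, h1, h2, h3⟩ := step m le_rfl
  rw [div_self hm0.ne'] at h1 h2
  exact ⟨w, lipschitz_of_lift hC hc h1 h2, h2, h3⟩

/-- local Lipschitz contractibility -/
def LocContr (X : Type*) [MetricSpace X] : Prop :=
  ∀ x : X, ∃ U : Set X, IsOpen U ∧ x ∈ U ∧ ∀ y₀ ∈ U, ∃ F : ℝ × X → X,
    ContinuousOn F (Icc 0 1 ×ˢ U) ∧ (∀ t ∈ Icc (0 : ℝ) 1, F (t, y₀) = y₀) ∧
      ∀ y ∈ U, F (0, y) = y₀ ∧ F (1, y) = y ∧
      ∃ K : ℝ≥0, LipschitzOnWith K (fun t => F (t, y)) (Icc 0 1)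

theorem hasSections [ProperSpace E] (hp : IsLocalHomeomorph p) {C : ℝ≥0} (hC : LocExp p C)
    (hX : LocContr X) : HasSections p := by
  classical
  intro x
  obtain ⟨U, hU, hxU, hF⟩ := hX x
  refine ⟨U, hU, hxU, fun e he => ?_⟩
  obtain ⟨F, hFc, hF0, hF⟩ := hF (p e) he
  have hlift : ∀ y : U, ∃ w : ℝ → E, ContinuousOn w (Icc 0 1) ∧
      (∀ t ∈ Icc (0 : ℝ) 1, p (w t) = F (t, y)) ∧ w 0 = e := by
    intro y
    obtain ⟨h0, h1, K, hK⟩ := hF y y.2
    obtain ⟨w, hw1, hw2, hw3⟩ := exists_lift hp hC hK (w₀ := e) h0.symm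
    exact ⟨w, hw1.continuousOn, hw2, hw3⟩
  choose w hwc hwp hw0 using hlift
  have hsep : IsSeparatedMap p := T2Space.isSeparatedMap p
  let f : C(I × U, X) := ⟨fun q => F (q.1, q.2), by
    have : Continuous fun q : I × U => ((q.1 : ℝ), (q.2 : X)) := by fun_prop
    exact hFc.comp_continuous this fun q => ⟨q.1.2, q.2.2⟩⟩
  let g : I × U → E := fun q => w q.2 q.1
  have hg : Continuous g := by
    refine hp.continuous_lift hsep f (g := g) ?_ ?_ ?_
    · ext q
      exact hwp q.2 q.1 q.1.2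
    · have : (fun a : U => g (0, a)) = fun _ => e := by
        ext a
        exact hw0 a
      rw [this]
      exact continuous_const
    · intro a
      exact (hwc a).comp_continuous continuous_subtype_val fun t => t.2
  refine ⟨fun y => if hy : y ∈ U then g (1, ⟨y, hy⟩) else e, ?_, ?_, ?_⟩
  · rw [continuousOn_iff_continuous_domRestrict]
    have : (U.domRestrict fun y => if hy : y ∈ U then g (1, ⟨y, hy⟩) else e) =
        fun y : U => g (1, y) := by
      ext y
      simp [domRestrict]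
    rw [this]
    fun_prop
  · intro y hy
    simp only [hy, dif_pos]
    have := hwp ⟨y, hy⟩ 1 ⟨zero_le_one, le_rfl⟩
    show p (w ⟨y, hy⟩ ((1 : I) : ℝ)) = y
    rw [Set.Icc.coe_one, this]
    exact (hF y hy).2.1
  · simp only [he, dif_pos]
    have hK : LipschitzOnWith 0 (fun _ : ℝ => p e) (Icc (0 : ℝ) 1) :=
      (LipschitzWith.const (p e)).lipschitzOnWith
    have h := lipschitz_of_lift hC hK (hwc ⟨p e, he⟩) fun t ht => by
      rw [hwp ⟨p e, he⟩ t ht]; exact hF0 t ht
    have h2 := h.dist_le_mul 1 ⟨zero_le_one, le_rfl⟩ 0 ⟨le_rfl, zero_le_one⟩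
    have h3 : dist (w ⟨p e, he⟩ 1) (w ⟨p e, he⟩ 0) ≤ 0 := by simpa using h2
    show w ⟨p e, he⟩ ((1 : I) : ℝ) = e
    rw [Set.Icc.coe_one, dist_le_zero.1 h3, hw0]

end Crest.Agent.R241.D4Lift
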