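import Mathlib
import Crest.Prelude.Def_Submanifold
import Crest.Agent.R241.D4Lift

/-!
# R241, block D4, part 3 (helper816): charts of a submanifold, local homeomorphism property of an
expanding smooth map into a submanifold of the same dimension
-/

set_option autoImplicit false

open Set Filter Topology
open scoped ContDiff NNReal
open Crest.GeometryTopology.Submanifold

namespace Crest.Agent.R241.D4Loc

open D4Lift D4Top

variable {n N : ℕ} {S : Set (Euc N)}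

/-- A local parametrisation has, after shrinking, a left inverse defined on an open subset of the
ambient space. -/
theorem chart_inverse {p : Euc N} {f : Euc n → Euc N} {V : Set (Euc n)}
    (h : IsLocalParam n N S p f V) :
    ∃ (W : Set (Euc n)) (U : Set (Euc N)) (ρ : Euc N → Euc n), IsOpen W ∧ (0 : Euc n) ∈ W ∧
      W ⊆ V ∧ IsOpen U ∧ p ∈ U ∧ f '' W = S ∩ U ∧ (∀ x ∈ W, ρ (f x) = x) ∧ ContinuousOn ρ U ∧
      ContDiffAt ℝ ∞ ρ p := by
  have hf0 : ContDiffAt ℝ ∞ f 0 := h.contDiffOn.contDiffAt (h.isOpen.mem_nhds h.zero_mem)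
  have hinj : Function.Injective (fderiv ℝ f 0) := h.injective_fderiv 0 h.zero_mem
  obtain ⟨A, hA⟩ := LinearMap.exists_leftInverse_of_injective (fderiv ℝ f 0).toLinearMap
    (LinearMap.ker_eq_bot.2 hinj)
  let A' : Euc N →L[ℝ] Euc n := LinearMap.toContinuousLinearMap A
  have hA' : ∀ v, A' (fderiv ℝ f 0 v) = v := fun v => LinearMap.congr_fun hA v
  have hg : ContDiffAt ℝ ∞ (A' ∘ f) 0 := A'.contDiff.contDiffAt.comp 0 hf0
  have hgd : HasFDerivAt (A' ∘ f) ((ContinuousLinearEquiv.refl ℝ (Euc n) : Euc n ≃L[ℝ] Euc n) :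
      Euc n →L[ℝ] Euc n) 0 := by
    have h1 := A'.hasFDerivAt.comp (0 : Euc n) (hf0.differentiableAt (by simp)).hasFDerivAt
    have h2 : ((ContinuousLinearEquiv.refl ℝ (Euc n) : Euc n ≃L[ℝ] Euc n) : Euc n →L[ℝ] Euc n) =
        A'.comp (fderiv ℝ f 0) := ContinuousLinearMap.ext fun v => (hA' v).symm
    rw [h2]
    exact h1
  have hn0 : (∞ : WithTop ℕ∞) ≠ 0 := by simp
  set G := hg.toOpenPartialHomeomorph (A' ∘ f) hgd hn0 with hG
  have hGc : (G : Euc n → Euc n) = A' ∘ f := rfl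
  have h0G : (0 : Euc n) ∈ G.source := hg.mem_toOpenPartialHomeomorph_source hgd hn0
  have hsmooth : ContDiffAt ℝ ∞ G.symm (A' (f 0)) := hg.to_localInverse hgd hn0
  obtain ⟨U₀, hU₀, hU₀'⟩ := h.image_open (V ∩ G.source) inter_subset_left
    (h.isOpen.inter G.open_source)
  have hf_cont : ContinuousOn f V := h.contDiffOn.continuousOn
  have hAf : A' (f 0) ∈ G.target := by
    have := G.map_source h0G
    rwa [hGc] at this
  refine ⟨(V ∩ G.source) ∩ f ⁻¹' (U₀ ∩ A' ⁻¹' G.target), U₀ ∩ A' ⁻¹' G.target,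
    fun y => G.symm (A' y), ?_, ?_, ?_, ?_, ?_, ?_, ?_, ?_, ?_⟩
  · exact (hf_cont.mono inter_subset_left).isOpen_inter_preimage (h.isOpen.inter G.open_source)
      (hU₀.inter (G.open_target.preimage A'.continuous))
  · refine ⟨⟨h.zero_mem, h0G⟩, ?_, hAf⟩
    have : f 0 ∈ f '' (V ∩ G.source) := mem_image_of_mem f ⟨h.zero_mem, h0G⟩
    rw [hU₀'] at this
    exact this.2
  · exact fun x hx => hx.1.1
  · exact hU₀.inter (G.open_target.preimage A'.continuous)
  · rw [← h.map_zero]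
    refine ⟨?_, hAf⟩
    have : f 0 ∈ f '' (V ∩ G.source) := mem_image_of_mem f ⟨h.zero_mem, h0G⟩
    rw [hU₀'] at this
    exact this.2
  · ext y
    constructor
    · rintro ⟨x, ⟨hx, hx'⟩, rfl⟩
      have : f x ∈ f '' (V ∩ G.source) := mem_image_of_mem f hx
      rw [hU₀'] at this
      exact ⟨this.1, hx'⟩
    · rintro ⟨hyS, hyU, hyA⟩
      have : y ∈ f '' (V ∩ G.source) := by rw [hU₀']; exact ⟨hyS, hyU⟩
      obtain ⟨x, hx, rfl⟩ := this
      exact ⟨x, ⟨hx, hyU, hyA⟩, rfl⟩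
  · rintro x ⟨hx, -⟩
    exact G.left_inv hx.2
  · exact G.continuousOn_symm.comp A'.continuous.continuousOn fun y hy => hy.2
  · rw [← h.map_zero]
    exact ContDiffAt.comp (f 0) hsmooth A'.contDiff.contDiffAt

open Classical in
/-- chart homeomorphism `Euc n → S` -/
theorem exists_chartHomeo (hS : IsSubmanifold n N S) (q : S) :
    ∃ (f : Euc n → Euc N) (V W : Set (Euc n)) (U : Set (Euc N)) (ρ : Euc N → Euc n)
      (e : OpenPartialHomeomorph (Euc n) S), IsLocalParam n N S q f V ∧ W ⊆ V ∧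
      (0 : Euc n) ∈ W ∧ f 0 = q ∧ IsOpen U ∧ (q : Euc N) ∈ U ∧ f '' W = S ∩ U ∧
      e.source = W ∧ e.target = Subtype.val ⁻¹' U ∧ (∀ x ∈ W, (e x : Euc N) = f x) ∧
      (∀ y : S, e.symm y = ρ y) ∧ (∀ x ∈ W, ρ (f x) = x) ∧ ContinuousOn ρ U ∧
      ContDiffAt ℝ ∞ ρ q := by
  obtain ⟨f, V, h⟩ := hS q q.2
  obtain ⟨W, U, ρ, hW, h0W, hWV, hU, hqU, hfW, hρ, hρc, hρd⟩ := chart_inverse h
  have hmem : ∀ x ∈ W, f x ∈ S ∧ f x ∈ U := fun x hx => by
    have : f x ∈ f '' W := mem_image_of_mem f hx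
    rwa [hfW] at this
  have hfr : ∀ y : S, (y : Euc N) ∈ U → ρ y ∈ W ∧ f (ρ y) = y := fun y hy => by
    have : (y : Euc N) ∈ f '' W := by rw [hfW]; exact ⟨y.2, hy⟩
    obtain ⟨x, hx, hxy⟩ := this
    rw [← hxy, hρ x hx]
    exact ⟨hx, rfl⟩
  let e : OpenPartialHomeomorph (Euc n) S :=
    { toFun := fun x => if hx : f x ∈ S then ⟨f x, hx⟩ else q
      invFun := fun y => ρ y
      source := W
      target := Subtype.val ⁻¹' U
      map_source' := fun x hx => by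
        simp only [mem_preimage, dif_pos (hmem x hx).1]
        exact (hmem x hx).2
      map_target' := fun y hy => (hfr y hy).1
      left_inv' := fun x hx => by
        simp only [dif_pos (hmem x hx).1]
        exact hρ x hx
      right_inv' := fun y hy => by
        have h1 := hfr y hy
        have h2 : f (ρ y) ∈ S := by rw [h1.2]; exact y.2
        simp only [dif_pos h2]
        exact Subtype.ext h1.2
      open_source := hW
      open_target := hU.preimage continuous_subtype_val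
      continuousOn_toFun := by
        rw [continuousOn_iff_continuous_domRestrict]
        have h1 : (W.domRestrict fun x => if hx : f x ∈ S then (⟨f x, hx⟩ : S) else q) =
            fun x : W => (⟨f x, (hmem x x.2).1⟩ : S) := by
          ext x
          simp [domRestrict, (hmem x x.2).1]
        rw [h1]
        refine Continuous.subtype_mk ?_ _
        exact (h.contDiffOn.continuousOn.mono hWV).comp_continuous continuous_subtype_val
          fun x => x.2
      continuousOn_invFun := hρc.comp continuous_subtype_val.continuousOn fun y hy => hy }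
  refine ⟨f, V, W, U, ρ, e, h, hWV, h0W, h.map_zero, hU, hqU, hfW, rfl, rfl, fun x hx => ?_,
    fun y => rfl, hρ, hρc, hρd⟩
  show ((if hx : f x ∈ S then (⟨f x, hx⟩ : S) else q : S) : Euc N) = f x
  rw [dif_pos (hmem x hx).1]

/-- a submanifold is locally path connected -/
theorem locallyPathConnectedSpace (hS : IsSubmanifold n N S) : LocallyPathConnectedSpace S := by
  choose f V W U ρ e h using fun q : S => exists_chartHomeo hS q
  let inst : ChartedSpace (Euc n) S :=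
    { atlas := range fun q => (e q).symm
      chartAt := fun q => (e q).symm
      mem_chart_source := fun q => by
        obtain ⟨_, _, _, _, _, hqU, _, _, ht, _⟩ := h q
        show q ∈ (e q).target
        rw [ht]
        exact hqU
      chart_mem_atlas := fun q => mem_range_self q }
  exact ChartedSpace.locallyPathConnectedSpace (Euc n) S

/-- An expanding smooth map `Euc n → S` is a local homeomorphism. -/
theorem isLocalHomeomorph_of_expanding (hS : IsSubmanifold n N S) {Φ : Euc n → Euc N}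
    (hΦ : ContDiff ℝ ∞ Φ) (hmem : ∀ v, Φ v ∈ S) (hexp : ∀ v w, ‖w‖ ≤ ‖fderiv ℝ Φ v w‖) :
    IsLocalHomeomorph (fun v => (⟨Φ v, hmem v⟩ : S)) := by
  refine IsLocalHomeomorph.mk _ fun v₀ => ?_
  obtain ⟨f, V, W, U, ρ, e, h, hWV, h0W, hf0, hU, hqU, hfW, hes, het, hef, heρ, hρ, hρc, hρd⟩ :=
    exists_chartHomeo hS ⟨Φ v₀, hmem v₀⟩
  simp only at hqU hf0 hρd h
  -- `h = ρ ∘ Φ`
  have hhd : ContDiffAt ℝ ∞ (ρ ∘ Φ) v₀ := ContDiffAt.comp v₀ hρd hΦ.contDiffAt
  have hΦU : ∀ᶠ v in 𝓝 v₀, Φ v ∈ U := hΦ.continuous.continuousAt.preimage_mem_nhds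
    (hU.mem_nhds hqU)
  have hfr : ∀ v, Φ v ∈ U → ρ (Φ v) ∈ W ∧ f (ρ (Φ v)) = Φ v := fun v hv => by
    have : Φ v ∈ f '' W := by rw [hfW]; exact ⟨hmem v, hv⟩
    obtain ⟨x, hx, hxy⟩ := this
    rw [← hxy, hρ x hx]
    exact ⟨hx, rfl⟩
  have hρ0 : ρ (Φ v₀) = 0 := by rw [← hf0]; exact hρ 0 h0W
  have hfd : ContDiffAt ℝ ∞ f 0 := h.contDiffOn.contDiffAt (h.isOpen.mem_nhds h.zero_mem)
  have hcomp : fderiv ℝ Φ v₀ = (fderiv ℝ f 0).comp (fderiv ℝ (ρ ∘ Φ) v₀) := by
    have h1 : Φ =ᶠ[𝓝 v₀] f ∘ (ρ ∘ Φ) := hΦU.mono fun v hv => ((hfr v hv).2).symm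
    rw [h1.fderiv_eq, fderiv_comp]
    · simp [hρ0]
    · have : (ρ ∘ Φ) v₀ = 0 := hρ0
      rw [this]
      exact hfd.differentiableAt (by simp)
    · exact hhd.differentiableAt (by simp)
  have hinj : Function.Injective (fderiv ℝ (ρ ∘ Φ) v₀) := by
    rw [injective_iff_map_eq_zero]
    intro w hw
    have h1 := hexp v₀ w
    rw [hcomp] at h1
    simp only [ContinuousLinearMap.comp_apply, hw, map_zero, norm_zero] at h1
    exact norm_le_zero_iff.1 h1
  let L : Euc n ≃L[ℝ] Euc n :=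
    (LinearEquiv.ofInjectiveEndo (fderiv ℝ (ρ ∘ Φ) v₀).toLinearMap
      hinj).toContinuousLinearEquiv
  have hL : HasFDerivAt (ρ ∘ Φ) (L : Euc n →L[ℝ] Euc n) v₀ := by
    have h2 : (L : Euc n →L[ℝ] Euc n) = fderiv ℝ (ρ ∘ Φ) v₀ := ContinuousLinearMap.ext fun v => rfl
    rw [h2]
    exact (hhd.differentiableAt (by simp)).hasFDerivAt
  have hn0 : (∞ : WithTop ℕ∞) ≠ 0 := by simp
  set G := hhd.toOpenPartialHomeomorph (ρ ∘ Φ) hL hn0 with hG
  have hGc : (G : Euc n → Euc n) = ρ ∘ Φ := rfl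
  have h0G : v₀ ∈ G.source := hhd.mem_toOpenPartialHomeomorph_source hL hn0
  refine ⟨(G.restrOpen (Φ ⁻¹' U) (hU.preimage hΦ.continuous)).trans e, ?_, ?_⟩
  · rw [OpenPartialHomeomorph.trans_source]
    refine ⟨?_, ?_⟩
    · rw [OpenPartialHomeomorph.restrOpen_source]
      exact ⟨h0G, hqU⟩
    · rw [mem_preimage, hes]
      show (ρ ∘ Φ) v₀ ∈ W
      exact (hfr v₀ hqU).1
  · rintro v hv
    rw [OpenPartialHomeomorph.trans_source, OpenPartialHomeomorph.restrOpen_source] at hv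
    obtain ⟨⟨-, hv⟩, -⟩ := hv
    have h1 := hfr v hv
    apply Subtype.ext
    show Φ v = (e (ρ (Φ v)) : Euc N)
    rw [hef _ h1.1, h1.2]

/-- An expanding smooth map satisfies `LocExp` for all constants `> 1`. -/
theorem locExp_of_expanding {Φ : Euc n → Euc N} (hΦ : ContDiff ℝ ∞ Φ) (hmem : ∀ v, Φ v ∈ S)
    (hexp : ∀ v w, ‖w‖ ≤ ‖fderiv ℝ Φ v w‖) {C : ℝ≥0} (hC : 1 < C) :
    LocExp (fun v => (⟨Φ v, hmem v⟩ : S)) C := by
  intro v₀
  have hd : HasStrictFDerivAt Φ (fderiv ℝ Φ v₀) v₀ :=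
    hΦ.contDiffAt.hasStrictFDerivAt (by simp)
  have hC0 : (0 : ℝ) < C := lt_trans zero_lt_one (by exact_mod_cast hC)
  have hC1 : (1 : ℝ) < C := by exact_mod_cast hC
  have hε : 0 < 1 - (C : ℝ)⁻¹ := by
    rw [sub_pos]
    exact inv_lt_one_of_one_lt₀ hC1
  have := hd.isLittleO.def hε
  filter_upwards [this] with q hq
  have h1 := hexp v₀ (q.1 - q.2)
  rw [dist_eq_norm, Subtype.dist_eq, dist_eq_norm]
  have h2 : ‖fderiv ℝ Φ v₀ (q.1 - q.2)‖ ≤ ‖Φ q.1 - Φ q.2‖ + (1 - (C : ℝ)⁻¹) * ‖q.1 - q.2‖ := by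
    calc ‖fderiv ℝ Φ v₀ (q.1 - q.2)‖
        = ‖(Φ q.1 - Φ q.2) - (Φ q.1 - Φ q.2 - fderiv ℝ Φ v₀ (q.1 - q.2))‖ := by
          congr 1; abel
      _ ≤ ‖Φ q.1 - Φ q.2‖ + ‖Φ q.1 - Φ q.2 - fderiv ℝ Φ v₀ (q.1 - q.2)‖ := norm_sub_le _ _
      _ ≤ _ := by gcongr
  have h3 : (C : ℝ)⁻¹ * ‖q.1 - q.2‖ ≤ ‖Φ q.1 - Φ q.2‖ := by nlinarith
  calc ‖q.1 - q.2‖ = C * ((C : ℝ)⁻¹ * ‖q.1 - q.2‖) := by field_simp
    _ ≤ C * ‖Φ q.1 - Φ q.2‖ := by gcongr

/-- A submanifold is locally Lipschitz contractible. -/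
theorem locContr (hS : IsSubmanifold n N S) : LocContr S := by
  intro q
  obtain ⟨f, V, W, U, ρ, e, h, hWV, h0W, hf0, hU, hqU, hfW, hes, het, hef, heρ, hρ, hρc, hρd⟩ :=
    exists_chartHomeo hS q
  have hWo : IsOpen W := hes ▸ e.open_source
  obtain ⟨r, hr, hrW⟩ := Metric.nhds_basis_closedBall.mem_iff.1 (hWo.mem_nhds h0W)
  obtain ⟨K, hK⟩ : ∃ K, LipschitzOnWith K f (Metric.closedBall (0 : Euc n) r) :=
    ((h.contDiffOn.mono (hrW.trans hWV))).exists_lipschitzOnWith (by simp)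
      (convex_closedBall _ _) (isCompact_closedBall _ _)
  have hfr : ∀ y : S, (y : Euc N) ∈ U → ρ y ∈ W ∧ f (ρ y) = y := fun y hy => by
    have : (y : Euc N) ∈ f '' W := by rw [hfW]; exact ⟨y.2, hy⟩
    obtain ⟨x, hx, hxy⟩ := this
    rw [← hxy, hρ x hx]
    exact ⟨hx, rfl⟩
  have hρq : ρ q = 0 := by rw [← hf0]; exact hρ 0 h0W
  have hρc' : ContinuousOn (fun y : S => ρ y) (Subtype.val ⁻¹' U) :=
    hρc.comp continuous_subtype_val.continuousOn fun y hy => hy
  refine ⟨Subtype.val ⁻¹' U ∩ (fun y : S => ρ y) ⁻¹' Metric.ball 0 r,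
    hρc'.isOpen_inter_preimage (hU.preimage continuous_subtype_val) Metric.isOpen_ball,
    ⟨hqU, by simp [hρq, hr]⟩, ?_⟩
  rintro y₀ ⟨hy₀U, hy₀r⟩
  have hseg : ∀ y : S, ρ y ∈ Metric.ball (0 : Euc n) r → ∀ t ∈ Icc (0 : ℝ) 1,
      ρ y₀ + t • (ρ y - ρ y₀) ∈ Metric.ball (0 : Euc n) r := by
    intro y hy t ht
    exact (convex_ball (0 : Euc n) r).add_smul_sub_mem hy₀r hy ht
  have hballW : Metric.ball (0 : Euc n) r ⊆ W := Metric.ball_subset_closedBall.trans hrW
  have heW : ∀ x ∈ Metric.ball (0 : Euc n) r, (e x : Euc N) = f x := fun x hx => hef x (hballW hx)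
  refine ⟨fun z => e (ρ y₀ + z.1 • (ρ z.2 - ρ y₀)), ?_, ?_, ?_⟩
  · refine e.continuousOn.comp ?_ ?_
    · have h2 : ContinuousOn (fun z : ℝ × S => ρ z.2)
          (Icc (0 : ℝ) 1 ×ˢ (Subtype.val ⁻¹' U ∩ (fun y : S => ρ y) ⁻¹' Metric.ball 0 r)) :=
        hρc'.comp continuous_snd.continuousOn fun z hz => hz.2.1
      exact continuousOn_const.add (continuous_fst.continuousOn.smul (h2.sub continuousOn_const))
    · rintro ⟨t, y⟩ ⟨ht, hy⟩
      rw [hes]
      exact hballW (hseg y hy.2 t ht)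
  · intro t ht
    apply Subtype.ext
    simp only [sub_self, smul_zero, add_zero]
    rw [heW _ hy₀r]
    exact (hfr y₀ hy₀U).2
  · rintro y ⟨hyU, hyr⟩
    refine ⟨?_, ?_, K * ‖ρ y - ρ y₀‖₊, ?_⟩
    · apply Subtype.ext
      simp only [zero_smul, add_zero]
      rw [heW _ hy₀r]
      exact (hfr y₀ hy₀U).2
    · apply Subtype.ext
      simp only [one_smul, add_sub_cancel]
      rw [heW _ hyr]
      exact (hfr y hyU).2
    · refine LipschitzOnWith.of_dist_le_mul fun s hs t ht => ?_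
      rw [Subtype.dist_eq]
      dsimp only
      rw [heW _ (hseg y hyr s hs), heW _ (hseg y hyr t ht)]
      refine (hK.dist_le_mul _ (Metric.ball_subset_closedBall (hseg y hyr s hs)) _
        (Metric.ball_subset_closedBall (hseg y hyr t ht))).trans ?_
      rw [dist_eq_norm, add_sub_add_left_eq_sub, ← sub_smul, norm_smul, Real.dist_eq]
      rw [NNReal.coe_mul, coe_nnnorm, Real.norm_eq_abs]
      apply le_of_eq
      ring

/-- **D4(a)**: an expanding smooth map `Euc n → S` onto a simply connected submanifold is a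
homeomorphism. -/
theorem exists_homeo (hS : IsSubmanifold n N S) [SimplyConnectedSpace S] {Φ : Euc n → Euc N}
    (hΦ : ContDiff ℝ ∞ Φ) (hmem : ∀ v, Φ v ∈ S) (hexp : ∀ v w, ‖w‖ ≤ ‖fderiv ℝ Φ v w‖) :
    ∃ h : Euc n ≃ₜ S, ∀ v, (h v : Euc N) = Φ v := by
  have := locallyPathConnectedSpace hS
  have hp := isLocalHomeomorph_of_expanding hS hΦ hmem hexp
  have hsec : HasSections (fun v => (⟨Φ v, hmem v⟩ : S)) :=
    hasSections hp (locExp_of_expanding hΦ hmem hexp (C := 2) (by norm_num)) (locContr hS)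
  obtain ⟨h, hh⟩ := homeo_of_sections hp hsec 0
  exact ⟨h, fun v => by rw [hh v]⟩

end Crest.Agent.R241.D4Loc
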