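import Mathlib
import Crest.Agent.R241.D4Loc

/-!
# R241, block D4, part 4 (helper816): the intrinsic metric

`ExpData n N S`: a family of exponential maps of the submanifold `S` (output of D2/D3).
For simply connected `S` we construct

* `D.homeo p : Euc n ≃ₜ S` (the exponential map at `p`), `D.log p q = (D.homeo p).symm q`;
* `XS D` : type synonym for `S` carrying the intrinsic metric `dist p q = ‖D.log p q‖`,
  a proper metric space homeomorphic to `S`;
* `D.dist_le_of_curve`: `dist p q ≤ L` for every `L`-Lipschitz curve `[0,1] → S` from `p` to `q`,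
  and `D.curve`: the minimum is attained (radial geodesic);
* `D.norm_sub_le_dist`, `D.dist_le_locally`: comparison with the ambient distance.
-/

set_option autoImplicit false

open Set Filter Topology
open scoped ContDiff NNReal
open Crest.GeometryTopology.Submanifold

namespace Crest.Agent.R241.D4Met

open D4Lift D4Top D4Loc

/-- Family of exponential maps. -/
structure ExpData (n N : ℕ) (S : Set (Euc N)) where
  sub : IsSubmanifold n N S
  sc : SimplyConnectedSpace S
  Φ : S → Euc n → Euc N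
  contDiff : ∀ p, ContDiff ℝ ∞ (Φ p)
  mem : ∀ p v, Φ p v ∈ S
  zero : ∀ p, Φ p 0 = p
  expand : ∀ p v w, ‖w‖ ≤ ‖fderiv ℝ (Φ p) v w‖
  radial : ∀ p v, ∀ t ∈ Icc (0 : ℝ) 1, ‖fderiv ℝ (Φ p) (t • v) v‖ ≤ ‖v‖

variable {n N : ℕ} {S : Set (Euc N)}

namespace ExpData

variable (D : ExpData n N S)

theorem exists_homeo' (p : S) : ∃ h : Euc n ≃ₜ S, ∀ v, (h v : Euc N) = D.Φ p v :=
  haveI := D.sc
  exists_homeo D.sub (D.contDiff p) (D.mem p) (D.expand p)

/-- the exponential map at `p` as a homeomorphism onto `S` -/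
noncomputable def homeo (p : S) : Euc n ≃ₜ S := (D.exists_homeo' p).choose

theorem homeo_coe (p : S) (v : Euc n) : (D.homeo p v : Euc N) = D.Φ p v :=
  (D.exists_homeo' p).choose_spec v

@[simp] theorem homeo_zero (p : S) : D.homeo p 0 = p := Subtype.ext (by rw [homeo_coe, D.zero])

/-- inverse of the exponential map at `p` -/
noncomputable def log (p q : S) : Euc n := (D.homeo p).symm q

@[simp] theorem homeo_log (p q : S) : D.homeo p (D.log p q) = q := (D.homeo p).apply_symm_apply q

@[simp] theorem log_homeo (p : S) (v : Euc n) : D.log p (D.homeo p v) = v :=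
  (D.homeo p).symm_apply_apply v

@[simp] theorem log_self (p : S) : D.log p p = 0 := by
  have := D.log_homeo p 0
  rwa [homeo_zero] at this

theorem locExp (p : S) {C : ℝ≥0} (hC : 1 < C) : LocExp (D.homeo p) C := by
  have := locExp_of_expanding (D.contDiff p) (D.mem p) (D.expand p) hC
  have h2 : (D.homeo p : Euc n → S) = fun v => (⟨D.Φ p v, D.mem p v⟩ : S) := by
    ext v : 1
    exact Subtype.ext (D.homeo_coe p v)
  rw [h2]
  exact this

/-- any Lipschitz curve from `p` to `q` has Lipschitz constant at least `‖log p q‖` -/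
theorem norm_log_sub_le {p : S} {L : ℝ≥0} {c : ℝ → S} {a b : ℝ} (hab : a ≤ b)
    (hc : LipschitzOnWith L c (Icc a b)) :
    ‖D.log p (c b) - D.log p (c a)‖ ≤ L * (b - a) := by
  have key : ∀ C : ℝ≥0, 1 < C → ‖D.log p (c b) - D.log p (c a)‖ ≤ C * (L * (b - a)) := by
    intro C hC
    have h := lipschitz_of_lift (D.locExp p hC) hc (w := fun t => D.log p (c t))
      ((D.homeo p).symm.continuous.comp_continuousOn hc.continuousOn)
      (fun t _ => D.homeo_log p (c t))
    have h2 := h.dist_le_mul b ⟨hab, le_rfl⟩ a ⟨le_rfl, hab⟩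
    rw [dist_eq_norm, Real.dist_eq, abs_of_nonneg (by linarith)] at h2
    push_cast at h2
    linarith
  have h0 : 0 ≤ (L : ℝ) * (b - a) := mul_nonneg L.2 (by linarith)
  have hlim : Tendsto (fun k : ℕ => (1 + 1 / ((k : ℝ) + 1)) * ((L : ℝ) * (b - a))) atTop
      (𝓝 ((1 + 0) * ((L : ℝ) * (b - a)))) :=
    (tendsto_const_nhds.add tendsto_one_div_add_atTop_nhds_zero_nat).mul_const _
  rw [add_zero, one_mul] at hlim
  refine ge_of_tendsto' hlim fun k => ?_
  have h1 := key (1 + 1 / ((k : ℝ≥0) + 1)) (by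
    rw [lt_add_iff_pos_right]; positivity)
  push_cast at h1
  exact h1

/-- radial geodesic as a curve in `S` -/
noncomputable def geo (x y : S) (t : ℝ) : S := D.homeo x (t • D.log x y)

@[simp] theorem geo_zero (x y : S) : D.geo x y 0 = x := by simp [geo]

@[simp] theorem geo_one (x y : S) : D.geo x y 1 = y := by simp [geo]

theorem lipschitz_radial (p : S) (v : Euc n) :
    LipschitzOnWith ‖v‖₊ (fun t : ℝ => D.homeo p (t • v)) (Icc 0 1) := by
  refine LipschitzOnWith.of_dist_le_mul fun s hs t ht => ?_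
  rw [Subtype.dist_eq, D.homeo_coe, D.homeo_coe]
  have h1 : ∀ r ∈ Icc (0 : ℝ) 1, HasDerivWithinAt (fun t : ℝ => D.Φ p (t • v))
      (fderiv ℝ (D.Φ p) (r • v) v) (Icc 0 1) r := by
    intro r _
    have hd : HasFDerivAt (D.Φ p) (fderiv ℝ (D.Φ p) (r • v)) (r • v) :=
      ((D.contDiff p).differentiable (by simp) _).hasFDerivAt
    have hl : HasDerivAt (fun t : ℝ => t • v) v r := by
      simpa using (hasDerivAt_id r).smul_const v
    exact (hd.comp_hasDerivAt r hl).hasDerivWithinAt
  have := (convex_Icc (0 : ℝ) 1).norm_image_sub_le_of_norm_hasDerivWithin_le (C := ‖v‖) h1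
    (fun r hr => D.radial p v r hr) ht hs
  rw [dist_eq_norm, dist_eq_norm]
  exact this

/-- concatenation of Lipschitz curves -/
theorem exists_concat {X : Type*} [MetricSpace X] {x y z : X} {L₁ L₂ : ℝ≥0}
    (h₁ : ∃ c : ℝ → X, LipschitzOnWith L₁ c (Icc 0 1) ∧ c 0 = x ∧ c 1 = y)
    (h₂ : ∃ c : ℝ → X, LipschitzOnWith L₂ c (Icc 0 1) ∧ c 0 = y ∧ c 1 = z) :
    ∃ c : ℝ → X, LipschitzOnWith (L₁ + L₂) c (Icc 0 1) ∧ c 0 = x ∧ c 1 = z := by
  obtain ⟨c₁, h₁, h₁0, h₁1⟩ := h₁
  obtain ⟨c₂, h₂, h₂0, h₂1⟩ := h₂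
  rcases eq_or_ne L₁ 0 with h0 | h0
  · subst h0
    have : dist (c₁ 0) (c₁ 1) ≤ 0 := by
      simpa using h₁.dist_le_mul 0 (by simp) 1 (by simp)
    have hxy : x = y := by rw [← h₁0, ← h₁1]; exact dist_le_zero.1 this
    exact ⟨c₂, by simpa using h₂, by rw [h₂0, hxy], h₂1⟩
  rcases eq_or_ne L₂ 0 with h0' | h0'
  · subst h0'
    have : dist (c₂ 0) (c₂ 1) ≤ 0 := by
      simpa using h₂.dist_le_mul 0 (by simp) 1 (by simp)
    have hyz : y = z := by rw [← h₂0, ← h₂1]; exact dist_le_zero.1 this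
    exact ⟨c₁, by simpa using h₁, h₁0, by rw [h₁1, hyz]⟩
  have hL₁ : (0 : ℝ) < L₁ := by exact_mod_cast pos_iff_ne_zero.2 h0
  have hL₂ : (0 : ℝ) < L₂ := by exact_mod_cast pos_iff_ne_zero.2 h0'
  set L : ℝ := L₁ + L₂ with hL
  have hLpos : 0 < L := by positivity
  set m : ℝ := L₁ / L with hm
  have hm0 : 0 < m := by positivity
  have hm1 : 1 - m = L₂ / L := by rw [hm, hL]; field_simp; ring
  have hm1' : 0 < 1 - m := by rw [hm1]; positivity
  let c : ℝ → X := fun t => if t ≤ m then c₁ (t / m) else c₂ ((t - m) / (1 - m))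
  have hcm : c m = y := by simp only [c, le_refl, if_true, div_self hm0.ne']; exact h₁1
  have hA : ∀ s ∈ Icc (0 : ℝ) m, ∀ t ∈ Icc (0 : ℝ) m, dist (c s) (c t) ≤ L * |s - t| := by
    intro s hs t ht
    simp only [c, if_pos hs.2, if_pos ht.2]
    refine (h₁.dist_le_mul _ ⟨by have := hs.1; positivity, (div_le_one hm0).2 hs.2⟩ _
      ⟨by have := ht.1; positivity, (div_le_one hm0).2 ht.2⟩).trans (le_of_eq ?_)
    rw [Real.dist_eq, ← sub_div, abs_div, abs_of_pos hm0, hm]
    field_simp
  have hB' : ∀ t ∈ Icc m 1, c t = c₂ ((t - m) / (1 - m)) := by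
    intro t ht
    rcases eq_or_lt_of_le ht.1 with h | h
    · rw [← h, hcm, sub_self, zero_div, h₂0]
    · simp only [c, if_neg (not_le.2 h)]
  have hB : ∀ s ∈ Icc m 1, ∀ t ∈ Icc m 1, dist (c s) (c t) ≤ L * |s - t| := by
    intro s hs t ht
    rw [hB' s hs, hB' t ht]
    refine (h₂.dist_le_mul _ ⟨div_nonneg (by linarith [hs.1]) hm1'.le,
      (div_le_one hm1').2 (by linarith [hs.2])⟩ _ ⟨div_nonneg (by linarith [ht.1]) hm1'.le,
      (div_le_one hm1').2 (by linarith [ht.2])⟩).trans (le_of_eq ?_)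
    rw [Real.dist_eq, ← sub_div, abs_div, abs_of_pos hm1', hm1]
    have : s - m - (t - m) = s - t := by ring
    rw [this]
    field_simp
  have hmle : m ≤ 1 := by linarith
  refine ⟨c, LipschitzOnWith.of_dist_le_mul fun s hs t ht => ?_, ?_, ?_⟩
  · rw [Real.dist_eq]
    push_cast
    have key : ∀ s t : ℝ, s ∈ Icc (0 : ℝ) 1 → t ∈ Icc (0 : ℝ) 1 → s ≤ t →
        dist (c s) (c t) ≤ L * |s - t| := by
      intro s t hs ht hst
      rcases le_total t m with h | h
      · exact hA s ⟨hs.1, hst.trans h⟩ t ⟨ht.1, h⟩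
      rcases le_total m s with h' | h'
      · exact hB s ⟨h', hs.2⟩ t ⟨h, ht.2⟩
      calc dist (c s) (c t) ≤ dist (c s) (c m) + dist (c m) (c t) := dist_triangle _ _ _
        _ ≤ L * |s - m| + L * |m - t| := add_le_add (hA s ⟨hs.1, h'⟩ m ⟨hm0.le, le_rfl⟩)
            (hB m ⟨le_rfl, hmle⟩ t ⟨h, ht.2⟩)
        _ = L * |s - t| := by
            rw [abs_of_nonpos (by linarith), abs_of_nonpos (by linarith),
              abs_of_nonpos (by linarith)]
            ring
    rcases le_total s t with h | h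
    · exact key s t hs ht h
    · rw [dist_comm, abs_sub_comm]
      exact key t s ht hs h
  · simp only [c, if_pos hm0.le, zero_div]; exact h₁0
  · rw [hB' 1 ⟨hmle, le_rfl⟩, div_self hm1'.ne', h₂1]

theorem norm_log_le {p q : S} {L : ℝ≥0}
    (h : ∃ c : ℝ → S, LipschitzOnWith L c (Icc 0 1) ∧ c 0 = p ∧ c 1 = q) :
    ‖D.log p q‖ ≤ L := by
  obtain ⟨c, hc, h0, h1⟩ := h
  have := D.norm_log_sub_le (p := p) zero_le_one hc
  rw [h0, h1, log_self, sub_zero] at this
  simpa using this

theorem exists_curve (p q : S) :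
    ∃ c : ℝ → S, LipschitzOnWith ‖D.log p q‖₊ c (Icc 0 1) ∧ c 0 = p ∧ c 1 = q :=
  ⟨D.geo p q, D.lipschitz_radial p (D.log p q), by simp, by simp⟩

theorem norm_log_comm (p q : S) : ‖D.log p q‖ = ‖D.log q p‖ := by
  have key : ∀ p q : S, ‖D.log p q‖ ≤ ‖D.log q p‖ := by
    intro p q
    obtain ⟨c, hc, h0, h1⟩ := D.exists_curve q p
    refine D.norm_log_le (L := ‖D.log q p‖₊) ⟨fun t => c (1 - t), ?_, by simpa using h1,
      by simpa using h0⟩
    refine LipschitzOnWith.of_dist_le_mul fun s hs t ht => ?_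
    refine (hc.dist_le_mul (1 - s) ⟨by linarith [hs.2], by linarith [hs.1]⟩ (1 - t)
      ⟨by linarith [ht.2], by linarith [ht.1]⟩).trans (le_of_eq ?_)
    rw [Real.dist_eq, Real.dist_eq, show 1 - s - (1 - t) = -(s - t) by ring, abs_neg]
  exact le_antisymm (key p q) (key q p)

theorem norm_log_triangle (p q r : S) : ‖D.log p r‖ ≤ ‖D.log p q‖ + ‖D.log q r‖ := by
  have := D.norm_log_le (exists_concat (D.exists_curve p q) (D.exists_curve q r))
  simpa using this

theorem eq_of_norm_log_eq_zero {p q : S} (h : ‖D.log p q‖ = 0) : p = q := by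
  have h1 : D.log p q = 0 := norm_eq_zero.1 h
  have h2 := D.homeo_log p q
  rw [h1, homeo_zero] at h2
  exact h2

/-- ambient distance ≤ intrinsic distance -/
theorem dist_le_norm_log (p q : S) : dist p q ≤ ‖D.log p q‖ := by
  obtain ⟨c, hc, h0, h1⟩ := D.exists_curve p q
  have := hc.dist_le_mul 0 (by simp) 1 (by simp)
  rw [h0, h1] at this
  simpa using this

end ExpData

/-- the submanifold with its intrinsic metric -/
def XS (_ : ExpData n N S) : Type := S

namespace XS

variable (D : ExpData n N S)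

/-- from `S` to `XS D` -/
def of (p : S) : XS D := p

/-- from `XS D` to `S` -/
def pt (p : XS D) : S := p

noncomputable instance : MetricSpace (XS D) where
  dist p q := ‖D.log (pt D p) (pt D q)‖
  dist_self p := by rw [D.log_self, norm_zero]
  dist_comm p q := D.norm_log_comm (pt D p) (pt D q)
  dist_triangle p q r := D.norm_log_triangle (pt D p) (pt D q) (pt D r)
  eq_of_dist_eq_zero h := D.eq_of_norm_log_eq_zero h

theorem dist_def (p q : XS D) : dist p q = ‖D.log (pt D p) (pt D q)‖ := rfl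

theorem dist_of (p q : S) : dist (of D p) (of D q) = ‖D.log p q‖ := rfl

theorem ambient_dist_le (p q : XS D) : dist (pt D p) (pt D q) ≤ dist p q :=
  D.dist_le_norm_log _ _

theorem continuous_pt : Continuous (pt D) :=
  LipschitzWith.continuous (K := 1) (LipschitzWith.of_dist_le_mul fun p q => by
    simpa using ambient_dist_le D p q)

theorem continuous_of : Continuous (of D) := by
  rw [continuous_iff_continuousAt]
  intro p
  rw [ContinuousAt, tendsto_iff_dist_tendsto_zero]
  have h1 : Tendsto (fun q => ‖D.log p q‖) (𝓝 p) (𝓝 ‖D.log p p‖) :=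
    ((D.homeo p).symm.continuous.norm).continuousAt
  rw [D.log_self, norm_zero] at h1
  refine h1.congr fun q => ?_
  rw [dist_comm, dist_of]

/-- the identity is a homeomorphism -/
def homeo : XS D ≃ₜ S where
  toFun := pt D
  invFun := of D
  left_inv _ := rfl
  right_inv _ := rfl
  continuous_toFun := continuous_pt D
  continuous_invFun := continuous_of D

instance : ProperSpace (XS D) := by
  refine ⟨fun p r => ?_⟩
  have h : Metric.closedBall p r =
      (fun v => of D (D.homeo (pt D p) v)) '' Metric.closedBall (0 : Euc n) r := by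
    ext q
    rw [Metric.mem_closedBall, dist_comm, dist_def]
    constructor
    · intro hq
      exact ⟨D.log (pt D p) (pt D q), by simpa using hq,
        congrArg (of D) (D.homeo_log (pt D p) (pt D q))⟩
    · rintro ⟨v, hv, rfl⟩
      have : pt D (of D (D.homeo (pt D p) v)) = D.homeo (pt D p) v := rfl
      rw [this, D.log_homeo]
      simpa using hv
  rw [h]
  exact (isCompact_closedBall _ _).image ((continuous_of D).comp (D.homeo _).continuous)

/-- geodesics -/
noncomputable def geo (x y : XS D) (t : ℝ) : XS D := of D (D.geo (pt D x) (pt D y) t)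

theorem geo_zero (x y : XS D) : geo D x y 0 = x := D.geo_zero _ _

theorem geo_one (x y : XS D) : geo D x y 1 = y := D.geo_one _ _

/-- a curve in `S` which is Lipschitz for the ambient metric is Lipschitz for the intrinsic
metric with the same constant -/
theorem lipschitz_of_lipschitz {L : ℝ≥0} {c : ℝ → S} {a b : ℝ}
    (hc : LipschitzOnWith L c (Icc a b)) :
    LipschitzOnWith L (fun t => of D (c t)) (Icc a b) := by
  have key : ∀ s ∈ Icc a b, ∀ t ∈ Icc a b, s ≤ t →
      dist (of D (c s)) (of D (c t)) ≤ L * dist s t := by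
    intro s hs t ht hst
    have := D.norm_log_sub_le (p := c s) hst (hc.mono (Icc_subset_Icc hs.1 ht.2))
    rw [D.log_self, sub_zero] at this
    rw [dist_of, Real.dist_eq, abs_sub_comm, abs_of_nonneg (by linarith)]
    exact this
  refine LipschitzOnWith.of_dist_le_mul fun s hs t ht => ?_
  rcases le_total s t with h | h
  · exact key s hs t ht h
  · rw [dist_comm, dist_comm s t]
    exact key t ht s hs h

theorem dist_geo (x y : XS D) (s : ℝ) (hs : s ∈ Icc (0 : ℝ) 1) (t : ℝ) (ht : t ∈ Icc (0 : ℝ) 1) :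
    dist (geo D x y s) (geo D x y t) = |s - t| * dist x y := by
  have hL : LipschitzOnWith ‖D.log (pt D x) (pt D y)‖₊ (geo D x y) (Icc 0 1) :=
    lipschitz_of_lipschitz D (D.lipschitz_radial (pt D x) (D.log (pt D x) (pt D y)))
  have hle : ∀ s ∈ Icc (0 : ℝ) 1, ∀ t ∈ Icc (0 : ℝ) 1,
      dist (geo D x y s) (geo D x y t) ≤ |s - t| * dist x y := by
    intro s hs t ht
    have := hL.dist_le_mul s hs t ht
    rw [Real.dist_eq, mul_comm] at this
    exact this
  refine le_antisymm (hle s hs t ht) ?_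
  have key : ∀ s ∈ Icc (0 : ℝ) 1, ∀ t ∈ Icc (0 : ℝ) 1, s ≤ t →
      |s - t| * dist x y ≤ dist (geo D x y s) (geo D x y t) := by
    intro s hs t ht hst
    have h1 := hle 0 (by simp) s hs
    have h2 := hle t ht 1 (by simp)
    rw [geo_zero] at h1
    rw [geo_one] at h2
    have h3 : dist x y ≤ dist x (geo D x y s) + dist (geo D x y s) (geo D x y t) +
        dist (geo D x y t) y := (dist_triangle _ _ _).trans (by
      gcongr; exact dist_triangle _ _ _)
    rw [abs_of_nonpos (by linarith [hs.1])] at h1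
    rw [abs_of_nonpos (by linarith [ht.2])] at h2
    rw [abs_of_nonpos (by linarith)]
    nlinarith
  rcases le_total s t with h | h
  · exact key s hs t ht h
  · rw [dist_comm (geo D x y s), abs_sub_comm]
    exact key t ht s hs h

/-- locally, the intrinsic distance is at most `C > 1` times the ambient distance -/
theorem eventually_dist_le (x : S) {C : ℝ} (hC : 1 < C) :
    ∀ᶠ q in 𝓝 (x, x), dist (of D (q : S × S).1) (of D q.2) ≤ C * dist q.1 q.2 := by
  -- `ε` with `(1 + ε) / (1 - ε) ≤ C`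
  obtain ⟨ε, hε, hε1, hεC⟩ : ∃ ε : ℝ, 0 < ε ∧ ε < 1 ∧ 1 + ε ≤ C * (1 - ε) := by
    refine ⟨(C - 1) / (C + 1), by apply div_pos <;> linarith, ?_, ?_⟩
    · rw [div_lt_one (by linarith)]; linarith
    · have : (C + 1) ≠ 0 := by linarith
      apply le_of_eq
      field_simp
      ring
  have hd := (D.contDiff x).contDiffAt (x := (0 : Euc n)) |>.hasStrictFDerivAt (n := ∞) (by simp)
  have hcont : Continuous (fderiv ℝ (D.Φ x)) := (D.contDiff x).continuous_fderiv (by simp)
  obtain ⟨r, hr, hr'⟩ := Metric.continuousAt_iff.1 (hcont.continuousAt (x := (0 : Euc n))) ε hε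
  have hlog : Tendsto (fun q : S × S => (D.log x q.1, D.log x q.2)) (𝓝 (x, x)) (𝓝 (0, 0)) := by
    have hc : Continuous fun q : S × S => (D.log x q.1, D.log x q.2) :=
      ((D.homeo x).symm.continuous.comp continuous_fst).prodMk
        ((D.homeo x).symm.continuous.comp continuous_snd)
    have := hc.tendsto (x, x)
    simpa using this
  have hball : ∀ᶠ z in 𝓝 ((0 : Euc n), (0 : Euc n)), z.1 ∈ Metric.ball (0 : Euc n) r ∧
      z.2 ∈ Metric.ball (0 : Euc n) r := by
    have h1 : Metric.ball (0 : Euc n) r ×ˢ Metric.ball (0 : Euc n) r ∈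
        𝓝 ((0 : Euc n), (0 : Euc n)) :=
      prod_mem_nhds (Metric.ball_mem_nhds _ hr) (Metric.ball_mem_nhds _ hr)
    exact h1
  filter_upwards [hlog.eventually (hd.isLittleO.def hε), hlog.eventually hball] with q hq hqr
  set a := D.log x q.1 with ha
  set b := D.log x q.2 with hb
  set A := fderiv ℝ (D.Φ x) 0 with hA
  have hqa : D.homeo x a = q.1 := D.homeo_log x q.1
  have hqb : D.homeo x b = q.2 := D.homeo_log x q.2
  have hAab : ‖a - b‖ ≤ ‖A (a - b)‖ := D.expand x 0 (a - b)
  -- lower bound for the ambient distance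
  have h1 : (1 - ε) * ‖A (a - b)‖ ≤ dist q.1 q.2 := by
    rw [← hqa, ← hqb, Subtype.dist_eq, D.homeo_coe, D.homeo_coe, dist_eq_norm]
    have h2 : ‖A (a - b)‖ ≤ ‖D.Φ x a - D.Φ x b‖ + ‖D.Φ x a - D.Φ x b - A (a - b)‖ := by
      calc ‖A (a - b)‖ = ‖(D.Φ x a - D.Φ x b) - (D.Φ x a - D.Φ x b - A (a - b))‖ := by
            congr 1; abel
        _ ≤ _ := norm_sub_le _ _
    nlinarith [norm_nonneg (A (a - b))]
  -- upper bound for the intrinsic distance
  have hK : 0 ≤ (1 + ε) * ‖A (a - b)‖ := by positivity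
  have h3 : LipschitzOnWith ⟨(1 + ε) * ‖A (a - b)‖, hK⟩
      (fun t : ℝ => D.homeo x (b + t • (a - b))) (Icc 0 1) := by
    refine LipschitzOnWith.of_dist_le_mul fun s hs t ht => ?_
    rw [Subtype.dist_eq, D.homeo_coe, D.homeo_coe]
    have h4 : ∀ r ∈ Icc (0 : ℝ) 1, HasDerivWithinAt (fun t : ℝ => D.Φ x (b + t • (a - b)))
        (fderiv ℝ (D.Φ x) (b + r • (a - b)) (a - b)) (Icc 0 1) r := by
      intro r _
      have hd : HasFDerivAt (D.Φ x) (fderiv ℝ (D.Φ x) (b + r • (a - b))) (b + r • (a - b)) :=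
        ((D.contDiff x).differentiable (by simp) _).hasFDerivAt
      have hl : HasDerivAt (fun t : ℝ => b + t • (a - b)) (a - b) r := by
        simpa using ((hasDerivAt_id r).smul_const (a - b)).const_add b
      exact (hd.comp_hasDerivAt r hl).hasDerivWithinAt
    have h5 : ∀ t ∈ Icc (0 : ℝ) 1,
        ‖fderiv ℝ (D.Φ x) (b + t • (a - b)) (a - b)‖ ≤ (1 + ε) * ‖A (a - b)‖ := by
      intro t ht
      have hmem : b + t • (a - b) ∈ Metric.ball (0 : Euc n) r :=
        (convex_ball (0 : Euc n) r).add_smul_sub_mem hqr.2 hqr.1 ht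
      have h6 := hr' hmem
      rw [dist_eq_norm] at h6
      calc ‖fderiv ℝ (D.Φ x) (b + t • (a - b)) (a - b)‖
          = ‖A (a - b) + (fderiv ℝ (D.Φ x) (b + t • (a - b)) - A) (a - b)‖ := by
            simp
        _ ≤ ‖A (a - b)‖ + ‖(fderiv ℝ (D.Φ x) (b + t • (a - b)) - A) (a - b)‖ := norm_add_le _ _
        _ ≤ ‖A (a - b)‖ + ε * ‖a - b‖ := by
            gcongr
            exact (ContinuousLinearMap.le_opNorm _ _).trans (by gcongr)
        _ ≤ ‖A (a - b)‖ + ε * ‖A (a - b)‖ := by gcongr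
        _ = _ := by ring
    have := (convex_Icc (0 : ℝ) 1).norm_image_sub_le_of_norm_hasDerivWithin_le h4 h5 ht hs
    rw [dist_eq_norm, dist_eq_norm]
    exact this
  have h6 := (lipschitz_of_lipschitz D h3).dist_le_mul 1 (by simp) 0 (by simp)
  simp only [one_smul, add_sub_cancel, zero_smul, add_zero, hqa, hqb] at h6
  have h7 : dist (of D q.1) (of D q.2) ≤ (1 + ε) * ‖A (a - b)‖ := by
    refine h6.trans (le_of_eq ?_)
    rw [Real.dist_eq, sub_zero, abs_one, mul_one]
    rfl
  calc dist (of D q.1) (of D q.2) ≤ (1 + ε) * ‖A (a - b)‖ := h7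
    _ ≤ (C * (1 - ε)) * ‖A (a - b)‖ := by gcongr
    _ = C * ((1 - ε) * ‖A (a - b)‖) := by ring
    _ ≤ C * dist q.1 q.2 := by
        apply mul_le_mul_of_nonneg_left h1; linarith

end XS

end Crest.Agent.R241.D4Met
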