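import Crest.Agent.R241.D3c
import Crest.Agent.R241.D4Met

/-!
R241, block D3d: `ExpData` (block D4) from `Geo` data.
-/

set_option autoImplicit false

open Set Filter Topology
open scoped ContDiff RealInnerProductSpace
open Crest.GeometryTopology.Submanifold
open Crest.Agent.R241.DDefs
open Crest.Agent.R241.D2
open Crest.Agent.R241.D3c

noncomputable section

namespace Crest.Agent.R241.D3d

variable {n N : ℕ} {κ : ℝ} {S : Set (Euc N)} (G : Geo n N κ S)

/-- an isometric frame of the tangent space at a point of `S` -/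
def frame (p : S) : Euc n ≃ₗᵢ[ℝ] G.T p :=
  ((stdOrthonormalBasis ℝ (G.T p)).reindex (finCongr (G.finrank_T p p.2))).repr.symm

/-- the frame as a continuous linear map into the ambient space -/
def frm (p : S) : Euc n →L[ℝ] Euc N :=
  (G.T p).subtypeL.comp (frame G p).toContinuousLinearEquiv.toContinuousLinearMap

lemma frm_mem (p : S) (v : Euc n) : frm G p v ∈ G.T p := (frame G p v).2

lemma norm_frm (p : S) (v : Euc n) : ‖frm G p v‖ = ‖v‖ := (frame G p).norm_map v

lemma inner_frm (p : S) (v w : Euc n) : ⟪frm G p v, frm G p w⟫ = ⟪v, w⟫ :=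
  (frame G p).inner_map_map v w

lemma exists_frm {p : S} {u : Euc N} (hu : u ∈ G.T p) : ∃ v, frm G p v = u :=
  ⟨(frame G p).symm ⟨u, hu⟩, by
    show ((frame G p ((frame G p).symm ⟨u, hu⟩) : G.T p) : Euc N) = u
    rw [LinearIsometryEquiv.apply_symm_apply]⟩

/-- The exponential map at `p` in the frame. -/
def Ph (p : S) (v : Euc n) : Euc N := Exp G p (frm G p v)

lemma contDiff_Ph (p : S) : ContDiff ℝ ∞ (Ph G p) := by
  rw [contDiff_iff_contDiffAt]
  intro v
  exact ContDiffAt.comp v (contDiffAt_Exp' G p.2 (frm_mem G p v)) (frm G p).contDiff.contDiffAt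

lemma fderiv_Ph (p : S) (v w : Euc n) :
    fderiv ℝ (Ph G p) v w = fderiv ℝ (Exp G p) (frm G p v) (frm G p w) := by
  have h1 := ((contDiffAt_Exp' G p.2 (frm_mem G p v)).differentiableAt (by simp)).hasFDerivAt
  have h2 := h1.comp v (frm G p).hasFDerivAt
  have h3 : fderiv ℝ (Ph G p) v = _ := h2.fderiv
  rw [h3]; rfl

lemma Ph_mem (p : S) (v : Euc n) : Ph G p v ∈ S := Exp_mem G p.2 (frm_mem G p v)

lemma Ph_zero (p : S) : Ph G p 0 = p := by
  unfold Ph; rw [map_zero, Exp_zero G p.2]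

lemma radial_Ph (p : S) (v : Euc n) (t : ℝ) : ‖fderiv ℝ (Ph G p) (t • v) v‖ = ‖v‖ := by
  have hT := frm_mem G p v
  by_cases ht : t = 0
  · rw [ht, zero_smul, fderiv_Ph, map_zero, fderiv_Exp_zero G p.2 hT, norm_frm]
  · rw [fderiv_Ph, map_smul]
    have h1 := fderiv_Exp_self G p.2 ((G.T p).smul_mem t hT)
    rw [map_smul] at h1
    have h2 := norm_Vel G p.2 ((G.T p).smul_mem t hT)
    rw [← h1, norm_smul, norm_smul, norm_frm] at h2
    have h3 : ‖t‖ ≠ 0 := norm_ne_zero_iff.2 ht
    exact mul_left_cancel₀ h3 h2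

/-- **D3d**: the input of block D4. -/
def expData {k : ℝ} (hk : 0 ≤ k) (G : Geo n N (-(k ^ 2)) S) (sub : IsSubmanifold n N S)
    (sc : SimplyConnectedSpace S) : D4Met.ExpData n N S where
  sub := sub
  sc := sc
  Φ := Ph G
  contDiff := contDiff_Ph G
  mem := Ph_mem G
  zero := Ph_zero G
  expand p v w := by
    rw [fderiv_Ph, ← norm_frm G p w]
    exact le_norm_fderiv_Exp hk G p.2 (frm_mem G p v) (frm_mem G p w)
  radial p v t _ := (radial_Ph G p v t).le

end Crest.Agent.R241.D3d
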