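import Crest.Agent.R241.Defs

/-!
# R241, block E4: model functions of the space form of curvature `-k²`

`sn`, `zk`, `modelA`, `modelV` of `Defs.lean` (boundary dimension `n ≥ 1`, dimension `n+1`):
derivatives, monotonicity, continuity, limits, inverses, the profile functions
`radA` (radius from area), `radV` (radius from volume), `Vk` (volume from area), `Ak` (area from
volume) and the translation to the Prelude's `modelArea`/`modelVolume`.
-/

set_option autoImplicit false

open MeasureTheory Filter Topology Set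
open scoped ENNReal NNReal

namespace Crest.Agent.R241.EModel

open Crest.GeometryTopology.Submanifold (Euc unitBallVol unitSphereArea snk modelArea modelVolume)

/-! ### `sn` and `zk` -/

theorem sn_zero (k : ℝ) : sn k 0 = 0 := by
  unfold sn; split_ifs <;> simp

theorem hasDerivAt_sn (k r : ℝ) : HasDerivAt (sn k) (Real.cosh (k * r)) r := by
  unfold sn
  by_cases hk : k = 0
  · simp only [hk, if_true, zero_mul, Real.cosh_zero]
    exact hasDerivAt_id' r
  · simp only [hk, if_false]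
    have h1 : HasDerivAt (fun r : ℝ => k * r) k r := by simpa using (hasDerivAt_id r).const_mul k
    have h2 := (h1.sinh).div_const k
    have : Real.cosh (k * r) * k / k = Real.cosh (k * r) := by field_simp
    rwa [this] at h2

theorem continuous_sn (k : ℝ) : Continuous (sn k) :=
  continuous_iff_continuousAt.2 fun r => (hasDerivAt_sn k r).continuousAt

theorem strictMono_sn (k : ℝ) : StrictMono (sn k) :=
  strictMono_of_hasDerivAt_pos (fun r => hasDerivAt_sn k r) (fun r => Real.cosh_pos _)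

theorem sn_pos {k r : ℝ} (hr : 0 < r) : 0 < sn k r := by
  have := strictMono_sn k hr; rwa [sn_zero] at this

theorem sn_nonneg {k r : ℝ} (hr : 0 ≤ r) : 0 ≤ sn k r := by
  have := (strictMono_sn k).monotone hr; rwa [sn_zero] at this

theorem le_sn {k r : ℝ} (hk : 0 ≤ k) (hr : 0 ≤ r) : r ≤ sn k r := by
  unfold sn
  by_cases h : k = 0
  · simp [h]
  · have hk' : 0 < k := lt_of_le_of_ne hk (Ne.symm h)
    simp only [h, if_false]
    rw [le_div_iff₀ hk', mul_comm]
    exact Real.self_le_sinh_iff.2 (by positivity)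

theorem sn_sq (k r : ℝ) : Real.cosh (k * r) ^ 2 - k ^ 2 * sn k r ^ 2 = 1 := by
  unfold sn
  by_cases hk : k = 0
  · simp [hk]
  · simp only [hk, if_false]
    have := Real.cosh_sq_sub_sinh_sq (k * r)
    field_simp
    linarith

theorem zk_zero (k : ℝ) : zk k 0 = 0 := by
  unfold zk; split_ifs <;> simp

theorem one_add_zk (k r : ℝ) : 1 + k ^ 2 * zk k r = Real.cosh (k * r) := by
  unfold zk
  by_cases hk : k = 0
  · simp [hk]
  · simp only [hk, if_false]; field_simp; ring

theorem two_zk (k r : ℝ) : 2 * zk k r + k ^ 2 * zk k r ^ 2 = sn k r ^ 2 := by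
  by_cases hk : k = 0
  · subst hk; simp [zk, sn]; ring
  · have h1 := one_add_zk k r
    have h2 := sn_sq k r
    rw [← h1] at h2
    have hk2 : k ^ 2 ≠ 0 := pow_ne_zero 2 hk
    apply mul_left_cancel₀ hk2
    nlinarith

theorem hasDerivAt_zk (k r : ℝ) : HasDerivAt (zk k) (sn k r) r := by
  unfold zk sn
  by_cases hk : k = 0
  · simp only [hk, if_true]
    have := ((hasDerivAt_id r).pow 2).div_const 2
    simpa using this
  · simp only [hk, if_false]
    have h1 : HasDerivAt (fun r : ℝ => k * r) k r := by simpa using (hasDerivAt_id r).const_mul k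
    have h2 := ((h1.cosh).sub_const 1).div_const (k ^ 2)
    have : Real.sinh (k * r) * k / k ^ 2 = Real.sinh (k * r) / k := by field_simp
    rwa [this] at h2

theorem continuous_zk (k : ℝ) : Continuous (zk k) :=
  continuous_iff_continuousAt.2 fun r => (hasDerivAt_zk k r).continuousAt

theorem zk_nonneg (k r : ℝ) : 0 ≤ zk k r := by
  unfold zk
  by_cases hk : k = 0
  · simp only [hk, if_true]; positivity
  · simp only [hk, if_false]
    have := Real.one_le_cosh (k * r)
    have : 0 < k ^ 2 := by positivity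
    apply div_nonneg <;> linarith [Real.one_le_cosh (k * r)]

theorem strictMonoOn_zk (k : ℝ) : StrictMonoOn (zk k) (Ici 0) := by
  apply strictMonoOn_of_deriv_pos (convex_Ici 0) (continuous_zk k).continuousOn
  intro r hr
  rw [interior_Ici] at hr
  rw [(hasDerivAt_zk k r).deriv]
  exact sn_pos hr

theorem tendsto_sn_atTop {k : ℝ} (hk : 0 ≤ k) : Tendsto (sn k) atTop atTop := by
  apply tendsto_atTop_mono' atTop _ tendsto_id
  filter_upwards [eventually_ge_atTop (0 : ℝ)] with r hr using le_sn hk hr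

/-! ### `modelA` and `modelV` -/

theorem unitBallVol_pos (n : ℕ) : 0 < unitBallVol n := by
  unfold unitBallVol
  apply ENNReal.toReal_pos
  · exact (Metric.measure_ball_pos volume (0 : Euc n) one_pos).ne'
  · exact measure_ball_lt_top.ne

theorem sphArea_pos (n : ℕ) : 0 < sphArea n := by
  unfold sphArea
  have := unitBallVol_pos (n + 1)
  positivity

variable {n : ℕ}

theorem modelA_zero (hn : n ≠ 0) (k : ℝ) : modelA n k 0 = 0 := by
  simp [modelA, sn_zero, hn]

theorem modelV_zero (n : ℕ) (k : ℝ) : modelV n k 0 = 0 := by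
  simp [modelV]

theorem modelA_nonneg {k r : ℝ} (hr : 0 ≤ r) : 0 ≤ modelA n k r :=
  mul_nonneg (sphArea_pos n).le (pow_nonneg (sn_nonneg hr) n)

theorem modelA_pos {k r : ℝ} (hr : 0 < r) : 0 < modelA n k r :=
  mul_pos (sphArea_pos n) (pow_pos (sn_pos hr) n)

theorem continuous_modelA (n : ℕ) (k : ℝ) : Continuous (modelA n k) :=
  continuous_const.mul ((continuous_sn k).pow n)

theorem strictMonoOn_modelA (hn : n ≠ 0) (k : ℝ) : StrictMonoOn (modelA n k) (Ici 0) := by
  intro a ha b hb hab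
  apply mul_lt_mul_of_pos_left _ (sphArea_pos n)
  exact pow_lt_pow_left₀ (strictMono_sn k hab) (sn_nonneg ha) hn

theorem hasDerivAt_modelV (n : ℕ) (k r : ℝ) : HasDerivAt (modelV n k) (modelA n k r) r := by
  unfold modelV modelA
  apply HasDerivAt.const_mul
  have hc : Continuous (fun t => sn k t ^ n) := (continuous_sn k).pow n
  exact intervalIntegral.integral_hasDerivAt_right
    (hc.intervalIntegrable _ _) (hc.stronglyMeasurableAtFilter _ _) hc.continuousAt

theorem continuous_modelV (n : ℕ) (k : ℝ) : Continuous (modelV n k) :=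
  continuous_iff_continuousAt.2 fun r => (hasDerivAt_modelV n k r).continuousAt

theorem strictMonoOn_modelV (n : ℕ) (k : ℝ) : StrictMonoOn (modelV n k) (Ici 0) := by
  apply strictMonoOn_of_deriv_pos (convex_Ici 0) (continuous_modelV n k).continuousOn
  intro r hr
  rw [interior_Ici] at hr
  rw [(hasDerivAt_modelV n k r).deriv]
  exact modelA_pos hr

theorem modelV_nonneg {k r : ℝ} (hr : 0 ≤ r) : 0 ≤ modelV n k r := by
  have := (strictMonoOn_modelV n k).monotoneOn (mem_Ici.2 le_rfl) (mem_Ici.2 hr) hr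
  rwa [modelV_zero] at this

theorem modelV_pos {k r : ℝ} (hr : 0 < r) : 0 < modelV n k r := by
  have := (strictMonoOn_modelV n k) (mem_Ici.2 le_rfl) (mem_Ici.2 hr.le) hr
  rwa [modelV_zero] at this

/-- derivative of the area: `A' = n ct_k A`. -/
theorem hasDerivAt_modelA (n : ℕ) (k : ℝ) {r : ℝ} (hr : 0 < r) :
    HasDerivAt (modelA n k) ((n : ℝ) * (Real.cosh (k * r) / sn k r) * modelA n k r) r := by
  have h : HasDerivAt (fun r => sphArea n * sn k r ^ n)
      (sphArea n * (↑n * sn k r ^ (n - 1) * Real.cosh (k * r))) r :=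
    ((hasDerivAt_sn k r).fun_pow n).const_mul (sphArea n)
  have hs := (sn_pos (k := k) hr).ne'
  have e : (n : ℝ) * (Real.cosh (k * r) / sn k r) * modelA n k r =
      sphArea n * (↑n * sn k r ^ (n - 1) * Real.cosh (k * r)) := by
    unfold modelA
    rcases n with _ | n
    · simp
    · simp only [Nat.add_sub_cancel]
      field_simp
      ring
  rw [e]
  exact h

/-- `s_n (h² - k²)^{-n/2}` for `h = ct_k(r)` is the model area. -/
theorem modelA_eq_rpow (n : ℕ) (k : ℝ) {r h : ℝ} (hr : 0 < r) (hh : h = Real.cosh (k * r) / sn k r) :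
    modelA n k r = sphArea n * (h ^ 2 - k ^ 2) ^ (-((n : ℝ) / 2)) := by
  have hs := sn_pos (k := k) hr
  have h1 : h ^ 2 - k ^ 2 = (sn k r ^ 2)⁻¹ := by
    have := sn_sq k r
    subst hh
    field_simp
    linarith
  rw [h1, modelA]
  congr 1
  rw [Real.inv_rpow (by positivity), ← Real.rpow_neg (by positivity), neg_neg,
    ← Real.rpow_natCast (sn k r) 2, ← Real.rpow_mul hs.le]
  have : ((2 : ℕ) : ℝ) * ((n : ℝ) / 2) = (n : ℝ) := by push_cast; ring
  rw [this, Real.rpow_natCast]

theorem tendsto_modelA_atTop (hn : n ≠ 0) {k : ℝ} (hk : 0 ≤ k) :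
    Tendsto (modelA n k) atTop atTop :=
  Tendsto.const_mul_atTop (sphArea_pos n) ((tendsto_pow_atTop hn).comp (tendsto_sn_atTop hk))

theorem tendsto_modelV_atTop (hn : n ≠ 0) {k : ℝ} (hk : 0 ≤ k) :
    Tendsto (modelV n k) atTop atTop := by
  -- for r ≥ 1, V r ≥ V 1 + A 1 (r - 1)
  have key : ∀ r, 1 ≤ r → modelA n k 1 * (r - 1) ≤ modelV n k r := by
    intro r hr
    have hmono : ∀ x ∈ interior (Ici (1 : ℝ)), modelA n k 1 ≤ deriv (modelV n k) x := by
      intro x hx
      rw [interior_Ici] at hx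
      rw [(hasDerivAt_modelV n k x).deriv]
      exact (strictMonoOn_modelA hn k).monotoneOn (mem_Ici.2 zero_le_one)
        (mem_Ici.2 (zero_le_one.trans hx.le)) hx.le
    have := (convex_Ici (1 : ℝ)).mul_sub_le_image_sub_of_le_deriv
      (continuous_modelV n k).continuousOn
      (fun x _ => (hasDerivAt_modelV n k x).differentiableAt.differentiableWithinAt)
      hmono 1 (mem_Ici.2 le_rfl) r (mem_Ici.2 hr) hr
    have h0 := modelV_nonneg (n := n) (k := k) (r := 1) zero_le_one
    linarith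
  have h1 : Tendsto (fun r : ℝ => modelA n k 1 * (r - 1)) atTop atTop :=
    Tendsto.const_mul_atTop (modelA_pos one_pos) (tendsto_atTop_add_const_right _ _ tendsto_id)
  apply tendsto_atTop_mono' atTop _ h1
  filter_upwards [eventually_ge_atTop (1 : ℝ)] with r hr using key r hr

/-! ### inverses and profiles -/

theorem exists_radA (hn : n ≠ 0) {k : ℝ} (hk : 0 ≤ k) {a : ℝ} (ha : 0 ≤ a) :
    ∃ r, 0 ≤ r ∧ modelA n k r = a := by
  have h1 : ∀ᶠ r in atTop, a ≤ modelA n k r := (tendsto_modelA_atTop hn hk).eventually_ge_atTop a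
  obtain ⟨R, hR, hR0⟩ := (h1.and (eventually_ge_atTop (0 : ℝ))).exists
  have := intermediate_value_Icc hR0 (continuous_modelA n k).continuousOn
  rw [modelA_zero hn] at this
  obtain ⟨r, hr, hra⟩ := this ⟨ha, hR⟩
  exact ⟨r, hr.1, hra⟩

theorem exists_radV (hn : n ≠ 0) {k : ℝ} (hk : 0 ≤ k) {v : ℝ} (hv : 0 ≤ v) :
    ∃ r, 0 ≤ r ∧ modelV n k r = v := by
  have h1 : ∀ᶠ r in atTop, v ≤ modelV n k r := (tendsto_modelV_atTop hn hk).eventually_ge_atTop v
  obtain ⟨R, hR, hR0⟩ := (h1.and (eventually_ge_atTop (0 : ℝ))).exists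
  have := intermediate_value_Icc hR0 (continuous_modelV n k).continuousOn
  rw [modelV_zero] at this
  obtain ⟨r, hr, hra⟩ := this ⟨hv, hR⟩
  exact ⟨r, hr.1, hra⟩

open Classical in
/-- radius of the model ball with boundary area `a` (junk `0` for `a < 0` or `n = 0`). -/
noncomputable def radA (n : ℕ) (k a : ℝ) : ℝ :=
  if h : ∃ r, 0 ≤ r ∧ modelA n k r = a then h.choose else 0

open Classical in
/-- radius of the model ball with volume `v` (junk `0` for `v < 0`). -/
noncomputable def radV (n : ℕ) (k v : ℝ) : ℝ :=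
  if h : ∃ r, 0 ≤ r ∧ modelV n k r = v then h.choose else 0

/-- model volume as a function of the boundary area -/
noncomputable def Vk (n : ℕ) (k a : ℝ) : ℝ := modelV n k (radA n k a)

/-- model boundary area as a function of the volume -/
noncomputable def Ak (n : ℕ) (k v : ℝ) : ℝ := modelA n k (radV n k v)

theorem radA_nonneg (n : ℕ) (k a : ℝ) : 0 ≤ radA n k a := by
  unfold radA; split_ifs with h
  · exact h.choose_spec.1
  · exact le_rfl

theorem radV_nonneg (n : ℕ) (k v : ℝ) : 0 ≤ radV n k v := by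
  unfold radV; split_ifs with h
  · exact h.choose_spec.1
  · exact le_rfl

theorem modelA_radA (hn : n ≠ 0) {k : ℝ} (hk : 0 ≤ k) {a : ℝ} (ha : 0 ≤ a) :
    modelA n k (radA n k a) = a := by
  have h := exists_radA (n := n) hn hk ha
  unfold radA; rw [dif_pos h]; exact h.choose_spec.2

theorem modelV_radV (hn : n ≠ 0) {k : ℝ} (hk : 0 ≤ k) {v : ℝ} (hv : 0 ≤ v) :
    modelV n k (radV n k v) = v := by
  have h := exists_radV (n := n) hn hk hv
  unfold radV; rw [dif_pos h]; exact h.choose_spec.2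

theorem radA_modelA (hn : n ≠ 0) {k : ℝ} (hk : 0 ≤ k) {r : ℝ} (hr : 0 ≤ r) :
    radA n k (modelA n k r) = r :=
  (strictMonoOn_modelA hn k).injOn (mem_Ici.2 (radA_nonneg n k _)) (mem_Ici.2 hr)
    (modelA_radA hn hk (modelA_nonneg hr))

theorem radV_modelV (hn : n ≠ 0) {k : ℝ} (hk : 0 ≤ k) {r : ℝ} (hr : 0 ≤ r) :
    radV n k (modelV n k r) = r :=
  (strictMonoOn_modelV n k).injOn (mem_Ici.2 (radV_nonneg n k _)) (mem_Ici.2 hr)
    (modelV_radV hn hk (modelV_nonneg hr))

theorem Vk_nonneg (n : ℕ) (k a : ℝ) : 0 ≤ Vk n k a := modelV_nonneg (radA_nonneg n k a)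

theorem Ak_nonneg (n : ℕ) (k v : ℝ) : 0 ≤ Ak n k v := modelA_nonneg (radV_nonneg n k v)

theorem Ak_modelV (hn : n ≠ 0) {k : ℝ} (hk : 0 ≤ k) {r : ℝ} (hr : 0 ≤ r) :
    Ak n k (modelV n k r) = modelA n k r := by
  rw [Ak, radV_modelV hn hk hr]

theorem Vk_modelA (hn : n ≠ 0) {k : ℝ} (hk : 0 ≤ k) {r : ℝ} (hr : 0 ≤ r) :
    Vk n k (modelA n k r) = modelV n k r := by
  rw [Vk, radA_modelA hn hk hr]

theorem Vk_Ak (hn : n ≠ 0) {k : ℝ} (hk : 0 ≤ k) {v : ℝ} (hv : 0 ≤ v) :
    Vk n k (Ak n k v) = v := by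
  rw [Ak, Vk_modelA hn hk (radV_nonneg n k v), modelV_radV hn hk hv]

theorem Ak_Vk (hn : n ≠ 0) {k : ℝ} (hk : 0 ≤ k) {a : ℝ} (ha : 0 ≤ a) :
    Ak n k (Vk n k a) = a := by
  rw [Vk, Ak_modelV hn hk (radA_nonneg n k a), modelA_radA hn hk ha]

theorem strictMonoOn_radA (hn : n ≠ 0) {k : ℝ} (hk : 0 ≤ k) : StrictMonoOn (radA n k) (Ici 0) := by
  intro a ha b hb hab
  by_contra hcon
  have := (strictMonoOn_modelA hn k).monotoneOn (mem_Ici.2 (radA_nonneg n k b))
    (mem_Ici.2 (radA_nonneg n k a)) (not_lt.1 hcon)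
  rw [modelA_radA hn hk ha, modelA_radA hn hk hb] at this
  linarith

theorem strictMonoOn_radV (hn : n ≠ 0) {k : ℝ} (hk : 0 ≤ k) : StrictMonoOn (radV n k) (Ici 0) := by
  intro a ha b hb hab
  by_contra hcon
  have := (strictMonoOn_modelV n k).monotoneOn (mem_Ici.2 (radV_nonneg n k b))
    (mem_Ici.2 (radV_nonneg n k a)) (not_lt.1 hcon)
  rw [modelV_radV hn hk ha, modelV_radV hn hk hb] at this
  linarith

theorem strictMonoOn_Vk (hn : n ≠ 0) {k : ℝ} (hk : 0 ≤ k) : StrictMonoOn (Vk n k) (Ici 0) :=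
  fun a ha b hb hab => (strictMonoOn_modelV n k) (mem_Ici.2 (radA_nonneg n k a))
    (mem_Ici.2 (radA_nonneg n k b)) (strictMonoOn_radA hn hk ha hb hab)

theorem strictMonoOn_Ak (hn : n ≠ 0) {k : ℝ} (hk : 0 ≤ k) : StrictMonoOn (Ak n k) (Ici 0) :=
  fun a ha b hb hab => (strictMonoOn_modelA hn k) (mem_Ici.2 (radV_nonneg n k a))
    (mem_Ici.2 (radV_nonneg n k b)) (strictMonoOn_radV hn hk ha hb hab)

theorem radA_zero (hn : n ≠ 0) {k : ℝ} (hk : 0 ≤ k) : radA n k 0 = 0 := by
  have := radA_modelA (n := n) hn hk (le_refl (0 : ℝ))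
  rwa [modelA_zero hn] at this

theorem radV_zero (hn : n ≠ 0) {k : ℝ} (hk : 0 ≤ k) : radV n k 0 = 0 := by
  have := radV_modelV (n := n) hn hk (le_refl (0 : ℝ))
  rwa [modelV_zero] at this

theorem Vk_zero (hn : n ≠ 0) {k : ℝ} (hk : 0 ≤ k) : Vk n k 0 = 0 := by
  rw [Vk, radA_zero hn hk, modelV_zero]

theorem Ak_zero (hn : n ≠ 0) {k : ℝ} (hk : 0 ≤ k) : Ak n k 0 = 0 := by
  rw [Ak, radV_zero hn hk, modelA_zero hn]

theorem radV_pos (hn : n ≠ 0) {k : ℝ} (hk : 0 ≤ k) {v : ℝ} (hv : 0 < v) : 0 < radV n k v := by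
  have := strictMonoOn_radV hn hk (mem_Ici.2 le_rfl) (mem_Ici.2 hv.le) hv
  rwa [radV_zero hn hk] at this

theorem radA_pos (hn : n ≠ 0) {k : ℝ} (hk : 0 ≤ k) {a : ℝ} (ha : 0 < a) : 0 < radA n k a := by
  have := strictMonoOn_radA hn hk (mem_Ici.2 le_rfl) (mem_Ici.2 ha.le) ha
  rwa [radA_zero hn hk] at this

/-- a monotone surjective function between half lines is continuous -/
theorem continuousOn_radV (hn : n ≠ 0) {k : ℝ} (hk : 0 ≤ k) : ContinuousOn (radV n k) (Ici 0) := by
  have himg : radV n k '' Ici 0 = Ici 0 := by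
    apply Subset.antisymm
    · rintro _ ⟨v, _, rfl⟩; exact radV_nonneg n k v
    · intro r hr
      exact ⟨modelV n k r, modelV_nonneg hr, radV_modelV hn hk hr⟩
  intro v hv
  rcases eq_or_lt_of_le (show (0 : ℝ) ≤ v from hv) with h0 | h0
  · subst h0
    rw [Metric.continuousWithinAt_iff]
    intro ε hε
    refine ⟨modelV n k ε, modelV_pos hε, ?_⟩
    intro x hx hxd
    rw [radV_zero hn hk, Real.dist_eq, sub_zero, abs_of_nonneg (radV_nonneg n k x)]
    rw [Real.dist_eq, sub_zero, abs_of_nonneg (show (0 : ℝ) ≤ x from hx)] at hxd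
    have := strictMonoOn_radV hn hk hx (mem_Ici.2 (modelV_nonneg hε.le)) hxd
    rwa [radV_modelV hn hk hε.le] at this
  · have hat : ContinuousAt (radV n k) v := by
      apply (strictMonoOn_radV hn hk).continuousAt_of_image_mem_nhds (Ici_mem_nhds h0)
      rw [himg]; exact Ici_mem_nhds (radV_pos hn hk h0)
    exact hat.continuousWithinAt

theorem continuousOn_radA (hn : n ≠ 0) {k : ℝ} (hk : 0 ≤ k) : ContinuousOn (radA n k) (Ici 0) := by
  have himg : radA n k '' Ici 0 = Ici 0 := by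
    apply Subset.antisymm
    · rintro _ ⟨v, _, rfl⟩; exact radA_nonneg n k v
    · intro r hr
      exact ⟨modelA n k r, modelA_nonneg hr, radA_modelA hn hk hr⟩
  intro v hv
  rcases eq_or_lt_of_le (show (0 : ℝ) ≤ v from hv) with h0 | h0
  · subst h0
    rw [Metric.continuousWithinAt_iff]
    intro ε hε
    refine ⟨modelA n k ε, modelA_pos hε, ?_⟩
    intro x hx hxd
    rw [radA_zero hn hk, Real.dist_eq, sub_zero, abs_of_nonneg (radA_nonneg n k x)]
    rw [Real.dist_eq, sub_zero, abs_of_nonneg (show (0 : ℝ) ≤ x from hx)] at hxd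
    have := strictMonoOn_radA hn hk hx (mem_Ici.2 (modelA_nonneg hε.le)) hxd
    rwa [radA_modelA hn hk hε.le] at this
  · have hat : ContinuousAt (radA n k) v := by
      apply (strictMonoOn_radA hn hk).continuousAt_of_image_mem_nhds (Ici_mem_nhds h0)
      rw [himg]; exact Ici_mem_nhds (radA_pos hn hk h0)
    exact hat.continuousWithinAt

theorem continuousOn_Vk (hn : n ≠ 0) {k : ℝ} (hk : 0 ≤ k) : ContinuousOn (Vk n k) (Ici 0) :=
  (continuous_modelV n k).comp_continuousOn (continuousOn_radA hn hk)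

theorem continuousOn_Ak (hn : n ≠ 0) {k : ℝ} (hk : 0 ≤ k) : ContinuousOn (Ak n k) (Ici 0) :=
  (continuous_modelA n k).comp_continuousOn (continuousOn_radV hn hk)

theorem hasDerivAt_radV (hn : n ≠ 0) {k : ℝ} (hk : 0 ≤ k) {v : ℝ} (hv : 0 < v) :
    HasDerivAt (radV n k) (modelA n k (radV n k v))⁻¹ v := by
  have hpos := radV_pos (n := n) hn hk hv
  apply HasDerivAt.of_local_left_inverse
    ((continuousOn_radV hn hk).continuousAt (Ici_mem_nhds hv))
    (hasDerivAt_modelV n k _) (modelA_pos hpos).ne'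
  filter_upwards [Ici_mem_nhds hv] with x hx using modelV_radV hn hk hx

theorem hasDerivAt_radA (hn : n ≠ 0) {k : ℝ} (hk : 0 ≤ k) {a : ℝ} (ha : 0 < a) :
    HasDerivAt (radA n k)
      ((n : ℝ) * (Real.cosh (k * radA n k a) / sn k (radA n k a)) * a)⁻¹ a := by
  have hpos := radA_pos (n := n) hn hk ha
  have h1 := hasDerivAt_modelA n k hpos
  rw [modelA_radA hn hk ha.le] at h1
  apply HasDerivAt.of_local_left_inverse
    ((continuousOn_radA hn hk).continuousAt (Ici_mem_nhds ha)) h1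
  · have := sn_pos (k := k) hpos
    have := Real.cosh_pos (k * radA n k a)
    have : (0 : ℝ) < n := by positivity
    positivity
  · filter_upwards [Ici_mem_nhds ha] with x hx using modelA_radA hn hk hx

/-- `h(v) = ct_k(radV v)`, the mean curvature of the model sphere enclosing volume `v`. -/
noncomputable def hk (n : ℕ) (k v : ℝ) : ℝ := Real.cosh (k * radV n k v) / sn k (radV n k v)

theorem hk_pos (hn : n ≠ 0) {k : ℝ} (hk0 : 0 ≤ k) {v : ℝ} (hv : 0 < v) : 0 < hk n k v :=
  div_pos (Real.cosh_pos _) (sn_pos (radV_pos hn hk0 hv))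

theorem lt_hk (hn : n ≠ 0) {k : ℝ} (hk0 : 0 ≤ k) {v : ℝ} (hv : 0 < v) : k < hk n k v := by
  have hs := sn_pos (k := k) (radV_pos (n := n) hn hk0 hv)
  rw [hk, lt_div_iff₀ hs]
  have h1 := sn_sq k (radV n k v)
  have hc := Real.cosh_pos (k * radV n k v)
  by_contra hcon
  push_neg at hcon
  have : Real.cosh (k * radV n k v) ^ 2 ≤ (k * sn k (radV n k v)) ^ 2 :=
    pow_le_pow_left₀ hc.le hcon 2
  nlinarith

/-- `dA/dV = n h` along the model profile. -/
theorem hasDerivAt_Ak (hn : n ≠ 0) {k : ℝ} (hk0 : 0 ≤ k) {v : ℝ} (hv : 0 < v) :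
    HasDerivAt (Ak n k) ((n : ℝ) * hk n k v) v := by
  have hpos := radV_pos (n := n) hn hk0 hv
  have h := (hasDerivAt_modelA n k hpos).comp v (hasDerivAt_radV hn hk0 hv)
  have hA := (modelA_pos (n := n) (k := k) hpos).ne'
  have e : (n : ℝ) * (Real.cosh (k * radV n k v) / sn k (radV n k v)) *
      modelA n k (radV n k v) * (modelA n k (radV n k v))⁻¹ = (n : ℝ) * hk n k v := by
    rw [mul_assoc, mul_inv_cancel₀ hA, mul_one, hk]
  rw [e] at h
  exact h

/-- `s_n (h² - k²)^{-n/2} = A(v)` for the mean curvature `h = hk v`. -/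
theorem Ak_eq_rpow (n : ℕ) (hn : n ≠ 0) {k : ℝ} (hk0 : 0 ≤ k) {v : ℝ} (hv : 0 < v) :
    Ak n k v = sphArea n * (hk n k v ^ 2 - k ^ 2) ^ (-((n : ℝ) / 2)) :=
  modelA_eq_rpow n k (radV_pos hn hk0 hv) rfl

/-! ### translation to the Prelude -/

theorem unitSphereArea_succ (n : ℕ) : unitSphereArea (n + 1) = sphArea n := by
  unfold unitSphereArea sphArea; push_cast; ring

theorem snk_neg_sq {k : ℝ} (hk : 0 ≤ k) (t : ℝ) : snk (-(k ^ 2)) t = sn k t := by
  unfold snk sn
  by_cases h : k = 0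
  · simp [h]
  · have h2 : -(k ^ 2) ≠ 0 := by simpa using h
    simp only [h, h2, if_false, neg_neg, Real.sqrt_sq hk]

theorem modelArea_succ {k : ℝ} (hk : 0 ≤ k) (n : ℕ) (r : ℝ) :
    modelArea (n + 1) (-(k ^ 2)) r = modelA n k r := by
  unfold modelArea modelA
  rw [unitSphereArea_succ, snk_neg_sq hk, Nat.add_sub_cancel]

theorem modelVolume_succ {k : ℝ} (hk : 0 ≤ k) (n : ℕ) (r : ℝ) :
    modelVolume (n + 1) (-(k ^ 2)) r = modelV n k r := by
  unfold modelVolume modelV
  rw [unitSphereArea_succ, Nat.add_sub_cancel]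
  simp only [snk_neg_sq hk]

/-- flat model: `V(A) = A^{(n+1)/n} / ((n+1) s_n^{1/n})` -/
theorem Vk_zero_curv (hn : n ≠ 0) {a : ℝ} (ha : 0 ≤ a) :
    Vk n 0 a = 1 / (((n : ℝ) + 1) * sphArea n ^ (1 / (n : ℝ))) * a ^ (((n : ℝ) + 1) / n) := by
  have hs := sphArea_pos n
  have hn0 : (n : ℝ) ≠ 0 := Nat.cast_ne_zero.2 hn
  have hn1 : (0 : ℝ) < n := by positivity
  set r := radA n 0 a with hr
  have hr0 : 0 ≤ r := radA_nonneg n 0 a
  have hA : sphArea n * r ^ n = a := by
    have := modelA_radA (n := n) hn (le_refl (0 : ℝ)) ha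
    simpa [modelA, sn] using this
  have hV : Vk n 0 a = sphArea n * (r ^ (n + 1) / (n + 1)) := by
    simp only [Vk, modelV, sn, if_true, ← hr, integral_pow]
    simp
  rw [hV, ← hA, Real.mul_rpow hs.le (by positivity), ← Real.rpow_natCast r n,
    ← Real.rpow_mul hr0]
  have e1 : (n : ℝ) * (((n : ℝ) + 1) / n) = ((n + 1 : ℕ) : ℝ) := by push_cast; field_simp
  have e2 : sphArea n ^ (((n : ℝ) + 1) / n) = sphArea n * sphArea n ^ (1 / (n : ℝ)) := by
    rw [add_div, div_self hn0, Real.rpow_add hs, Real.rpow_one]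
  have hp : 0 < sphArea n ^ (1 / (n : ℝ)) := Real.rpow_pos_of_pos hs _
  rw [e1, e2, Real.rpow_natCast]
  field_simp

end Crest.Agent.R241.EModel
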