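import Crest.Agent.R241.D5a
import Crest.Agent.R241.D2
import Crest.Agent.R241.EModel

/-!
R241 block D5 (helper475): the intrinsic metric space of a Cartan-Hadamard submanifold is `CATk`.
Input: `XData` (metric output of D4) and the Hessian inequality along geodesics (D3).
-/

set_option autoImplicit false
open Set Filter Topology
open scoped ContDiff RealInnerProductSpace
open Crest.GeometryTopology.Submanifold
open Crest.Agent.R241.DDefs Crest.Agent.R241.D2

noncomputable section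
namespace Crest.Agent.R241.D5

variable {n N : ℕ} {κ : ℝ} {S : Set (Euc N)}

/-- Metric output of D4: `X` is `S` with its intrinsic distance. -/
structure XData (G : Geo n N κ S) (X : Type) [MetricSpace X] where
  ι : X → Euc N
  mem : ∀ x, ι x ∈ S
  inj : Function.Injective ι
  surj : ∀ p ∈ S, ∃ x, ι x = p
  dist_Exp : ∀ x y : X, ∀ v ∈ G.T (ι x), Exp G (ι x) v = ι y → dist x y = ‖v‖
  exists_Exp : ∀ x y : X, ∃ v ∈ G.T (ι x), Exp G (ι x) v = ι y

variable {G : Geo n N κ S} {X : Type} [MetricSpace X] (D : XData G X)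

/-- The point of `X` over a point of `S`. -/
def XData.pt (p : Euc N) (hp : p ∈ S) : X := (D.surj p hp).choose

lemma XData.ι_pt (p : Euc N) (hp : p ∈ S) : D.ι (D.pt p hp) = p := (D.surj p hp).choose_spec

/-- initial velocity of the geodesic from `x` to `y` -/
def XData.vel (x y : X) : Euc N := (D.exists_Exp x y).choose

lemma XData.vel_mem (x y : X) : D.vel x y ∈ G.T (D.ι x) := (D.exists_Exp x y).choose_spec.1

lemma XData.Exp_vel (x y : X) : Exp G (D.ι x) (D.vel x y) = D.ι y :=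
  (D.exists_Exp x y).choose_spec.2

lemma XData.norm_vel (x y : X) : ‖D.vel x y‖ = dist x y :=
  (D.dist_Exp x y _ (D.vel_mem x y) (D.Exp_vel x y)).symm

/-- the geodesic from `x` with initial velocity `v`, as a curve in `X` -/
def XData.γ (x : X) (v : Euc N) (hv : v ∈ G.T (D.ι x)) (s : ℝ) : X :=
  D.pt (Exp G (D.ι x) (s • v)) (Exp_mem G (D.mem x) ((G.T (D.ι x)).smul_mem s hv))

lemma XData.ι_γ (x : X) (v : Euc N) (hv : v ∈ G.T (D.ι x)) (s : ℝ) :
    D.ι (D.γ x v hv s) = Exp G (D.ι x) (s • v) := D.ι_pt _ _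

lemma XData.dist_γ (x : X) (v : Euc N) (hv : v ∈ G.T (D.ι x)) (s t : ℝ) :
    dist (D.γ x v hv s) (D.γ x v hv t) = |s - t| * ‖v‖ := by
  set q : Euc N × Euc N := (D.ι x, v) with hq
  have hqT : q ∈ TS G := ⟨D.mem x, hv⟩
  have h1 : D.ι (D.γ x v hv s) = (fl G (q, s)).1 := by
    rw [D.ι_γ, Exp_smul G (D.mem x) hv]
  have h2 : D.ι (D.γ x v hv t) = (fl G (q, t)).1 := by
    rw [D.ι_γ, Exp_smul G (D.mem x) hv]
  have hsT := fl_mem G hqT s
  have h3 : fl G (q, t) = fl G (fl G (q, s), t - s) := by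
    rw [← fl_add' G hqT s (t - s)]; congr 2; ring
  have hv' : (fl G (q, s)).2 ∈ G.T (D.ι (D.γ x v hv s)) := by
    rw [h1]; exact hsT.2
  have h4 : Exp G (D.ι (D.γ x v hv s)) ((t - s) • (fl G (q, s)).2) = D.ι (D.γ x v hv t) := by
    rw [Exp_smul G (D.mem _) hv', h1, h2, h3]
  rw [D.dist_Exp _ _ _ ((G.T _).smul_mem _ hv') h4, norm_smul, norm_fl G hqT s,
    Real.norm_eq_abs, abs_sub_comm]

/-- Hessian comparison along geodesics (output of D3). -/
def HessIneq (D : XData G X) (k : ℝ) : Prop :=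
  ∀ (p x : X) (v : Euc N) (hv : v ∈ G.T (D.ι x)), ∃ f' f'' : ℝ → ℝ, ∀ s ∈ Icc (0 : ℝ) 1,
    HasDerivAt (fun s => zk k (dist p (D.γ x v hv s))) (f' s) s ∧
    HasDerivAt f' (f'' s) s ∧
    ‖v‖ ^ 2 * (1 + k ^ 2 * zk k (dist p (D.γ x v hv s))) ≤ f'' s

lemma zk_zero (r : ℝ) : zk 0 r = r ^ 2 / 2 := by simp [zk]

lemma one_add_zk' (k r : ℝ) : 1 + k ^ 2 * zk k r = Real.cosh (k * r) := by
  by_cases h : k = 0
  · subst h; simp
  · rw [zk, if_neg h]; field_simp; ring

/-- **D5**: the Hessian inequality implies the comparison inequalities. -/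
def catk (D : XData G X) {k : ℝ} (hk : 0 ≤ k) (h0 : HessIneq D 0) (h1 : HessIneq D k) :
    CATk k X where
  geo x y s := D.γ x (D.vel x y) (D.vel_mem x y) s
  geo_zero x y := by
    apply D.inj
    rw [D.ι_γ, zero_smul, Exp_zero G (D.mem x)]
  geo_one x y := by
    apply D.inj
    rw [D.ι_γ, one_smul, D.Exp_vel]
  dist_geo x y s _ t _ := by rw [D.dist_γ, D.norm_vel]
  cat0 p x y s hs := by
    obtain ⟨f', f'', hf⟩ := h0 p x (D.vel x y) (D.vel_mem x y)
    have h2 := comparison_flat (c := dist x y ^ 2) (fun s hs => (hf s hs).1)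
      (fun s hs => (hf s hs).2.1) (fun s hs => by
        have := (hf s hs).2.2
        simpa [D.norm_vel] using this) hs
    simp only [zk_zero] at h2
    have hg0 : D.γ x (D.vel x y) (D.vel_mem x y) 0 = x := by
      apply D.inj
      rw [D.ι_γ, zero_smul, Exp_zero G (D.mem x)]
    have hg1 : D.γ x (D.vel x y) (D.vel_mem x y) 1 = y := by
      apply D.inj
      rw [D.ι_γ, one_smul, D.Exp_vel]
    rw [hg0, hg1] at h2
    linarith
  catk p x y s hs := by
    obtain ⟨f', f'', hf⟩ := h1 p x (D.vel x y) (D.vel_mem x y)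
    have hg0 : D.γ x (D.vel x y) (D.vel_mem x y) 0 = x := by
      apply D.inj
      rw [D.ι_γ, zero_smul, Exp_zero G (D.mem x)]
    have hg1 : D.γ x (D.vel x y) (D.vel_mem x y) 1 = y := by
      apply D.inj
      rw [D.ι_γ, one_smul, D.Exp_vel]
    have h2 := comparison_hyp (a := k * dist x y)
      (F := fun s => 1 + k ^ 2 * zk k (dist p (D.γ x (D.vel x y) (D.vel_mem x y) s)))
      (F' := fun s => k ^ 2 * f' s) (F'' := fun s => k ^ 2 * f'' s)
      (mul_nonneg hk dist_nonneg)
      (fun s hs => ((hf s hs).1.const_mul (k ^ 2)).const_add 1)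
      (fun s hs => (hf s hs).2.1.const_mul (k ^ 2))
      (fun s hs => by
        have h3 := mul_le_mul_of_nonneg_left (hf s hs).2.2 (sq_nonneg k)
        rw [D.norm_vel] at h3
        rw [mul_pow]
        nlinarith [h3]) hs
    simp only [one_add_zk', hg0, hg1] at h2
    exact h2

end Crest.Agent.R241.D5
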