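import Crest.Agent.R241.D3d
import Crest.Agent.R241.D4Arc
import Crest.Agent.R241.D5

/-!
R241, block D3e: the Hessian inequality `HessIneq` (input of D5) for every `0 ≤ k' ≤ k`.
-/

set_option autoImplicit false

open Set Filter Topology
open scoped ContDiff RealInnerProductSpace
open Crest.GeometryTopology.Submanifold
open Crest.Agent.R241.DDefs
open Crest.Agent.R241.D2
open Crest.Agent.R241.D3c
open Crest.Agent.R241.D3d

noncomputable section

namespace Crest.Agent.R241.D3e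

variable {n N : ℕ} {κ : ℝ} {S : Set (Euc N)}

/-- weakening of the curvature bound -/
def mono {κ' : ℝ} (h : κ ≤ κ') (G : Geo n N κ S) : Geo n N κ' S :=
  { G with
    curv := fun x hx v hv w hw => (G.curv x hx v hv w hw).trans (by
      have h1 : 0 ≤ ‖v‖ ^ 2 * ‖w‖ ^ 2 - ⟪v, w⟫ ^ 2 := by
        have h2 := abs_real_inner_le_norm v w
        have h3 : ⟪v, w⟫ ^ 2 ≤ (‖v‖ * ‖w‖) ^ 2 := by
          rw [← sq_abs]; exact pow_le_pow_left₀ (abs_nonneg _) h2 2
        nlinarith
      exact mul_le_mul_of_nonneg_right h h1) }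

lemma Exp_mono {κ' : ℝ} (h : κ ≤ κ') (G : Geo n N κ S) : Exp (mono h G) = Exp G := rfl

/-- `sn k r / r → 1` -/
lemma sn_div_tendsto (k : ℝ) : Tendsto (fun r => sn k r / r) (𝓝[≠] 0) (𝓝 1) := by
  have h1 : HasDerivAt (sn k) 1 0 := by
    have := sn_deriv (k := k) (r := 0)
    simpa using this
  have h2 := h1.tendsto_slope
  have h0 : sn k 0 = 0 := by simp [sn]
  refine h2.congr fun r => ?_
  rw [slope_def_field, h0]; simp

variable {H : Type*} [NormedAddCommGroup H] [InnerProductSpace ℝ H]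

/-- first derivative of `zk k |c|` -/
lemma zk_norm_deriv {k : ℝ} {c : ℝ → H} {c' : H} {s : ℝ} (h : HasDerivAt c c' s) :
    HasDerivAt (fun r => zk k ‖c r‖) (sn k ‖c s‖ * (⟪c s, c'⟫ / ‖c s‖)) s := by
  by_cases h0 : c s = 0
  · have h1 : HasDerivAt (zk k) 0 (‖c s‖) := by
      have := zk_deriv (k := k) (r := ‖c s‖)
      rw [h0, norm_zero] at this ⊢
      simpa [sn] using this
    rw [h0]
    simp only [norm_zero, inner_zero_left, div_zero, mul_zero]
    -- `zk k |c r| = o(|c r|)`, `|c r| = O(r - s)`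
    have h2 : (fun x => zk k x - zk k ‖c s‖) =o[𝓝 ‖c s‖] fun x => x - ‖c s‖ := by
      have := h1.isLittleO
      simpa using this
    have h3 : Tendsto (fun r => ‖c r‖) (𝓝 s) (𝓝 ‖c s‖) := h.continuousAt.norm
    have h4 := h2.comp_tendsto h3
    have h5 : (fun r => ‖c r‖ - ‖c s‖) =O[𝓝 s] fun r => r - s := by
      have h6 : (fun r => c r - c s) =O[𝓝 s] fun r => r - s := h.isBigO_sub
      rw [h0] at h6 ⊢
      simpa using h6.norm_left
    rw [hasDerivAt_iff_isLittleO]
    simpa [Function.comp_def] using h4.trans_isBigO h5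
  · have h2 := h.norm_sq
    have h4 := h2.sqrt (pow_ne_zero 2 (norm_ne_zero_iff.2 h0))
    have h5 : (fun y => √(‖c y‖ ^ 2)) = fun y => ‖c y‖ := by
      ext y; exact Real.sqrt_sq (norm_nonneg _)
    rw [h5] at h4
    have h6 := (zk_deriv (k := k)).comp s h4
    refine h6.congr_deriv ?_
    rw [Real.sqrt_sq (norm_nonneg _)]
    have : ‖c s‖ ≠ 0 := norm_ne_zero_iff.2 h0
    field_simp

/-- second derivative of `zk k |c|` at a zero of `c` -/
lemma zk_norm_deriv2 {k : ℝ} {c c' : ℝ → H} {c'' : H} {s : ℝ} (h : HasDerivAt c (c' s) s)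
    (h' : HasDerivAt c' c'' s) (h0 : c s = 0) :
    HasDerivAt (fun r => sn k ‖c r‖ * (⟪c r, c' r⟫ / ‖c r‖)) (‖c' s‖ ^ 2) s := by
  have h1 : HasDerivAt (fun r => ⟪c r, c' r⟫) (‖c' s‖ ^ 2) s := by
    have := h.inner ℝ h'
    rw [h0] at this
    simpa [real_inner_self_eq_norm_sq] using this
  -- the factor `g r = sn |c r| / |c r|` (`1` at zeros of `c`) is continuous at `s`
  set g : ℝ → ℝ := fun r => if ‖c r‖ = 0 then 1 else sn k ‖c r‖ / ‖c r‖ with hg
  have hgt : Tendsto g (𝓝 s) (𝓝 1) := by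
    have h2 : Tendsto (fun x : ℝ => if x = 0 then (1 : ℝ) else sn k x / x) (𝓝 0) (𝓝 1) := by
      rw [← pure_sup_nhdsNE, tendsto_sup]
      constructor
      · rw [tendsto_pure_left]
        intro u hu
        simpa using mem_of_mem_nhds hu
      · refine (sn_div_tendsto k).congr' ?_
        filter_upwards [self_mem_nhdsWithin] with x hx
        rw [if_neg (by simpa using hx)]
    have h3 : Tendsto (fun r => ‖c r‖) (𝓝 s) (𝓝 0) := by
      have := h.continuousAt.norm
      rw [ContinuousAt, h0, norm_zero] at this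
      exact this
    exact h2.comp h3
  have h4 : (fun r => sn k ‖c r‖ * (⟪c r, c' r⟫ / ‖c r‖)) = fun r => g r * ⟪c r, c' r⟫ := by
    ext r
    simp only [hg]
    split_ifs with h5
    · simp [norm_eq_zero.1 h5]
    · ring
  rw [h4, hasDerivAt_iff_tendsto_slope]
  have h6 := hasDerivAt_iff_tendsto_slope.1 h1
  have h7 := (hgt.mono_left (nhdsWithin_le_nhds (s := {s}ᶜ))).mul h6
  rw [one_mul] at h7
  refine h7.congr' ?_
  filter_upwards with r
  rw [slope_def_field, slope_def_field, h0]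
  simp
  ring

/-- The Hessian inequality for a curve `c` in `T_p` with `Exp p ∘ c` a geodesic. -/
theorem hess_curve {k : ℝ} (hk : 0 ≤ k) (G : Geo n N (-(k ^ 2)) S) {p q v : Euc N} (hp : p ∈ S)
    (hq : q ∈ S) (hv : v ∈ G.T q) {c : ℝ → Euc N} (hc : ContDiff ℝ ∞ c)
    (hcT : ∀ r, c r ∈ G.T p) (hE : ∀ r, Exp G p (c r) = Exp G q (r • v)) :
    ∃ f' f'' : ℝ → ℝ, ∀ s, HasDerivAt (fun s => zk k ‖c s‖) (f' s) s ∧
      HasDerivAt f' (f'' s) s ∧ ‖v‖ ^ 2 * (1 + k ^ 2 * zk k ‖c s‖) ≤ f'' s := by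
  have hqT : (q, v) ∈ TS G := ⟨hq, hv⟩
  have hc1 : ∀ r, HasDerivAt c (deriv c r) r := fun r =>
    ((hc.differentiable (by simp)) r).hasDerivAt
  have hc2 : ∀ r, HasDerivAt (deriv c) (deriv (deriv c) r) r := fun r => by
    have h1 : ContDiff ℝ ∞ (deriv c) := by
      have := (contDiff_infty_iff_deriv (𝕜 := ℝ)).1 hc
      exact this.2
    exact ((h1.differentiable (by simp)) r).hasDerivAt
  have hcT' : ∀ r, deriv c r ∈ G.T p := by
    intro r
    have h1 : ∀ s, (G.T p).starProjection (c s) = c s := fun s =>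
      Submodule.starProjection_eq_self_iff.2 (hcT s)
    have h2 : HasDerivAt (fun s => (G.T p).starProjection (c s))
        ((G.T p).starProjection (deriv c r)) r :=
      (G.T p).starProjection.hasFDerivAt.comp_hasDerivAt r (hc1 r)
    simp only [h1] at h2
    rw [← Submodule.starProjection_eq_self_iff]
    exact h2.unique (hc1 r)
  have hσ : ∀ r, HasDerivAt (fun s => (fl G ((q, v), s)).1) (fl G ((q, v), r)).2 r := fun r =>
    hda_fst (hasDerivAt_fl G (complete G hqT r))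
  have hσ' : ∀ r, HasDerivAt (fun s => (fl G ((q, v), s)).2)
      (fderiv ℝ G.P (fl G ((q, v), r)).1 (fl G ((q, v), r)).2 (fl G ((q, v), r)).2) r := fun r =>
    hda_snd (hasDerivAt_fl G (complete G hqT r))
  have hE' : ∀ r, Exp G p (c r) = (fl G ((q, v), r)).1 := fun r => by
    rw [hE, Exp_smul G hq hv]
  have hd : ∀ r, fderiv ℝ (Exp G p) (c r) (deriv c r) = (fl G ((q, v), r)).2 := by
    intro r
    have h1 := hasDerivAt_sigma G hp (hcT r) (hc1 r)
    simp only [hE'] at h1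
    exact h1.unique (hσ r)
  have hn : ∀ r, G.P (Exp G p (c r))
      (fderiv ℝ G.P (fl G ((q, v), r)).1 (fl G ((q, v), r)).2 (fl G ((q, v), r)).2) = 0 := by
    intro r
    rw [hE']
    have := fl_mem G hqT r
    exact II_normal G this.1 this.2 this.2
  have key : ∀ s, ∃ f2, HasDerivAt (fun r => sn k ‖c r‖ * (⟪c r, deriv c r⟫ / ‖c r‖)) f2 s ∧
      ‖v‖ ^ 2 * (1 + k ^ 2 * zk k ‖c s‖) ≤ f2 := by
    intro s
    by_cases h0 : c s = 0
    · refine ⟨_, zk_norm_deriv2 (hc1 s) (hc2 s) h0, ?_⟩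
      have h1 := hd s
      rw [h0, fderiv_Exp_zero G hp (hcT' s)] at h1
      have h2 := norm_fl G hqT s
      rw [← h1] at h2
      rw [h0, h2, norm_zero]
      simp [zk]
    · obtain ⟨-, f2, h1, h2⟩ := hess_zk hk G (c := c) (c' := deriv c) (s := s) hp
        (Eventually.of_forall hcT) (Eventually.of_forall hcT') (Eventually.of_forall hc1)
        (by simp only [hd]; exact hσ' s) (hn s) h0
      refine ⟨f2, h1, ?_⟩
      rw [hd, norm_fl G hqT s] at h2
      exact h2
  choose f2 hf2 using key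
  exact ⟨_, f2, fun s => ⟨zk_norm_deriv (hc1 s), (hf2 s).1, (hf2 s).2⟩⟩

/-- **D3**: the Hessian inequality of D5. -/
theorem hessIneq {k : ℝ} (hk : 0 ≤ k) (G : Geo n N (-(k ^ 2)) S) (sub : IsSubmanifold n N S)
    (sc : SimplyConnectedSpace S) {X : Type} [MetricSpace X] (D : D5.XData G X) {k' : ℝ}
    (hk' : 0 ≤ k') (hkk : k' ≤ k) : D5.HessIneq D k' := by
  intro p x v hv
  have hle : -(k ^ 2) ≤ -(k' ^ 2) := by
    have := pow_le_pow_left₀ hk' hkk 2
    linarith
  set E := expData hk G sub sc with hEdef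
  obtain ⟨v0, hv0⟩ := exists_frm G (p := ⟨D.ι x, D.mem x⟩) hv
  set P : S := ⟨D.ι p, D.mem p⟩ with hP
  set Q : S := ⟨D.ι x, D.mem x⟩ with hQ
  set c : ℝ → Euc N := fun r => frm G P (E.log P (E.homeo Q (r • v0))) with hcdef
  have hc : ContDiff ℝ ∞ c := by
    have h1 : ContDiff ℝ ∞ (fun r : ℝ => r • v0) := contDiff_id.smul contDiff_const
    exact (frm G P).contDiff.comp ((E.contDiff_log_homeo P Q).comp h1)
  have hcT : ∀ r, c r ∈ G.T (D.ι p) := fun r => frm_mem G P _
  have hEc : ∀ r, Exp G (D.ι p) (c r) = Exp G (D.ι x) (r • v) := by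
    intro r
    have h1 : Exp G (D.ι p) (c r) = E.Φ P (E.log P (E.homeo Q (r • v0))) := rfl
    rw [h1, ← E.homeo_coe, E.homeo_log, E.homeo_coe]
    show Exp G (D.ι x) (frm G Q (r • v0)) = _
    rw [map_smul, hv0]
  have hdist : ∀ r, dist p (D.γ x v hv r) = ‖c r‖ := by
    intro r
    exact D.dist_Exp _ _ _ (hcT r) (by rw [hEc, D.ι_γ])
  obtain ⟨f', f'', hf⟩ := hess_curve hk' (mono hle G) (D.mem p) (D.mem x) hv hc hcT hEc
  refine ⟨f', f'', fun s _ => ?_⟩
  simp only [hdist]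
  exact hf s

end Crest.Agent.R241.D3e
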