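import Crest.Agent.R241.D3b
import Crest.Agent.R241.D4Met

/-!
R241 block D5b (helper475): frames, the exponential maps in orthonormal coordinates (`ExpData`),
smoothness of the logarithm.
-/

set_option autoImplicit false
open Set Filter Topology
open scoped ContDiff RealInnerProductSpace NNReal
open Crest.GeometryTopology.Submanifold
open Crest.Agent.R241.DDefs Crest.Agent.R241.D2 Crest.Agent.R241.D3b Crest.Agent.R241.D4Met

noncomputable section
namespace Crest.Agent.R241.D5b

variable {n N : ℕ} {κ : ℝ} {S : Set (Euc N)}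

/-! ### Frames -/

lemma exists_frame (G : Geo n N κ S) {p : Euc N} (hp : p ∈ S) :
    ∃ L : Euc n →ₗᵢ[ℝ] Euc N, LinearMap.range L.toLinearMap = G.T p := by
  set b := (stdOrthonormalBasis ℝ (G.T p)).reindex (finCongr (G.finrank_T p hp)) with hb
  refine ⟨(G.T p).subtypeₗᵢ.comp b.repr.symm.toLinearIsometry, ?_⟩
  ext v
  constructor
  · rintro ⟨w, rfl⟩
    exact (b.repr.symm w).2
  · intro hv
    exact ⟨b.repr ⟨v, hv⟩, by simp⟩

/-- An orthonormal frame of the tangent space at `p`. -/
def frame (G : Geo n N κ S) (p : S) : Euc n →ₗᵢ[ℝ] Euc N := (exists_frame G p.2).choose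

lemma range_frame (G : Geo n N κ S) (p : S) :
    LinearMap.range (frame G p).toLinearMap = G.T p := (exists_frame G p.2).choose_spec

lemma frame_mem (G : Geo n N κ S) (p : S) (v : Euc n) : frame G p v ∈ G.T (p : Euc N) := by
  rw [← range_frame G p]; exact ⟨v, rfl⟩

lemma exists_frame_eq (G : Geo n N κ S) (p : S) {v : Euc N} (hv : v ∈ G.T (p : Euc N)) :
    ∃ w, frame G p w = v := by
  rw [← range_frame G p] at hv; exact hv

lemma inner_frame (G : Geo n N κ S) (p : S) (v w : Euc n) :
    ⟪frame G p v, frame G p w⟫ = ⟪v, w⟫ := (frame G p).inner_map_map v w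

/-! ### The exponential map in orthonormal coordinates -/

/-- `Φ p v = Exp p (L_p v)`. -/
def Phi (G : Geo n N κ S) (p : S) (v : Euc n) : Euc N := Exp G p (frame G p v)

lemma contDiff_Phi (G : Geo n N κ S) (p : S) : ContDiff ℝ ∞ (Phi G p) := by
  rw [contDiff_iff_contDiffAt]
  intro v
  have h1 := contDiffAt_Exp G p.2 (frame_mem G p v)
  have h2 : ContDiffAt ℝ ∞ (fun v : Euc n => ((p : Euc N), frame G p v)) v :=
    contDiffAt_const.prodMk (frame G p).contDiff.contDiffAt
  exact ContDiffAt.comp (g := fun q : Euc N × Euc N => Exp G q.1 q.2)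
    (f := fun v : Euc n => ((p : Euc N), frame G p v)) v h1 h2

lemma Phi_mem (G : Geo n N κ S) (p : S) (v : Euc n) : Phi G p v ∈ S :=
  Exp_mem G p.2 (frame_mem G p v)

lemma Phi_zero (G : Geo n N κ S) (p : S) : Phi G p 0 = p := by
  rw [Phi, map_zero]; exact Exp_zero G p.2

/-- The derivative of the exponential map is the Jacobi field at time one. -/
lemma fderiv_Phi (G : Geo n N κ S) (p : S) (v w : Euc n) :
    fderiv ℝ (Phi G p) v w = J G p (frame G p v) (frame G p w) 1 := by
  have hv := frame_mem G p v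
  have hw := frame_mem G p w
  have h1 := hasDerivAt_s (q := ((0 : ℝ), (1 : ℝ)))
    ((contDiff_al G p.2 hv hw).differentiable (by simp) ((0 : ℝ), (1 : ℝ)))
  have h2 : HasDerivAt (fun s : ℝ => Phi G p (v + s • w)) (fderiv ℝ (Phi G p) v w) 0 := by
    have h3 : HasDerivAt (fun s : ℝ => v + s • w) w 0 := by
      simpa using ((hasDerivAt_id (0 : ℝ)).smul_const w).const_add v
    have h4 : HasFDerivAt (Phi G p) (fderiv ℝ (Phi G p) v) (v + (0 : ℝ) • w) := by
      simpa using ((contDiff_Phi G p).differentiable (by simp) v).hasFDerivAt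
    exact h4.comp_hasDerivAt (0 : ℝ) h3
  have h5 : (fun s : ℝ => Phi G p (v + s • w)) =
      fun s : ℝ => al G p (frame G p v) (frame G p w) (s, ((0 : ℝ), (1 : ℝ)).2) := by
    ext1 s
    rw [Phi, map_add, map_smul]
    rfl
  rw [h5] at h2
  exact h2.unique h1

/-- Gauss lemma. -/
theorem gauss (G : Geo n N κ S) (p : S) (v w : Euc n) :
    ⟪fderiv ℝ (Phi G p) v v, fderiv ℝ (Phi G p) v w⟫ = ⟪v, w⟫ := by
  have hv := frame_mem G p v
  have hw := frame_mem G p w
  -- the radial derivative is the velocity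
  have h1 : fderiv ℝ (Phi G p) v v = ta G p (frame G p v) (frame G p w) (0, 1) := by
    have h2 : HasDerivAt (fun t : ℝ => Phi G p (t • v)) (fderiv ℝ (Phi G p) v v) 1 := by
      have h3 : HasDerivAt (fun t : ℝ => t • v) v 1 := by
        simpa using (hasDerivAt_id (1 : ℝ)).smul_const v
      have h4 : HasFDerivAt (Phi G p) (fderiv ℝ (Phi G p) v) ((1 : ℝ) • v) := by
        rw [one_smul]
        exact ((contDiff_Phi G p).differentiable (by simp) v).hasFDerivAt
      exact h4.comp_hasDerivAt (1 : ℝ) h3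
    have h5 := hasDerivAt_al G p.2 hv hw 0 1
    have h6 : (fun t : ℝ => Phi G p (t • v)) =
        fun t : ℝ => al G p (frame G p v) (frame G p w) (0, t) := by
      ext1 t
      rw [Phi, map_smul, Exp_smul G p.2 hv]
      simp [al]
    rw [h6] at h2
    exact h2.unique h5
  rw [h1, fderiv_Phi, real_inner_comm, inner_J_ta G p.2 hv hw, one_mul, inner_frame]

theorem norm_le_fderiv {k : ℝ} (hk : 0 ≤ k) (G : Geo n N (-(k ^ 2)) S) (p : S) (v w : Euc n) :
    ‖w‖ ≤ ‖fderiv ℝ (Phi G p) v w‖ := by
  have hv := frame_mem G p v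
  have hw := frame_mem G p w
  have h1 := (jdata hk G p.2 hv hw).le_norm (t := 1) (by
    have e1 : J' G p (frame G p v) (frame G p w) 0 = frame G p w := J'_zero G p.2 hv hw
    have e2 : ta G p (frame G p v) (frame G p w) (0, 0) = frame G p v := by
      have := ta_zero G (p := p) (v := frame G p v) (w := frame G p w) 0
      simpa using this
    rw [e1]
    simp only [e2]
    rw [real_inner_comm]) one_pos
  rw [one_mul, J'_zero G p.2 hv hw, LinearIsometry.norm_map] at h1
  rw [fderiv_Phi]
  exact h1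

lemma norm_radial (G : Geo n N κ S) (p : S) (v : Euc n) (t : ℝ) :
    ‖fderiv ℝ (Phi G p) (t • v) v‖ = ‖v‖ := by
  have hv := frame_mem G p v
  have h2 : HasDerivAt (fun s : ℝ => Phi G p (s • v)) (fderiv ℝ (Phi G p) (t • v) v) t := by
    have h3 : HasDerivAt (fun s : ℝ => s • v) v t := by
      simpa using (hasDerivAt_id t).smul_const v
    have h4 : HasFDerivAt (Phi G p) (fderiv ℝ (Phi G p) (t • v)) (t • v) :=
      ((contDiff_Phi G p).differentiable (by simp) _).hasFDerivAt
    exact h4.comp_hasDerivAt t h3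
  have h5 : HasDerivAt (fun s => (fl G (((p : Euc N), frame G p v), s)).1)
      (fl G (((p : Euc N), frame G p v), t)).2 t :=
    hda_fst (hasDerivAt_fl G (complete G (q := ((p : Euc N), frame G p v)) ⟨p.2, hv⟩ t))
  have h6 : (fun s : ℝ => Phi G p (s • v)) =
      fun s => (fl G (((p : Euc N), frame G p v), s)).1 := by
    ext1 s
    rw [Phi, map_smul, Exp_smul G p.2 hv]
  rw [h6] at h2
  rw [h2.unique h5, norm_fl G (q := ((p : Euc N), frame G p v)) ⟨p.2, hv⟩ t]
  exact LinearIsometry.norm_map _ _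

/-- The exponential data of a simply connected nonpositively curved closed submanifold. -/
def expData {k : ℝ} (hk : 0 ≤ k) (G : Geo n N (-(k ^ 2)) S) (hS : IsSubmanifold n N S)
    (hsc : SimplyConnectedSpace S) : ExpData n N S where
  sub := hS
  sc := hsc
  Φ := Phi G
  contDiff := contDiff_Phi G
  mem := Phi_mem G
  zero := Phi_zero G
  expand := norm_le_fderiv hk G
  radial p v t _ := (norm_radial G p v t).le

/-! ### Smoothness of the logarithm -/

lemma exists_leftInv {E F : Type*} [NormedAddCommGroup E] [NormedSpace ℝ E]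
    [NormedAddCommGroup F] [NormedSpace ℝ F] [FiniteDimensional ℝ E] [FiniteDimensional ℝ F]
    (L : E →L[ℝ] F) (hL : Function.Injective L) :
    ∃ A : F →L[ℝ] E, ∀ w, A (L w) = w := by
  obtain ⟨g, hg⟩ := (L : E →ₗ[ℝ] F).exists_leftInverse_of_injective
    (LinearMap.ker_eq_bot.mpr hL)
  refine ⟨LinearMap.toContinuousLinearMap g, fun w => ?_⟩
  have := LinearMap.congr_fun hg w
  simpa using this

/-- The logarithm of a smooth map into `S` is smooth. -/
theorem contDiffAt_log (D : ExpData n N S) (p : S) {E : Type*} [NormedAddCommGroup E]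
    [NormedSpace ℝ E] {σ : E → S} {z : E} (hσ : ContDiffAt ℝ ∞ (fun s => (σ s : Euc N)) z) :
    ContDiffAt ℝ ∞ (fun s => D.log p (σ s)) z := by
  set v0 := D.log p (σ z) with hv0
  have hinj : Function.Injective (fderiv ℝ (D.Φ p) v0) := by
    rw [injective_iff_map_eq_zero]
    intro w hw
    have := D.expand p v0 w
    rw [hw, norm_zero] at this
    exact norm_le_zero_iff.mp this
  obtain ⟨A, hA⟩ := exists_leftInv _ hinj
  set H : Euc n → Euc n := fun v => A (D.Φ p v) with hH
  have hHs : ContDiff ℝ ∞ H := A.contDiff.comp (D.contDiff p)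
  have hHd : HasFDerivAt H (ContinuousLinearMap.id ℝ (Euc n)) v0 := by
    have h1 := A.hasFDerivAt.comp v0
      (((D.contDiff p).differentiable (by simp) v0).hasFDerivAt)
    have h2 : A.comp (fderiv ℝ (D.Φ p) v0) = ContinuousLinearMap.id ℝ (Euc n) := by
      ext1 w; exact hA w
    rw [h2] at h1
    exact h1
  have hHd' : HasFDerivAt H ((ContinuousLinearEquiv.refl ℝ (Euc n) : Euc n ≃L[ℝ] Euc n) :
      Euc n →L[ℝ] Euc n) v0 := hHd
  set e := hHs.contDiffAt.toOpenPartialHomeomorph H hHd' (by simp) with he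
  have hecoe : (e : Euc n → Euc n) = H :=
    hHs.contDiffAt.toOpenPartialHomeomorph_coe hHd' (by simp)
  have hsrc : v0 ∈ e.source :=
    hHs.contDiffAt.mem_toOpenPartialHomeomorph_source hHd' (by simp)
  -- continuity of the logarithm
  have hσc : ContinuousAt σ z := by
    have h1 : ContinuousAt (fun s => (σ s : Euc N)) z := hσ.continuousAt
    exact (Topology.IsInducing.subtypeVal.continuousAt_iff).mpr h1
  have hlogc : ContinuousAt (fun s => D.log p (σ s)) z :=
    ((D.homeo p).symm.continuous.continuousAt).comp hσc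
  have hev : ∀ᶠ s in 𝓝 z, D.log p (σ s) ∈ e.source :=
    hlogc.preimage_mem_nhds (e.open_source.mem_nhds hsrc)
  have heq : (fun s => D.log p (σ s)) =ᶠ[𝓝 z] fun s => e.symm (A (σ s : Euc N)) := by
    filter_upwards [hev] with s hs
    have h1 := e.left_inv hs
    rw [hecoe] at h1
    have h2 : H (D.log p (σ s)) = A (σ s : Euc N) := by
      simp only [hH]
      rw [← D.homeo_coe, D.homeo_log]
    rw [h2] at h1
    exact h1.symm
  have htgt : A (σ z : Euc N) ∈ e.target := by
    have h1 := e.map_source hsrc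
    rw [hecoe] at h1
    have h2 : H v0 = A (σ z : Euc N) := by
      simp only [hH]
      rw [← D.homeo_coe, D.homeo_log]
    rwa [h2] at h1
  have hesymm : e.symm (A (σ z : Euc N)) = v0 := heq.self_of_nhds.symm
  have hes : ContDiffAt ℝ ∞ e.symm (A (σ z : Euc N)) := by
    refine e.contDiffAt_symm (f₀' := ContinuousLinearEquiv.refl ℝ (Euc n)) htgt ?_ ?_
    · rw [hesymm, hecoe]; exact hHd'
    · rw [hesymm, hecoe]; exact hHs.contDiffAt
  have h3 : ContDiffAt ℝ ∞ (fun s => A (σ s : Euc N)) z := A.contDiff.contDiffAt.comp z hσ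
  exact (ContDiffAt.comp z hes h3).congr_of_eventuallyEq heq

end Crest.Agent.R241.D5b
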