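import Crest.Agent.R241.D5
import Crest.Agent.R241.D5b
import Crest.Agent.R241.Targets

/-!
R241 block D5c (helper475): the Cartan-Hadamard model `CHModel`, from the Hessian inequality.
-/

set_option autoImplicit false
open Set Filter Topology
open scoped ContDiff RealInnerProductSpace NNReal
open Crest.GeometryTopology.Submanifold
open Crest.Agent.R241.DDefs Crest.Agent.R241.D2 Crest.Agent.R241.D4Met Crest.Agent.R241.D5b

noncomputable section
namespace Crest.Agent.R241.D5c

variable {n N : ℕ} {S : Set (Euc N)}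

section
variable {k : ℝ} (hk : 0 ≤ k) (G : Geo n N (-(k ^ 2)) S) (hS : IsSubmanifold n N S)
  (hsc : SimplyConnectedSpace S)

/-- The intrinsic metric space. -/
abbrev XX : Type := XS (expData hk G hS hsc)

/-- shorthand for the exponential data -/
abbrev ED : ExpData n N S := expData hk G hS hsc

/-- the inclusion -/
def inc (x : XX hk G hS hsc) : Euc N := (XS.pt (ED hk G hS hsc) x : S)

lemma inc_mem (x : XX hk G hS hsc) : inc hk G hS hsc x ∈ S := (XS.pt (ED hk G hS hsc) x : S).2

lemma inc_inj : Function.Injective (inc hk G hS hsc) := fun _ _ h => Subtype.ext h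

/-- the metric data of D4 -/
def xdata : D5.XData G (XX hk G hS hsc) where
  ι := inc hk G hS hsc
  mem := inc_mem hk G hS hsc
  inj := inc_inj hk G hS hsc
  surj p hp := ⟨XS.of _ ⟨p, hp⟩, rfl⟩
  dist_Exp x y v hv h := by
    obtain ⟨w, rfl⟩ := exists_frame_eq G (XS.pt _ x) hv
    rw [XS.dist_def]
    have h1 : (ED hk G hS hsc).homeo (XS.pt _ x) w = XS.pt _ y := by
      apply Subtype.ext
      rw [ExpData.homeo_coe]
      exact h
    rw [← h1, ExpData.log_homeo, LinearIsometry.norm_map]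
  exists_Exp x y := by
    refine ⟨frame G (XS.pt _ x) ((ED hk G hS hsc).log (XS.pt _ x) (XS.pt _ y)),
      frame_mem G _ _, ?_⟩
    have h1 := (ED hk G hS hsc).homeo_log (XS.pt _ x) (XS.pt _ y)
    have h2 := congrArg (fun q : S => (q : Euc N)) h1
    simp only [ExpData.homeo_coe] at h2
    exact h2

/-- the exponential map with values in `X` -/
def ee (p : XX hk G hS hsc) (v : Euc n) : XX hk G hS hsc :=
  XS.of _ ((ED hk G hS hsc).homeo (XS.pt _ p) v)

lemma inc_ee (p : XX hk G hS hsc) (v : Euc n) :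
    inc hk G hS hsc (ee hk G hS hsc p v) = Phi G (XS.pt _ p) v := by
  have := (ED hk G hS hsc).homeo_coe (XS.pt _ p) v
  exact this

lemma dist_ee (p : XX hk G hS hsc) (v : Euc n) : dist p (ee hk G hS hsc p v) = ‖v‖ := by
  rw [XS.dist_def]
  have : XS.pt (ED hk G hS hsc) (ee hk G hS hsc p v) = (ED hk G hS hsc).homeo (XS.pt _ p) v := rfl
  rw [this, ExpData.log_homeo]

lemma ee_bij (p : XX hk G hS hsc) : Function.Bijective (ee hk G hS hsc p) :=
  ((ED hk G hS hsc).homeo (XS.pt _ p)).bijective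

/-- Lipschitz curves. -/
lemma norm_sub_le_dist (p : XX hk G hS hsc) (v w : Euc n) :
    ‖v - w‖ ≤ dist (ee hk G hS hsc p v) (ee hk G hS hsc p w) := by
  set D := ED hk G hS hsc with hD
  set a := D.homeo (XS.pt _ p) w with ha
  set b := D.homeo (XS.pt _ p) v with hb
  obtain ⟨c, hc, h0, h1⟩ := D.exists_curve a b
  have h2 := D.norm_log_sub_le (p := XS.pt _ p) zero_le_one hc
  rw [h0, h1, ha, hb, D.log_homeo, D.log_homeo] at h2
  have h3 : dist (ee hk G hS hsc p v) (ee hk G hS hsc p w) = ‖D.log a b‖ := by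
    rw [dist_comm, XS.dist_def]; rfl
  rw [h3]
  simpa using h2

lemma ee_lip (p : XX hk G hS hsc) (R : ℝ) :
    ∃ L : ℝ≥0, LipschitzOnWith L (ee hk G hS hsc p) (Metric.closedBall 0 R) := by
  set D := ED hk G hS hsc with hD
  have hcont : Continuous (fun v => ‖fderiv ℝ (Phi G (XS.pt D p)) v‖) :=
    ((contDiff_Phi G (XS.pt D p)).continuous_fderiv (by simp)).norm
  obtain ⟨C, hC⟩ := (isCompact_closedBall (0 : Euc n) R).bddAbove_image hcont.continuousOn
  have hC' : ∀ v ∈ Metric.closedBall (0 : Euc n) R,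
      ‖fderiv ℝ (Phi G (XS.pt D p)) v‖ ≤ max C 0 := fun v hv =>
    (hC (mem_image_of_mem _ hv)).trans (le_max_left _ _)
  refine ⟨⟨max C 0, le_max_right _ _⟩, LipschitzOnWith.of_dist_le_mul fun v hv w hw => ?_⟩
  -- the segment from `w` to `v`
  have hseg : ∀ t ∈ Icc (0 : ℝ) 1, w + t • (v - w) ∈ Metric.closedBall (0 : Euc n) R :=
    fun t ht => (convex_closedBall (0 : Euc n) R).add_smul_sub_mem hw hv ht
  have hK : 0 ≤ max C 0 * ‖v - w‖ := by positivity
  have h3 : LipschitzOnWith ⟨max C 0 * ‖v - w‖, hK⟩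
      (fun t : ℝ => D.homeo (XS.pt D p) (w + t • (v - w))) (Icc 0 1) := by
    refine LipschitzOnWith.of_dist_le_mul fun s hs t ht => ?_
    rw [Subtype.dist_eq, D.homeo_coe, D.homeo_coe]
    have h4 : ∀ r ∈ Icc (0 : ℝ) 1, HasDerivWithinAt (fun t : ℝ => Phi G (XS.pt D p) (w + t • (v - w)))
        (fderiv ℝ (Phi G (XS.pt D p)) (w + r • (v - w)) (v - w)) (Icc 0 1) r := by
      intro r _
      have hd : HasFDerivAt (Phi G (XS.pt D p)) (fderiv ℝ (Phi G (XS.pt D p)) (w + r • (v - w)))
          (w + r • (v - w)) :=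
        ((contDiff_Phi G (XS.pt D p)).differentiable (by simp) _).hasFDerivAt
      have hl : HasDerivAt (fun t : ℝ => w + t • (v - w)) (v - w) r := by
        simpa using ((hasDerivAt_id r).smul_const (v - w)).const_add w
      exact (hd.comp_hasDerivAt r hl).hasDerivWithinAt
    have h5 : ∀ t ∈ Icc (0 : ℝ) 1,
        ‖fderiv ℝ (Phi G (XS.pt D p)) (w + t • (v - w)) (v - w)‖ ≤ max C 0 * ‖v - w‖ := by
      intro t ht
      exact (ContinuousLinearMap.le_opNorm _ _).trans (by gcongr; exact hC' _ (hseg t ht))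
    have := (convex_Icc (0 : ℝ) 1).norm_image_sub_le_of_norm_hasDerivWithin_le h4 h5 ht hs
    rw [dist_eq_norm, dist_eq_norm]
    exact this
  have h6 := (XS.lipschitz_of_lipschitz D h3).dist_le_mul 1 (by simp) 0 (by simp)
  simp only [one_smul, add_sub_cancel, zero_smul, add_zero] at h6
  refine h6.trans (le_of_eq ?_)
  rw [Real.dist_eq, sub_zero, abs_one, mul_one, dist_eq_norm]
  rfl

/-- **The Cartan-Hadamard model**, from the Hessian inequality. -/
def chModel (h0 : D5.HessIneq (xdata hk G hS hsc) 0) (h1 : D5.HessIneq (xdata hk G hS hsc) k) :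
    CHModel n N k S (XX hk G hS hsc) where
  cat := D5.catk (xdata hk G hS hsc) hk h0 h1
  ι := inc hk G hS hsc
  ι_inj := inc_inj hk G hS hsc
  ι_range := by
    ext p
    constructor
    · rintro ⟨x, rfl⟩; exact inc_mem hk G hS hsc x
    · intro hp; exact ⟨XS.of _ ⟨p, hp⟩, rfl⟩
  ι_le x y := XS.ambient_dist_le _ x y
  ι_loc x ε hε := by
    have h2 := XS.eventually_dist_le (ED hk G hS hsc) (XS.pt _ x) (C := 1 + ε) (by linarith)
    rw [nhds_prod_eq] at h2
    obtain ⟨δ, hδ, hδ'⟩ := Metric.eventually_nhds_iff.mp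
      ((nhds_prod_eq (X := S) (Y := S) (x := XS.pt _ x) (y := XS.pt _ x)).symm ▸ h2)
    refine ⟨δ, hδ, fun y z hy hz => ?_⟩
    have h3 := @hδ' (XS.pt _ y, XS.pt _ z) (by
      rw [Prod.dist_eq, max_lt_iff]
      exact ⟨(XS.ambient_dist_le _ y x).trans_lt hy, (XS.ambient_dist_le _ z x).trans_lt hz⟩)
    exact h3
  ι_emb := by
    have h2 : Topology.IsEmbedding (fun x : XX hk G hS hsc => XS.homeo (ED hk G hS hsc) x) :=
      (XS.homeo (ED hk G hS hsc)).isEmbedding
    exact Topology.IsEmbedding.subtypeVal.comp h2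
  e := ee hk G hS hsc
  e_bij := ee_bij hk G hS hsc
  e_zero p := by
    apply inc_inj hk G hS hsc
    rw [inc_ee, Phi_zero]; rfl
  e_dist := dist_ee hk G hS hsc
  e_expand := norm_sub_le_dist hk G hS hsc
  e_lip := ee_lip hk G hS hsc
  e_geo p v s _ := by
    apply inc_inj hk G hS hsc
    have h2 := (xdata hk G hS hsc).ι_γ p ((xdata hk G hS hsc).vel p (ee hk G hS hsc p v))
      ((xdata hk G hS hsc).vel_mem p _) s
    refine Eq.trans h2 ?_
    -- identify the initial velocity
    have h3 : (xdata hk G hS hsc).vel p (ee hk G hS hsc p v) = frame G (XS.pt _ p) v := by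
      obtain ⟨w, hw⟩ := exists_frame_eq G (XS.pt (ED hk G hS hsc) p)
        ((xdata hk G hS hsc).vel_mem p (ee hk G hS hsc p v))
      have h4 := (xdata hk G hS hsc).Exp_vel p (ee hk G hS hsc p v)
      rw [← hw] at h4
      have h5 : ee hk G hS hsc p w = ee hk G hS hsc p v := by
        apply inc_inj hk G hS hsc
        rw [inc_ee]
        exact h4
      rw [← hw, (ee_bij hk G hS hsc p).1 h5]
    rw [h3, inc_ee, Phi, map_smul]
    rfl
  smooth p := by
    have : (fun v => inc hk G hS hsc (ee hk G hS hsc p v)) = Phi G (XS.pt _ p) :=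
      funext (inc_ee hk G hS hsc p)
    rw [this]; exact contDiff_Phi G _
  fderiv_ge p v w := by
    have : (fun v => inc hk G hS hsc (ee hk G hS hsc p v)) = Phi G (XS.pt _ p) :=
      funext (inc_ee hk G hS hsc p)
    rw [this]; exact norm_le_fderiv hk G _ v w
  gauss p v w := by
    have : (fun v => inc hk G hS hsc (ee hk G hS hsc p v)) = Phi G (XS.pt _ p) :=
      funext (inc_ee hk G hS hsc p)
    rw [this]; exact gauss G _ v w

end

end Crest.Agent.R241.D5c
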