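import Crest.Agent.R241.D3c
import Crest.Agent.R241.D3Alg
import Crest.Agent.R241.D5c

/-!
R241, block D3e (helper842): the Hessian inequality along every geodesic (`D5.HessIneq`).
-/

set_option autoImplicit false

open Set Filter Topology
open scoped ContDiff RealInnerProductSpace
open Crest.GeometryTopology.Submanifold
open Crest.Agent.R241.DDefs Crest.Agent.R241.D2 Crest.Agent.R241.D3b Crest.Agent.R241.D4Met
open Crest.Agent.R241.D5b

noncomputable section

namespace Crest.Agent.R241.D3e842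

open Crest.Agent.R241

variable {n N : ℕ} {S : Set (Euc N)}

/-- weaken the curvature bound (`κ ≤ κ'`). -/
def weaken {κ κ' : ℝ} (G : Geo n N κ S) (h : κ ≤ κ') : Geo n N κ' S where
  T := G.T
  P := G.P
  isClosed := G.isClosed
  contDiff_P := G.contDiff_P
  P_eq := G.P_eq
  finrank_T := G.finrank_T
  deriv_mem := G.deriv_mem
  exists_surface := G.exists_surface
  exists_geod := G.exists_geod
  curv x hx v hv w hw := by
    refine (G.curv x hx v hv w hw).trans ?_
    apply mul_le_mul_of_nonneg_right h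
    have := abs_real_inner_le_norm v w
    have h2 : ⟪v, w⟫ ^ 2 ≤ (‖v‖ * ‖w‖) ^ 2 := by
      rw [← sq_abs ⟪v, w⟫]
      exact pow_le_pow_left₀ (abs_nonneg _) this 2
    rw [mul_pow] at h2
    linarith

theorem Exp_weaken {κ κ' : ℝ} (G : Geo n N κ S) (h : κ ≤ κ') (p v : Euc N) :
    Exp (weaken G h) p v = Exp G p v := rfl

/-- The Hessian inequality on `S`, for the parameter `j ≤ k`. -/
theorem hess_S {k : ℝ} (hk : 0 ≤ k) (G : Geo n N (-(k ^ 2)) S) (hS : IsSubmanifold n N S)
    (hsc : SimplyConnectedSpace S) {j : ℝ} (hj : 0 ≤ j) (hjk : j ≤ k) (q : S) {x v : Euc N}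
    (hx : x ∈ S) (hv : v ∈ G.T x) (γ : ℝ → S) (hγ : ∀ s, (γ s : Euc N) = Exp G x (s • v)) :
    ∃ f' f'' : ℝ → ℝ, ∀ s : ℝ,
      HasDerivAt (fun s => zk j ‖(expData hk G hS hsc).log q (γ s)‖) (f' s) s ∧
      HasDerivAt f' (f'' s) s ∧
      ‖v‖ ^ 2 * (1 + j ^ 2 * zk j ‖(expData hk G hS hsc).log q (γ s)‖) ≤ f'' s := by
  classical
  set D := expData hk G hS hsc with hD
  set q0 : Euc N × Euc N := (x, v) with hq0
  have hqT : q0 ∈ TS G := ⟨hx, hv⟩
  -- the geodesic
  have hγfl : ∀ s, (γ s : Euc N) = (fl G (q0, s)).1 := fun s => by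
    rw [hγ, Exp_smul G hx hv]
  have hγsm : ContDiff ℝ ∞ (fun s => (γ s : Euc N)) := by
    have h1 : (fun s => (γ s : Euc N)) = fun s => (fl G (q0, s)).1 := funext hγfl
    rw [h1, contDiff_iff_contDiffAt]
    intro s
    have h2 := contDiffAt_fl' G hqT s
    have h3 : ContDiffAt ℝ ∞ (fun s : ℝ => (q0, s)) s := by fun_prop
    exact (ContDiffAt.comp s h2 h3).fst
  set c : ℝ → Euc n := fun s => D.log q (γ s) with hc
  have hcs : ContDiff ℝ ∞ c := contDiff_iff_contDiffAt.2 fun s =>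
    contDiffAt_log D q hγsm.contDiffAt
  have hc1 : ∀ s, HasDerivAt c (deriv c s) s := fun s =>
    (hcs.differentiable (by simp) s).hasDerivAt
  have hc1s : ContDiff ℝ ∞ (deriv c) := (contDiff_infty_iff_deriv.1 hcs).2
  have hc2 : ∀ s, HasDerivAt (deriv c) (deriv (deriv c) s) s := fun s =>
    (hc1s.differentiable (by simp) s).hasDerivAt
  set Φ : Euc n → Euc N := Phi G q with hΦ
  have hGC : D3S.GaussChart Φ := ⟨contDiff_Phi G q, gauss G q⟩
  have hΦc : ∀ s, Φ (c s) = (fl G (q0, s)).1 := fun s => by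
    rw [← hγfl]
    have h1 := D.homeo_log q (γ s)
    have h2 := congrArg (fun y : S => (y : Euc N)) h1
    simp only [ExpData.homeo_coe] at h2
    exact h2
  -- first derivative
  have hσ1 : ∀ s, fderiv ℝ Φ (c s) (deriv c s) = (fl G (q0, s)).2 := fun s => by
    have h1 : HasDerivAt (fun s => Φ (c s)) (fderiv ℝ Φ (c s) (deriv c s)) s :=
      (hGC.diff (c s)).hasFDerivAt.comp_hasDerivAt s (hc1 s)
    have h2 : HasDerivAt (fun s => (fl G (q0, s)).1) (fl G (q0, s)).2 s :=
      hda_fst (hasDerivAt_fl G (complete G hqT s))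
    have h3 : (fun s => Φ (c s)) = fun s => (fl G (q0, s)).1 := funext hΦc
    rw [h3] at h1
    exact h1.unique h2
  -- second derivative
  set σ2 : ℝ → Euc N := fun s => fderiv ℝ G.P (fl G (q0, s)).1 (fl G (q0, s)).2 (fl G (q0, s)).2
    with hσ2
  have hσ2d : ∀ s, HasDerivAt (fun s => (fl G (q0, s)).2) (σ2 s) s := fun s =>
    hda_snd (hasDerivAt_fl G (complete G hqT s))
  have hσ2' : ∀ s, fderiv ℝ (fderiv ℝ Φ) (c s) (deriv c s) (deriv c s)
      + fderiv ℝ Φ (c s) (deriv (deriv c) s) = σ2 s := fun s => by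
    have h1 : HasDerivAt (fun s => fderiv ℝ Φ (c s))
        (fderiv ℝ (fderiv ℝ Φ) (c s) (deriv c s)) s :=
      (hGC.diff2 (c s)).hasFDerivAt.comp_hasDerivAt s (hc1 s)
    have h2 := h1.clm_apply (hc2 s)
    have h3 : (fun s => fderiv ℝ Φ (c s) (deriv c s)) = fun s => (fl G (q0, s)).2 := funext hσ1
    rw [h3] at h2
    exact h2.unique (hσ2d s)
  have hσT : ∀ s, (fl G (q0, s)).1 ∈ S ∧ (fl G (q0, s)).2 ∈ G.T (fl G (q0, s)).1 := fun s =>
    fl_mem G hqT s
  have hσ2n : ∀ s, G.P (fl G (q0, s)).1 (σ2 s) = 0 := fun s =>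
    II_normal G (hσT s).1 (hσT s).2 (hσT s).2
  have hmemT : ∀ s w, fderiv ℝ Φ (c s) w ∈ G.T (fl G (q0, s)).1 := fun s w => by
    have h1 := G.deriv_mem (fun r : ℝ => Φ (c s + r • w)) (fderiv ℝ Φ (c s) w) 0
      (Eventually.of_forall fun r => Phi_mem G q _) (by
        have h3 : HasDerivAt (fun r : ℝ => c s + r • w) w 0 := by
          simpa using ((hasDerivAt_id (0 : ℝ)).smul_const w).const_add (c s)
        have h4 : HasFDerivAt Φ (fderiv ℝ Φ (c s)) (c s + (0 : ℝ) • w) := by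
          simpa using (hGC.diff (c s)).hasFDerivAt
        exact h4.comp_hasDerivAt (0 : ℝ) h3)
    simpa [hΦc] using h1
  have hn : ∀ s w, ⟪fderiv ℝ (fderiv ℝ Φ) (c s) (deriv c s) (deriv c s)
      + fderiv ℝ Φ (c s) (deriv (deriv c) s), fderiv ℝ Φ (c s) w⟫ = 0 := fun s w => by
    rw [hσ2', ← (P_eq_self G (hσT s).1).1 (hmemT s w), ← inner_P_left G (hσT s).1, hσ2n,
      inner_zero_left]
  have hnorm : ∀ s, ‖fderiv ℝ Φ (c s) (deriv c s)‖ = ‖v‖ := fun s => by
    rw [hσ1]; exact norm_fl G hqT s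
  have key := fun s => hGC.hess_curve (k := j) (hc1 s) (hc2 s) (hn s)
  refine ⟨fun s => ⟪D3S.Xf j (c s), deriv c s⟫, fun s => D3S.lieD j Φ (c s) (deriv c s),
    fun s => ⟨(key s).1, (key s).2, ?_⟩⟩
  change ‖v‖ ^ 2 * (1 + j ^ 2 * zk j ‖c s‖) ≤ D3S.lieD j Φ (c s) (deriv c s)
  by_cases h0 : c s = 0
  · have h1 := hnorm s
    rw [h0, hGC.norm_zero] at h1
    rw [h0, hGC.lieD_zero, norm_zero, D3S.zk_zero, h1]
    simp
  · -- use helper636's `hess_zk` for the weakened structure
    have hle : -(k ^ 2) ≤ -(j ^ 2) := by nlinarith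
    set Gj := weaken G hle with hGj
    have hExp : ∀ p v, Exp Gj p v = Exp G p v := fun p v => rfl
    have hmem : ∀ w, frame G q w ∈ Gj.T q := fun w => frame_mem G q w
    have hPhi : ∀ w : Euc n, Phi G q w = Exp Gj q (frame G q w) := fun w => rfl
    have hfd : ∀ u w : Euc n, fderiv ℝ (Exp Gj q) (frame G q u) (frame G q w) =
        fderiv ℝ Φ u w := fun u w => by
      have h1 := ((D3c.contDiffAt_Exp' Gj q.2 (hmem u)).differentiableAt (by simp)).hasFDerivAt
      have h2 := h1.comp u (frame G q).toContinuousLinearMap.hasFDerivAt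
      have h3 : fderiv ℝ Φ u = _ := h2.fderiv
      rw [h3]; rfl
    have hct : ∀ r, HasDerivAt (fun r => frame G q (c r)) (frame G q (deriv c r)) r := fun r =>
      (frame G q).toContinuousLinearMap.hasFDerivAt.comp_hasDerivAt r (hc1 r)
    have h3 : HasDerivAt (fun r => fderiv ℝ (Exp Gj q) (frame G q (c r)) (frame G q (deriv c r)))
        (σ2 s) s := by
      have : (fun r => fderiv ℝ (Exp Gj q) (frame G q (c r)) (frame G q (deriv c r))) =
          fun r => (fl G (q0, r)).2 := by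
        ext1 r
        rw [hfd, hσ1]
      rw [this]
      exact hσ2d s
    have h4 : Gj.P (Exp Gj q (frame G q (c s))) (σ2 s) = 0 := by
      have : Exp Gj q (frame G q (c s)) = (fl G (q0, s)).1 := hΦc s
      rw [this]
      exact hσ2n s
    have h5 : frame G q (c s) ≠ 0 := by
      intro h
      apply h0
      have := (frame G q).norm_map (c s)
      rw [h, norm_zero] at this
      exact norm_eq_zero.1 this.symm
    obtain ⟨-, f2, hf2, hle2⟩ := D3c.hess_zk hj Gj (p := q) q.2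
      (Eventually.of_forall fun r => hmem (c r)) (Eventually.of_forall fun r => hmem (deriv c r))
      (Eventually.of_forall hct) h3 h4 h5
    have hev : (fun r => ⟪D3S.Xf j (c r), deriv c r⟫) =ᶠ[𝓝 s]
        fun r => sn j ‖frame G q (c r)‖ * (⟪frame G q (c r), frame G q (deriv c r)⟫ /
          ‖frame G q (c r)‖) := by
      have hcont : ContinuousAt c s := (hc1 s).continuousAt
      filter_upwards [hcont.eventually_ne h0] with r hr
      have hr' : ‖c r‖ ≠ 0 := norm_ne_zero_iff.2 hr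
      rw [(frame G q).norm_map, (frame G q).inner_map_map, ← D3S.sig_mul_norm, D3S.Xf,
        real_inner_smul_left]
      field_simp
    have h6 := (hf2.congr_of_eventuallyEq hev).unique (key s).2
    rw [← h6]
    have h7 : ‖fderiv ℝ (Exp Gj q) (frame G q (c s)) (frame G q (deriv c s))‖ = ‖v‖ := by
      rw [hfd]; exact hnorm s
    rw [h7, (frame G q).norm_map] at hle2
    exact hle2

/-- **The Hessian inequality**: closes block D3/D5. -/
theorem hessIneq {k : ℝ} (hk : 0 ≤ k) (G : Geo n N (-(k ^ 2)) S) (hS : IsSubmanifold n N S)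
    (hsc : SimplyConnectedSpace S) {j : ℝ} (hj : 0 ≤ j) (hjk : j ≤ k) :
    D5.HessIneq (D5c.xdata hk G hS hsc) j := by
  intro p x v hv
  obtain ⟨f', f'', h⟩ := hess_S hk G hS hsc hj hjk (XS.pt _ p) ((D5c.xdata hk G hS hsc).mem x) hv
    (fun s => XS.pt _ ((D5c.xdata hk G hS hsc).γ x v hv s))
    (fun s => (D5c.xdata hk G hS hsc).ι_γ x v hv s)
  exact ⟨f', f'', fun s _ => h s⟩

end Crest.Agent.R241.D3e842
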