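import Crest.Agent.R241.Defs

/-!
# R241, block E: the interface structure `SChart`

`X` is (the metric space of) an `(n+1)`-dimensional submanifold `S ⊆ ℝ^N` with its intrinsic
distance, `Φ : Euc (n+1) ≃ₜ X` a global chart (the exponential map), `ψ` the same map into `ℝ^N`.
-/

set_option autoImplicit false

open MeasureTheory Filter Topology Set
open scoped ENNReal NNReal RealInnerProductSpace

universe u

namespace Crest.Agent.R241

open Crest.GeometryTopology.MetricCurrent
open Crest.GeometryTopology.Submanifold (Euc)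

/-- global chart of an `(n+1)`-dimensional submanifold of `ℝ^N` with its intrinsic metric -/
structure SChart (n N : ℕ) (X : Type u) [MetricSpace X] where
  Φ : Euc (n + 1) ≃ₜ X
  ψ : Euc (n + 1) → Euc N
  smooth : ContDiff ℝ (⊤ : ℕ∞) ψ
  inj : ∀ x, Function.Injective (fderiv ℝ ψ x)
  chord : ∀ x y, ‖ψ x - ψ y‖ ≤ dist (Φ x) (Φ y)
  arc : ∀ x y, dist (Φ x) (Φ y) ≤
    ∫ t in (0 : ℝ)..1, ‖fderiv ℝ ψ (x + t • (y - x)) (y - x)‖

/-- the current `[[Φ(A)]]` -/
noncomputable def SChart.cur {n N : ℕ} {X : Type u} [MetricSpace X] (c : SChart n N X)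
    (A : Set (Euc (n + 1))) : Functional X (n + 1) :=
  chartAction A c.Φ (fun _ => 1)

end Crest.Agent.R241
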