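import Crest.Agent.R241.D4Arc
import Crest.Agent.R241.EDefs

/-!
# R241, block D4, part 6 (helper816): the `SChart` interface of block E for `X = XS D`
-/

set_option autoImplicit false

open Set Filter Topology MeasureTheory
open scoped ContDiff NNReal
open Crest.GeometryTopology.Submanifold

namespace Crest.Agent.R241.D4Met.XS

variable {n N : ℕ} {S : Set (Euc N)} (D : ExpData (n + 1) N S)

/-- exponential chart at `p` -/
noncomputable def schart (p : S) : SChart n N (XS D) where
  Φ := (D.homeo p).trans (XS.homeo D).symm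
  ψ := D.Φ p
  smooth := D.contDiff p
  inj v := (injective_iff_map_eq_zero _).2 fun w hw => by
    have := D.expand p v w
    rw [hw, norm_zero] at this
    exact norm_le_zero_iff.1 this
  chord x y := by
    have := D.dist_le_norm_log (D.homeo p x) (D.homeo p y)
    rw [Subtype.dist_eq, D.homeo_coe, D.homeo_coe, dist_eq_norm] at this
    exact this
  arc x y := dist_homeo_le_integral D p x y

theorem range_schart_ψ (p : S) : range (schart D p).ψ = S := by
  ext y
  constructor
  · rintro ⟨v, rfl⟩
    exact D.mem p v
  · intro hy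
    exact ⟨D.log p ⟨y, hy⟩, by
      show D.Φ p (D.log p ⟨y, hy⟩) = y
      rw [← D.homeo_coe, D.homeo_log]⟩

theorem schart_ψ_eq (p : S) (v : Euc (n + 1)) :
    ((XS.homeo D ((schart D p).Φ v) : S) : Euc N) = (schart D p).ψ v :=
  D.homeo_coe p v

theorem schart_ψ_zero (p : S) : (schart D p).ψ 0 = p := D.zero p

theorem schart_Φ_zero (p : S) : (schart D p).Φ 0 = of D p := congrArg (of D) (D.homeo_zero p)

theorem dist_schart (p : S) (v : Euc (n + 1)) :
    dist (of D p) ((schart D p).Φ v) = ‖v‖ := by
  show ‖D.log p (D.homeo p v)‖ = ‖v‖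
  rw [D.log_homeo]

end Crest.Agent.R241.D4Met.XS
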