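import Mathlib
import Crest.Agent.R241.D4Chart
import Crest.Agent.R241.D2
import Crest.Agent.R241.D5

/-!
# R241, block D4, part 7 (helper816): from `Geo` and the lower bound of `dExp` to `ExpData`,
`XData`.
-/

set_option autoImplicit false

open Set Filter Topology
open scoped ContDiff NNReal RealInnerProductSpace
open Crest.GeometryTopology.Submanifold
open Crest.Agent.R241.DDefs Crest.Agent.R241.D2 Crest.Agent.R241.D5 Crest.Agent.R241.D4Met

noncomputable section

namespace Crest.Agent.R241.D4Glue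

variable {n N : ℕ} {κ : ℝ} {S : Set (Euc N)} (G : Geo n N κ S)

/-- The lower bound of `dExp` (output of D3). -/
def LowExp : Prop := ∀ p ∈ S, ∀ v ∈ G.T p, ∀ w ∈ G.T p, ‖w‖ ≤ ‖fderiv ℝ (Exp G p) v w‖

/-- linear isometry onto the tangent space -/
def frame (p : S) : Euc n ≃ₗᵢ[ℝ] G.T p :=
  ((stdOrthonormalBasis ℝ (G.T p)).reindex (finCongr (G.finrank_T p p.2))).repr.symm

/-- the exponential map in the frame -/
def Φ (p : S) (v : Euc n) : Euc N := Exp G p (frame G p v : Euc N)

/-- the frame as a continuous linear map into the ambient space -/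
def frameL (p : S) : Euc n →L[ℝ] Euc N :=
  (G.T p).subtypeL.comp (frame G p).toContinuousLinearEquiv.toContinuousLinearMap

lemma frameL_apply (p : S) (v : Euc n) : frameL G p v = (frame G p v : Euc N) := rfl

lemma frameL_mem (p : S) (v : Euc n) : frameL G p v ∈ G.T p := (frame G p v).2

lemma norm_frameL (p : S) (v : Euc n) : ‖frameL G p v‖ = ‖v‖ := by
  rw [frameL_apply, Submodule.norm_coe, (frame G p).norm_map]

lemma contDiffAt_Exp' {p v : Euc N} (hp : p ∈ S) (hv : v ∈ G.T p) :
    ContDiffAt ℝ ∞ (Exp G p) v := by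
  have h1 := contDiffAt_Exp G hp hv
  have h2 : ContDiffAt ℝ ∞ (fun w : Euc N => (p, w)) v := by fun_prop
  exact ContDiffAt.comp (g := fun q : Euc N × Euc N => Exp G q.1 q.2) v h1 h2

lemma contDiff_Φ (p : S) : ContDiff ℝ ∞ (Φ G p) := by
  rw [contDiff_iff_contDiffAt]
  intro v
  have h1 := contDiffAt_Exp' G p.2 (frameL_mem G p v)
  exact ContDiffAt.comp v h1 (frameL G p).contDiff.contDiffAt

lemma fderiv_Φ (p : S) (v w : Euc n) :
    fderiv ℝ (Φ G p) v w = fderiv ℝ (Exp G p) (frameL G p v) (frameL G p w) := by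
  have h1 := (contDiffAt_Exp' G p.2 (frameL_mem G p v)).differentiableAt (by simp)
  have h2 : HasFDerivAt (Φ G p) ((fderiv ℝ (Exp G p) (frameL G p v)).comp (frameL G p)) v :=
    h1.hasFDerivAt.comp v (frameL G p).hasFDerivAt
  rw [h2.fderiv]
  rfl

/-- derivative in the radial direction -/
lemma fderiv_Exp_radial {p v : Euc N} (hp : p ∈ S) (hv : v ∈ G.T p) (t : ℝ) :
    fderiv ℝ (Exp G p) (t • v) v = (fl G ((p, v), t)).2 := by
  have h1 := (contDiffAt_Exp' G hp ((G.T p).smul_mem t hv)).differentiableAt (by simp)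
  have h2 : HasDerivAt (fun s : ℝ => s • v) v t := by
    simpa using (hasDerivAt_id t).smul_const v
  have h3 : HasDerivAt (fun s : ℝ => Exp G p (s • v)) (fderiv ℝ (Exp G p) (t • v) v) t :=
    HasFDerivAt.comp_hasDerivAt (l := Exp G p) (f := fun s : ℝ => s • v) t h1.hasFDerivAt h2
  have h4 : (fun s : ℝ => Exp G p (s • v)) = fun s => (fl G ((p, v), s)).1 := by
    ext1 s
    exact Exp_smul G hp hv s
  rw [h4] at h3
  exact h3.unique (hda_fst (hasDerivAt_fl G (complete G ⟨hp, hv⟩ t)))

/-- `ExpData` from `Geo` and the lower bound -/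
def expData (hS : IsSubmanifold n N S) (hsc : SimplyConnectedSpace S) (hlow : LowExp G) :
    ExpData n N S where
  sub := hS
  sc := hsc
  Φ := Φ G
  contDiff := contDiff_Φ G
  mem p v := Exp_mem G p.2 (frameL_mem G p v)
  zero p := by
    show Exp G p (frameL G p 0) = p
    rw [map_zero, Exp_zero G p.2]
  expand p v w := by
    rw [fderiv_Φ, ← norm_frameL G p w]
    exact hlow p p.2 _ (frameL_mem G p v) _ (frameL_mem G p w)
  radial p v t _ := by
    rw [fderiv_Φ, map_smul, fderiv_Exp_radial G p.2 (frameL_mem G p v)]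
    exact ((norm_fl G (q := (p, frameL G p v)) ⟨p.2, frameL_mem G p v⟩ t).trans
      (norm_frameL G p v)).le

/-- `XData` for `XS D`. -/
def xData (hS : IsSubmanifold n N S) (hsc : SimplyConnectedSpace S) (hlow : LowExp G) :
    XData G (XS (expData G hS hsc hlow)) where
  ι x := (XS.pt _ x : S)
  mem x := (XS.pt _ x : S).2
  inj x y h := Subtype.ext h
  surj p hp := ⟨XS.of _ ⟨p, hp⟩, rfl⟩
  dist_Exp x y v hv h := by
    have h1 : (expData G hS hsc hlow).homeo (XS.pt _ x) ((frame G (XS.pt _ x)).symm ⟨v, hv⟩) =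
        XS.pt _ y := by
      apply Subtype.ext
      rw [ExpData.homeo_coe]
      show Exp G (XS.pt _ x : S)
        ((frame G (XS.pt _ x) ((frame G (XS.pt _ x)).symm ⟨v, hv⟩) : G.T (XS.pt _ x : S)) : Euc N) = _
      rw [LinearIsometryEquiv.apply_symm_apply]
      exact h
    rw [XS.dist_def, ← h1, ExpData.log_homeo, LinearIsometryEquiv.norm_map]
    rfl
  exists_Exp x y := by
    refine ⟨frameL G (XS.pt _ x) ((expData G hS hsc hlow).log (XS.pt _ x) (XS.pt _ y)),
      frameL_mem G (XS.pt _ x) _, ?_⟩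
    show (expData G hS hsc hlow).Φ (XS.pt _ x)
      ((expData G hS hsc hlow).log (XS.pt _ x) (XS.pt _ y)) = _
    rw [← ExpData.homeo_coe, ExpData.homeo_log]

end Crest.Agent.R241.D4Glue
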