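import Mathlib.Topology.Homotopy.Lifting
import Mathlib.Topology.MetricSpace.Basic

/-!
# R241, block D4, part 1 (helper816): covering argument, purely topological

`homeo_of_sections`: a local homeomorphism `p : E → X` from a connected Hausdorff space onto a
simply connected, locally path connected space, which has local sections through all points over
uniform neighbourhoods, is a homeomorphism.
-/

set_option autoImplicit false

open Set Filter Topology unitInterval

namespace Crest.Agent.R241.D4Top

variable {E X : Type*} [TopologicalSpace E] [TopologicalSpace X] {p : E → X}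

/-- Local sections through every point over a uniform neighbourhood. -/
def HasSections (p : E → X) : Prop :=
  ∀ x : X, ∃ U : Set X, IsOpen U ∧ x ∈ U ∧ ∀ e : E, p e ∈ U →
    ∃ τ : X → E, ContinuousOn τ U ∧ (∀ y ∈ U, p (τ y) = y) ∧ τ (p e) = e

theorem exists_lift (hs : HasSections p) (γ : C(I, X)) (e : E) (he : γ 0 = p e) :
    ∃ Γ : C(I, E), p ∘ Γ = γ ∧ Γ 0 = e := by
  choose U U_open mem_U sec using hs
  obtain ⟨t, t_0, t_mono, ⟨n_max, h_max⟩, t_sub⟩ :=
    exists_monotone_Icc_subset_open_cover_unitInterval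
    (fun x ↦ (U_open x).preimage γ.continuous) fun t _ ↦ Set.mem_iUnion.2 ⟨γ t, mem_U _⟩
  suffices ∀ n, ∃ Γ : I → E, ContinuousOn Γ (Set.Icc 0 (t n)) ∧
      (Set.Icc 0 (t n)).EqOn (p ∘ Γ) γ ∧ Γ 0 = e by
    obtain ⟨Γ, cont, eqOn, Γ_0⟩ := this n_max
    rw [h_max _ le_rfl] at cont eqOn
    exact ⟨⟨Γ, continuousOn_univ.mp
      (by convert! cont; rw [eq_comm, Set.eq_univ_iff_forall]; exact fun t ↦ ⟨bot_le, le_top⟩)⟩,
      funext fun _ ↦ eqOn ⟨bot_le, le_top⟩, Γ_0⟩
  intro n
  induction n with
  | zero =>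
    refine ⟨fun _ ↦ e, continuous_const.continuousOn, fun t ht ↦ ?_, rfl⟩
    rw [t_0, Set.Icc_self, Set.mem_singleton_iff] at ht; subst ht; exact he.symm
  | succ n ih =>
    obtain ⟨Γ, cont, eqOn, Γ_0⟩ := ih
    obtain ⟨x, t_sub⟩ := t_sub n
    have pΓtn : p (Γ (t n)) = γ (t n) := eqOn ⟨t_0 ▸ t_mono n.zero_le, le_rfl⟩
    have hmem : p (Γ (t n)) ∈ U x := pΓtn ▸ t_sub ⟨le_rfl, t_mono n.le_succ⟩
    obtain ⟨τ, hτc, hτp, hτe⟩ := sec x (Γ (t n)) hmem
    refine ⟨fun s ↦ if s ≤ t n then Γ s else τ (γ s),
      .if (fun s hs ↦ ?_) (cont.mono fun _ h ↦ ?_) ?_, fun s hs ↦ ?_, ?_⟩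
    · cases frontier_Iic_subset _ hs.2
      rw [← pΓtn, hτe]
    · rw [closure_le_eq continuous_id' continuous_const] at h; exact ⟨h.1.1, h.2⟩
    · apply hτc.comp γ.2.continuousOn
      simp_rw [not_le]; intro s h
      exact t_sub ⟨closure_lt_subset_le continuous_const continuous_subtype_val h.2, h.1.2⟩
    · rw [Function.comp_apply]; split_ifs with h
      exacts [eqOn ⟨hs.1, h⟩, hτp _ (t_sub ⟨le_of_not_ge h, hs.2⟩)]
    · dsimp only; rwa [if_pos (t_0 ▸ t_mono n.zero_le)]

theorem exists_section [SimplyConnectedSpace X] [LocallyPathConnectedSpace X] [T2Space E]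
    (hp : IsLocalHomeomorph p) (hs : HasSections p) (e : E) :
    ∃ τ : C(X, E), τ (p e) = e ∧ ∀ x, p (τ x) = x := by
  have hsep : IsSeparatedMap p := T2Space.isSeparatedMap p
  obtain ⟨F, ⟨hF0, hF⟩, -⟩ := hp.existsUnique_continuousMap_lifts (A := X)
    (ContinuousMap.id X) (p e) e rfl
    (fun γ hγ => by
      obtain ⟨Γ, h1, h2⟩ := exists_lift hs γ e hγ
      exact ⟨Γ, h2, by simpa using h1⟩)
    (by
      intro γ γ' Γ Γ' h0 h0' g0 g0' hl hl' h1
      -- the two paths are homotopic
      let P : Path (p e) (γ 1) := ⟨γ, h0, rfl⟩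
      let P' : Path (p e) (γ 1) := ⟨γ', h0', h1.symm⟩
      obtain ⟨H⟩ : P.Homotopic P' := SimplyConnectedSpace.paths_homotopic P P'
      have hlift : ∀ t : I, ∃ Γt : C(I, E), p ∘ Γt = (H.eval t) ∧ Γt 0 = e := fun t =>
        exists_lift hs (H.eval t) e (by simp)
      choose G hG hG0 using hlift
      have huniq : ∀ (A B : C(I, E)), p ∘ A = p ∘ B → A 0 = e → B 0 = e → A = B := by
        intro A B hAB hA hB
        have := hsep.eq_of_comp_eq hp.isLocallyInjective A.continuous B.continuous hAB 0
          (by rw [hA, hB])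
        exact ContinuousMap.coe_injective this
      have e0 : G 0 = Γ := huniq _ _ (by
        rw [hG]
        have : (p ∘ Γ) = γ := by simpa using hl
        rw [this]
        ext s
        simp [P]) (hG0 0) g0
      have e1 : G 1 = Γ' := huniq _ _ (by
        rw [hG]
        have : (p ∘ Γ') = γ' := by simpa using hl'
        rw [this]
        ext s
        simp [P']) (hG0 1) g0'
      have hm := hp.monodromy_theorem hsep (γ₀ := P.toContinuousMap) (γ₁ := P'.toContinuousMap) H G
        (fun t s => by
          have := congrFun (hG t) s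
          simpa using this) (fun t => by rw [hG0, hG0]) 1
      rw [e0, e1] at hm
      exact hm.symm)
  exact ⟨F, hF0, fun x => by simpa using congrFun hF x⟩

/-- covering argument -/
theorem homeo_of_sections [SimplyConnectedSpace X] [LocallyPathConnectedSpace X] [T2Space E]
    [PreconnectedSpace E] (hp : IsLocalHomeomorph p) (hs : HasSections p) (e : E) :
    ∃ h : E ≃ₜ X, ∀ v, h v = p v := by
  have hsep : IsSeparatedMap p := T2Space.isSeparatedMap p
  obtain ⟨τ, hτ0, hτ⟩ := exists_section hp hs e
  have hinv : (τ ∘ p) = id := by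
    refine hsep.eq_of_comp_eq hp.isLocallyInjective (τ.continuous.comp hp.continuous)
      continuous_id ?_ e hτ0
    ext v
    simp [hτ]
  exact ⟨{ toFun := p
           invFun := τ
           left_inv := fun v => congrFun hinv v
           right_inv := hτ
           continuous_toFun := hp.continuous
           continuous_invFun := τ.continuous }, fun v => rfl⟩

end Crest.Agent.R241.D4Top
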