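import Crest.Agent.R241.Defs

/-!
R241 block D5 (helper475): ODE comparison, from the Hessian inequality along geodesics to the
`CAT(-k²)` inequality.
-/

set_option autoImplicit false
open Set Filter Topology

noncomputable section
namespace Crest.Agent.R241.D5

/-- Comparison for `f'' ≥ c`. -/
theorem comparison_flat {f f' f'' : ℝ → ℝ} {c : ℝ}
    (hf : ∀ s ∈ Icc (0 : ℝ) 1, HasDerivAt f (f' s) s)
    (hf' : ∀ s ∈ Icc (0 : ℝ) 1, HasDerivAt f' (f'' s) s)
    (h : ∀ s ∈ Icc (0 : ℝ) 1, c ≤ f'' s) {s : ℝ} (hs : s ∈ Icc (0 : ℝ) 1) :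
    f s ≤ (1 - s) * f 0 + s * f 1 - s * (1 - s) * c / 2 := by
  set g : ℝ → ℝ := fun s => f s - c * s ^ 2 / 2 with hg
  have hg1 : ∀ s ∈ Icc (0 : ℝ) 1, HasDerivAt g (f' s - c * s) s := by
    intro s hs
    have h1 : HasDerivAt (fun s : ℝ => c * s ^ 2 / 2) (c * s) s := by
      have := ((hasDerivAt_pow 2 s).const_mul c).div_const 2
      exact this.congr_deriv (by norm_num; ring)
    exact (hf s hs).sub h1
  have hg2 : ∀ s ∈ Icc (0 : ℝ) 1, HasDerivAt (fun s => f' s - c * s) (f'' s - c) s := by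
    intro s hs
    have h1 : HasDerivAt (fun s : ℝ => c * s) c s := by
      simpa using (hasDerivAt_id s).const_mul c
    exact (hf' s hs).sub h1
  have hmono : MonotoneOn (fun s => f' s - c * s) (Icc (0 : ℝ) 1) := by
    apply monotoneOn_of_deriv_nonneg (convex_Icc 0 1)
    · exact fun s hs => (hg2 s hs).continuousAt.continuousWithinAt
    · intro s hs
      rw [interior_Icc] at hs
      exact (hg2 s (Ioo_subset_Icc_self hs)).differentiableAt.differentiableWithinAt
    · intro s hs
      rw [interior_Icc] at hs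
      rw [(hg2 s (Ioo_subset_Icc_self hs)).deriv]
      linarith [h s (Ioo_subset_Icc_self hs)]
  have hconv : ConvexOn ℝ (Icc (0 : ℝ) 1) g := by
    apply MonotoneOn.convexOn_of_deriv (convex_Icc 0 1)
    · exact fun s hs => (hg1 s hs).continuousAt.continuousWithinAt
    · intro s hs
      rw [interior_Icc] at hs
      exact (hg1 s (Ioo_subset_Icc_self hs)).differentiableAt.differentiableWithinAt
    · intro a ha b hb hab
      rw [interior_Icc] at ha hb
      rw [(hg1 a (Ioo_subset_Icc_self ha)).deriv, (hg1 b (Ioo_subset_Icc_self hb)).deriv]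
      exact hmono (Ioo_subset_Icc_self ha) (Ioo_subset_Icc_self hb) hab
  have h3 := hconv.2 (left_mem_Icc.mpr zero_le_one : (0 : ℝ) ∈ Icc (0 : ℝ) 1)
    (right_mem_Icc.mpr zero_le_one : (1 : ℝ) ∈ Icc (0 : ℝ) 1)
    (show (0 : ℝ) ≤ 1 - s by linarith [hs.2]) hs.1 (by ring)
  simp only [smul_eq_mul, mul_zero, mul_one, zero_add, hg] at h3
  nlinarith [h3]

/-- Comparison for `F'' ≥ a² F`. -/
theorem comparison_hyp {F F' F'' : ℝ → ℝ} {a : ℝ} (ha : 0 ≤ a)
    (hF : ∀ s ∈ Icc (0 : ℝ) 1, HasDerivAt F (F' s) s)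
    (hF' : ∀ s ∈ Icc (0 : ℝ) 1, HasDerivAt F' (F'' s) s)
    (h : ∀ s ∈ Icc (0 : ℝ) 1, a ^ 2 * F s ≤ F'' s) {s : ℝ} (hs : s ∈ Icc (0 : ℝ) 1) :
    Real.sinh a * F s ≤ Real.sinh ((1 - s) * a) * F 0 + Real.sinh (s * a) * F 1 := by
  rcases ha.eq_or_lt with rfl | ha
  · simp
  -- the difference `G`
  have hsinh : 0 < Real.sinh a := Real.sinh_pos_iff.mpr ha
  set G : ℝ → ℝ := fun s => Real.sinh a * F s
    - (Real.sinh ((1 - s) * a) * F 0 + Real.sinh (s * a) * F 1) with hG
  set G' : ℝ → ℝ := fun s => Real.sinh a * F' s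
    - (-(a * Real.cosh ((1 - s) * a)) * F 0 + a * Real.cosh (s * a) * F 1) with hG'
  set G'' : ℝ → ℝ := fun s => Real.sinh a * F'' s
    - (a ^ 2 * Real.sinh ((1 - s) * a) * F 0 + a ^ 2 * Real.sinh (s * a) * F 1) with hG''
  have hl1 : ∀ s : ℝ, HasDerivAt (fun s : ℝ => (1 - s) * a) (-a) s := by
    intro s
    have := ((hasDerivAt_id s).const_sub 1).mul_const a
    simpa using this
  have hl2 : ∀ s : ℝ, HasDerivAt (fun s : ℝ => s * a) a s := by
    intro s
    simpa using (hasDerivAt_id s).mul_const a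
  have hd1 : ∀ s ∈ Icc (0 : ℝ) 1, HasDerivAt G (G' s) s := by
    intro s hs
    have h1 : HasDerivAt (fun s => Real.sinh ((1 - s) * a) * F 0)
        (-(a * Real.cosh ((1 - s) * a)) * F 0) s := by
      have := ((hl1 s).sinh).mul_const (F 0)
      exact this.congr_deriv (by ring)
    have h2 : HasDerivAt (fun s => Real.sinh (s * a) * F 1) (a * Real.cosh (s * a) * F 1) s := by
      have := ((hl2 s).sinh).mul_const (F 1)
      exact this.congr_deriv (by ring)
    exact ((hF s hs).const_mul (Real.sinh a)).sub (h1.add h2)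
  have hd2 : ∀ s ∈ Icc (0 : ℝ) 1, HasDerivAt G' (G'' s) s := by
    intro s hs
    have h1 : HasDerivAt (fun s => -(a * Real.cosh ((1 - s) * a)) * F 0)
        (a ^ 2 * Real.sinh ((1 - s) * a) * F 0) s := by
      have := (((hl1 s).cosh).const_mul a).neg.mul_const (F 0)
      exact this.congr_deriv (by ring)
    have h2 : HasDerivAt (fun s => a * Real.cosh (s * a) * F 1)
        (a ^ 2 * Real.sinh (s * a) * F 1) s := by
      have := (((hl2 s).cosh).const_mul a).mul_const (F 1)
      exact this.congr_deriv (by ring)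
    exact ((hF' s hs).const_mul (Real.sinh a)).sub (h1.add h2)
  have hGG : ∀ s ∈ Icc (0 : ℝ) 1, a ^ 2 * G s ≤ G'' s := by
    intro s hs
    have := mul_le_mul_of_nonneg_left (h s hs) hsinh.le
    simp only [hG, hG'']
    nlinarith [this]
  have hG0 : G 0 = 0 := by simp [hG]
  have hG1 : G 1 = 0 := by simp [hG]
  -- the Wronskian with `cosh (s a)`
  set w : ℝ → ℝ := fun s => G' s * Real.cosh (s * a) - G s * (a * Real.sinh (s * a)) with hw
  have hwd : ∀ s ∈ Icc (0 : ℝ) 1, HasDerivAt w
      (G'' s * Real.cosh (s * a) - G s * (a * (a * Real.cosh (s * a)))) s := by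
    intro s hs
    have h1 : HasDerivAt (fun s => Real.cosh (s * a)) (Real.sinh (s * a) * a) s := (hl2 s).cosh
    have h2 : HasDerivAt (fun s => a * Real.sinh (s * a)) (a * (Real.cosh (s * a) * a)) s :=
      ((hl2 s).sinh).const_mul a
    have h3 := ((hd2 s hs).mul h1).sub ((hd1 s hs).mul h2)
    exact h3.congr_deriv (by ring)
  have hwmono : MonotoneOn w (Icc (0 : ℝ) 1) := by
    apply monotoneOn_of_deriv_nonneg (convex_Icc 0 1)
    · exact fun s hs => (hwd s hs).continuousAt.continuousWithinAt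
    · intro s hs
      rw [interior_Icc] at hs
      exact (hwd s (Ioo_subset_Icc_self hs)).differentiableAt.differentiableWithinAt
    · intro s hs
      rw [interior_Icc] at hs
      have hs' := Ioo_subset_Icc_self hs
      rw [(hwd s hs').deriv]
      have := mul_le_mul_of_nonneg_right (hGG s hs') (Real.cosh_pos (s * a)).le
      nlinarith [this]
  have hud : ∀ s ∈ Icc (0 : ℝ) 1,
      HasDerivAt (fun s => G s / Real.cosh (s * a)) (w s / Real.cosh (s * a) ^ 2) s := by
    intro s hs
    have h1 : HasDerivAt (fun s => Real.cosh (s * a)) (Real.sinh (s * a) * a) s := (hl2 s).cosh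
    have := (hd1 s hs).div h1 (Real.cosh_pos _).ne'
    exact this.congr_deriv (by simp only [hw]; ring)
  -- conclusion
  have hGle : G s ≤ 0 := by
    by_contra hpos
    push Not at hpos
    have hs0 : 0 < s := by
      rcases hs.1.eq_or_lt with h0 | h0
      · rw [← h0, hG0] at hpos; exact absurd hpos (lt_irrefl _)
      · exact h0
    have hs1 : s < 1 := by
      rcases hs.2.eq_or_lt with h0 | h0
      · rw [h0, hG1] at hpos; exact absurd hpos (lt_irrefl _)
      · exact h0
    have husub : Icc 0 s ⊆ Icc (0 : ℝ) 1 := Icc_subset_Icc le_rfl hs.2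
    have husub' : Icc s 1 ⊆ Icc (0 : ℝ) 1 := Icc_subset_Icc hs.1 le_rfl
    obtain ⟨ξ, hξ, hξe⟩ := exists_hasDerivAt_eq_slope (fun s => G s / Real.cosh (s * a))
      (fun s => w s / Real.cosh (s * a) ^ 2) hs0
      (fun t ht => (hud t (husub ht)).continuousAt.continuousWithinAt)
      (fun t ht => hud t (husub (Ioo_subset_Icc_self ht)))
    have hwξ : 0 < w ξ := by
      have hGs : 0 < G s / Real.cosh (s * a) := div_pos hpos (Real.cosh_pos _)
      have h1 : 0 < w ξ / Real.cosh (ξ * a) ^ 2 := by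
        rw [hξe, hG0, zero_div, sub_zero, sub_zero]; exact div_pos hGs hs0
      have h2 : 0 < Real.cosh (ξ * a) ^ 2 := by positivity
      exact (div_pos_iff_of_pos_right h2).mp h1
    obtain ⟨η, hη, hηe⟩ := exists_hasDerivAt_eq_slope (fun s => G s / Real.cosh (s * a))
      (fun s => w s / Real.cosh (s * a) ^ 2) hs1
      (fun t ht => (hud t (husub' ht)).continuousAt.continuousWithinAt)
      (fun t ht => hud t (husub' (Ioo_subset_Icc_self ht)))
    have hwη : w ξ ≤ w η := hwmono (husub (Ioo_subset_Icc_self hξ))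
      (husub' (Ioo_subset_Icc_self hη)) (hξ.2.le.trans hη.1.le)
    have h1 : 0 < w η / Real.cosh (η * a) ^ 2 := div_pos (hwξ.trans_le hwη) (by positivity)
    rw [hηe, hG1] at h1
    have hGs : 0 < G s / Real.cosh (s * a) := div_pos hpos (Real.cosh_pos _)
    have h2 : (0 / Real.cosh (1 * a) - G s / Real.cosh (s * a)) / (1 - s) ≤ 0 := by
      apply div_nonpos_of_nonpos_of_nonneg
      · rw [zero_div, zero_sub]; linarith
      · linarith
    linarith
  simp only [hG] at hGle
  linarith

end Crest.Agent.R241.D5
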