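import Crest.Agent.R241.D5c
import Crest.Agent.R241.D1c

/-!
R241 block D5d (helper475): the final target of block D, from the Hessian inequality.
-/

set_option autoImplicit false
open Set Filter Topology
open scoped ContDiff RealInnerProductSpace NNReal
open Crest.GeometryTopology.Submanifold
open Crest.Agent.R241.DDefs Crest.Agent.R241.D2 Crest.Agent.R241.D4Met Crest.Agent.R241.D5b
open Crest.Agent.R241.D5c

noncomputable section
namespace Crest.Agent.R241.D5d

/-- The Hessian inequality for all Cartan-Hadamard submanifolds. -/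
def HessTarget : Prop :=
  ∀ (n N : ℕ) (S : Set (Euc N)) (k : ℝ) (hk : 0 ≤ k) (G : Geo n N (-(k ^ 2)) S)
    (hS : IsSubmanifold n N S) (hsc : SimplyConnectedSpace S),
    D5.HessIneq (xdata hk G hS hsc) 0 ∧ D5.HessIneq (xdata hk G hS hsc) k

theorem chTarget_of (h : HessTarget) : CHTarget := by
  intro d N _ k hk S hS hcl hconn hsc hsec
  obtain ⟨G, -⟩ := D.d1 d N (-(k ^ 2)) S hS hcl hsec
  obtain ⟨h0, h1⟩ := h d N S k hk G hS hsc
  obtain ⟨p, hp⟩ := hconn.nonempty
  exact ⟨XX hk G hS hsc, inferInstance, inferInstance, ⟨XS.of _ ⟨p, hp⟩⟩,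
    ⟨chModel hk G hS hsc h0 h1⟩⟩

end Crest.Agent.R241.D5d
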