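import Crest.Agent.R241.D5d
import Crest.Agent.R241.D3e

/-!
R241 block D, end: `CHTarget` (metric model of a Cartan-Hadamard submanifold).
-/

set_option autoImplicit false

namespace Crest.Agent.R241.D5e

theorem hessTarget : D5d.HessTarget := fun _ _ _ _ hk G hS hsc =>
  ⟨D3e.hessIneq hk G hS hsc _ le_rfl hk, D3e.hessIneq hk G hS hsc _ hk le_rfl⟩

theorem chTarget : CHTarget := D5d.chTarget_of hessTarget

end Crest.Agent.R241.D5e
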