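import Crest.Agent.R241.E5c
import Crest.Agent.R241.Targets

/-!
R241, block D6: `RigidTarget` (rigidity in Günther's volume inequality, `k = 0`).
-/

set_option autoImplicit false

open Set Filter Topology MeasureTheory MeasureTheory.Measure Matrix
open scoped ContDiff RealInnerProductSpace ENNReal
open Crest.GeometryTopology.Submanifold

noncomputable section

namespace Crest.Agent.R241.D6

variable {d N : ℕ} {k : ℝ} {S : Set (Euc N)} {X : Type} [MetricSpace X]

theorem image_ball (M : CHModel d N k S X) (p : X) (r : ℝ) :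
    (fun v => M.ι (M.e p v)) '' Metric.ball 0 r = M.ι '' Metric.ball p r := by
  ext y
  constructor
  · rintro ⟨v, hv, rfl⟩
    refine ⟨M.e p v, ?_, rfl⟩
    rw [Metric.mem_ball, dist_comm, M.e_dist]
    simpa using hv
  · rintro ⟨x, hx, rfl⟩
    obtain ⟨v, rfl⟩ := (M.e_bij p).2 x
    refine ⟨v, ?_, rfl⟩
    rw [Metric.mem_ball, dist_comm, M.e_dist] at hx
    simpa using hx

theorem image_closedBall (M : CHModel d N k S X) (p : X) (r : ℝ) :
    (fun v => M.ι (M.e p v)) '' Metric.closedBall 0 r = M.ι '' Metric.closedBall p r := by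
  ext y
  constructor
  · rintro ⟨v, hv, rfl⟩
    refine ⟨M.e p v, ?_, rfl⟩
    rw [Metric.mem_closedBall, dist_comm, M.e_dist]
    simpa using hv
  · rintro ⟨x, hx, rfl⟩
    obtain ⟨v, rfl⟩ := (M.e_bij p).2 x
    refine ⟨v, ?_, rfl⟩
    rw [Metric.mem_closedBall, dist_comm, M.e_dist] at hx
    simpa using hx

theorem injective_chart (M : CHModel d N k S X) (p : X) :
    Function.Injective (fun v => M.ι (M.e p v)) :=
  M.ι_inj.comp (M.e_bij p).1

/-- balls of `X` are relatively open in `S`. -/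
theorem exists_isOpen_image_ball (M : CHModel d N k S X) (p : X) (r : ℝ) :
    ∃ U : Set (Euc N), IsOpen U ∧ M.ι '' Metric.ball p r = S ∩ U := by
  obtain ⟨U, hU, hU'⟩ := M.ι_emb.isInducing.isOpen_iff.1 (Metric.isOpen_ball (x := p) (ε := r))
  refine ⟨U, hU, ?_⟩
  rw [← hU']
  ext y
  constructor
  · rintro ⟨x, hx, rfl⟩
    refine ⟨?_, hx⟩
    have : M.ι x ∈ range M.ι := ⟨x, rfl⟩
    rwa [M.ι_range] at this
  · rintro ⟨hy, hx⟩
    have : y ∈ range M.ι := by rwa [M.ι_range]
    obtain ⟨x, rfl⟩ := this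
    exact ⟨x, hx, rfl⟩

theorem rigidTarget : RigidTarget := by
  intro d N hd S X _ _ M p r hr hvol v hv
  refine E5b.metricMat_eq_one Metric.isOpen_ball
    ((M.smooth p).of_le (by simp)).contDiffOn (injective_chart M p).injOn
    (fun x _ w => M.fderiv_ge p x w) measure_ball_lt_top.ne ?_ v hv
  rw [image_ball M p r, hvol, E5c.volume_ball_eq (by omega) hr]

/-- Final packaging of S0373 from the geometric model. -/
theorem finish (hd : 2 ≤ d) (M : CHModel d N k S X) (p : X) {E : Set (Euc N)} {r : ℝ}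
    (hr : 0 < r) (hvol : μHE[d] E = ENNReal.ofReal (modelVolume d 0 r))
    (hae : μHE[d] (symmDiff E (M.ι '' Metric.ball p r)) = 0) :
    ∃ U : Set (EuclideanSpace ℝ (Fin N)), IsOpen U ∧
      MeasureTheory.Measure.euclideanHausdorffMeasure d (symmDiff E (S ∩ U)) = 0 ∧
      ∃ φ : EuclideanSpace ℝ (Fin d) → EuclideanSpace ℝ (Fin N),
        ContDiffOn ℝ (⊤ : ℕ∞) φ (Metric.ball 0 r) ∧ Set.InjOn φ (Metric.ball 0 r) ∧
        φ '' Metric.ball 0 r = S ∩ U ∧ ∀ x ∈ Metric.ball 0 r, metricMat φ x = 1 := by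
  obtain ⟨U, hU, hUS⟩ := exists_isOpen_image_ball M p r
  refine E5c.finish (by omega) hr hvol (Ψ := fun v => M.ι (M.e p v)) (M.smooth p)
    (injective_chart M p) ⟨U, hU, ?_⟩ (fun x w => M.fderiv_ge p x w) ?_
  · rw [image_ball, hUS]
  · rw [image_ball]; exact hae

end Crest.Agent.R241.D6
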