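import Mathlib
import Crest.Prelude.Def_Submanifold

/-!
R241 block D0: local retractions onto an embedded submanifold of Euclidean space, tangent spaces.
-/

set_option autoImplicit false
open Set Filter Topology
open scoped ContDiff RealInnerProductSpace
open Crest.GeometryTopology.Submanifold

noncomputable section
namespace Crest.Agent.R241.DX0

variable {n N : ℕ}

/-- A continuous linear left inverse of an injective linear map. -/
lemma exists_leftInv (L : Euc n →L[ℝ] Euc N) (hL : Function.Injective L) :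
    ∃ A : Euc N →L[ℝ] Euc n, ∀ w, A (L w) = w := by
  obtain ⟨g, hg⟩ := (L : Euc n →ₗ[ℝ] Euc N).exists_leftInverse_of_injective
    (LinearMap.ker_eq_bot.mpr hL)
  refine ⟨LinearMap.toContinuousLinearMap g, fun w => ?_⟩
  have := LinearMap.congr_fun hg w
  simpa using this

variable {S : Set (Euc N)} {p : Euc N} {f : Euc n → Euc N} {V : Set (Euc n)}

lemma image_subset (hf : IsLocalParam n N S p f V) : MapsTo f V S := by
  obtain ⟨U, -, hU⟩ := hf.image_open V Subset.rfl hf.isOpen
  intro x hx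
  have : f x ∈ f '' V := mem_image_of_mem f hx
  rw [hU] at this
  exact this.1

lemma contDiffAt_param (hf : IsLocalParam n N S p f V) {x : Euc n} (hx : x ∈ V) :
    ContDiffAt ℝ ∞ f x := (hf.contDiffOn.contDiffAt (hf.isOpen.mem_nhds hx))

lemma hasFDerivAt_param (hf : IsLocalParam n N S p f V) {x : Euc n} (hx : x ∈ V) :
    HasFDerivAt f (fderiv ℝ f x) x :=
  ((contDiffAt_param hf hx).differentiableAt (by simp)).hasFDerivAt

/-- Every point of a local parametrisation has an ambient open neighbourhood `U` with a smooth map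
`r : U → V` inverting `f` on `S ∩ U`. -/
theorem exists_local_inverse (hf : IsLocalParam n N S p f V) {x : Euc n} (hx : x ∈ V) :
    ∃ (U : Set (Euc N)) (r : Euc N → Euc n), IsOpen U ∧ f x ∈ U ∧ ContDiffOn ℝ ∞ r U ∧
      MapsTo r U V ∧ r (f x) = x ∧ (∀ y ∈ V, f y ∈ U → r (f y) = y) ∧
      (∀ q ∈ S ∩ U, f (r q) = q) := by
  set L := fderiv ℝ f x with hLdef
  obtain ⟨A, hA⟩ := exists_leftInv L (hf.injective_fderiv x hx)
  set q0 := f x with hq0
  set G : Euc N → Euc N := fun q => f (x + A (q - q0)) + ((q - q0) - L (A (q - q0))) with hG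
  -- the open set where the formula is smooth
  set W1 : Set (Euc N) := {q | x + A (q - q0) ∈ V} with hW1
  have hcont1 : Continuous fun q : Euc N => x + A (q - q0) := by fun_prop
  have hW1o : IsOpen W1 := hf.isOpen.preimage hcont1
  have hq0W1 : q0 ∈ W1 := by simp [hW1, hx]
  have hGs : ContDiffOn ℝ ∞ G W1 := by
    have h1 : ContDiffOn ℝ ∞ (fun q : Euc N => f (x + A (q - q0))) W1 :=
      hf.contDiffOn.comp (by fun_prop) (fun q hq => hq)
    exact h1.add (by fun_prop)
  have hGd : HasFDerivAt G (ContinuousLinearMap.id ℝ (Euc N)) q0 := by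
    have h5 : HasFDerivAt (fun q : Euc N => q - q0) (ContinuousLinearMap.id ℝ (Euc N)) q0 :=
      (hasFDerivAt_id q0).sub_const q0
    have h1 : HasFDerivAt (fun q : Euc N => x + A (q - q0)) A q0 := by
      have h7 := HasFDerivAt.comp (g := A) (f := fun q : Euc N => q - q0) q0
        (A.hasFDerivAt (x := q0 - q0)) h5
      exact h7.const_add x
    have h2 : HasFDerivAt (fun q : Euc N => f (x + A (q - q0))) (L.comp A) q0 := by
      have h3 : HasFDerivAt f L (x + A (q0 - q0)) := by simpa using hasFDerivAt_param hf hx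
      exact h3.comp q0 h1
    have h4 : HasFDerivAt (fun q : Euc N => (q - q0) - L (A (q - q0)))
        (ContinuousLinearMap.id ℝ (Euc N) - L.comp A) q0 := by
      have h6 : HasFDerivAt (fun q : Euc N => (L.comp A) (q - q0)) (L.comp A) q0 :=
        HasFDerivAt.comp (g := L.comp A) (f := fun q : Euc N => q - q0) q0
          ((L.comp A).hasFDerivAt (x := q0 - q0)) h5
      exact h5.sub h6
    have h8 := h2.add h4
    have h9 : L.comp A + (ContinuousLinearMap.id ℝ (Euc N) - L.comp A)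
        = ContinuousLinearMap.id ℝ (Euc N) := by abel
    rw [h9] at h8
    exact h8
  set e0 : Euc N ≃L[ℝ] Euc N := ContinuousLinearEquiv.refl ℝ (Euc N)
  have hG0 : ContDiffAt ℝ ∞ G q0 := hGs.contDiffAt (hW1o.mem_nhds hq0W1)
  have hGd' : HasFDerivAt G (e0 : Euc N →L[ℝ] Euc N) q0 := by
    exact hGd
  set e := hG0.toOpenPartialHomeomorph G hGd' (by simp) with he
  have hecoe : (e : Euc N → Euc N) = G := hG0.toOpenPartialHomeomorph_coe hGd' (by simp)
  have hsrc : q0 ∈ e.source := hG0.mem_toOpenPartialHomeomorph_source hGd' (by simp)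
  -- invertible derivative
  set W2 : Set (Euc N) := {q | q ∈ W1 ∧ fderiv ℝ G q ∈
    range ((↑) : (Euc N ≃L[ℝ] Euc N) → (Euc N →L[ℝ] Euc N))} with hW2
  have hW2o : IsOpen W2 := by
    have hc : ContinuousOn (fderiv ℝ G) W1 :=
      (hGs.continuousOn_fderiv_of_isOpen hW1o (by simp))
    have := hc.isOpen_inter_preimage hW1o (ContinuousLinearEquiv.isOpen (𝕜 := ℝ)
      (E := Euc N) (F := Euc N))
    exact this
  have hq0W2 : q0 ∈ W2 := ⟨hq0W1, e0, by rw [hGd'.fderiv]⟩
  set W0 : Set (Euc N) := e.source ∩ W2 with hW0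
  have hW0o : IsOpen W0 := e.open_source.inter hW2o
  have hq0W0 : q0 ∈ W0 := ⟨hsrc, hq0W2⟩
  have hGq0 : G q0 = q0 := by simp [hG, hq0]
  set U1 : Set (Euc N) := e.target ∩ e.symm ⁻¹' W0 with hU1
  have hU1o : IsOpen U1 := e.isOpen_inter_preimage_symm hW0o
  have hesymm0 : e.symm q0 = q0 := by
    have := e.left_inv hsrc
    rwa [hecoe, hGq0] at this
  have hq0U1 : q0 ∈ U1 := by
    constructor
    · have := e.map_source hsrc
      rwa [hecoe, hGq0] at this
    · change e.symm q0 ∈ W0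
      rw [hesymm0]; exact hq0W0
  set r : Euc N → Euc n := fun q => x + A (e.symm q - q0) with hr
  have hsym : ContDiffOn ℝ ∞ e.symm U1 := by
    intro q hq
    obtain ⟨e', he'⟩ := hq.2.2.2
    refine (e.contDiffAt_symm (f₀' := e') hq.1 ?_ ?_).contDiffWithinAt
    · rw [hecoe, he']
      exact ((hGs.contDiffAt (hW1o.mem_nhds hq.2.2.1)).differentiableAt (by simp)).hasFDerivAt
    · rw [hecoe]
      exact hGs.contDiffAt (hW1o.mem_nhds hq.2.2.1)
  have hrs : ContDiffOn ℝ ∞ r U1 := by
    have h1 : ContDiff ℝ ∞ fun q : Euc N => x + A (q - q0) := by fun_prop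
    exact h1.comp_contDiffOn hsym
  have hrV : MapsTo r U1 V := fun q hq => hq.2.2.1
  -- neighbourhood in the parameter space
  set Y : Set (Euc n) := {y | y ∈ V ∧ q0 + L (y - x) ∈ W0} with hY
  have hYo : IsOpen Y := hf.isOpen.inter (hW0o.preimage (by fun_prop))
  have hxY : x ∈ Y := by
    refine ⟨hx, ?_⟩
    simpa using hq0W0
  have hry : ∀ y ∈ Y, r (f y) = y := by
    rintro y ⟨hyV, hyW⟩
    have h1 : G (q0 + L (y - x)) = f y := by
      simp [hG, hA]
    have h2 : e.symm (f y) = q0 + L (y - x) := by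
      have := e.left_inv hyW.1
      rwa [hecoe, h1] at this
    simp [hr, h2, hA]
  obtain ⟨U2, hU2o, hU2⟩ := hf.image_open Y (fun y hy => hy.1) hYo
  refine ⟨U1 ∩ U2, r, hU1o.inter hU2o, ⟨hq0U1, ?_⟩, hrs.mono inter_subset_left,
    fun q hq => hrV hq.1, hry x hxY, ?_, ?_⟩
  · have : f x ∈ f '' Y := mem_image_of_mem f hxY
    rw [hU2] at this
    exact this.2
  · intro y hy hfy
    have : f y ∈ f '' Y := by
      rw [hU2]; exact ⟨image_subset hf hy, hfy.2⟩
    obtain ⟨y', hy', hyy'⟩ := this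
    have : y = y' := (hf.injOn hy hy'.1 hyy'.symm)
    subst this
    exact hry y hy'
  · rintro q ⟨hqS, hq1, hq2⟩
    have : q ∈ f '' Y := by rw [hU2]; exact ⟨hqS, hq2⟩
    obtain ⟨y, hy, rfl⟩ := this
    rw [hry y hy]

/-- Tangent vectors of the set `S` at `q`: velocities at time `0` of curves lying in `S`. -/
def TV (S : Set (Euc N)) (q : Euc N) : Set (Euc N) :=
  {v | ∃ c : ℝ → Euc N, (∀ᶠ t in 𝓝 0, c t ∈ S) ∧ c 0 = q ∧ HasDerivAt c v 0}

/-- The tangent space of the set `S` at `q`. -/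
def T (S : Set (Euc N)) (q : Euc N) : Submodule ℝ (Euc N) := Submodule.span ℝ (TV S q)

theorem TV_eq (hf : IsLocalParam n N S p f V) {x : Euc n} (hx : x ∈ V) :
    TV S (f x) = range (fderiv ℝ f x) := by
  ext v
  constructor
  · rintro ⟨c, hcS, hc0, hc⟩
    obtain ⟨U, r, hUo, hfxU, hrs, hrV, hrx, -, hfr⟩ := exists_local_inverse hf hx
    have hev : ∀ᶠ t in 𝓝 (0 : ℝ), c t ∈ U :=
      hc.continuousAt.preimage_mem_nhds (by rw [hc0]; exact hUo.mem_nhds hfxU)
    have hr : HasFDerivAt r (fderiv ℝ r (f x)) (f x) :=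
      ((hrs.contDiffAt (hUo.mem_nhds hfxU)).differentiableAt (by simp)).hasFDerivAt
    have h1 : HasDerivAt (fun t => r (c t)) (fderiv ℝ r (f x) v) 0 := by
      rw [← hc0] at hr
      rw [← hc0]
      exact hr.comp_hasDerivAt (0 : ℝ) hc
    have h2 : HasDerivAt (fun t => f (r (c t))) (fderiv ℝ f x (fderiv ℝ r (f x) v)) 0 := by
      have h3 : HasFDerivAt f (fderiv ℝ f x) (r (c 0)) := by
        rw [hc0, hrx]; exact hasFDerivAt_param hf hx
      exact h3.comp_hasDerivAt (0 : ℝ) h1
    have h4 : c =ᶠ[𝓝 0] fun t => f (r (c t)) := by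
      filter_upwards [hcS, hev] with t h1 h2
      exact (hfr _ ⟨h1, h2⟩).symm
    have h5 := h2.congr_of_eventuallyEq h4
    exact ⟨_, h5.unique hc⟩
  · rintro ⟨w, rfl⟩
    refine ⟨fun t => f (x + t • w), ?_, by simp, ?_⟩
    · have hc : Continuous fun t : ℝ => x + t • w := by fun_prop
      have : ∀ᶠ t in 𝓝 (0 : ℝ), x + t • w ∈ V :=
        hc.continuousAt.preimage_mem_nhds (by simpa using hf.isOpen.mem_nhds hx)
      filter_upwards [this] with t ht
      exact image_subset hf ht
    · have h1 : HasDerivAt (fun t : ℝ => x + t • w) w 0 := by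
        simpa using ((hasDerivAt_id (0 : ℝ)).smul_const w).const_add x
      have h3 : HasFDerivAt f (fderiv ℝ f x) (x + (0 : ℝ) • w) := by
        simpa using hasFDerivAt_param hf hx
      exact h3.comp_hasDerivAt (0 : ℝ) h1

theorem T_eq (hf : IsLocalParam n N S p f V) {x : Euc n} (hx : x ∈ V) :
    T S (f x) = LinearMap.range (fderiv ℝ f x : Euc n →ₗ[ℝ] Euc N) := by
  rw [T, TV_eq hf hx]
  have : range (fderiv ℝ f x) = (LinearMap.range (fderiv ℝ f x : Euc n →ₗ[ℝ] Euc N) : Set (Euc N)) := by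
    ext v; simp
  rw [this, Submodule.span_eq]

theorem mem_T_iff (hf : IsLocalParam n N S p f V) {x : Euc n} (hx : x ∈ V) (v : Euc N) :
    v ∈ T S (f x) ↔ v ∈ TV S (f x) := by
  rw [T_eq hf hx, TV_eq hf hx]; simp

theorem mem_T_iff_range (hf : IsLocalParam n N S p f V) {x : Euc n} (hx : x ∈ V) (v : Euc N) :
    v ∈ T S (f x) ↔ ∃ w, fderiv ℝ f x w = v := by
  rw [T_eq hf hx]; simp

/-- The velocity of a curve in `S` is tangent. -/
theorem deriv_mem_T {S : Set (Euc N)} {c : ℝ → Euc N} {t : ℝ} {v : Euc N}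
    (hc : HasDerivAt c v t) (hcS : ∀ᶠ s in 𝓝 t, c s ∈ S) : v ∈ T S (c t) := by
  refine Submodule.subset_span ⟨fun s => c (t + s), ?_, by simp, ?_⟩
  · have : Tendsto (fun s : ℝ => t + s) (𝓝 0) (𝓝 t) := by
      have h : Continuous fun s : ℝ => t + s := by fun_prop
      simpa using h.tendsto 0
    exact this.eventually hcS
  · have h1 : HasDerivAt (fun s : ℝ => t + s) 1 0 := by
      simpa using (hasDerivAt_id (0 : ℝ)).const_add t
    have h2 : HasDerivAt c v (t + 0) := by simpa using hc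
    have := HasDerivAt.scomp (0 : ℝ) h2 h1
    rw [one_smul] at this
    exact this

/-- The derivative of a map into `S` takes values in the tangent space. -/
theorem fderiv_mem_T {E : Type*} [NormedAddCommGroup E] [NormedSpace ℝ E] {S : Set (Euc N)}
    {c : E → Euc N} {z : E} (hc : DifferentiableAt ℝ c z) (hcS : ∀ᶠ s in 𝓝 z, c s ∈ S) (e : E) :
    fderiv ℝ c z e ∈ T S (c z) := by
  have h1 : HasDerivAt (fun t : ℝ => z + t • e) e 0 := by
    simpa using ((hasDerivAt_id (0 : ℝ)).smul_const e).const_add z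
  have h3 : HasFDerivAt c (fderiv ℝ c z) (z + (0 : ℝ) • e) := by
    simpa using hc.hasFDerivAt
  have h4 : HasDerivAt (fun t : ℝ => c (z + t • e)) (fderiv ℝ c z e) 0 :=
    h3.comp_hasDerivAt (0 : ℝ) h1
  have h5 : ∀ᶠ t in 𝓝 (0 : ℝ), c (z + t • e) ∈ S := by
    have h6 : Continuous fun t : ℝ => z + t • e := by fun_prop
    have h7 : Tendsto (fun t : ℝ => z + t • e) (𝓝 0) (𝓝 z) := by
      simpa using h6.tendsto 0
    exact h7.eventually hcS
  simpa using deriv_mem_T h4 h5

end Crest.Agent.R241.DX0
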