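import Crest.Agent.R241.DX0

/-!
R241 block D1: the orthogonal projection onto the tangent space extends smoothly to the ambient
space; second order structure (second fundamental form) in local parametrisations.
-/

set_option autoImplicit false
open Set Filter Topology
open scoped ContDiff RealInnerProductSpace Manifold
open Crest.GeometryTopology.Submanifold

noncomputable section
namespace Crest.Agent.R241.DX1

open DX0

variable {n N : ℕ}

/-- The adjoint as a continuous real-linear map. -/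
def adjL : (Euc n →L[ℝ] Euc N) →L[ℝ] (Euc N →L[ℝ] Euc n) :=
  LinearMap.mkContinuous
    { toFun := fun L => ContinuousLinearMap.adjoint L
      map_add' := fun a b => map_add _ a b
      map_smul' := fun c a => by simp } 1 (fun L => by simp)

@[simp] lemma adjL_apply (L : Euc n →L[ℝ] Euc N) : adjL L = ContinuousLinearMap.adjoint L := rfl

/-- Least squares solution operator `(L* L)⁻¹ L*`. -/
def lsq (L : Euc n →L[ℝ] Euc N) : Euc N →L[ℝ] Euc n :=
  (ContinuousLinearMap.inverse (adjL L ∘L L)) ∘L adjL L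

lemma isInvertible_gram {L : Euc n →L[ℝ] Euc N} (hL : Function.Injective L) :
    ∃ e : Euc n ≃L[ℝ] Euc n, (e : Euc n →L[ℝ] Euc n) = adjL L ∘L L := by
  have h1 : Function.Injective (adjL L ∘L L) :=
    (ContinuousLinearMap.adjoint_comp_self_injective_iff L).mpr hL
  refine ⟨(LinearEquiv.ofInjectiveEndo ((adjL L ∘L L : Euc n →L[ℝ] Euc n) : Euc n →ₗ[ℝ] Euc n)
    h1).toContinuousLinearEquiv, ?_⟩
  ext x
  simp

lemma gram_lsq {L : Euc n →L[ℝ] Euc N} (hL : Function.Injective L) (u : Euc N) :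
    (adjL L) (L (lsq L u)) = adjL L u := by
  obtain ⟨e, he⟩ := isInvertible_gram hL
  have h1 : (adjL L ∘L L) (lsq L u) = adjL L u := by
    rw [lsq, ← he, ContinuousLinearMap.inverse_equiv]
    simp
  exact h1

lemma inner_sub_lsq {L : Euc n →L[ℝ] Euc N} (hL : Function.Injective L) (u : Euc N) (w : Euc n) :
    ⟪u - L (lsq L u), L w⟫ = 0 := by
  have h := gram_lsq hL u
  rw [adjL_apply] at h
  rw [← ContinuousLinearMap.adjoint_inner_left, map_sub, h, sub_self, inner_zero_left]

lemma lsq_apply {L : Euc n →L[ℝ] Euc N} (hL : Function.Injective L) (w : Euc n) :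
    lsq L (L w) = w := by
  apply hL
  have h1 := inner_sub_lsq hL (L w) (w - lsq L (L w))
  rw [← map_sub] at h1
  have h2 : L (w - lsq L (L w)) = 0 := by
    rw [← inner_self_eq_zero (𝕜 := ℝ)]; exact h1
  rw [map_sub, sub_eq_zero] at h2
  exact h2.symm

lemma starProjection_range {L : Euc n →L[ℝ] Euc N} (hL : Function.Injective L) (u : Euc N) :
    (LinearMap.range (L : Euc n →ₗ[ℝ] Euc N)).starProjection u = L (lsq L u) := by
  apply Submodule.eq_starProjection_of_mem_of_inner_eq_zero
  · exact ⟨_, rfl⟩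
  · rintro _ ⟨w, rfl⟩
    exact inner_sub_lsq hL u w

lemma contDiffAt_lsq {L : Euc n →L[ℝ] Euc N} (hL : Function.Injective L) :
    ContDiffAt ℝ ∞ lsq L := by
  obtain ⟨e, he⟩ := isInvertible_gram hL
  have h1 : ContDiffAt ℝ ∞ (fun L : Euc n →L[ℝ] Euc N => adjL L) L := adjL.contDiff.contDiffAt
  have h2 : ContDiffAt ℝ ∞ (fun L : Euc n →L[ℝ] Euc N => adjL L ∘L L) L :=
    h1.clm_comp contDiffAt_id
  have h3 : ContDiffAt ℝ ∞ (ContinuousLinearMap.inverse (R := ℝ) (M := Euc n) (M₂ := Euc n))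
      (adjL L ∘L L) := by
    rw [← he]; exact contDiffAt_map_inverse e
  have h4 : ContDiffAt ℝ ∞ (fun L : Euc n →L[ℝ] Euc N =>
      ContinuousLinearMap.inverse (adjL L ∘L L)) L :=
    ContDiffAt.comp (g := ContinuousLinearMap.inverse (R := ℝ) (M := Euc n) (M₂ := Euc n))
      (f := fun L : Euc n →L[ℝ] Euc N => adjL L ∘L L) L h3 h2
  exact h4.clm_comp h1

/-- The orthogonal projection onto the tangent space. -/
def Pr (S : Set (Euc N)) (q : Euc N) : Euc N →L[ℝ] Euc N := (T S q).starProjection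

variable {S : Set (Euc N)} {p : Euc N} {f : Euc n → Euc N} {V : Set (Euc n)}

lemma Pr_param (hf : IsLocalParam n N S p f V) {x : Euc n} (hx : x ∈ V) :
    Pr S (f x) = fderiv ℝ f x ∘L lsq (fderiv ℝ f x) := by
  ext1 u
  rw [Pr]
  have := starProjection_range (hf.injective_fderiv x hx) u
  rw [ContinuousLinearMap.comp_apply, ← this]
  congr 2
  exact T_eq hf hx

lemma contDiffOn_fderiv_param (hf : IsLocalParam n N S p f V) :
    ContDiffOn ℝ ∞ (fderiv ℝ f) V :=
  hf.contDiffOn.fderiv_of_isOpen hf.isOpen (by simp)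

lemma contDiffOn_Pr_param (hf : IsLocalParam n N S p f V) :
    ContDiffOn ℝ ∞ (fun x => fderiv ℝ f x ∘L lsq (fderiv ℝ f x)) V := by
  intro x hx
  have h1 : ContDiffWithinAt ℝ ∞ (fderiv ℝ f) V x := contDiffOn_fderiv_param hf x hx
  have h2 : ContDiffWithinAt ℝ ∞ (fun x => lsq (fderiv ℝ f x)) V x :=
    (contDiffAt_lsq (hf.injective_fderiv x hx)).comp_contDiffWithinAt x h1
  exact h1.clm_comp h2

/-- Local smooth extension of the tangential projection. -/
theorem exists_local_proj (hS : IsSubmanifold n N S) {q : Euc N} (hq : q ∈ S) :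
    ∃ (U : Set (Euc N)) (P : Euc N → (Euc N →L[ℝ] Euc N)), IsOpen U ∧ q ∈ U ∧
      ContDiffOn ℝ ∞ P U ∧ ∀ y ∈ S ∩ U, P y = Pr S y := by
  obtain ⟨f, V, hf⟩ := hS q hq
  obtain ⟨U, r, hUo, hfU, hrs, hrV, hr0, -, hfr⟩ := exists_local_inverse hf hf.zero_mem
  refine ⟨U, fun y => fderiv ℝ f (r y) ∘L lsq (fderiv ℝ f (r y)), hUo, ?_, ?_, ?_⟩
  · rwa [hf.map_zero] at hfU
  · exact (contDiffOn_Pr_param hf).comp hrs hrV
  · intro y hy
    have := Pr_param hf (hrV hy.2)
    rw [hfr y hy] at this
    exact this.symm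

/-- Global smooth extension of the tangential projection of a closed submanifold. -/
theorem exists_proj (hS : IsSubmanifold n N S) (hcl : IsClosed S) :
    ∃ P : Euc N → (Euc N →L[ℝ] Euc N), ContDiff ℝ ∞ P ∧ ∀ y ∈ S, P y = Pr S y := by
  classical
  set t : Euc N → Set (Euc N →L[ℝ] Euc N) := fun y => if y ∈ S then {Pr S y} else univ with ht
  have hconv : ∀ y, Convex ℝ (t y) := by
    intro y
    by_cases hy : y ∈ S
    · simp only [ht, hy, if_true]; exact convex_singleton _
    · simp only [ht, hy, if_false]; exact convex_univ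
  obtain ⟨g, hg⟩ := exists_contMDiffMap_forall_mem_convex_of_local (n := (⊤ : ℕ∞))
    (𝓘(ℝ, Euc N)) (t := t) hconv (by
      intro x
      by_cases hx : x ∈ S
      · obtain ⟨U, P, hUo, hqU, hPs, hP⟩ := exists_local_proj hS hx
        refine ⟨U, hUo.mem_nhds hqU, P, contMDiffOn_iff_contDiffOn.mpr hPs, ?_⟩
        intro y hy
        by_cases hyS : y ∈ S
        · simp [ht, hyS, hP y ⟨hyS, hy⟩]
        · simp [ht, hyS]
      · refine ⟨Sᶜ, hcl.isOpen_compl.mem_nhds hx, fun _ => 0, contMDiffOn_const, ?_⟩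
        intro y hy
        have : y ∉ S := hy
        simp [ht, this])
  refine ⟨g, contMDiff_iff_contDiff.mp g.contMDiff, ?_⟩
  intro y hy
  have := hg y
  simpa [ht, hy] using this

end Crest.Agent.R241.DX1
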