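import Crest.Agent.R241.DX1
import Crest.Agent.Lib.ODEFlow

/-!
R241 block D2: the geodesic flow of a closed submanifold of Euclidean space.
-/

set_option autoImplicit false
open Set Filter Topology
open scoped ContDiff RealInnerProductSpace Manifold
open Crest.GeometryTopology.Submanifold

noncomputable section
namespace Crest.Agent.R241.DX2

open DX0 DX1 Crest.Agent.Lib.ODEFlow

variable {n N : ℕ}

lemma hd1 {E F : Type*} [NormedAddCommGroup E] [NormedSpace ℝ E] [NormedAddCommGroup F]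
    [NormedSpace ℝ F] {c : ℝ → E × F} {c' : E × F} {t : ℝ} (h : HasDerivAt c c' t) :
    HasDerivAt (fun s => (c s).1) c'.1 t := by
  have := (ContinuousLinearMap.fst ℝ E F).hasFDerivAt.comp_hasDerivAt t h
  exact this

lemma hd2 {E F : Type*} [NormedAddCommGroup E] [NormedSpace ℝ E] [NormedAddCommGroup F]
    [NormedSpace ℝ F] {c : ℝ → E × F} {c' : E × F} {t : ℝ} (h : HasDerivAt c c' t) :
    HasDerivAt (fun s => (c s).2) c'.2 t := by
  have := (ContinuousLinearMap.snd ℝ E F).hasFDerivAt.comp_hasDerivAt t h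
  exact this

/-- Tangent bundle of the set `S`. -/
def TB (S : Set (Euc N)) : Set (Euc N × Euc N) := {z | z.1 ∈ S ∧ z.2 ∈ T S z.1}

/-- The geodesic vector field. -/
def vf (P : Euc N → (Euc N →L[ℝ] Euc N)) (z : Euc N × Euc N) : Euc N × Euc N :=
  (z.2, (fderiv ℝ P z.1 z.2) z.2)

variable {S : Set (Euc N)} {P : Euc N → (Euc N →L[ℝ] Euc N)}

lemma contDiff_vf (hP : ContDiff ℝ ∞ P) : ContDiff ℝ ∞ (vf P) := by
  have h1 : ContDiff ℝ ∞ (fun z : Euc N × Euc N => fderiv ℝ P z.1) :=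
    (hP.fderiv_right (m := ∞) (by simp)).comp contDiff_fst
  have h2 : ContDiff ℝ ∞ (fun z : Euc N × Euc N => (fderiv ℝ P z.1) z.2) :=
    h1.clm_apply contDiff_snd
  exact contDiff_snd.prodMk (h2.clm_apply contDiff_snd)

lemma mem_T_iff_proj (hPS : ∀ y ∈ S, P y = Pr S y) {q : Euc N} (hq : q ∈ S) (v : Euc N) :
    v ∈ T S q ↔ P q v = v := by
  rw [hPS q hq, Pr, Submodule.starProjection_eq_self_iff]

lemma mem_TB_iff (hPS : ∀ y ∈ S, P y = Pr S y) (z : Euc N × Euc N) :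
    z ∈ TB S ↔ z.1 ∈ S ∧ P z.1 z.2 = z.2 := by
  constructor
  · rintro ⟨h1, h2⟩; exact ⟨h1, (mem_T_iff_proj hPS h1 _).mp h2⟩
  · rintro ⟨h1, h2⟩; exact ⟨h1, (mem_T_iff_proj hPS h1 _).mpr h2⟩

lemma isClosed_TB (hcl : IsClosed S) (hP : ContDiff ℝ ∞ P) (hPS : ∀ y ∈ S, P y = Pr S y) :
    IsClosed (TB S) := by
  have h1 : TB S = (Prod.fst ⁻¹' S) ∩ {z : Euc N × Euc N | P z.1 z.2 = z.2} := by
    ext z; exact mem_TB_iff hPS z
  rw [h1]
  refine (hcl.preimage continuous_fst).inter (isClosed_eq ?_ continuous_snd)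
  exact (hP.continuous.comp continuous_fst).clm_apply continuous_snd

/-- Key identity: the acceleration of a curve in `S`. -/
lemma accel_identity (hP : ContDiff ℝ ∞ P) (hPS : ∀ y ∈ S, P y = Pr S y)
    {γ u : ℝ → Euc N} {t : ℝ} {a : Euc N} (hγS : ∀ᶠ s in 𝓝 t, γ s ∈ S)
    (hγ : ∀ᶠ s in 𝓝 t, HasDerivAt γ (u s) s) (hu : HasDerivAt u a t) :
    a = (fderiv ℝ P (γ t) (u t)) (u t) + P (γ t) a := by
  have h1 : ∀ᶠ s in 𝓝 t, P (γ s) (u s) = u s := by
    filter_upwards [hγS.eventually_nhds, hγ, hγS] with s hs1 hs2 hs3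
    exact (mem_T_iff_proj hPS hs3 _).mp (deriv_mem_T hs2 hs1)
  have h2 : HasDerivAt (fun s => P (γ s)) (fderiv ℝ P (γ t) (u t)) t :=
    ((hP.differentiable (by simp)).differentiableAt (x := γ t)).hasFDerivAt.comp_hasDerivAt t
      hγ.self_of_nhds
  have h3 : HasDerivAt (fun s => P (γ s) (u s)) ((fderiv ℝ P (γ t) (u t)) (u t) + P (γ t) a) t :=
    h2.clm_apply hu
  exact (hu.congr_of_eventuallyEq h1).unique h3

/-- Along an integral curve staying in the tangent bundle the acceleration is normal. -/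
lemma proj_accel_eq_zero (hP : ContDiff ℝ ∞ P) (hPS : ∀ y ∈ S, P y = Pr S y)
    {c : ℝ → Euc N × Euc N} {t : ℝ} (hcS : ∀ᶠ s in 𝓝 t, c s ∈ TB S)
    (hc : ∀ᶠ s in 𝓝 t, HasDerivAt c (vf P (c s)) s) :
    P (c t).1 ((vf P (c t)).2) = 0 := by
  have h1 : HasDerivAt (fun s => (c s).2) (vf P (c t)).2 t :=
    hd2 hc.self_of_nhds
  have h2 : ∀ᶠ s in 𝓝 t, HasDerivAt (fun s => (c s).1) (c s).2 s := by
    filter_upwards [hc] with s hs
    exact hd1 hs
  have h3 : ∀ᶠ s in 𝓝 t, (c s).1 ∈ S := hcS.mono fun s hs => hs.1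
  have h4 := accel_identity hP hPS h3 h2 h1
  have h5 : (vf P (c t)).2 = (fderiv ℝ P (c t).1 (c t).2) (c t).2 := rfl
  rw [← h5] at h4
  exact (left_eq_add.mp h4)

lemma inner_eq_zero_of_proj (hPS : ∀ y ∈ S, P y = Pr S y) {q : Euc N} (hq : q ∈ S) {a v : Euc N}
    (ha : P q a = 0) (hv : v ∈ T S q) : ⟪a, v⟫ = 0 := by
  rw [hPS q hq, Pr] at ha
  have := Submodule.starProjection_inner_eq_zero (K := T S q) a v hv
  rwa [ha, sub_zero] at this

lemma proj_eq_zero_of_inner (hPS : ∀ y ∈ S, P y = Pr S y) {q : Euc N} (hq : q ∈ S) {a : Euc N}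
    (ha : ∀ v ∈ T S q, ⟪a, v⟫ = 0) : P q a = 0 := by
  rw [hPS q hq, Pr]
  exact Submodule.eq_starProjection_of_mem_of_inner_eq_zero (Submodule.zero_mem _)
    (fun w hw => by simpa using ha w hw)

/-! ### Local geodesics from a chart -/

section chart

variable {p : Euc N} {f : Euc n → Euc N} {V : Set (Euc n)}

/-- Geodesic vector field in a chart. -/
def vfc (f : Euc n → Euc N) (z : Euc n × Euc n) : Euc n × Euc n :=
  (z.2, -(lsq (fderiv ℝ f z.1) ((fderiv ℝ (fderiv ℝ f) z.1 z.2) z.2)))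

lemma contDiffOn_vfc (hf : IsLocalParam n N S p f V) :
    ContDiffOn ℝ ∞ (vfc f) (V ×ˢ (univ : Set (Euc n))) := by
  have hfst : ContDiffOn ℝ ∞ (Prod.fst : Euc n × Euc n → Euc n) (V ×ˢ (univ : Set (Euc n))) :=
    contDiff_fst.contDiffOn
  have hmaps : MapsTo (Prod.fst : Euc n × Euc n → Euc n) (V ×ˢ (univ : Set (Euc n))) V :=
    fun z hz => hz.1
  have h0 : ContDiffOn ℝ ∞ (fderiv ℝ f) V := contDiffOn_fderiv_param hf
  have h1 : ContDiffOn ℝ ∞ (fun z : Euc n × Euc n => fderiv ℝ f z.1) (V ×ˢ univ) :=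
    h0.comp hfst hmaps
  have h2 : ContDiffOn ℝ ∞ (fun z : Euc n × Euc n => fderiv ℝ (fderiv ℝ f) z.1) (V ×ˢ univ) :=
    (h0.fderiv_of_isOpen hf.isOpen (by simp)).comp hfst hmaps
  have h3 : ContDiffOn ℝ ∞ (fun z : Euc n × Euc n => lsq (fderiv ℝ f z.1)) (V ×ˢ univ) := by
    intro z hz
    exact (contDiffAt_lsq (hf.injective_fderiv z.1 hz.1)).comp_contDiffWithinAt z (h1 z hz)
  have h4 : ContDiffOn ℝ ∞ (fun z : Euc n × Euc n => (fderiv ℝ (fderiv ℝ f) z.1) z.2)
      (V ×ˢ univ) := h2.clm_apply contDiff_snd.contDiffOn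
  have h5 : ContDiffOn ℝ ∞ (fun z : Euc n × Euc n => (fderiv ℝ (fderiv ℝ f) z.1 z.2) z.2)
      (V ×ˢ univ) := h4.clm_apply contDiff_snd.contDiffOn
  exact contDiff_snd.contDiffOn.prodMk (h3.clm_apply h5).neg

theorem exists_local_geodesic (hS : IsSubmanifold n N S) (hP : ContDiff ℝ ∞ P)
    (hPS : ∀ y ∈ S, P y = Pr S y) {z : Euc N × Euc N} (hz : z ∈ TB S) :
    ∃ ε > 0, ∃ c : ℝ → Euc N × Euc N, c 0 = z ∧
      ∀ s, |s| < ε → c s ∈ TB S ∧ HasDerivAt c (vf P (c s)) s := by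
  obtain ⟨f, V, hf⟩ := hS z.1 hz.1
  obtain ⟨w0, hw0⟩ : ∃ w, fderiv ℝ f 0 w = z.2 := by
    have := hz.2
    rw [← hf.map_zero] at this
    exact (mem_T_iff_range hf hf.zero_mem _).mp this
  set U : Set (Euc n × Euc n) := V ×ˢ (univ : Set (Euc n)) with hU
  have hUo : IsOpen U := hf.isOpen.prod isOpen_univ
  have hv : ContDiffOn ℝ 1 (vfc f) U := (contDiffOn_vfc hf).of_le (by simp)
  have h0 : ((0 : Euc n), w0) ∈ U := ⟨hf.zero_mem, mem_univ _⟩
  have hnh : ∀ᶠ s in 𝓝 (0 : ℝ), ((((0 : Euc n), w0), s) : (Euc n × Euc n) × ℝ) ∈ dom (vfc f) U := by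
    have hcont : Continuous fun s : ℝ => ((((0 : Euc n), w0), s) : (Euc n × Euc n) × ℝ) := by
      fun_prop
    exact hcont.continuousAt.preimage_mem_nhds ((isOpen_dom hUo hv).mem_nhds (mem_dom_zero h0))
  obtain ⟨ε, hε, hball⟩ := Metric.eventually_nhds_iff.mp hnh
  set y : ℝ → Euc n × Euc n := fun s => flow (vfc f) U ((0, w0), s) with hy
  have hyd : ∀ s, |s| < ε → HasDerivAt y (vfc f (y s)) s := fun s hs =>
    hasDerivAt_flow hUo hv (hball (by simpa [Real.dist_eq] using hs))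
  have hyU : ∀ s, |s| < ε → (y s).1 ∈ V := fun s hs =>
    (flow_mem hUo hv (hball (by simpa [Real.dist_eq] using hs))).1
  set c : ℝ → Euc N × Euc N := fun s => (f (y s).1, fderiv ℝ f (y s).1 (y s).2) with hc
  have hev : ∀ s, |s| < ε → ∀ᶠ r in 𝓝 s, |r| < ε := fun s hs =>
    (isOpen_lt continuous_abs continuous_const).mem_nhds hs
  refine ⟨ε, hε, c, ?_, ?_⟩
  · have : y 0 = (0, w0) := flow_zero hUo hv h0
    simp only [hc, this, hw0, hf.map_zero]
  · intro s hs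
    have hTB : ∀ r, |r| < ε → c r ∈ TB S := by
      intro r hr
      refine ⟨image_subset hf (hyU r hr), ?_⟩
      exact (mem_T_iff_range hf (hyU r hr) _).mpr ⟨_, rfl⟩
    refine ⟨hTB s hs, ?_⟩
    -- derivatives of the components
    have hy1 : ∀ r, |r| < ε → HasDerivAt (fun r => (y r).1) (y r).2 r := fun r hr =>
      hd1 (hyd r hr)
    have hy2 : HasDerivAt (fun r => (y r).2)
        (-(lsq (fderiv ℝ f (y s).1) ((fderiv ℝ (fderiv ℝ f) (y s).1 (y s).2) (y s).2))) s :=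
      hd2 (hyd s hs)
    have hc1 : ∀ r, |r| < ε → HasDerivAt (fun r => f (y r).1) (fderiv ℝ f (y r).1 (y r).2) r :=
      fun r hr => (hasFDerivAt_param hf (hyU r hr)).comp_hasDerivAt r (hy1 r hr)
    have hL : HasDerivAt (fun r => fderiv ℝ f (y r).1)
        (fderiv ℝ (fderiv ℝ f) (y s).1 (y s).2) s := by
      have h1 : HasFDerivAt (fderiv ℝ f) (fderiv ℝ (fderiv ℝ f) (y s).1) (y s).1 :=
        (((contDiffOn_fderiv_param hf).contDiffAt (hf.isOpen.mem_nhds (hyU s hs))).differentiableAt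
          (by simp)).hasFDerivAt
      exact h1.comp_hasDerivAt s (hy1 s hs)
    set A := (fderiv ℝ (fderiv ℝ f) (y s).1 (y s).2) (y s).2 with hA
    set L := fderiv ℝ f (y s).1 with hLdef
    have hLinj : Function.Injective L := hf.injective_fderiv _ (hyU s hs)
    have hc2 : HasDerivAt (fun r => fderiv ℝ f (y r).1 (y r).2) (A + L (-(lsq L A))) s :=
      hL.clm_apply hy2
    have hcs : HasDerivAt c (fderiv ℝ f (y s).1 (y s).2, A + L (-(lsq L A))) s :=
      (hc1 s hs).prodMk hc2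
    have hid := accel_identity hP hPS (γ := fun r => f (y r).1)
      (u := fun r => fderiv ℝ f (y r).1 (y r).2) (t := s) (a := A + L (-(lsq L A)))
      ((hev s hs).mono fun r hr => (hTB r hr).1) ((hev s hs).mono fun r hr => hc1 r hr) hc2
    have hPa : P (f (y s).1) (A + L (-(lsq L A))) = 0 := by
      rw [hPS _ (hTB s hs).1, Pr_param hf (hyU s hs)]
      simp only [ContinuousLinearMap.comp_apply, map_add, map_neg]
      rw [lsq_apply hLinj]
      simp [hLdef]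
    rw [hPa, add_zero] at hid
    have : vf P (c s) = (fderiv ℝ f (y s).1 (y s).2, A + L (-(lsq L A))) := by
      rw [hid]; rfl
    rw [this]
    exact hcs

end chart

/-! ### The global flow -/

/-- The geodesic flow (maximal flow of the extended vector field). -/
def gf (P : Euc N → (Euc N →L[ℝ] Euc N)) (z : Euc N × Euc N) (t : ℝ) : Euc N × Euc N :=
  flow (vf P) univ (z, t)

lemma hvf1 (hP : ContDiff ℝ ∞ P) : ContDiffOn ℝ 1 (vf P) univ :=
  ((contDiff_vf hP).of_le (by simp)).contDiffOn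

lemma flow_mem_TB_of_nonneg (hS : IsSubmanifold n N S) (hcl : IsClosed S) (hP : ContDiff ℝ ∞ P)
    (hPS : ∀ y ∈ S, P y = Pr S y) {z : Euc N × Euc N} (hz : z ∈ TB S) {t : ℝ} (ht : 0 ≤ t)
    (hdom : (z, t) ∈ dom (vf P) univ) : ∀ s ∈ Icc 0 t, gf P z s ∈ TB S := by
  have hv := hvf1 hP
  have hdoms : ∀ s ∈ Icc 0 t, (z, s) ∈ dom (vf P) univ := fun s hs =>
    mem_dom_of_uIcc hdom (by rw [uIcc_of_le ht]; exact hs)
  have hcont : ContinuousOn (gf P z) (Icc 0 t) := fun s hs =>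
    (hasDerivAt_flow isOpen_univ hv (hdoms s hs)).continuousAt.continuousWithinAt
  have hclosed : IsClosed ({s | gf P z s ∈ TB S} ∩ Icc 0 t) := by
    have := hcont.preimage_isClosed_of_isClosed isClosed_Icc (isClosed_TB hcl hP hPS)
    rwa [inter_comm] at this
  have := hclosed.Icc_subset_of_forall_mem_nhdsWithin (a := 0) (b := t)
    (by
      change flow (vf P) univ (z, 0) ∈ TB S
      rw [flow_zero isOpen_univ hv (mem_univ _)]; exact hz)
    (by
      rintro s ⟨hs, hs0, hst⟩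
      obtain ⟨ε, hε, c, hc0, hc⟩ := exists_local_geodesic hS hP hPS hs
      have hmem : Ioo s (s + ε) ∈ 𝓝[>] s := Ioo_mem_nhdsGT (by linarith)
      have h2 : ∀ r ∈ Ioo s (s + ε), gf P z r ∈ TB S := by
        intro r hr
        have h3 := flow_of_integralCurve' isOpen_univ hv (c := c) (x := gf P z s) (l := r - s)
          hc0 (fun _ _ => mem_univ _) (fun u hu => by
            refine (hc u ?_).2
            rw [uIcc_of_le (by linarith [hr.1])] at hu
            rw [abs_of_nonneg hu.1]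
            linarith [hu.2, hr.2])
        have h4 := flow_add isOpen_univ hv (hdoms s ⟨hs0, hst.le⟩) (t := r - s) h3.1
        have h5 : gf P z r = c (r - s) := by
          have h6 := h4.2
          rw [add_sub_cancel] at h6
          change flow (vf P) univ (z, r) = _
          rw [h6]
          exact h3.2
        rw [h5]
        refine (hc _ ?_).1
        rw [abs_of_nonneg (by linarith [hr.1])]
        linarith [hr.2]
      exact Filter.mem_of_superset hmem h2)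
  exact this

/-- Speed is constant. -/
lemma norm_snd_const (hS : IsSubmanifold n N S) (hcl : IsClosed S) (hP : ContDiff ℝ ∞ P)
    (hPS : ∀ y ∈ S, P y = Pr S y) {z : Euc N × Euc N} (hz : z ∈ TB S) {t : ℝ} (ht : 0 ≤ t)
    (hdom : (z, t) ∈ dom (vf P) univ) : ∀ s ∈ Icc 0 t, ‖(gf P z s).2‖ = ‖z.2‖ := by
  have hv := hvf1 hP
  have hdoms : ∀ s ∈ Icc 0 t, (z, s) ∈ dom (vf P) univ := fun s hs =>
    mem_dom_of_uIcc hdom (by rw [uIcc_of_le ht]; exact hs)
  have hder : ∀ s ∈ Icc 0 t, HasDerivAt (gf P z) (vf P (gf P z s)) s := fun s hs =>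
    hasDerivAt_flow isOpen_univ hv (hdoms s hs)
  have hTB := flow_mem_TB_of_nonneg hS hcl hP hPS hz ht hdom
  have h2 : ∀ s ∈ Icc 0 t, HasDerivAt (fun s => ⟪(gf P z s).2, (gf P z s).2⟫)
      (⟪(gf P z s).2, (vf P (gf P z s)).2⟫ + ⟪(vf P (gf P z s)).2, (gf P z s).2⟫) s := by
    intro s hs
    have h1 : HasDerivAt (fun s => (gf P z s).2) (vf P (gf P z s)).2 s :=
      hd2 (hder s hs)
    exact h1.inner ℝ h1
  have hconst : ∀ s ∈ Icc 0 t, ⟪(gf P z s).2, (gf P z s).2⟫ = ⟪(gf P z 0).2, (gf P z 0).2⟫ := by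
    refine constant_of_has_deriv_right_zero (f := fun s => ⟪(gf P z s).2, (gf P z s).2⟫) ?_ ?_
    · intro s hs
      exact (h2 s hs).continuousAt.continuousWithinAt
    · rintro s ⟨hs0, hst⟩
      have hs : s ∈ Icc 0 t := ⟨hs0, hst.le⟩
      have h3 := (h2 s hs).hasDerivWithinAt (s := Ici s)
      convert h3 using 1
      -- the acceleration is normal: right-derivative version
      have hacc : ⟪(vf P (gf P z s)).2, (gf P z s).2⟫ = 0 := by
        obtain ⟨ε, hε, c, hc0, hc⟩ := exists_local_geodesic hS hP hPS (hTB s hs)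
        have hev : ∀ᶠ r in 𝓝 (0 : ℝ), |r| < ε :=
          (isOpen_lt continuous_abs continuous_const).mem_nhds (by simpa using hε)
        have h4 := proj_accel_eq_zero hP hPS (c := c) (t := 0)
          (hev.mono fun r hr => (hc r hr).1) (hev.mono fun r hr => (hc r hr).2)
        rw [hc0] at h4
        exact inner_eq_zero_of_proj hPS (hTB s hs).1 h4 (hTB s hs).2
      rw [real_inner_comm, hacc, add_zero]
  intro s hs
  have h5 := hconst s hs
  have h6 : gf P z 0 = z := flow_zero isOpen_univ hv (mem_univ _)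
  rw [h6, real_inner_self_eq_norm_sq, real_inner_self_eq_norm_sq] at h5
  exact (sq_eq_sq₀ (norm_nonneg _) (norm_nonneg _)).mp h5

/-- Geodesic completeness, forward time. -/
lemma mem_dom_of_nonneg (hS : IsSubmanifold n N S) (hcl : IsClosed S) (hP : ContDiff ℝ ∞ P)
    (hPS : ∀ y ∈ S, P y = Pr S y) {z : Euc N × Euc N} (hz : z ∈ TB S) {t : ℝ} (ht : 0 ≤ t) :
    (z, t) ∈ dom (vf P) univ := by
  have hv := hvf1 hP
  set K : Set (Euc N × Euc N) :=
    Metric.closedBall z.1 (t * ‖z.2‖) ×ˢ Metric.closedBall (0 : Euc N) ‖z.2‖ with hK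
  have hKc : IsCompact K := (isCompact_closedBall _ _).prod (isCompact_closedBall _ _)
  refine mem_dom_of_compact isOpen_univ hv hKc (subset_univ _) (mem_univ _) ?_ ht
  intro s hs hdom
  have hdoms : ∀ r ∈ Icc 0 s, (z, r) ∈ dom (vf P) univ := fun r hr =>
    mem_dom_of_uIcc hdom (by rw [uIcc_of_le hs.1]; exact hr)
  have hnorm := norm_snd_const hS hcl hP hPS hz hs.1 hdom
  have h1 : ∀ r ∈ Icc 0 s, HasDerivWithinAt (fun r => (gf P z r).1) (gf P z r).2 (Icc 0 s) r := by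
    intro r hr
    have h2 : HasDerivAt (gf P z) (vf P (gf P z r)) r :=
      hasDerivAt_flow isOpen_univ hv (hdoms r hr)
    exact (hd1 h2).hasDerivWithinAt
  have h3 := norm_image_sub_le_of_norm_deriv_le_segment' (C := ‖z.2‖) h1
    (fun r hr => (hnorm r ⟨hr.1, hr.2.le⟩).le) s (right_mem_Icc.mpr hs.1)
  have h6 : gf P z 0 = z := flow_zero isOpen_univ hv (mem_univ _)
  refine ⟨?_, ?_⟩
  · rw [Metric.mem_closedBall, dist_eq_norm]
    rw [h6] at h3
    calc ‖(gf P z s).1 - z.1‖ ≤ ‖z.2‖ * (s - 0) := h3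
      _ ≤ t * ‖z.2‖ := by
        rw [sub_zero, mul_comm]
        exact mul_le_mul_of_nonneg_right hs.2.le (norm_nonneg _)
  · rw [mem_closedBall_zero_iff]
    exact (hnorm s (right_mem_Icc.mpr hs.1)).le

lemma neg_mem_TB {z : Euc N × Euc N} (hz : z ∈ TB S) : (z.1, -z.2) ∈ TB S :=
  ⟨hz.1, (T S z.1).neg_mem hz.2⟩

lemma smul_mem_TB {z : Euc N × Euc N} (hz : z ∈ TB S) (r : ℝ) : (z.1, r • z.2) ∈ TB S :=
  ⟨hz.1, (T S z.1).smul_mem r hz.2⟩

/-- Time reversal. -/
lemma gf_neg (hS : IsSubmanifold n N S) (hcl : IsClosed S) (hP : ContDiff ℝ ∞ P)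
    (hPS : ∀ y ∈ S, P y = Pr S y) {z : Euc N × Euc N} (hz : z ∈ TB S) {t : ℝ} (ht : 0 ≤ t) :
    (z, -t) ∈ dom (vf P) univ ∧
      gf P z (-t) = ((gf P (z.1, -z.2) t).1, -(gf P (z.1, -z.2) t).2) := by
  have hv := hvf1 hP
  set z' : Euc N × Euc N := (z.1, -z.2) with hz'
  have hz'TB : z' ∈ TB S := neg_mem_TB hz
  set c : ℝ → Euc N × Euc N := fun s => ((gf P z' (-s)).1, -(gf P z' (-s)).2) with hc
  have hder : ∀ s ∈ uIcc 0 (-t), HasDerivAt c (vf P (c s)) s := by
    intro s hs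
    rw [uIcc_of_ge (by linarith)] at hs
    have h1 : (z', -s) ∈ dom (vf P) univ := mem_dom_of_nonneg hS hcl hP hPS hz'TB (by linarith [hs.2])
    have h2 : HasDerivAt (gf P z') (vf P (gf P z' (-s))) (-s) := hasDerivAt_flow isOpen_univ hv h1
    have h3 : HasDerivAt (fun s => gf P z' (-s)) (-(vf P (gf P z' (-s)))) s := by
      have := h2.scomp s (hasDerivAt_neg s)
      rw [neg_one_smul] at this
      exact this
    have h4 : HasDerivAt (fun s => (gf P z' (-s)).1) (-(vf P (gf P z' (-s)))).1 s :=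
      hd1 h3
    have h5 : HasDerivAt (fun s => (gf P z' (-s)).2) (-(vf P (gf P z' (-s)))).2 s :=
      hd2 h3
    have h6 := h4.prodMk h5.neg
    have h8 : vf P (c s) = ((-(vf P (gf P z' (-s)))).1, -(-(vf P (gf P z' (-s)))).2) := by
      simp [vf, hc]
    rw [h8]
    exact h6
  have h0 : c 0 = z := by
    have h6 : gf P z' 0 = z' := flow_zero isOpen_univ hv (mem_univ _)
    have h8 : c 0 = ((gf P z' (-0)).1, -(gf P z' (-0)).2) := rfl
    rw [h8, neg_zero, h6]
    simp [hz']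
  have h7 := flow_of_integralCurve' isOpen_univ hv (c := c) (x := z) (l := -t) h0
    (fun _ _ => mem_univ _) hder
  refine ⟨h7.1, ?_⟩
  change flow (vf P) univ (z, -t) = _
  rw [h7.2]
  simp [hc]

/-- Geodesic completeness. -/
theorem mem_dom (hS : IsSubmanifold n N S) (hcl : IsClosed S) (hP : ContDiff ℝ ∞ P)
    (hPS : ∀ y ∈ S, P y = Pr S y) {z : Euc N × Euc N} (hz : z ∈ TB S) (t : ℝ) :
    (z, t) ∈ dom (vf P) univ := by
  rcases le_total 0 t with ht | ht
  · exact mem_dom_of_nonneg hS hcl hP hPS hz ht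
  · have := (gf_neg hS hcl hP hPS hz (t := -t) (by linarith)).1
    simpa using this

theorem gf_mem_TB (hS : IsSubmanifold n N S) (hcl : IsClosed S) (hP : ContDiff ℝ ∞ P)
    (hPS : ∀ y ∈ S, P y = Pr S y) {z : Euc N × Euc N} (hz : z ∈ TB S) (t : ℝ) :
    gf P z t ∈ TB S := by
  rcases le_total 0 t with ht | ht
  · exact flow_mem_TB_of_nonneg hS hcl hP hPS hz ht (mem_dom_of_nonneg hS hcl hP hPS hz ht) t
      ⟨ht, le_rfl⟩
  · have h1 := (gf_neg hS hcl hP hPS hz (t := -t) (by linarith)).2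
    rw [neg_neg] at h1
    rw [h1]
    have h2 := flow_mem_TB_of_nonneg hS hcl hP hPS (neg_mem_TB hz) (t := -t) (by linarith)
      (mem_dom_of_nonneg hS hcl hP hPS (neg_mem_TB hz) (by linarith)) (-t)
      ⟨by linarith, le_rfl⟩
    exact neg_mem_TB h2

theorem norm_gf_snd (hS : IsSubmanifold n N S) (hcl : IsClosed S) (hP : ContDiff ℝ ∞ P)
    (hPS : ∀ y ∈ S, P y = Pr S y) {z : Euc N × Euc N} (hz : z ∈ TB S) (t : ℝ) :
    ‖(gf P z t).2‖ = ‖z.2‖ := by
  rcases le_total 0 t with ht | ht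
  · exact norm_snd_const hS hcl hP hPS hz ht (mem_dom_of_nonneg hS hcl hP hPS hz ht) t
      ⟨ht, le_rfl⟩
  · have h1 := (gf_neg hS hcl hP hPS hz (t := -t) (by linarith)).2
    rw [neg_neg] at h1
    rw [h1]
    have h2 := norm_snd_const hS hcl hP hPS (neg_mem_TB hz) (t := -t) (by linarith)
      (mem_dom_of_nonneg hS hcl hP hPS (neg_mem_TB hz) (by linarith)) (-t)
      ⟨by linarith, le_rfl⟩
    simpa using h2

theorem hasDerivAt_gf (hS : IsSubmanifold n N S) (hcl : IsClosed S) (hP : ContDiff ℝ ∞ P)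
    (hPS : ∀ y ∈ S, P y = Pr S y) {z : Euc N × Euc N} (hz : z ∈ TB S) (t : ℝ) :
    HasDerivAt (gf P z) (vf P (gf P z t)) t :=
  hasDerivAt_flow isOpen_univ (hvf1 hP) (mem_dom hS hcl hP hPS hz t)

theorem gf_zero (hP : ContDiff ℝ ∞ P) (z : Euc N × Euc N) : gf P z 0 = z :=
  flow_zero isOpen_univ (hvf1 hP) (mem_univ _)

/-- The acceleration of a geodesic is normal. -/
theorem inner_accel (hS : IsSubmanifold n N S) (hcl : IsClosed S) (hP : ContDiff ℝ ∞ P)
    (hPS : ∀ y ∈ S, P y = Pr S y) {z : Euc N × Euc N} (hz : z ∈ TB S) (t : ℝ) {v : Euc N}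
    (hv : v ∈ T S (gf P z t).1) : ⟪(vf P (gf P z t)).2, v⟫ = 0 := by
  have h1 := proj_accel_eq_zero hP hPS (c := gf P z) (t := t)
    (Eventually.of_forall fun s => gf_mem_TB hS hcl hP hPS hz s)
    (Eventually.of_forall fun s => hasDerivAt_gf hS hcl hP hPS hz s)
  exact inner_eq_zero_of_proj hPS (gf_mem_TB hS hcl hP hPS hz t).1 h1 hv

/-- Uniqueness of geodesics, on an interval `[0,l]` (either sign of `l`). -/
theorem gf_unique (hP : ContDiff ℝ ∞ P) (hPS : ∀ y ∈ S, P y = Pr S y)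
    {γ u a : ℝ → Euc N} {l : ℝ} (hγS : ∀ s ∈ uIcc 0 l, ∀ᶠ r in 𝓝 s, γ r ∈ S)
    (hγ : ∀ s ∈ uIcc 0 l, ∀ᶠ r in 𝓝 s, HasDerivAt γ (u r) r)
    (hu : ∀ s ∈ uIcc 0 l, HasDerivAt u (a s) s)
    (ha : ∀ s ∈ uIcc 0 l, ∀ v ∈ T S (γ s), ⟪a s, v⟫ = 0) :
    ∀ s ∈ uIcc 0 l, gf P (γ 0, u 0) s = (γ s, u s) := by
  intro s hs
  have hd : ∀ s ∈ uIcc 0 l, HasDerivAt (fun s => (γ s, u s)) (vf P (γ s, u s)) s := by
    intro s hs
    have h1 := accel_identity hP hPS (hγS s hs) (hγ s hs) (hu s hs)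
    rw [proj_eq_zero_of_inner hPS (hγS s hs).self_of_nhds (ha s hs), add_zero] at h1
    have h2 := (hγ s hs).self_of_nhds.prodMk (hu s hs)
    rw [h1] at h2
    exact h2
  have h3 := flow_of_integralCurve' isOpen_univ (hvf1 hP) (c := fun s => (γ s, u s))
    (x := (γ 0, u 0)) (l := s) rfl (fun _ _ => mem_univ _)
    (fun r hr => hd r (uIcc_subset_uIcc left_mem_uIcc hs hr))
  exact h3.2

/-- Scaling. -/
theorem gf_smul (hS : IsSubmanifold n N S) (hcl : IsClosed S) (hP : ContDiff ℝ ∞ P)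
    (hPS : ∀ y ∈ S, P y = Pr S y) {z : Euc N × Euc N} (hz : z ∈ TB S) (r t : ℝ) :
    gf P (z.1, r • z.2) t = ((gf P z (r * t)).1, r • (gf P z (r * t)).2) := by
  have hv := hvf1 hP
  set c : ℝ → Euc N × Euc N := fun s => ((gf P z (r * s)).1, r • (gf P z (r * s)).2) with hc
  have hder : ∀ s, HasDerivAt c (vf P (c s)) s := by
    intro s
    have h2 : HasDerivAt (gf P z) (vf P (gf P z (r * s))) (r * s) :=
      hasDerivAt_gf hS hcl hP hPS hz _
    have h1 : HasDerivAt (fun s : ℝ => r * s) r s := by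
      simpa using (hasDerivAt_id s).const_mul r
    have h3 : HasDerivAt (fun s => gf P z (r * s)) (r • (vf P (gf P z (r * s)))) s :=
      h2.scomp s h1
    have h4 : HasDerivAt (fun s => (gf P z (r * s)).1) (r • (vf P (gf P z (r * s)))).1 s :=
      hd1 h3
    have h5 : HasDerivAt (fun s => (gf P z (r * s)).2) (r • (vf P (gf P z (r * s)))).2 s :=
      hd2 h3
    have h6 := h4.prodMk (h5.const_smul r)
    have h8 : vf P (c s) = ((r • (vf P (gf P z (r * s)))).1, r • (r • (vf P (gf P z (r * s)))).2) := by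
      simp [vf, hc]
    rw [h8]
    exact h6
  have h0 : c 0 = (z.1, r • z.2) := by
    have h6 : gf P z 0 = z := gf_zero hP z
    simp [hc, h6]
  have h7 := flow_of_integralCurve' isOpen_univ hv (c := c) (x := (z.1, r • z.2)) (l := t) h0
    (fun _ _ => mem_univ _) (fun s _ => hder s)
  exact h7.2

/-- The exponential map. -/
def Ex (P : Euc N → (Euc N →L[ℝ] Euc N)) (z : Euc N × Euc N) : Euc N := (gf P z 1).1

/-- An open domain of smoothness of the exponential map. -/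
def OE (P : Euc N → (Euc N →L[ℝ] Euc N)) : Set (Euc N × Euc N) :=
  {z | (z, (1 : ℝ)) ∈ dom (vf P) univ}

lemma isOpen_OE (hP : ContDiff ℝ ∞ P) : IsOpen (OE P) :=
  (isOpen_dom isOpen_univ (hvf1 hP)).preimage (by fun_prop)

lemma TB_subset_OE (hS : IsSubmanifold n N S) (hcl : IsClosed S) (hP : ContDiff ℝ ∞ P)
    (hPS : ∀ y ∈ S, P y = Pr S y) : TB S ⊆ OE P := fun _ hz => mem_dom hS hcl hP hPS hz 1

lemma contDiffOn_Ex (hP : ContDiff ℝ ∞ P) : ContDiffOn ℝ ∞ (Ex P) (OE P) := by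
  have h1 : ContDiffOn ℝ ∞ (flow (vf P) univ) (dom (vf P) univ) :=
    contDiffOn_flow (n := (⊤ : ℕ∞)) le_top isOpen_univ (contDiff_vf hP).contDiffOn
  have h2 : ContDiff ℝ ∞ (fun z : Euc N × Euc N => (z, (1 : ℝ))) := by fun_prop
  have h3 : ContDiffOn ℝ ∞ (fun z : Euc N × Euc N => flow (vf P) univ (z, (1 : ℝ))) (OE P) :=
    h1.comp h2.contDiffOn (fun z hz => hz)
  exact contDiff_fst.comp_contDiffOn h3

theorem Ex_smul (hS : IsSubmanifold n N S) (hcl : IsClosed S) (hP : ContDiff ℝ ∞ P)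
    (hPS : ∀ y ∈ S, P y = Pr S y) {p v : Euc N} (hz : (p, v) ∈ TB S) (t : ℝ) :
    Ex P (p, t • v) = (gf P (p, v) t).1 := by
  have := gf_smul hS hcl hP hPS hz t 1
  rw [Ex, this, mul_one]

end Crest.Agent.R241.DX2
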