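import Crest.Agent.R241.EDefs

/-!
# R241, block E0: elementary properties of `SChart`
-/

set_option autoImplicit false

open MeasureTheory Filter Topology Set
open scoped ENNReal NNReal RealInnerProductSpace

universe u

namespace Crest.Agent.R241.E0

open Crest.GeometryTopology.MetricCurrent
open Crest.GeometryTopology.Submanifold (Euc)

variable {n N : ℕ} {X : Type u} [MetricSpace X] (c : SChart n N X)

theorem continuous_fderiv : Continuous (fderiv ℝ c.ψ) :=
  c.smooth.continuous_fderiv (by simp)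

/-- `Φ` is Lipschitz on bounded convex sets -/
theorem exists_lipschitzOn_closedBall (R : ℝ) :
    ∃ L : ℝ≥0, LipschitzOnWith L c.Φ (Metric.closedBall 0 R) := by
  have hK : IsCompact (Metric.closedBall (0 : Euc (n + 1)) R) := isCompact_closedBall _ _
  obtain ⟨C, hC⟩ := hK.exists_bound_of_continuousOn
    (continuous_fderiv c).continuousOn
  refine ⟨⟨max C 0, le_max_right _ _⟩, LipschitzOnWith.of_dist_le_mul ?_⟩
  intro x hx y hy
  refine (c.arc x y).trans ?_
  have hb : ∀ t ∈ Set.Icc (0 : ℝ) 1,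
      ‖fderiv ℝ c.ψ (x + t • (y - x)) (y - x)‖ ≤ max C 0 * dist x y := by
    intro t ht
    have hmem : x + t • (y - x) ∈ Metric.closedBall (0 : Euc (n + 1)) R :=
      (convex_closedBall (0 : Euc (n + 1)) R).add_smul_sub_mem hx hy ht
    refine (ContinuousLinearMap.le_opNorm _ _).trans ?_
    rw [dist_comm, dist_eq_norm]
    exact mul_le_mul_of_nonneg_right ((hC _ hmem).trans (le_max_left _ _)) (norm_nonneg _)
  have := intervalIntegral.norm_integral_le_of_norm_le_const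
    (a := (0 : ℝ)) (b := 1) (f := fun t => ‖fderiv ℝ c.ψ (x + t • (y - x)) (y - x)‖)
    (C := max C 0 * dist x y) (by
      intro t ht
      rw [uIoc_of_le zero_le_one] at ht
      rw [Real.norm_of_nonneg (norm_nonneg _)]
      exact hb t ⟨ht.1.le, ht.2⟩)
  have h2 : (∫ t in (0 : ℝ)..1, ‖fderiv ℝ c.ψ (x + t • (y - x)) (y - x)‖)
      ≤ max C 0 * dist x y := by
    refine (le_abs_self _).trans ?_
    simpa using this
  exact h2

/-- local lower bound: `ψ` is locally anti-Lipschitz -/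
theorem exists_local_anti (x₀ : Euc (n + 1)) :
    ∃ C : ℝ, 0 < C ∧ ∃ δ > 0, ∀ x ∈ Metric.ball x₀ δ, ∀ y ∈ Metric.ball x₀ δ,
      dist x y ≤ C * dist (c.ψ x) (c.ψ y) := by
  have hstrict : HasStrictFDerivAt c.ψ (fderiv ℝ c.ψ x₀) x₀ :=
    (c.smooth.contDiffAt).hasStrictFDerivAt (by simp)
  obtain ⟨K, hK0, hK⟩ := (fderiv ℝ c.ψ x₀ : Euc (n + 1) →ₗ[ℝ] Euc N).exists_antilipschitzWith
    (LinearMap.ker_eq_bot.2 (c.inj x₀))
  have hKpos : (0 : ℝ) < K := by exact_mod_cast hK0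
  -- choose error constant `1/(2K)`
  have hc : (0 : ℝ≥0) < (2 * K)⁻¹ := by positivity
  have h1 : ∀ᶠ p : Euc (n + 1) × Euc (n + 1) in 𝓝 (x₀, x₀),
      ‖c.ψ p.1 - c.ψ p.2 - fderiv ℝ c.ψ x₀ (p.1 - p.2)‖ ≤ (2 * K : ℝ)⁻¹ * ‖p.1 - p.2‖ := by
    have := hstrict.isLittleO.def (c := (2 * K : ℝ)⁻¹) (by positivity)
    exact this
  rw [Metric.eventually_nhds_iff] at h1
  obtain ⟨δ, hδ, h1⟩ := h1
  refine ⟨2 * K, by positivity, δ, hδ, ?_⟩
  intro x hx y hy
  have hxy := @h1 (x, y) (by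
    rw [Prod.dist_eq, max_lt_iff]; exact ⟨hx, hy⟩)
  simp only at hxy
  have h2 : dist x y ≤ K * ‖fderiv ℝ c.ψ x₀ (x - y)‖ := by
    have := hK.le_mul_dist x y
    rw [dist_eq_norm (((fderiv ℝ c.ψ x₀ : Euc (n + 1) →ₗ[ℝ] Euc N)) x)] at this
    simpa using this
  have h3 : ‖fderiv ℝ c.ψ x₀ (x - y)‖ ≤ ‖c.ψ x - c.ψ y‖ + (2 * K : ℝ)⁻¹ * ‖x - y‖ := by
    have h5 := norm_sub_norm_le (fderiv ℝ c.ψ x₀ (x - y)) (c.ψ x - c.ψ y)
    have h6 := norm_sub_rev (fderiv ℝ c.ψ x₀ (x - y)) (c.ψ x - c.ψ y)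
    linarith
  rw [dist_eq_norm] at h2 ⊢
  rw [dist_eq_norm]
  have h4 : ‖x - y‖ ≤ K * ‖c.ψ x - c.ψ y‖ + ‖x - y‖ / 2 := by
    calc ‖x - y‖ ≤ K * ‖fderiv ℝ c.ψ x₀ (x - y)‖ := h2
      _ ≤ K * (‖c.ψ x - c.ψ y‖ + (2 * K : ℝ)⁻¹ * ‖x - y‖) := by gcongr
      _ = K * ‖c.ψ x - c.ψ y‖ + ‖x - y‖ / 2 := by field_simp
  linarith

/-- `Φ` is anti-Lipschitz on compact sets -/
theorem exists_anti {K : Set (Euc (n + 1))} (hK : IsCompact K) :
    ∃ C : ℝ, ∀ x ∈ K, ∀ y ∈ K, dist x y ≤ C * dist (c.Φ x) (c.Φ y) := by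
  by_contra hcon
  push Not at hcon
  choose u hu v hv huv using fun j : ℕ => hcon j
  obtain ⟨x, hx, φ, hφ, hux⟩ := hK.tendsto_subseq hu
  obtain ⟨y, hy, φ', hφ', hvy⟩ := hK.tendsto_subseq (fun j => hv (φ j))
  have hux' : Tendsto (fun j => u (φ (φ' j))) atTop (𝓝 x) := hux.comp hφ'.tendsto_atTop
  have hvy' : Tendsto (fun j => v (φ (φ' j))) atTop (𝓝 y) := hvy
  -- the distance of the images tends to zero
  obtain ⟨D, hD⟩ := hK.isBounded.subset_closedBall (0 : Euc (n + 1))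
  have hDb : ∀ j, dist (u j) (v j) ≤ 2 * D := by
    intro j
    have h1 := hD (hu j); have h2 := hD (hv j)
    rw [mem_closedBall_zero_iff] at h1 h2
    rw [dist_eq_norm]
    exact (norm_sub_le _ _).trans (by linarith)
  have hlim : Tendsto (fun j => dist (c.Φ (u (φ (φ' j)))) (c.Φ (v (φ (φ' j))))) atTop (𝓝 0) := by
    have hle : ∀ j : ℕ, dist (c.Φ (u (φ (φ' j)))) (c.Φ (v (φ (φ' j)))) * (j : ℝ) ≤ 2 * D := by
      intro j
      have h1 := huv (φ (φ' j))
      have h2 := hDb (φ (φ' j))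
      have h3 : (j : ℝ) ≤ (φ (φ' j) : ℝ) := by
        exact_mod_cast ((hφ'.id_le j).trans (hφ.id_le _))
      have h4 : (0 : ℝ) ≤ dist (c.Φ (u (φ (φ' j)))) (c.Φ (v (φ (φ' j)))) := dist_nonneg
      nlinarith
    apply squeeze_zero' (g := fun j : ℕ => 2 * D / (j : ℝ))
    · exact Eventually.of_forall fun j => dist_nonneg
    · filter_upwards [eventually_gt_atTop 0] with j hj
      rw [le_div_iff₀ (by exact_mod_cast hj)]
      exact hle j
    · exact tendsto_const_div_atTop_nhds_zero_nat _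
  have hlim2 : Tendsto (fun j => dist (c.Φ (u (φ (φ' j)))) (c.Φ (v (φ (φ' j))))) atTop
      (𝓝 (dist (c.Φ x) (c.Φ y))) :=
    ((c.Φ.continuous.tendsto x).comp hux').dist ((c.Φ.continuous.tendsto y).comp hvy')
  have hxy : x = y := by
    have := tendsto_nhds_unique hlim2 hlim
    exact c.Φ.injective (dist_eq_zero.1 this)
  subst hxy
  obtain ⟨C, hC, δ, hδ, hloc⟩ := exists_local_anti c x
  have e1 : ∀ᶠ j in atTop, u (φ (φ' j)) ∈ Metric.ball x δ :=
    hux'.eventually (Metric.ball_mem_nhds x hδ)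
  have e2 : ∀ᶠ j in atTop, v (φ (φ' j)) ∈ Metric.ball x δ :=
    hvy'.eventually (Metric.ball_mem_nhds x hδ)
  have e3 : ∀ᶠ j : ℕ in atTop, C < (j : ℝ) := tendsto_natCast_atTop_atTop.eventually_gt_atTop C
  obtain ⟨j, h1, h2, h3⟩ := (e1.and (e2.and e3)).exists
  have h4 := hloc _ h1 _ h2
  have h5 : dist (c.ψ (u (φ (φ' j)))) (c.ψ (v (φ (φ' j)))) ≤
      dist (c.Φ (u (φ (φ' j)))) (c.Φ (v (φ (φ' j)))) := by
    rw [dist_eq_norm]; exact c.chord _ _
  have h6 := huv (φ (φ' j))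
  have h7 : (j : ℝ) ≤ (φ (φ' j) : ℝ) := by
    exact_mod_cast ((hφ'.id_le j).trans (hφ.id_le _))
  have h8 : (0 : ℝ) ≤ dist (c.Φ (u (φ (φ' j)))) (c.Φ (v (φ (φ' j)))) := dist_nonneg
  nlinarith

/-! ### the current `[[A]]` -/

theorem mass_zero' {k : ℕ} [MeasurableSpace X] :
    mass (fun (_ : X → ℝ) (_ : Fin k → X → ℝ) => (0 : ℝ)) = 0 := by
  unfold mass
  have h0 : (0 : ℝ) ∈ {r : ℝ | ∃ μ : Measure X, IsFiniteMeasure μ ∧
      Controls (fun (_ : X → ℝ) (_ : Fin k → X → ℝ) => (0 : ℝ)) μ ∧ r = (μ Set.univ).toReal} := by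
    refine ⟨0, inferInstance, ?_, by simp⟩
    intro f π _ _
    simp
  apply le_antisymm
  · exact csInf_le ⟨0, by rintro r ⟨μ, _, _, rfl⟩; exact ENNReal.toReal_nonneg⟩ h0
  · exact le_csInf ⟨0, h0⟩ (by rintro r ⟨μ, _, _, rfl⟩; exact ENNReal.toReal_nonneg)

theorem isCurrent_zero' {k : ℕ} [MeasurableSpace X] :
    IsCurrent (fun (_ : X → ℝ) (_ : Fin k → X → ℝ) => (0 : ℝ)) where
  eq_zero_of_not_test := by intros; rfl
  add_left := by intros; simp
  smul_left := by intros; simp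
  add_coord := by intros; simp
  smul_coord := by intros; simp
  continuity := by intros; exact tendsto_const_nhds
  locality := by intros; rfl
  finite_mass := ⟨0, inferInstance, by intro f π _ _; simp⟩

theorem chartAction_empty {k : ℕ} (φ : Euc k → X) (θ : Euc k → ℤ) :
    chartAction ∅ φ θ = (fun (_ : X → ℝ) (_ : Fin k → X → ℝ) => (0 : ℝ)) := by
  funext f π
  unfold chartAction
  split_ifs <;> simp

theorem isIntegerRectifiable_cur [MeasurableSpace X] {A : Set (Euc (n + 1))}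
    (hA : MeasurableSet A) (hAb : Bornology.IsBounded A) (hcur : IsCurrent (c.cur A)) :
    IsIntegerRectifiable (c.cur A) := by
  classical
  obtain ⟨R, hR⟩ := hAb.subset_closedBall (0 : Euc (n + 1))
  obtain ⟨L, hL⟩ := exists_lipschitzOn_closedBall c R
  obtain ⟨C, hC⟩ := exists_anti c (isCompact_closedBall (0 : Euc (n + 1)) R)
  refine ⟨fun i => if i = 0 then A else ∅, fun _ => c.Φ, fun _ _ => 1, ?_, ?_, ?_, ?_, ?_, ?_, ?_,
    ?_⟩
  · intro i; dsimp only; split_ifs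
    · exact ⟨hA, hAb⟩
    · exact ⟨MeasurableSet.empty, Bornology.isBounded_empty⟩
  · intro i; dsimp only; split_ifs
    · exact ⟨L, hL.mono hR⟩
    · exact ⟨0, fun x hx => hx.elim⟩
  · intro i; dsimp only; split_ifs
    · exact ⟨C, fun z hz w hw => hC z (hR hz) w (hR hw)⟩
    · exact ⟨0, fun z hz => hz.elim⟩
  · intro i; dsimp only; split_ifs
    · simp only [Int.cast_one]
      have : IsFiniteMeasure (volume.restrict A) :=
        ⟨by rw [Measure.restrict_apply_univ]; exact hAb.measure_lt_top⟩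
      exact integrable_const _
    · simp
  · intro i j hij
    dsimp only
    split_ifs with h1 h2 h2
    · exact absurd (h1.trans h2.symm) hij
    · simp
    · simp
    · simp
  · intro i; dsimp only; split_ifs
    · exact hcur
    · rw [chartAction_empty]; exact isCurrent_zero'
  · apply summable_of_ne_finset_zero (s := {0})
    intro i hi
    have hi' : i ≠ 0 := by simpa using hi
    dsimp only
    rw [if_neg hi', chartAction_empty, mass_zero']
  · intro f π _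
    rw [tsum_eq_single 0]
    · simp [SChart.cur]
    · intro i hi
      dsimp only
      rw [if_neg hi, chartAction_empty]

theorem isSupportedIn_cur {A : Set (Euc (n + 1))} {K : Set X} (hAK : ∀ x ∈ A, c.Φ x ∈ K)
    (hA : MeasurableSet A) :
    IsSupportedIn K (c.cur A) := by
  intro f π hfπ hf
  unfold SChart.cur chartAction
  rw [if_pos hfπ]
  rw [setIntegral_congr_fun (g := fun _ => (0 : ℝ)) hA]
  · simp
  · intro z hz
    simp [hf _ (hAK z hz)]

end Crest.Agent.R241.E0
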