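import Mathlib
import Crest.Agent.R241.AF1

/-! Row 241, block E1 (helper777), part a: the EILENBERG inequality with the sharp constant.
If `p : X → F` is 1-Lipschitz into a Euclidean space of dimension `n`, then for σ-compact `B ⊆ X`
`∫ #(B ∩ p⁻¹ y) dy ≤ μHE[n] B`, and for continuous weights `h ≥ 0`
`∫ ∑_{x ∈ B, p x = y} h x dy ≤ ∫_B h dμHE[n]`. -/

set_option autoImplicit false
set_option linter.unusedSectionVars false
open MeasureTheory MeasureTheory.Measure Metric Filter Set Module TopologicalSpace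
open scoped NNReal ENNReal Topology

noncomputable section

namespace Crest.Agent.R241.E1

variable {X : Type*} [MetricSpace X] [SeparableSpace X]

/-- the cells of mesh `1/(k+1)`. -/
def cell [Nonempty X] (k j : ℕ) : Set X :=
  disjointed (fun j => closedBall (denseSeq X j) (1 / ((k : ℝ) + 1))) j

section cells
variable [Nonempty X]

theorem cell_subset (k j : ℕ) : cell (X := X) k j ⊆ closedBall (denseSeq X j) (1 / ((k : ℝ) + 1)) :=
  disjointed_subset _ _

theorem cell_disjoint (k : ℕ) : Pairwise (Function.onFun Disjoint (cell (X := X) k)) :=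
  disjoint_disjointed _

theorem iUnion_cell (k : ℕ) : ⋃ j, cell (X := X) k j = univ := by
  simp only [cell]
  rw [iUnion_disjointed, eq_univ_iff_forall]
  intro x
  obtain ⟨j, hj⟩ := (denseRange_denseSeq X).exists_dist_lt x
    (show (0 : ℝ) < 1 / ((k : ℝ) + 1) by positivity)
  exact mem_iUnion.2 ⟨j, mem_closedBall.2 hj.le⟩

theorem exists_cell (k : ℕ) (x : X) : ∃ j, x ∈ cell k j := by
  have := mem_univ x
  rw [← iUnion_cell k] at this
  exact mem_iUnion.1 this

theorem dist_le_of_cell {k j : ℕ} {x y : X} (hx : x ∈ cell k j) (hy : y ∈ cell k j) :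
    dist x y ≤ 2 / ((k : ℝ) + 1) := by
  have h1 := mem_closedBall.1 (cell_subset k j hx)
  have h2 := mem_closedBall.1 (cell_subset k j hy)
  calc dist x y ≤ dist x (denseSeq X j) + dist y (denseSeq X j) := dist_triangle_right _ _ _
    _ ≤ 1 / ((k : ℝ) + 1) + 1 / ((k : ℝ) + 1) := add_le_add h1 h2
    _ = _ := by ring

theorem measurableSet_cell [MeasurableSpace X] [BorelSpace X] (k j : ℕ) :
    MeasurableSet (cell (X := X) k j) :=
  MeasurableSet.disjointed (fun _ => isClosed_closedBall.measurableSet) j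

end cells

omit [SeparableSpace X] in
theorem sigmaCompact_inter_open {B U : Set X} (hB : IsSigmaCompact B) (hU : IsOpen U) :
    IsSigmaCompact (B ∩ U) := by
  obtain ⟨F, hF1, -, hF3, -⟩ := hU.exists_iUnion_isClosed
  rw [← hF3, inter_iUnion]
  refine isSigmaCompact_iUnion _ fun i => ?_
  obtain ⟨K, hK1, hK2⟩ := hB
  rw [← hK2, iUnion_inter]
  exact isSigmaCompact_iUnion_of_isCompact _ fun j => (hK1 j).inter_right (hF1 i)

omit [SeparableSpace X] in
theorem sigmaCompact_inter_closed {B U : Set X} (hB : IsSigmaCompact B) (hU : IsClosed U) :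
    IsSigmaCompact (B ∩ U) := by
  obtain ⟨K, hK1, hK2⟩ := hB
  rw [← hK2, iUnion_inter]
  exact isSigmaCompact_iUnion_of_isCompact _ fun j => (hK1 j).inter_right hU

theorem sigmaCompact_inter_cell [Nonempty X] {B : Set X} (hB : IsSigmaCompact B) (k j : ℕ) :
    IsSigmaCompact (B ∩ cell k j) := by
  have h : B ∩ cell k j = B ∩ closedBall (denseSeq X j) (1 / ((k : ℝ) + 1)) ∩
      (⋃ i ∈ Finset.range j, closedBall (denseSeq X i) (1 / ((k : ℝ) + 1)))ᶜ := by
    ext x
    simp only [cell, disjointed_eq_inter_compl, mem_inter_iff, mem_iInter, mem_compl_iff,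
      mem_iUnion, Finset.mem_range, not_exists]
    tauto
  rw [h]
  refine sigmaCompact_inter_open (sigmaCompact_inter_closed hB isClosed_closedBall) ?_
  rw [isOpen_compl_iff]
  exact isClosed_biUnion_finset fun i _ => isClosed_closedBall

theorem IsSigmaCompact.measurableSet' {Y : Type*} [MetricSpace Y] [MeasurableSpace Y]
    [BorelSpace Y] {B : Set Y} (hB : IsSigmaCompact B) : MeasurableSet B := by
  obtain ⟨K, hK1, hK2⟩ := hB
  rw [← hK2]
  exact MeasurableSet.iUnion fun n => (hK1 n).isClosed.measurableSet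

variable {F : Type*} [MetricSpace F]

/-- weighted number of preimages. -/
def wN (p : X → F) (B : Set X) (h : X → ℝ≥0∞) (y : F) : ℝ≥0∞ :=
  ∑' x : X, (B ∩ p ⁻¹' {y}).indicator h x

/-- approximate number of preimages at mesh `1/(k+1)`. -/
def cN [Nonempty X] (p : X → F) (B : Set X) (k : ℕ) (y : F) : ℝ≥0∞ :=
  ∑' j : ℕ, (p '' (B ∩ cell k j)).indicator (fun _ => (1 : ℝ≥0∞)) y

theorem cN_le [Nonempty X] (p : X → F) (B : Set X) (k : ℕ) (y : F) :
    cN p B k y ≤ wN p B (fun _ => 1) y := by
  classical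
  let J : Set ℕ := {j | y ∈ p '' (B ∩ cell k j)}
  have h1 : cN p B k y = ∑' j : J, (1 : ℝ≥0∞) := by
    rw [tsum_subtype J (fun _ => (1 : ℝ≥0∞))]
    unfold cN
    congr 1
  choose! x hx using fun (j : ℕ) (hj : j ∈ J) => hj
  have hinj : Function.Injective fun j : J => x j := by
    intro i j hij
    have hi := (hx i i.2).1.2
    have hj := (hx j j.2).1.2
    simp only at hij
    rw [hij] at hi
    by_contra hne
    have := cell_disjoint (X := X) k (fun h => hne (Subtype.ext h) : (i : ℕ) ≠ j)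
    exact Set.disjoint_left.1 this hi hj
  rw [h1]
  calc ∑' j : J, (1 : ℝ≥0∞) = ∑' j : J, (B ∩ p ⁻¹' {y}).indicator (fun _ => 1) (x j) := by
        congr 1
        ext j
        rw [indicator_of_mem]
        exact ⟨(hx j j.2).1.1, (hx j j.2).2⟩
    _ ≤ ∑' z : X, (B ∩ p ⁻¹' {y}).indicator (fun _ => 1) z :=
        ENNReal.tsum_comp_le_tsum_of_injective hinj _

theorem wN_le_liminf [Nonempty X] (p : X → F) (B : Set X) (y : F) :
    wN p B (fun _ => 1) y ≤ liminf (fun k => cN p B k y) atTop := by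
  classical
  unfold wN
  rw [ENNReal.tsum_eq_iSup_sum]
  refine iSup_le fun s => ?_
  have h1 : ∑ a ∈ s, (B ∩ p ⁻¹' {y}).indicator (fun _ => (1 : ℝ≥0∞)) a
      = ((s.filter fun a => a ∈ B ∩ p ⁻¹' {y}).card : ℝ≥0∞) := by
    simp only [indicator_apply]
    rw [Finset.sum_ite]
    simp
  rw [h1]
  set t := s.filter fun a => a ∈ B ∩ p ⁻¹' {y} with ht
  -- separation of the finitely many points
  obtain ⟨δ, δpos, hδ⟩ : ∃ δ > 0, ∀ a ∈ t, ∀ b ∈ t, a ≠ b → δ ≤ dist a b := by
    rcases t.offDiag.eq_empty_or_nonempty with he | hne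
    · refine ⟨1, one_pos, fun a ha b hb hab => ?_⟩
      have : (a, b) ∈ t.offDiag := Finset.mem_offDiag.2 ⟨ha, hb, hab⟩
      rw [he] at this
      exact absurd this (Finset.notMem_empty _)
    · obtain ⟨q, hq, hmin⟩ := t.offDiag.exists_min_image (fun q => dist q.1 q.2) hne
      refine ⟨dist q.1 q.2, dist_pos.2 (Finset.mem_offDiag.1 hq).2.2, fun a ha b hb hab => ?_⟩
      exact hmin (a, b) (Finset.mem_offDiag.2 ⟨ha, hb, hab⟩)
  refine le_liminf_of_le (by isBoundedDefault) ?_
  obtain ⟨k0, hk0⟩ := exists_nat_gt (2 / δ)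
  filter_upwards [eventually_ge_atTop k0] with k hk
  choose c hc using fun x : X => exists_cell k x
  have hinj : InjOn c (t : Set X) := by
    intro a ha b hb hab
    by_contra hne
    have h2 := hδ a ha b hb hne
    have h3 : dist a b ≤ 2 / ((k : ℝ) + 1) := dist_le_of_cell (hc a) (by rw [hab]; exact hc b)
    have h4 : 2 / ((k : ℝ) + 1) < δ := by
      rw [div_lt_iff₀ (by positivity)]
      rw [div_lt_iff₀ δpos] at hk0
      have : (k0 : ℝ) ≤ k := by exact_mod_cast hk
      nlinarith
    linarith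
  calc (t.card : ℝ≥0∞) = ((t.image c).card : ℝ≥0∞) := by
        rw [Finset.card_image_of_injOn hinj]
    _ = ∑ j ∈ t.image c, (p '' (B ∩ cell k j)).indicator (fun _ => (1 : ℝ≥0∞)) y := by
        rw [Finset.sum_congr rfl (g := fun _ => (1 : ℝ≥0∞))]
        · simp
        · intro j hj
          obtain ⟨a, ha, rfl⟩ := Finset.mem_image.1 hj
          rw [indicator_of_mem]
          have ha' := (Finset.mem_filter.1 ha).2
          exact ⟨a, ⟨ha'.1, hc a⟩, ha'.2⟩
    _ ≤ _ := ENNReal.sum_le_tsum _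

theorem wN_eq_liminf [Nonempty X] (p : X → F) (B : Set X) (y : F) :
    wN p B (fun _ => 1) y = liminf (fun k => cN p B k y) atTop := by
  refine le_antisymm (wN_le_liminf p B y) ?_
  calc liminf (fun k => cN p B k y) atTop ≤ liminf (fun _ : ℕ => wN p B (fun _ => 1) y) atTop :=
        liminf_le_liminf (Eventually.of_forall fun k => cN_le p B k y)
    _ = _ := liminf_const _

section meas
variable [MeasurableSpace X] [BorelSpace X] [MeasurableSpace F] [BorelSpace F]

theorem measurable_cN [Nonempty X] {p : X → F} (hp : Continuous p) {B : Set X}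
    (hB : IsSigmaCompact B) (k : ℕ) : Measurable (cN p B k) := by
  refine Measurable.tsum fun j => ?_
  refine measurable_const.indicator ?_
  exact IsSigmaCompact.measurableSet' ((sigmaCompact_inter_cell hB k j).image hp)

theorem measurable_wN_one {p : X → F} (hp : Continuous p) {B : Set X}
    (hB : IsSigmaCompact B) : Measurable (wN p B fun _ => 1) := by
  rcases isEmpty_or_nonempty X with hX | hX
  · have : (wN p B fun _ => 1) = fun _ => 0 := by
      ext y; simp [wN]
    rw [this]; exact measurable_const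
  have : (wN p B fun _ => 1) = fun y => liminf (fun k => cN p B k y) atTop := by
    ext y; exact wN_eq_liminf p B y
  rw [this]
  exact Measurable.liminf fun k => measurable_cN hp hB k

end meas

section eil
variable {F : Type*} [NormedAddCommGroup F] [InnerProductSpace ℝ F] [FiniteDimensional ℝ F]
  [MeasurableSpace F] [BorelSpace F] [MeasurableSpace X] [BorelSpace X]

/-- **Eilenberg inequality** for sets. -/
theorem eilenberg {p : X → F} (hp : LipschitzWith 1 p) {B : Set X} (hB : IsSigmaCompact B) :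
    ∫⁻ y, wN p B (fun _ => 1) y ≤ μHE[finrank ℝ F] B := by
  rcases isEmpty_or_nonempty X with hX | hX
  · have : (wN p B fun _ => 1) = fun _ => 0 := by
      ext y; simp [wN]
    rw [this]; simp
  have hBm : MeasurableSet B := IsSigmaCompact.measurableSet' hB
  have key : ∀ k, ∫⁻ y, cN p B k y ≤ μHE[finrank ℝ F] B := by
    intro k
    have hm : ∀ j, MeasurableSet (p '' (B ∩ cell k j)) := fun j =>
      IsSigmaCompact.measurableSet' ((sigmaCompact_inter_cell hB k j).image hp.continuous)
    calc ∫⁻ y, cN p B k y = ∑' j, volume (p '' (B ∩ cell k j)) := by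
          unfold cN
          rw [lintegral_tsum fun j => (measurable_const.indicator (hm j)).aemeasurable]
          congr 1
          ext j
          rw [lintegral_indicator (hm j), setLIntegral_const, one_mul]
      _ ≤ ∑' j, μHE[finrank ℝ F] (B ∩ cell k j) := by
          refine ENNReal.tsum_le_tsum fun j => ?_
          rw [← InnerProductSpace.euclideanHausdorffMeasure_eq_volume]
          simpa using AF.muHE_image_le (hp.lipschitzOnWith (s := B ∩ cell k j)) (finrank ℝ F)
      _ = μHE[finrank ℝ F] (⋃ j, B ∩ cell k j) := by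
          rw [measure_iUnion]
          · exact pairwise_disjoint_mono (cell_disjoint k) fun j => inter_subset_right
          · exact fun j => hBm.inter (measurableSet_cell k j)
      _ = μHE[finrank ℝ F] B := by
          rw [← inter_iUnion, iUnion_cell, inter_univ]
  calc ∫⁻ y, wN p B (fun _ => 1) y = ∫⁻ y, liminf (fun k => cN p B k y) atTop := by
        simp_rw [wN_eq_liminf]
    _ ≤ liminf (fun k => ∫⁻ y, cN p B k y) atTop :=
        lintegral_liminf_le fun k => measurable_cN hp.continuous hB k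
    _ ≤ liminf (fun _ : ℕ => μHE[finrank ℝ F] B) atTop :=
        liminf_le_liminf (Eventually.of_forall key)
    _ = _ := liminf_const _

/-- dyadic lower approximation of a weight. -/
def dy (h : X → ℝ) (k : ℕ) (x : X) : ℝ≥0∞ :=
  ∑' j : ℕ, ENNReal.ofReal ((1 / 2) ^ k) *
    {x | ((j : ℝ) + 1) * (1 / 2) ^ k < h x}.indicator (fun _ => (1 : ℝ≥0∞)) x

omit [SeparableSpace X] [MeasurableSpace X] [BorelSpace X] in
theorem dy_eq (h : X → ℝ) (k : ℕ) (x : X) :
    dy h k x = ENNReal.ofReal ((1 / 2) ^ k) * (⌈2 ^ k * h x - 1⌉₊ : ℕ) := by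
  unfold dy
  rw [ENNReal.tsum_mul_left]
  congr 1
  have h1 : ∀ j : ℕ, x ∈ {x | ((j : ℝ) + 1) * (1 / 2) ^ k < h x} ↔ j < ⌈2 ^ k * h x - 1⌉₊ := by
    intro j
    rw [Nat.lt_ceil, mem_setOf_eq, lt_sub_iff_add_lt, one_div, inv_pow, ← div_eq_mul_inv,
      div_lt_iff₀ (by positivity), mul_comm (h x)]
  have h2 : ∀ j : ℕ, {x | ((j : ℝ) + 1) * (1 / 2) ^ k < h x}.indicator (fun _ => (1 : ℝ≥0∞)) x
      = if j < ⌈2 ^ k * h x - 1⌉₊ then 1 else 0 := by
    intro j
    rw [indicator_apply]
    simp only [h1 j]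
  simp_rw [h2]
  rw [tsum_eq_sum (s := Finset.range ⌈2 ^ k * h x - 1⌉₊)]
  · rw [Finset.sum_congr rfl (g := fun _ => (1 : ℝ≥0∞))]
    · simp
    · intro j hj
      rw [if_pos (Finset.mem_range.1 hj)]
  · intro j hj
    rw [if_neg (fun h => hj (Finset.mem_range.2 h))]

omit [SeparableSpace X] [MeasurableSpace X] [BorelSpace X] in
theorem dy_eq_ofReal (h : X → ℝ) (k : ℕ) (x : X) :
    dy h k x = ENNReal.ofReal ((1 / 2) ^ k * (⌈2 ^ k * h x - 1⌉₊ : ℕ)) := by
  rw [dy_eq, ENNReal.ofReal_mul (by positivity), ENNReal.ofReal_natCast]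

omit [SeparableSpace X] [MeasurableSpace X] [BorelSpace X] in
theorem dy_le (h : X → ℝ) (k : ℕ) (x : X) : dy h k x ≤ ENNReal.ofReal (h x) := by
  rw [dy_eq_ofReal]
  rcases le_or_gt (2 ^ k * h x - 1) 0 with h0 | h0
  · rw [Nat.ceil_eq_zero.2 h0]; simp
  apply ENNReal.ofReal_le_ofReal
  have h1 := (Nat.ceil_lt_add_one h0.le).le
  have h2 : (⌈2 ^ k * h x - 1⌉₊ : ℝ) ≤ 2 ^ k * h x := by linarith
  calc (1 / 2 : ℝ) ^ k * (⌈2 ^ k * h x - 1⌉₊ : ℕ) ≤ (1 / 2) ^ k * (2 ^ k * h x) := by gcongr
    _ = h x := by rw [← mul_assoc, ← mul_pow]; norm_num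

omit [SeparableSpace X] [MeasurableSpace X] [BorelSpace X] in
theorem tendsto_dy (h : X → ℝ) (x : X) :
    Tendsto (fun k => dy h k x) atTop (𝓝 (ENNReal.ofReal (h x))) := by
  have h1 : Tendsto (fun k : ℕ => ENNReal.ofReal (h x - (1 / 2) ^ k)) atTop
      (𝓝 (ENNReal.ofReal (h x))) := by
    apply ENNReal.tendsto_ofReal
    have : Tendsto (fun k : ℕ => h x - (1 / 2 : ℝ) ^ k) atTop (𝓝 (h x - 0)) :=
      tendsto_const_nhds.sub (tendsto_pow_atTop_nhds_zero_of_lt_one (by norm_num) (by norm_num))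
    simpa using this
  refine tendsto_of_tendsto_of_tendsto_of_le_of_le h1 tendsto_const_nhds ?_
    (fun k => dy_le h k x)
  intro k
  simp only
  rw [dy_eq_ofReal]
  apply ENNReal.ofReal_le_ofReal
  have h2 := Nat.le_ceil (2 ^ k * h x - 1)
  calc h x - (1 / 2) ^ k = (1 / 2) ^ k * (2 ^ k * h x - 1) := by
        rw [mul_sub, ← mul_assoc, ← mul_pow]; norm_num
    _ ≤ _ := by gcongr

omit [SeparableSpace X] [MeasurableSpace X] [BorelSpace X] in
theorem wN_le_liminf_dy {Y : Type*} (p : X → Y) (B : Set X) (h : X → ℝ) (y : Y) :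
    ∑' x : X, (B ∩ p ⁻¹' {y}).indicator (fun x => ENNReal.ofReal (h x)) x ≤
      liminf (fun k => ∑' x : X, (B ∩ p ⁻¹' {y}).indicator (dy h k) x) atTop := by
  classical
  rw [ENNReal.tsum_eq_iSup_sum]
  refine iSup_le fun s => ?_
  have hT : Tendsto (fun k => ∑ a ∈ s, (B ∩ p ⁻¹' {y}).indicator (dy h k) a) atTop
      (𝓝 (∑ a ∈ s, (B ∩ p ⁻¹' {y}).indicator (fun x => ENNReal.ofReal (h x)) a)) := by
    refine tendsto_finset_sum _ fun a _ => ?_
    by_cases ha : a ∈ B ∩ p ⁻¹' {y}
    · simp only [indicator_of_mem ha]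
      exact tendsto_dy h a
    · simp only [indicator_of_notMem ha]
      exact tendsto_const_nhds
  rw [← hT.liminf_eq]
  exact liminf_le_liminf (Eventually.of_forall fun k => ENNReal.sum_le_tsum _)

/-- the sum over `j` for the dyadic weight. -/
theorem wN_dy {Y : Type*} (p : X → Y) (B : Set X) (h : X → ℝ) (k : ℕ) (y : Y) :
    ∑' x : X, (B ∩ p ⁻¹' {y}).indicator (dy h k) x =
      ∑' j : ℕ, ENNReal.ofReal ((1 / 2) ^ k) *
        ∑' x : X, ((B ∩ {x | ((j : ℝ) + 1) * (1 / 2) ^ k < h x}) ∩ p ⁻¹' {y}).indicator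
          (fun _ => (1 : ℝ≥0∞)) x := by
  have h1 : ∀ x, (B ∩ p ⁻¹' {y}).indicator (dy h k) x =
      ∑' j : ℕ, ENNReal.ofReal ((1 / 2) ^ k) *
        ((B ∩ {x | ((j : ℝ) + 1) * (1 / 2) ^ k < h x}) ∩ p ⁻¹' {y}).indicator
          (fun _ => (1 : ℝ≥0∞)) x := by
    intro x
    by_cases hx : x ∈ B ∩ p ⁻¹' {y}
    · rw [indicator_of_mem hx]
      unfold dy
      congr 1
      ext j
      congr 1
      by_cases hj : x ∈ {x | ((j : ℝ) + 1) * (1 / 2) ^ k < h x}
      · rw [indicator_of_mem hj, indicator_of_mem]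
        exact ⟨⟨hx.1, hj⟩, hx.2⟩
      · rw [indicator_of_notMem hj, indicator_of_notMem]
        exact fun hc => hj hc.1.2
    · rw [indicator_of_notMem hx]
      symm
      rw [ENNReal.tsum_eq_zero]
      intro j
      rw [indicator_of_notMem, mul_zero]
      exact fun hc => hx ⟨hc.1.1, hc.2⟩
  simp_rw [h1]
  rw [ENNReal.tsum_comm]
  congr 1
  ext j
  rw [ENNReal.tsum_mul_left]

/-- **Eilenberg inequality**, weighted. -/
theorem eilenberg_weighted {p : X → F} (hp : LipschitzWith 1 p) {B : Set X}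
    (hB : IsSigmaCompact B) {h : X → ℝ} (hh : Continuous h) :
    ∫⁻ y, wN p B (fun x => ENNReal.ofReal (h x)) y ≤
      ∫⁻ x in B, ENNReal.ofReal (h x) ∂μHE[finrank ℝ F] := by
  have hBm : MeasurableSet B := IsSigmaCompact.measurableSet' hB
  have hO : ∀ (k j : ℕ), IsOpen {x | ((j : ℝ) + 1) * (1 / 2) ^ k < h x} := fun k j =>
    isOpen_lt continuous_const hh
  have hm : ∀ k, Measurable fun y => wN p B (dy h k) y := by
    intro k
    have : (fun y => wN p B (dy h k) y) = fun y => ∑' j : ℕ, ENNReal.ofReal ((1 / 2) ^ k) *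
        wN p (B ∩ {x | ((j : ℝ) + 1) * (1 / 2) ^ k < h x}) (fun _ => 1) y := by
      ext y; exact wN_dy p B h k y
    rw [this]
    refine Measurable.tsum fun j => Measurable.const_mul ?_ _
    exact measurable_wN_one hp.continuous (sigmaCompact_inter_open hB (hO k j))
  have key : ∀ k, ∫⁻ y, wN p B (dy h k) y ≤ ∫⁻ x in B, ENNReal.ofReal (h x) ∂μHE[finrank ℝ F] := by
    intro k
    calc ∫⁻ y, wN p B (dy h k) y = ∫⁻ y, ∑' j : ℕ, ENNReal.ofReal ((1 / 2) ^ k) *
          wN p (B ∩ {x | ((j : ℝ) + 1) * (1 / 2) ^ k < h x}) (fun _ => 1) y := by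
          congr 1
          ext y; exact wN_dy p B h k y
      _ = ∑' j : ℕ, ENNReal.ofReal ((1 / 2) ^ k) *
          ∫⁻ y, wN p (B ∩ {x | ((j : ℝ) + 1) * (1 / 2) ^ k < h x}) (fun _ => 1) y := by
          rw [lintegral_tsum]
          · congr 1
            ext j
            rw [lintegral_const_mul]
            exact measurable_wN_one hp.continuous (sigmaCompact_inter_open hB (hO k j))
          · intro j
            exact ((measurable_wN_one hp.continuous
              (sigmaCompact_inter_open hB (hO k j))).const_mul _).aemeasurable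
      _ ≤ ∑' j : ℕ, ENNReal.ofReal ((1 / 2) ^ k) *
          μHE[finrank ℝ F] (B ∩ {x | ((j : ℝ) + 1) * (1 / 2) ^ k < h x}) := by
          refine ENNReal.tsum_le_tsum fun j => ?_
          gcongr
          exact eilenberg hp (sigmaCompact_inter_open hB (hO k j))
      _ = ∫⁻ x in B, dy h k x ∂μHE[finrank ℝ F] := by
          unfold dy
          rw [lintegral_tsum]
          · congr 1
            ext j
            rw [lintegral_const_mul' _ _ ENNReal.ofReal_ne_top,
              lintegral_indicator (hO k j).measurableSet, lintegral_const, one_mul,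
              Measure.restrict_apply_univ, Measure.restrict_apply (hO k j).measurableSet,
              inter_comm]
          · intro j
            exact ((measurable_const.indicator (hO k j).measurableSet).const_mul _).aemeasurable
      _ ≤ _ := lintegral_mono fun x => dy_le h k x
  calc ∫⁻ y, wN p B (fun x => ENNReal.ofReal (h x)) y
      ≤ ∫⁻ y, liminf (fun k => wN p B (dy h k) y) atTop :=
        lintegral_mono fun y => wN_le_liminf_dy p B h y
    _ ≤ liminf (fun k => ∫⁻ y, wN p B (dy h k) y) atTop := lintegral_liminf_le hm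
    _ ≤ liminf (fun _ : ℕ => ∫⁻ x in B, ENNReal.ofReal (h x) ∂μHE[finrank ℝ F]) atTop :=
        liminf_le_liminf (Eventually.of_forall key)
    _ = _ := liminf_const _

end eil

end Crest.Agent.R241.E1
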