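import Mathlib
import Crest.Agent.R241.E1a

/-! Row 241, block E1 (helper777), part b: one-dimensional lemma and the directional perimeter
bound `|∫_Ω ∂_v η| ≤ ∫_{∂Ω} |η| dμHE[n]`. -/

set_option autoImplicit false
set_option linter.unusedSectionVars false
open MeasureTheory MeasureTheory.Measure Metric Filter Set Module TopologicalSpace
open scoped NNReal ENNReal Topology

noncomputable section

namespace Crest.Agent.R241.E1

/-- one-dimensional lemma: `w` is locally constant off the finite set `B` and has oscillation at
most one. -/
theorem oneD {η : ℝ → ℝ} (hη : ContDiff ℝ 1 η) (hc : HasCompactSupport η) (B : Finset ℝ) :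
    ∀ w : ℝ → ℝ, Measurable w → (∀ x y, |w x - w y| ≤ 1) →
      (∀ x y, x ≤ y → (∀ b ∈ B, b < x ∨ y < b) → w x = w y) →
      |∫ t, w t * deriv η t| ≤ ∑ b ∈ B, |η b| := by
  have hdc : Continuous (deriv η) := hη.continuous_deriv le_rfl
  have hds : HasCompactSupport (deriv η) := hc.deriv
  have hdi : Integrable (deriv η) := hdc.integrable_of_hasCompactSupport hds
  have hwi : ∀ w : ℝ → ℝ, Measurable w → (∀ x y, |w x - w y| ≤ 1) →
      Integrable fun t => w t * deriv η t := by
    intro w hw hb
    refine hdi.bdd_mul (c := |w 0| + 1) hw.aestronglyMeasurable (Eventually.of_forall fun t => ?_)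
    rw [Real.norm_eq_abs]
    have h1 := hb t 0
    have h2 := abs_sub_abs_le_abs_sub (w t) (w 0)
    linarith
  induction B using Finset.induction_on_max with
  | empty =>
    intro w hw hb hl
    have hconst : ∀ t, w t = w 0 := by
      intro t
      rcases le_total t 0 with h | h
      · exact hl t 0 h (by simp)
      · exact (hl 0 t h (by simp)).symm
    have : ∫ t, w t * deriv η t = 0 := by
      simp_rw [hconst]
      rw [integral_const_mul]
      have h1 : ∫ t, deriv η t = 0 := by
        have e1 := hc.integral_Ioi_deriv_eq hη 0
        have e2 := hc.integral_Iic_deriv_eq hη 0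
        have e3 := intervalIntegral.integral_Iic_add_Ioi (b := (0 : ℝ)) hdi.integrableOn
          hdi.integrableOn
        rw [← e3, e1, e2]; ring
      rw [h1, mul_zero]
    rw [this]; simp
  | insert a s has ih =>
    intro w hw hb hl
    have ha : a ∉ s := fun h => lt_irrefl _ (has a h)
    -- a point between `s` and `a`
    obtain ⟨m, hm1, hm2⟩ : ∃ m < a, ∀ b ∈ s, b < m := by
      rcases s.eq_empty_or_nonempty with rfl | hne
      · exact ⟨a - 1, by linarith, by simp⟩
      · refine ⟨(s.max' hne + a) / 2, ?_, ?_⟩
        · have := has _ (s.max'_mem hne)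
          linarith
        · intro b hb
          have h1 := s.le_max' b hb
          have := has _ (s.max'_mem hne)
          linarith
    set cm := w m with hcm
    set cp := w (a + 1) with hcp
    let w' : ℝ → ℝ := fun t => if t < a then w t else cm
    have hw' : Measurable w' := Measurable.ite measurableSet_Iio hw measurable_const
    have hb' : ∀ x y, |w' x - w' y| ≤ 1 := by
      intro x y
      simp only [w']
      split_ifs
      · exact hb _ _
      · exact hb _ _
      · exact hb _ _
      · simp
    have hl' : ∀ x y, x ≤ y → (∀ b ∈ s, b < x ∨ y < b) → w' x = w' y := by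
      intro x y hxy hB
      simp only [w']
      split_ifs with h1 h2 h2
      · refine hl x y hxy fun b hb => ?_
        rcases Finset.mem_insert.1 hb with rfl | hb
        · exact Or.inr h2
        · exact hB b hb
      · -- x < a ≤ y : all of s is < x
        have hs : ∀ b ∈ s, b < x := by
          intro b hb
          rcases hB b hb with h | h
          · exact h
          · exact absurd (has b hb) (by linarith)
        rcases le_total x m with hxm | hxm
        · refine hl x m hxm fun b hb => ?_
          rcases Finset.mem_insert.1 hb with rfl | hb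
          · exact Or.inr hm1
          · exact Or.inl (hs b hb)
        · refine (hl m x hxm fun b hb => ?_).symm
          rcases Finset.mem_insert.1 hb with rfl | hb
          · exact Or.inr h1
          · exact Or.inl (hm2 b hb)
      · exact absurd h2 (by linarith)
      · rfl
    have hright : ∀ t, a < t → w t = cp := by
      intro t ht
      rcases le_total t (a + 1) with h | h
      · refine hl t (a + 1) h fun b hb => Or.inl ?_
        rcases Finset.mem_insert.1 hb with rfl | hb
        · exact ht
        · exact (has b hb).trans ht
      · refine (hl (a + 1) t h fun b hb => Or.inl ?_).symm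
        rcases Finset.mem_insert.1 hb with rfl | hb
        · linarith
        · have := has b hb; linarith
    have hsplit : ∫ t, w t * deriv η t = (∫ t, w' t * deriv η t) - (cp - cm) * η a := by
      have e1 : (fun t => w t * deriv η t) =ᵐ[volume]
          fun t => w' t * deriv η t + (Ioi a).indicator (fun t => (cp - cm) * deriv η t) t := by
        have : ∀ᵐ t : ℝ, t ≠ a := by
          simp [ae_iff, measure_singleton]
        filter_upwards [this] with t ht
        rcases lt_or_gt_of_ne ht with h | h
        · rw [indicator_of_notMem (by simp [h.le])]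
          simp only [w', if_pos h, add_zero]
        · rw [indicator_of_mem (by simpa using h)]
          simp only [w', if_neg (not_lt.2 h.le), hright t h]
          ring
      rw [integral_congr_ae e1, integral_add (hwi w' hw' hb')]
      · rw [integral_indicator measurableSet_Ioi, integral_const_mul,
          hc.integral_Ioi_deriv_eq hη a]
        ring
      · exact (hdi.const_mul _).indicator measurableSet_Ioi
    rw [hsplit, Finset.sum_insert ha]
    have e2 := ih w' hw' hb' hl'
    have e3 : |(cp - cm) * η a| ≤ |η a| := by
      rw [abs_mul]
      have := hb (a + 1) m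
      exact mul_le_of_le_one_left (abs_nonneg _) this
    calc |(∫ t, w' t * deriv η t) - (cp - cm) * η a|
        ≤ |∫ t, w' t * deriv η t| + |(cp - cm) * η a| := abs_sub _ _
      _ ≤ _ := by linarith

/-- points of a segment not meeting the frontier of an open set are on the same side. -/
theorem side_eq {G : Set ℝ} (hG : IsOpen G) {x y : ℝ} (hxy : x ≤ y)
    (h : ∀ t ∈ Icc x y, t ∉ frontier G) : x ∈ G ↔ y ∈ G := by
  have hd : Disjoint (frontier G) (Icc x y) := by
    rw [Set.disjoint_left]
    exact fun t ht1 ht2 => h t ht2 ht1
  have hcl := isClopen_preimage_val hG hd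
  have : PreconnectedSpace (Icc x y) := isPreconnected_iff_preconnectedSpace.1 isPreconnected_Icc
  rcases isClopen_iff.1 hcl with h1 | h1
  · constructor
    · intro hx
      have : (⟨x, left_mem_Icc.2 hxy⟩ : Icc x y) ∈ (Subtype.val ⁻¹' G : Set (Icc x y)) := hx
      rw [h1] at this
      exact absurd this (notMem_empty _)
    · intro hy
      have : (⟨y, right_mem_Icc.2 hxy⟩ : Icc x y) ∈ (Subtype.val ⁻¹' G : Set (Icc x y)) := hy
      rw [h1] at this
      exact absurd this (notMem_empty _)
  · constructor
    · intro _
      have : (⟨y, right_mem_Icc.2 hxy⟩ : Icc x y) ∈ (Subtype.val ⁻¹' G : Set (Icc x y)) := by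
        rw [h1]; exact mem_univ _
      exact this
    · intro _
      have : (⟨x, left_mem_Icc.2 hxy⟩ : Icc x y) ∈ (Subtype.val ⁻¹' G : Set (Icc x y)) := by
        rw [h1]; exact mem_univ _
      exact this

/-- one-dimensional perimeter bound for an open set with finitely many boundary points in
`[-R, R]`, where `η` is supported. -/
theorem oneD_open {η : ℝ → ℝ} (hη : ContDiff ℝ 1 η) {R : ℝ} (hR : 0 ≤ R)
    (hsupp : ∀ t, t ∉ Icc (-R) R → η t = 0) {G : Set ℝ} (hG : IsOpen G) (B : Finset ℝ)
    (hB : ∀ t ∈ frontier G, t ∈ Icc (-R) R → t ∈ B) :
    |∫ t in G, deriv η t| ≤ ∑ b ∈ B, |η b| := by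
  classical
  have hc : HasCompactSupport η :=
    HasCompactSupport.of_support_subset_isCompact isCompact_Icc fun t ht => by
      by_contra h
      exact ht (hsupp t h)
  let c : ℝ → ℝ := fun t => max (-R) (min t R)
  have hcc : Continuous c := by fun_prop
  let w : ℝ → ℝ := fun t => G.indicator (fun _ => (1 : ℝ)) (c t)
  have hwm : Measurable w := (measurable_const.indicator hG.measurableSet).comp hcc.measurable
  have hws : ∀ t, w t = 0 ∨ w t = 1 := by
    intro t
    simp only [w, indicator_apply]
    split_ifs <;> simp
  have hcI : ∀ t, c t ∈ Icc (-R) R := fun t => ⟨le_max_left _ _, max_le (by linarith) (min_le_right _ _)⟩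
  have hcid : ∀ t ∈ Icc (-R) R, c t = t := by
    rintro t ⟨h1, h2⟩
    simp [c, min_eq_left h2, max_eq_right h1]
  have e1 : ∫ t in G, deriv η t = ∫ t, w t * deriv η t := by
    rw [← integral_indicator hG.measurableSet]
    congr 1
    ext t
    by_cases ht : t ∈ Icc (-R) R
    · simp only [w, hcid t ht]
      by_cases hg : t ∈ G
      · rw [indicator_of_mem hg, indicator_of_mem hg, one_mul]
      · rw [indicator_of_notMem hg, indicator_of_notMem hg, zero_mul]
    · have hd : deriv η t = 0 := by
        have hopen : IsOpen (Icc (-R) R)ᶜ := isClosed_Icc.isOpen_compl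
        have : η =ᶠ[𝓝 t] fun _ => 0 := by
          filter_upwards [hopen.mem_nhds ht] with s hs
          exact hsupp s hs
        rw [this.deriv_eq]; simp
      rw [hd, mul_zero, indicator_apply]
      split_ifs <;> simp [hd]
  rw [e1]
  refine oneD hη hc B w hwm ?_ ?_
  · intro x y
    rcases hws x with h | h <;> rcases hws y with h' | h' <;> rw [h, h'] <;> norm_num
  · intro x y hxy hb
    have hmono : c x ≤ c y := max_le_max le_rfl (min_le_min hxy le_rfl)
    rcases hmono.eq_or_lt with h | h
    · simp only [w, h]
    have hside : c x ∈ G ↔ c y ∈ G := by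
      refine side_eq hG hmono fun t ht hf => ?_
      have ht' : t ∈ Icc (-R) R := ⟨(hcI x).1.trans ht.1, ht.2.trans (hcI y).2⟩
      have hxR : x < R := by
        by_contra hge
        push Not at hge
        have : c x = R := by simp [c, min_eq_right hge]; linarith
        have h2 := (hcI y).2
        linarith
      have hyR : -R < y := by
        by_contra hge
        push Not at hge
        have : c y = -R := by
          simp only [c]
          rw [min_eq_left (by linarith), max_eq_left hge]
        have h2 := (hcI x).1
        linarith
      have h1 : x ≤ c x := by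
        simp only [c, min_eq_left hxR.le]; exact le_max_right _ _
      have h2 : c y ≤ y := by
        simp only [c]
        refine max_le hyR.le (min_le_left _ _)
      rcases hb t (hB t hf ht') with h3 | h3
      · linarith [ht.1]
      · linarith [ht.2]
    simp only [w, indicator_apply]
    by_cases hx : c x ∈ G
    · rw [if_pos hx, if_pos (hside.1 hx)]
    · rw [if_neg hx, if_neg (fun h => hx (hside.2 h))]

end Crest.Agent.R241.E1
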