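import Mathlib
import Crest.Agent.R241.E1b

/-! Row 241, block E1 (helper777), part c: the directional perimeter bound
`|∫_Ω ∂_v η| ≤ ∫_{∂Ω} |η| dμHE[n]` for open `Ω` in an `(n+1)`-dimensional Euclidean space, with
locally finite `μHE[n]` on the boundary. -/

set_option autoImplicit false
set_option linter.unusedSectionVars false
open MeasureTheory MeasureTheory.Measure Metric Filter Set Module TopologicalSpace
open scoped NNReal ENNReal Topology

noncomputable section

namespace Crest.Agent.R241.E1

variable {V : Type*} [NormedAddCommGroup V] [InnerProductSpace ℝ V] [FiniteDimensional ℝ V]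
  [MeasurableSpace V] [BorelSpace V]

/-- `(t, y) ↦ t v + y`, `y ⊥ v`. -/
def lineMap (v : V) (q : ℝ × ((ℝ ∙ v)ᗮ : Submodule ℝ V)) : V := q.1 • v + q.2

theorem measurePreserving_lineMap {v : V} (hv : ‖v‖ = 1) :
    MeasurePreserving (lineMap v) (volume.prod volume) volume := by
  have h1 := (LinearIsometryEquiv.toSpanUnitSingleton (𝕜 := ℝ) v hv).measurePreserving
  have h2 : MeasurePreserving (id : ((ℝ ∙ v)ᗮ : Submodule ℝ V) → _) volume volume :=
    MeasurePreserving.id _
  have h3 := h1.prod h2
  have h4 := WithLp.volume_preserving_toLp (ℝ ∙ v : Submodule ℝ V) ((ℝ ∙ v)ᗮ : Submodule ℝ V)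
  have h5 := ((ℝ ∙ v : Submodule ℝ V).orthogonalDecomposition.symm).measurePreserving
  have h6 := h5.comp (h4.comp h3)
  have h7 : lineMap v = (⇑(ℝ ∙ v : Submodule ℝ V).orthogonalDecomposition.symm ∘
      WithLp.toLp 2 ∘ Prod.map (⇑(LinearIsometryEquiv.toSpanUnitSingleton v hv)) id) := by
    funext q
    simp [lineMap, Submodule.orthogonalDecomposition_symm_apply]
  rw [h7]
  exact h6

theorem integral_lineMap {v : V} (hv : ‖v‖ = 1) {g : V → ℝ} (hg : Integrable g) :
    ∫ x, g x = ∫ y : ((ℝ ∙ v)ᗮ : Submodule ℝ V), ∫ t : ℝ, g (t • v + y) := by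
  have hm := measurePreserving_lineMap hv
  have hgi : Integrable (g ∘ lineMap v) (volume.prod volume) := hm.integrable_comp_of_integrable hg
  have h1 : ∫ x, g x = ∫ q, g (lineMap v q) ∂(volume.prod volume) := by
    rw [← hm.map_eq, integral_map hm.measurable.aemeasurable]
    rw [hm.map_eq]
    exact hg.aestronglyMeasurable
  rw [h1]
  exact integral_prod_symm _ hgi

/-- finiteness of a set from finiteness of the number of its points. -/
theorem finite_of_wN_ne_top {X Y : Type*} [MetricSpace X] [SeparableSpace X] [MetricSpace Y]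
    {p : X → Y} {B : Set X} {y : Y} (h : wN p B (fun _ => 1) y ≠ ∞) : (B ∩ p ⁻¹' {y}).Finite := by
  by_contra hinf
  have hinf' : Infinite (B ∩ p ⁻¹' {y} : Set X) := Set.infinite_coe_iff.2 hinf
  apply h
  unfold wN
  rw [← tsum_subtype (B ∩ p ⁻¹' {y}) (fun _ => (1 : ℝ≥0∞))]
  exact ENNReal.tsum_const_eq_top_of_ne_zero one_ne_zero

theorem line_inj {v : V} (hv : ‖v‖ = 1) (y : V) : Function.Injective fun t : ℝ => t • v + y := by
  intro s t h
  have h1 : s • v = t • v := by simpa using h
  have hv0 : v ≠ 0 := by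
    intro h0; rw [h0] at hv; simp at hv
  exact smul_left_injective ℝ hv0 h1

/-- the orthogonal projection onto `v^⊥`. -/
def prj (v : V) : V → ((ℝ ∙ v)ᗮ : Submodule ℝ V) := fun x =>
  ((ℝ ∙ v)ᗮ : Submodule ℝ V).orthogonalProjectionOnto x

theorem prj_line (v : V) (t : ℝ) (y : ((ℝ ∙ v)ᗮ : Submodule ℝ V)) :
    prj v (t • v + y) = y := by
  unfold prj
  rw [map_add, map_smul, Submodule.orthogonalProjectionOnto_mem_subspace_eq_self,
    Submodule.orthogonalProjectionOnto_orthogonalComplement_singleton_eq_zero]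
  simp

theorem lipschitz_prj (v : V) : LipschitzWith 1 (prj v) := by
  have h := (((ℝ ∙ v)ᗮ : Submodule ℝ V).orthogonalProjectionOnto).lipschitz
  refine h.weaken ?_
  exact_mod_cast Submodule.orthogonalProjectionOnto_norm_le ((ℝ ∙ v)ᗮ : Submodule ℝ V)

/-- **directional perimeter bound**. -/
theorem directional {n : ℕ} (hn : finrank ℝ V = n + 1) {v : V} (hv : ‖v‖ = 1) {Ω : Set V}
    (hΩ : IsOpen Ω) (hfin : ∀ R : ℝ, μHE[n] (frontier Ω ∩ closedBall 0 R) ≠ ∞)
    {η : V → ℝ} (hη : ContDiff ℝ 1 η) (hc : HasCompactSupport η) :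
    ENNReal.ofReal |∫ x in Ω, fderiv ℝ η x v| ≤
      ∫⁻ x in frontier Ω, ENNReal.ofReal |η x| ∂μHE[n] := by
  classical
  set F : Submodule ℝ V := (ℝ ∙ v)ᗮ with hF
  have hv0 : v ≠ 0 := by
    intro h0; rw [h0] at hv; simp at hv
  have hFn : finrank ℝ F = n := by
    have h1 := Submodule.finrank_add_finrank_orthogonal (ℝ ∙ v : Submodule ℝ V)
    rw [finrank_span_singleton hv0, hn, ← hF] at h1
    omega
  obtain ⟨R, hR⟩ : ∃ R : ℝ, 0 ≤ R ∧ ∀ x, R < ‖x‖ → η x = 0 := by
    obtain ⟨R, hR⟩ := hc.isBounded.subset_closedBall (0 : V)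
    refine ⟨max R 0, le_max_right _ _, fun x hx => ?_⟩
    by_contra hne
    have := hR (subset_tsupport η hne)
    rw [mem_closedBall_zero_iff] at this
    exact absurd hx (not_lt.2 (this.trans (le_max_left _ _)))
  obtain ⟨hR0, hR⟩ := hR
  have hcd : Continuous fun x => fderiv ℝ η x v :=
    (hη.continuous_fderiv one_ne_zero).clm_apply continuous_const
  have hcs : HasCompactSupport fun x => fderiv ℝ η x v := by
    refine (hc.fderiv (𝕜 := ℝ)).comp_left (g := fun A : V →L[ℝ] ℝ => A v) (by simp)
  have hint : Integrable (Ω.indicator fun x => fderiv ℝ η x v) :=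
    (hcd.integrable_of_hasCompactSupport hcs).indicator hΩ.measurableSet
  -- slices
  have hsl : ∀ y : F, ContDiff ℝ 1 fun t : ℝ => η (t • v + y) := fun y =>
    hη.comp (by fun_prop)
  have hder : ∀ (y : F) (t : ℝ), deriv (fun t : ℝ => η (t • v + y)) t
      = fderiv ℝ η (t • v + y) v := by
    intro y t
    have h1 : HasFDerivAt η (fderiv ℝ η (t • v + y)) (t • v + y) :=
      (hη.differentiable one_ne_zero _).hasFDerivAt
    have h2 : HasDerivAt (fun t : ℝ => t • v + (y : V)) v t := by
      simpa using ((hasDerivAt_id t).smul_const v).add_const (y : V)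
    exact (h1.comp_hasDerivAt t h2).deriv
  let G : F → Set ℝ := fun y => {t | t • v + (y : V) ∈ Ω}
  have hG : ∀ y, IsOpen (G y) := fun y => hΩ.preimage (by fun_prop)
  have e1 : ∫ x in Ω, fderiv ℝ η x v = ∫ y : F, ∫ t in G y, deriv (fun t : ℝ => η (t • v + y)) t := by
    rw [← integral_indicator hΩ.measurableSet, integral_lineMap hv hint]
    congr 1
    ext y
    rw [← integral_indicator (hG y).measurableSet]
    congr 1
    ext t
    by_cases ht : t ∈ G y
    · rw [indicator_of_mem ht, indicator_of_mem (show t • v + (y : V) ∈ Ω from ht), hder]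
    · rw [indicator_of_notMem ht, indicator_of_notMem (show t • v + (y : V) ∉ Ω from ht)]
  -- a.e. finiteness
  have hsc : ∀ r : ℝ, IsSigmaCompact (frontier Ω ∩ closedBall (0 : V) r) := fun r =>
    ((isCompact_closedBall (0 : V) r).inter_left isClosed_frontier).isSigmaCompact
  have hlip := lipschitz_prj v
  have hae : ∀ᵐ y : F, wN (prj v) (frontier Ω ∩ closedBall 0 (2 * R)) (fun _ => 1) y < ∞ := by
    refine ae_lt_top (measurable_wN_one hlip.continuous (hsc _)) ?_
    refine ne_top_of_le_ne_top (hfin (2 * R)) ?_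
    have := eilenberg (p := prj v) hlip (hsc (2 * R))
    rwa [hFn] at this
  have hbound : ∀ᵐ y : F, ‖∫ t in G y, deriv (fun t : ℝ => η (t • v + y)) t‖ₑ ≤
      wN (prj v) (frontier Ω) (fun x => ENNReal.ofReal |η x|) y := by
    filter_upwards [hae] with y hy
    rcases lt_or_ge R ‖y‖ with hRy | hRy
    · -- trivial slice
      have hz : (fun t : ℝ => η (t • v + y)) = fun _ => 0 := by
        funext t
        apply hR
        have h1 : ‖(y : V)‖ ≤ ‖t • v + (y : V)‖ := by
          have h2 := lipschitz_prj v |>.norm_sub_le (t • v + (y : V)) 0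
          rw [prj_line] at h2
          have h3 : prj v 0 = 0 := by simp [prj]
          rw [h3] at h2
          simpa using h2
        exact lt_of_lt_of_le hRy h1
      rw [hz]
      simp
    · have hfinset : (frontier Ω ∩ closedBall (0 : V) (2 * R) ∩ prj v ⁻¹' {y}).Finite :=
        finite_of_wN_ne_top hy.ne
      have hfin2 : {t : ℝ | t ∈ Icc (-R) R ∧ t • v + (y : V) ∈ frontier Ω}.Finite := by
        refine Set.Finite.of_finite_image (f := fun t : ℝ => t • v + (y : V)) ?_
          ((line_inj hv (y : V)).injOn)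
        refine hfinset.subset ?_
        rintro _ ⟨t, ⟨ht1, ht2⟩, rfl⟩
        refine ⟨⟨ht2, ?_⟩, prj_line v t y⟩
        rw [mem_closedBall_zero_iff]
        calc ‖t • v + (y : V)‖ ≤ ‖t • v‖ + ‖(y : V)‖ := norm_add_le _ _
          _ ≤ R + R := by
              gcongr
              · rw [norm_smul, hv, mul_one]
                exact abs_le.2 ht1
              · exact hRy
          _ = 2 * R := by ring
      have hone := oneD_open (hsl y) hR0 (R := R) (by
        intro t ht
        apply hR
        have h1 : |t| ≤ ‖t • v + (y : V)‖ := by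
          have h2 : inner ℝ v (t • v + (y : V)) = t := by
            rw [inner_add_right, inner_smul_right, real_inner_self_eq_norm_sq, hv]
            have h3 : inner ℝ v (y : V) = 0 :=
              Submodule.mem_orthogonal_singleton_iff_inner_right.1 y.2
            rw [h3]; ring
          calc |t| = |inner ℝ v (t • v + (y : V))| := by rw [h2]
            _ ≤ ‖v‖ * ‖t • v + (y : V)‖ := abs_real_inner_le_norm _ _
            _ = _ := by rw [hv, one_mul]
        refine lt_of_lt_of_le ?_ h1
        by_contra hle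
        exact ht (abs_le.1 (not_lt.1 hle))) (hG y) hfin2.toFinset (by
          intro t ht1 ht2
          rw [Set.Finite.mem_toFinset]
          refine ⟨ht2, ?_⟩
          have hcont : Continuous fun t : ℝ => t • v + (y : V) := by fun_prop
          exact hcont.frontier_preimage_subset Ω ht1)
      rw [Real.enorm_eq_ofReal_abs]
      refine (ENNReal.ofReal_le_ofReal hone).trans ?_
      rw [ENNReal.ofReal_sum_of_nonneg fun _ _ => abs_nonneg _]
      unfold wN
      calc ∑ t ∈ hfin2.toFinset, ENNReal.ofReal |η (t • v + (y : V))|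
          = ∑ t ∈ hfin2.toFinset, (frontier Ω ∩ prj v ⁻¹' {y}).indicator
              (fun x => ENNReal.ofReal |η x|) (t • v + (y : V)) := by
            refine Finset.sum_congr rfl fun t ht => ?_
            rw [Set.Finite.mem_toFinset] at ht
            rw [indicator_of_mem]
            exact ⟨ht.2, prj_line v t y⟩
        _ = ∑ x ∈ hfin2.toFinset.image (fun t : ℝ => t • v + (y : V)),
              (frontier Ω ∩ prj v ⁻¹' {y}).indicator (fun x => ENNReal.ofReal |η x|) x := by
            rw [Finset.sum_image fun a _ b _ h => line_inj hv (y : V) h]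
        _ ≤ _ := ENNReal.sum_le_tsum _
  have hscf : IsSigmaCompact (frontier Ω) := by
    have h1 : frontier Ω = ⋃ k : ℕ, frontier Ω ∩ closedBall (0 : V) k := by
      rw [← inter_iUnion, iUnion_closedBall_nat, inter_univ]
    rw [h1]
    exact isSigmaCompact_iUnion _ fun k => hsc k
  calc ENNReal.ofReal |∫ x in Ω, fderiv ℝ η x v|
      = ‖∫ y : F, ∫ t in G y, deriv (fun t : ℝ => η (t • v + y)) t‖ₑ := by
        rw [e1, Real.enorm_eq_ofReal_abs]
    _ ≤ ∫⁻ y : F, ‖∫ t in G y, deriv (fun t : ℝ => η (t • v + y)) t‖ₑ :=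
        enorm_integral_le_lintegral_enorm _
    _ ≤ ∫⁻ y : F, wN (prj v) (frontier Ω) (fun x => ENNReal.ofReal |η x|) y :=
        lintegral_mono_ae hbound
    _ ≤ ∫⁻ x in frontier Ω, ENNReal.ofReal |η x| ∂μHE[finrank ℝ F] :=
        eilenberg_weighted hlip hscf (hη.continuous.abs)
    _ = _ := by rw [hFn]

end Crest.Agent.R241.E1
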