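import Mathlib
import Crest.Prelude.Def_MetricCurrent

/-!
R241, block G1a: basic calculus of metric currents, part a.
Bounded Lipschitz functions, density in `L^p`, scaling, density representation.
-/

set_option autoImplicit false
set_option linter.unusedSectionVars false

open MeasureTheory Filter Topology
open scoped ENNReal NNReal

namespace Crest.Agent.R241.G1

open Crest.GeometryTopology.MetricCurrent

universe u

variable {X : Type u} [MetricSpace X]

/-- bounded Lipschitz real functions -/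
def BL (f : X → ℝ) : Prop := (∃ K : ℝ≥0, LipschitzWith K f) ∧ ∃ C : ℝ, ∀ x, |f x| ≤ C

/-- Lipschitz tuples -/
def LipT {k : ℕ} (π : Fin k → X → ℝ) : Prop := ∀ i, ∃ K : ℝ≥0, LipschitzWith K (π i)

theorem isTestPair_iff {k : ℕ} {f : X → ℝ} {π : Fin k → X → ℝ} :
    IsTestPair f π ↔ BL f ∧ LipT π := by
  unfold IsTestPair BL LipT
  tauto

theorem BL.isTestPair {k : ℕ} {f : X → ℝ} {π : Fin k → X → ℝ} (hf : BL f) (hπ : LipT π) :
    IsTestPair f π := isTestPair_iff.2 ⟨hf, hπ⟩

theorem BL.const (c : ℝ) : BL (fun _ : X => c) :=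
  ⟨⟨0, LipschitzWith.const c⟩, ⟨|c|, fun _ => le_rfl⟩⟩

theorem BL.one : BL (fun _ : X => (1 : ℝ)) := BL.const 1

theorem BL.zero : BL (0 : X → ℝ) := BL.const 0

theorem BL.add {f g : X → ℝ} (hf : BL f) (hg : BL g) : BL (f + g) := by
  obtain ⟨⟨K, hK⟩, C, hC⟩ := hf
  obtain ⟨⟨K', hK'⟩, C', hC'⟩ := hg
  exact ⟨⟨K + K', hK.add hK'⟩, C + C', fun x => (abs_add_le _ _).trans (add_le_add (hC x) (hC' x))⟩

theorem lipschitzWith_smul {f : X → ℝ} {K : ℝ≥0} (hf : LipschitzWith K f) (c : ℝ) :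
    LipschitzWith (Real.nnabs c * K) (c • f) := by
  apply LipschitzWith.of_dist_le_mul
  intro x y
  have h := hf.dist_le_mul x y
  simp only [Pi.smul_apply, smul_eq_mul, Real.dist_eq, NNReal.coe_mul, Real.coe_nnabs] at *
  rw [← mul_sub, abs_mul, mul_assoc]
  exact mul_le_mul_of_nonneg_left h (abs_nonneg c)

theorem BL.smul {f : X → ℝ} (hf : BL f) (c : ℝ) : BL (c • f) := by
  obtain ⟨⟨K, hK⟩, C, hC⟩ := hf
  refine ⟨⟨_, lipschitzWith_smul hK c⟩, |c| * C, fun x => ?_⟩
  simp only [Pi.smul_apply, smul_eq_mul, abs_mul]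
  exact mul_le_mul_of_nonneg_left (hC x) (abs_nonneg c)

theorem BL.neg {f : X → ℝ} (hf : BL f) : BL (-f) := by
  have := hf.smul (-1)
  simpa using this

theorem BL.sub {f g : X → ℝ} (hf : BL f) (hg : BL g) : BL (f - g) := by
  simpa [sub_eq_add_neg] using hf.add hg.neg

theorem BL.mul {f g : X → ℝ} (hf : BL f) (hg : BL g) : BL (f * g) := by
  obtain ⟨⟨K, hK⟩, C, hC⟩ := hf
  obtain ⟨⟨K', hK'⟩, C', hC'⟩ := hg
  have hC0 : ∀ x, |f x| ≤ (Real.toNNReal C : ℝ) := fun x =>
    (hC x).trans (Real.le_coe_toNNReal C)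
  have hC0' : ∀ x, |g x| ≤ (Real.toNNReal C' : ℝ) := fun x =>
    (hC' x).trans (Real.le_coe_toNNReal C')
  refine ⟨⟨Real.toNNReal C * K' + K * Real.toNNReal C', ?_⟩,
    (Real.toNNReal C : ℝ) * Real.toNNReal C', fun x => ?_⟩
  · apply LipschitzWith.of_dist_le_mul
    intro x y
    have h1 := hK.dist_le_mul x y
    have h2 := hK'.dist_le_mul x y
    simp only [Pi.mul_apply, Real.dist_eq, NNReal.coe_add, NNReal.coe_mul] at *
    have : f x * g x - f y * g y = f x * (g x - g y) + (f x - f y) * g y := by ring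
    rw [this]
    refine (abs_add_le _ _).trans ?_
    rw [abs_mul, abs_mul, add_mul]
    refine add_le_add ?_ ?_
    · calc |f x| * |g x - g y| ≤ (Real.toNNReal C : ℝ) * (K' * dist x y) :=
          mul_le_mul (hC0 x) h2 (abs_nonneg _) (NNReal.coe_nonneg _)
        _ = _ := by ring
    · calc |f x - f y| * |g y| ≤ (K * dist x y) * (Real.toNNReal C' : ℝ) :=
          mul_le_mul h1 (hC0' y) (abs_nonneg _) (by positivity)
        _ = _ := by ring
  · simp only [Pi.mul_apply, abs_mul]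
    exact mul_le_mul (hC0 x) (hC0' x) (abs_nonneg _) (NNReal.coe_nonneg _)

theorem BL.abs {f : X → ℝ} (hf : BL f) : BL (fun x => |f x|) := by
  obtain ⟨⟨K, hK⟩, C, hC⟩ := hf
  refine ⟨⟨K, ?_⟩, C, fun x => by simpa using hC x⟩
  apply LipschitzWith.of_dist_le_mul
  intro x y
  have h1 := hK.dist_le_mul x y
  simp only [Real.dist_eq] at *
  exact (abs_abs_sub_abs_le_abs_sub _ _).trans h1

theorem BL.continuous {f : X → ℝ} (hf : BL f) : Continuous f := by
  obtain ⟨⟨K, hK⟩, -⟩ := hf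
  exact hK.continuous

theorem BL.sum {ι : Type*} (s : Finset ι) {f : ι → X → ℝ} (hf : ∀ i ∈ s, BL (f i)) :
    BL (∑ i ∈ s, f i) := by
  classical
  induction s using Finset.induction_on with
  | empty => simpa using BL.zero
  | insert a s ha ih =>
    rw [Finset.sum_insert ha]
    exact (hf a (Finset.mem_insert_self _ _)).add
      (ih fun i hi => hf i (Finset.mem_insert_of_mem hi))

theorem BL.thickened {δ : ℝ} (hδ : 0 < δ) (E : Set X) :
    BL (fun x => ((thickenedIndicator hδ E x : ℝ≥0) : ℝ)) := by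
  refine ⟨⟨δ.toNNReal⁻¹, ?_⟩, 1, fun x => ?_⟩
  · apply LipschitzWith.of_dist_le_mul
    intro x y
    exact (lipschitzWith_thickenedIndicator hδ E).dist_le_mul x y
  · rw [abs_of_nonneg (NNReal.coe_nonneg _)]
    exact_mod_cast thickenedIndicator_le_one hδ E x

/-- clamping a bounded Lipschitz function -/
theorem BL.clamp {f : X → ℝ} (hf : BL f) {C : ℝ} (hC : 0 ≤ C) :
    BL (fun x => max (-C) (min C (f x))) := by
  obtain ⟨⟨K, hK⟩, -⟩ := hf
  refine ⟨⟨K, ?_⟩, C, fun x => ?_⟩
  · exact (hK.const_min C).const_max (-C)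
  · rw [abs_le]
    exact ⟨le_max_left _ _, max_le (by linarith) (min_le_left _ _)⟩

theorem abs_clamp_le {C t : ℝ} (hC : 0 ≤ C) : |max (-C) (min C t)| ≤ C := by
  rw [abs_le]
  exact ⟨le_max_left _ _, max_le (by linarith) (min_le_left _ _)⟩

theorem clamp_eq {C t : ℝ} (h : |t| ≤ C) : max (-C) (min C t) = t := by
  rw [abs_le] at h
  rw [min_eq_right h.2, max_eq_right h.1]

theorem abs_sub_clamp_le {C s t : ℝ} (hs : |s| ≤ C) :
    |s - max (-C) (min C t)| ≤ |s - t| := by
  have h1 : s = max (-C) (min C s) := (clamp_eq hs).symm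
  have h2 : |max (-C) (min C s) - max (-C) (min C t)| ≤ |s - t| := by
    have a1 := abs_max_sub_max_le_abs (min C s) (min C t) (-C)
    have a2 := abs_min_sub_min_le_max C s C t
    simp only [sub_self, abs_zero] at a2
    rw [max_eq_right (abs_nonneg _)] at a2
    rw [max_comm (-C) (min C s), max_comm (-C) (min C t)]
    exact a1.trans a2
  rw [← h1] at h2
  exact h2

section density

variable [MeasurableSpace X] [BorelSpace X]

theorem BL.measurable {f : X → ℝ} (hf : BL f) : Measurable f := hf.continuous.measurable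

theorem BL.integrable {f : X → ℝ} (hf : BL f) (μ : Measure X) [IsFiniteMeasure μ] :
    Integrable f μ := by
  obtain ⟨C, hC⟩ := hf.2
  exact Integrable.of_bound hf.measurable.aestronglyMeasurable C
    (Eventually.of_forall fun x => by simpa using hC x)

theorem BL.memLp {f : X → ℝ} (hf : BL f) (p : ℝ≥0∞) (μ : Measure X) [IsFiniteMeasure μ] :
    MemLp f p μ := by
  obtain ⟨C, hC⟩ := hf.2
  exact MemLp.of_bound hf.measurable.aestronglyMeasurable C
    (Eventually.of_forall fun x => by simpa using hC x)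

theorem exists_BL_indicator_closed (μ : Measure X) [IsFiniteMeasure μ] {p : ℝ≥0∞} (hp : p ≠ ∞)
    {F : Set X} (hF : IsClosed F) (c : ℝ) {ε : ℝ≥0∞} (hε : ε ≠ 0) :
    ∃ g : X → ℝ, BL g ∧ eLpNorm (g - F.indicator fun _ => c) p μ ≤ ε := by
  obtain ⟨η, η_pos, hη⟩ := exists_eLpNorm_indicator_le (μ := μ) hp c hε
  have ηpos : (0 : ℝ≥0∞) < η := ENNReal.coe_pos.2 η_pos
  have h1 : Tendsto (fun r => μ (Metric.thickening r F)) (𝓝[>] 0) (𝓝 (μ F)) :=
    tendsto_measure_thickening_of_isClosed ⟨1, one_pos, measure_ne_top _ _⟩ hF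
  have h2 : ∀ᶠ r in 𝓝[>] (0 : ℝ), μ (Metric.thickening r F) < μ F + η :=
    h1.eventually_lt_const (ENNReal.lt_add_right (measure_ne_top _ _) ηpos.ne')
  obtain ⟨δ, hδ1, hδ⟩ := (h2.and self_mem_nhdsWithin).exists
  have hδ : 0 < δ := hδ
  have h3 : μ (Metric.thickening δ F \ F) ≤ η := by
    rw [measure_sdiff (Metric.self_subset_thickening hδ F) hF.measurableSet.nullMeasurableSet
      (measure_ne_top _ _)]
    exact tsub_le_iff_left.2 hδ1.le
  refine ⟨c • fun x => ((thickenedIndicator hδ F x : ℝ≥0) : ℝ), (BL.thickened hδ F).smul c, ?_⟩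
  refine le_trans (eLpNorm_mono fun x => ?_) (hη _ h3)
  by_cases hx : x ∈ F
  · have e1 := thickenedIndicator_one hδ F hx
    simp only [Pi.sub_apply, Pi.smul_apply, e1, Set.indicator_of_mem hx]
    simp
  · by_cases hx2 : x ∈ Metric.thickening δ F
    · have : (thickenedIndicator hδ F x : ℝ) ≤ 1 := by
        exact_mod_cast thickenedIndicator_le_one hδ F x
      simp only [Pi.sub_apply, Pi.smul_apply, smul_eq_mul, Set.indicator_of_notMem hx, sub_zero,
        Set.indicator_of_mem (show x ∈ Metric.thickening δ F \ F from ⟨hx2, hx⟩),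
        Real.norm_eq_abs, abs_mul]
      rw [abs_of_nonneg (NNReal.coe_nonneg _)]
      exact mul_le_of_le_one_right (abs_nonneg c) this
    · have e1 := thickenedIndicator_zero hδ F hx2
      simp only [Pi.sub_apply, Pi.smul_apply, e1, Set.indicator_of_notMem hx]
      simp

theorem exists_BL_eLpNorm_sub_le (μ : Measure X) [IsFiniteMeasure μ] {p : ℝ≥0∞} (hp : p ≠ ∞)
    {f : X → ℝ} (hf : MemLp f p μ) {ε : ℝ≥0∞} (hε : ε ≠ 0) :
    ∃ g : X → ℝ, eLpNorm (f - g) p μ ≤ ε ∧ BL g := by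
  apply hf.induction_dense hp _ _ _ _ hε
  · intro c t ht htμ ε hε
    rcases exists_Lp_half ℝ μ p hε with ⟨δ, δpos, hδ⟩
    obtain ⟨η, ηpos, hη⟩ := exists_eLpNorm_indicator_le (μ := μ) hp c δpos.ne'
    have hη_pos' : (0 : ℝ≥0∞) < η := ENNReal.coe_pos.2 ηpos
    obtain ⟨s, st, s_closed, μs⟩ : ∃ s, s ⊆ t ∧ IsClosed s ∧ μ (t \ s) < η :=
      ht.exists_isClosed_sdiff_lt htμ.ne hη_pos'.ne'
    have I1 : eLpNorm ((s.indicator fun _y => c) - t.indicator fun _y => c) p μ ≤ δ := by
      rw [← eLpNorm_neg, neg_sub, ← Set.indicator_sdiff st]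
      exact hη _ μs.le
    obtain ⟨g, hg, I2⟩ := exists_BL_indicator_closed μ hp s_closed c δpos.ne'
    refine ⟨g, ?_, hg⟩
    have := (hδ _ _
          (hg.measurable.aestronglyMeasurable.sub
            (aestronglyMeasurable_const.indicator s_closed.measurableSet))
          ((aestronglyMeasurable_const.indicator s_closed.measurableSet).sub
            (aestronglyMeasurable_const.indicator ht))
          I2 I1).le
    simpa only [sub_add_sub_cancel] using this
  · exact fun f g hf hg => hf.add hg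
  · exact fun f hf => hf.measurable.aestronglyMeasurable

/-- bounded measurable functions -/
def BM (f : X → ℝ) : Prop := Measurable f ∧ ∃ C : ℝ, ∀ x, |f x| ≤ C

theorem BL.bm {f : X → ℝ} (hf : BL f) : BM f := ⟨hf.measurable, hf.2⟩

theorem BM.integrable {f : X → ℝ} (hf : BM f) (μ : Measure X) [IsFiniteMeasure μ] :
    Integrable f μ := by
  obtain ⟨C, hC⟩ := hf.2
  exact Integrable.of_bound hf.1.aestronglyMeasurable C
    (Eventually.of_forall fun x => by simpa using hC x)

theorem BM.add {f g : X → ℝ} (hf : BM f) (hg : BM g) : BM (f + g) := by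
  obtain ⟨C, hC⟩ := hf.2
  obtain ⟨C', hC'⟩ := hg.2
  exact ⟨hf.1.add hg.1, C + C', fun x => (abs_add_le _ _).trans (add_le_add (hC x) (hC' x))⟩

theorem BM.smul {f : X → ℝ} (hf : BM f) (c : ℝ) : BM (c • f) := by
  obtain ⟨C, hC⟩ := hf.2
  refine ⟨hf.1.const_smul c, |c| * C, fun x => ?_⟩
  simp only [Pi.smul_apply, smul_eq_mul, abs_mul]
  exact mul_le_mul_of_nonneg_left (hC x) (abs_nonneg c)

theorem BM.neg {f : X → ℝ} (hf : BM f) : BM (-f) := by
  have := hf.smul (-1)
  simpa using this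

theorem BM.sub {f g : X → ℝ} (hf : BM f) (hg : BM g) : BM (f - g) := by
  simpa [sub_eq_add_neg] using hf.add hg.neg

theorem BM.mul {f g : X → ℝ} (hf : BM f) (hg : BM g) : BM (f * g) := by
  obtain ⟨C, hC⟩ := hf.2
  obtain ⟨C', hC'⟩ := hg.2
  refine ⟨hf.1.mul hg.1, |C| * |C'|, fun x => ?_⟩
  simp only [Pi.mul_apply, abs_mul]
  exact mul_le_mul ((hC x).trans (le_abs_self C)) ((hC' x).trans (le_abs_self C'))
    (abs_nonneg _) (abs_nonneg _)

theorem BM.const (c : ℝ) : BM (fun _ : X => c) := ⟨measurable_const, |c|, fun _ => le_rfl⟩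

theorem BM.indicator {f : X → ℝ} (hf : BM f) {A : Set X} (hA : MeasurableSet A) :
    BM (A.indicator f) := by
  obtain ⟨C, hC⟩ := hf.2
  refine ⟨hf.1.indicator hA, |C|, fun x => ?_⟩
  by_cases hx : x ∈ A
  · simpa [hx] using (hC x).trans (le_abs_self C)
  · simp [hx]

theorem BM.abs {f : X → ℝ} (hf : BM f) : BM (fun x => |f x|) := by
  obtain ⟨C, hC⟩ := hf.2
  exact ⟨hf.1.abs, C, fun x => by simpa using hC x⟩

theorem BM.sum {ι : Type*} (s : Finset ι) {f : ι → X → ℝ} (hf : ∀ i ∈ s, BM (f i)) :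
    BM (∑ i ∈ s, f i) := by
  classical
  induction s using Finset.induction_on with
  | empty => exact BM.const (X := X) 0
  | insert a s ha ih =>
    rw [Finset.sum_insert ha]
    exact (hf a (Finset.mem_insert_self _ _)).add
      (ih fun i hi => hf i (Finset.mem_insert_of_mem hi))

/-- bounded measurable functions are `L¹`-limits of bounded Lipschitz functions with the same
bound -/
theorem exists_seq_BL (μ : Measure X) [IsFiniteMeasure μ] {f : X → ℝ} (hf : Measurable f) {C : ℝ}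
    (hC : ∀ x, |f x| ≤ C) :
    ∃ g : ℕ → X → ℝ, (∀ n, BL (g n)) ∧ (∀ n x, |g n x| ≤ C) ∧
      Tendsto (fun n => ∫ x, |f x - g n x| ∂μ) atTop (𝓝 0) := by
  rcases isEmpty_or_nonempty X with hX | ⟨⟨x0⟩⟩
  · refine ⟨fun _ _ => 0, fun _ => BL.const 0, fun n x => (hX.false x).elim, ?_⟩
    rw [Measure.eq_zero_of_isEmpty μ]
    simp
  have hC0 : 0 ≤ C := (abs_nonneg _).trans (hC x0)
  have hfi : MemLp f 1 μ := MemLp.of_bound hf.aestronglyMeasurable C
    (Eventually.of_forall fun x => by simpa using hC x)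
  have h : ∀ n : ℕ, ∃ g : X → ℝ, eLpNorm (f - g) 1 μ ≤ ENNReal.ofReal (1 / ((n : ℝ) + 1)) ∧ BL g :=
    fun n => exists_BL_eLpNorm_sub_le μ (by simp) hfi (by
      simp only [ne_eq, ENNReal.ofReal_eq_zero, not_le]; positivity)
  choose g hg1 hg2 using h
  refine ⟨fun n x => max (-C) (min C (g n x)), fun n => (hg2 n).clamp hC0,
    fun n x => abs_clamp_le hC0, ?_⟩
  refine squeeze_zero (fun n => integral_nonneg fun x => abs_nonneg _) (fun n => ?_)
    tendsto_one_div_add_atTop_nhds_zero_nat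
  have h1 : Integrable (fun x => |f x - g n x|) μ :=
    ((hfi.integrable le_rfl).sub ((hg2 n).integrable μ)).abs
  calc ∫ x, |f x - max (-C) (min C (g n x))| ∂μ ≤ ∫ x, |f x - g n x| ∂μ := by
        apply integral_mono_of_nonneg (Eventually.of_forall fun x => abs_nonneg _) h1
        exact Eventually.of_forall fun x => abs_sub_clamp_le (hC x)
    _ = (eLpNorm (f - g n) 1 μ).toReal := by
        rw [eLpNorm_one_eq_lintegral_enorm, ← integral_norm_eq_lintegral_enorm]
        · rfl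
        · exact (hf.sub (hg2 n).measurable).aestronglyMeasurable
    _ ≤ 1 / ((n : ℝ) + 1) := by
        apply ENNReal.toReal_le_of_le_ofReal (by positivity) (hg1 n)

end density

end Crest.Agent.R241.G1
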