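import Crest.Agent.R241.D6
import Crest.Agent.R241.G1a
import Crest.Agent.R241.B1Cur
import Crest.Agent.R241.B8LinAlg

/-!
R241, block E1/C2: the mass of the top-dimensional chain `[[E]]` is the Riemannian volume of `E`.
-/

set_option autoImplicit false
set_option linter.unusedSectionVars false

open Set Filter Topology MeasureTheory MeasureTheory.Measure Matrix
open scoped ContDiff RealInnerProductSpace ENNReal NNReal
open Crest.GeometryTopology.Submanifold
open Crest.GeometryTopology.MetricCurrent

noncomputable section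

namespace Crest.Agent.R241.E1c2

/-! ### domination of measures tested with bounded Lipschitz functions -/

section Dominate

variable {E : Type*} [MetricSpace E] [MeasurableSpace E] [BorelSpace E]

theorem dominate {lam μ : Measure E} [IsFiniteMeasure μ] {A : Set E}
    {h : E → ℝ} (hm : Measurable h) (hi : IntegrableOn h A lam)
    (H : ∀ g : E → ℝ, G1.BL g → |∫ x in A, g x * h x ∂lam| ≤ ∫ x, |g x| ∂μ)
    {B : Set E} (hB : MeasurableSet B) (hBA : B ⊆ A) :
    ∫ x in B, |h x| ∂lam ≤ μ.real B := by
  classical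
  set κ : Measure E := (lam.restrict A).withDensity (fun x => ENNReal.ofReal |h x|) with hκ
  have hκf : IsFiniteMeasure κ := isFiniteMeasure_withDensity_ofReal hi.abs.2
  let f0 : E → ℝ := B.indicator (fun x => (SignType.sign (h x) : ℝ))
  have hsm : Measurable (fun x => (SignType.sign (h x) : ℝ)) := by
    have : (fun x => (SignType.sign (h x) : ℝ)) =
        fun x => if 0 < h x then (1 : ℝ) else if h x < 0 then -1 else 0 := by
      funext x
      rcases lt_trichotomy (h x) 0 with hx | hx | hx
      · simp [sign_neg hx, hx, not_lt.2 hx.le]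
      · simp [hx]
      · simp [sign_pos hx, hx]
    rw [this]
    exact Measurable.ite (measurableSet_lt measurable_const hm) measurable_const
      (Measurable.ite (measurableSet_lt hm measurable_const) measurable_const measurable_const)
  have hf0m : Measurable f0 := hsm.indicator hB
  have hf0b : ∀ x, |f0 x| ≤ 1 := by
    intro x
    by_cases hx : x ∈ B
    · simp only [f0, indicator_of_mem hx]
      rcases lt_trichotomy (h x) 0 with hx | hx | hx
      · simp [sign_neg hx]
      · simp [hx]
      · simp [sign_pos hx]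
    · simp [f0, indicator_of_notMem hx]
  obtain ⟨g, hg1, hg2, hg3⟩ := G1.exists_seq_BL (μ + κ) hf0m hf0b
  have hint : ∀ n, Integrable (fun x => |f0 x - g n x|) (μ + κ) := fun n =>
    Integrable.of_bound (hf0m.sub (hg1 n).measurable).abs.aestronglyMeasurable 2
      (Eventually.of_forall fun x => by
        rw [Real.norm_eq_abs, abs_abs]
        have := abs_sub (f0 x) (g n x)
        linarith [hf0b x, hg2 n x])
  have hsum : ∀ n, ∫ x, |f0 x - g n x| ∂(μ + κ) =
      ∫ x, |f0 x - g n x| ∂μ + ∫ x, |f0 x - g n x| ∂κ := fun n =>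
    integral_add_measure (integrable_add_measure.1 (hint n)).1
      (integrable_add_measure.1 (hint n)).2
  have hκint : ∀ n, ∫ x, |f0 x - g n x| ∂κ = ∫ x in A, |h x| * |f0 x - g n x| ∂lam := by
    intro n
    rw [hκ, integral_withDensity_eq_integral_toReal_smul (by fun_prop)
      (Eventually.of_forall fun x => ENNReal.ofReal_lt_top)]
    refine integral_congr_ae (Eventually.of_forall fun x => ?_)
    simp [ENNReal.toReal_ofReal (abs_nonneg _)]
  have lim1 : Tendsto (fun n => ∫ x, |f0 x - g n x| ∂μ) atTop (𝓝 0) := by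
    refine squeeze_zero (fun n => integral_nonneg fun x => abs_nonneg _) (fun n => ?_) hg3
    rw [hsum]
    linarith [show 0 ≤ ∫ x, |f0 x - g n x| ∂κ from integral_nonneg fun x => abs_nonneg _]
  have lim2 : Tendsto (fun n => ∫ x in A, |h x| * |f0 x - g n x| ∂lam) atTop (𝓝 0) := by
    refine squeeze_zero (fun n => integral_nonneg fun x => by positivity) (fun n => ?_) hg3
    rw [hsum, ← hκint]
    linarith [show 0 ≤ ∫ x, |f0 x - g n x| ∂μ from integral_nonneg fun x => abs_nonneg _]
  -- integrability
  have hgi : ∀ n, IntegrableOn (fun x => g n x * h x) A lam := fun n =>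
    hi.bdd_mul (c := 1) (hg1 n).measurable.aestronglyMeasurable
      (Eventually.of_forall fun x => by simpa using hg2 n x)
  have hf0i : IntegrableOn (fun x => f0 x * h x) A lam :=
    hi.bdd_mul (c := 1) hf0m.aestronglyMeasurable
      (Eventually.of_forall fun x => by simpa using hf0b x)
  have e1 : ∫ x in A, f0 x * h x ∂lam = ∫ x in B, |h x| ∂lam := by
    have : (fun x => f0 x * h x) = B.indicator (fun x => |h x|) := by
      funext x
      by_cases hx : x ∈ B
      · simp only [f0, indicator_of_mem hx]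
        rw [mul_comm]; exact self_mul_sign (h x)
      · simp [f0, indicator_of_notMem hx]
    rw [this, setIntegral_indicator hB, inter_eq_self_of_subset_right hBA]
  have lim3 : Tendsto (fun n => ∫ x in A, g n x * h x ∂lam) atTop (𝓝 (∫ x in B, |h x| ∂lam)) := by
    rw [← e1, tendsto_iff_norm_sub_tendsto_zero]
    refine squeeze_zero (fun n => norm_nonneg _) (fun n => ?_) lim2
    rw [← integral_sub (hgi n) hf0i]
    refine (norm_integral_le_integral_norm _).trans (le_of_eq ?_)
    refine integral_congr_ae (Eventually.of_forall fun x => ?_)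
    simp only [Real.norm_eq_abs]
    rw [← sub_mul, abs_mul, abs_sub_comm, mul_comm]
  have hgμ : ∀ n, ∫ x, |g n x| ∂μ ≤ μ.real B + ∫ x, |f0 x - g n x| ∂μ := by
    intro n
    have i1 : Integrable (fun x => |f0 x|) μ :=
      Integrable.of_bound hf0m.abs.aestronglyMeasurable 1
        (Eventually.of_forall fun x => by simpa using hf0b x)
    have i2 := (integrable_add_measure.1 (hint n)).1
    calc ∫ x, |g n x| ∂μ ≤ ∫ x, (|f0 x| + |f0 x - g n x|) ∂μ := by
          refine integral_mono ((hg1 n).abs.integrable μ) (i1.add i2) fun x => ?_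
          have := abs_sub_abs_le_abs_sub (g n x) (f0 x)
          rw [abs_sub_comm] at this
          simp only
          linarith
      _ = ∫ x, |f0 x| ∂μ + ∫ x, |f0 x - g n x| ∂μ := integral_add i1 i2
      _ ≤ μ.real B + ∫ x, |f0 x - g n x| ∂μ := by
          gcongr
          calc ∫ x, |f0 x| ∂μ ≤ ∫ x, B.indicator (fun _ => (1 : ℝ)) x ∂μ := by
                refine integral_mono i1 ((integrable_const 1).indicator hB) fun x => ?_
                by_cases hx : x ∈ B
                · simpa [indicator_of_mem hx] using hf0b x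
                · simp [f0, indicator_of_notMem hx]
            _ = μ.real B := by
                rw [integral_indicator hB]; simp
  have lim4 : Tendsto (fun n => μ.real B + ∫ x, |f0 x - g n x| ∂μ) atTop (𝓝 (μ.real B + 0)) :=
    tendsto_const_nhds.add lim1
  rw [add_zero] at lim4
  refine le_of_tendsto_of_tendsto' lim3 lim4 fun n => ?_
  exact (le_abs_self _).trans ((H (g n) (hg1 n)).trans (hgμ n))

end Dominate

/-! ### the exponential chart -/

variable {d N : ℕ} {k : ℝ} {S : Set (Euc N)} {X : Type} [MetricSpace X]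

theorem continuous_e (M : CHModel d N k S X) (p : X) : Continuous (M.e p) := by
  rw [continuous_iff_continuousAt]
  intro z
  obtain ⟨L, hL⟩ := M.e_lip p (‖z‖ + 1)
  exact hL.continuousOn.continuousAt (Metric.closedBall_mem_nhds_of_mem
    (by rw [Metric.mem_ball, dist_zero_right]; linarith))

/-- inverse of the exponential chart -/
def rho (M : CHModel d N k S X) (p : X) : X → Euc d := Function.surjInv (M.e_bij p).2

theorem e_rho (M : CHModel d N k S X) (p x : X) : M.e p (rho M p x) = x :=
  Function.surjInv_eq (M.e_bij p).2 x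

theorem rho_e (M : CHModel d N k S X) (p : X) (z : Euc d) : rho M p (M.e p z) = z :=
  (M.e_bij p).1 (e_rho M p _)

theorem lipschitz_rho (M : CHModel d N k S X) (p : X) : LipschitzWith 1 (rho M p) := by
  apply LipschitzWith.of_dist_le_mul
  intro x y
  have := M.e_expand p (rho M p x) (rho M p y)
  rw [e_rho, e_rho] at this
  simpa [dist_eq_norm] using this

theorem hasFDerivAt_chart (M : CHModel d N k S X) (p : X) (z : Euc d) :
    HasFDerivAt (fun v => M.ι (M.e p v)) (fderiv ℝ (fun v => M.ι (M.e p v)) z) z :=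
  (((M.smooth p).differentiable (by simp)) z).hasFDerivAt

/-- `1`-Lipschitz functions have gradient at most `1` for the Riemannian metric. -/
theorem abs_fderiv_le (M : CHModel d N k S X) (p : X) {u : X → ℝ} (hu : LipschitzWith 1 u)
    {z : Euc d} (hd : DifferentiableAt ℝ (fun v => u (M.e p v)) z) (w : Euc d) :
    |fderiv ℝ (fun v => u (M.e p v)) z w| ≤ ‖fderiv ℝ (fun v => M.ι (M.e p v)) z w‖ := by
  have hline : HasDerivAt (fun t : ℝ => z + t • w) w 0 := by
    simpa using ((hasDerivAt_id (0 : ℝ)).smul_const w).const_add z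
  have e0 : z + (0 : ℝ) • w = z := by simp
  have h1 : HasDerivAt (fun t : ℝ => u (M.e p (z + t • w)))
      (fderiv ℝ (fun v => u (M.e p v)) z w) 0 :=
    HasFDerivAt.comp_hasDerivAt (0 : ℝ) (f := fun t : ℝ => z + t • w)
      (l := fun v => u (M.e p v)) (by rw [e0]; exact hd.hasFDerivAt) hline
  have h2 : HasDerivAt (fun t : ℝ => M.ι (M.e p (z + t • w)))
      (fderiv ℝ (fun v => M.ι (M.e p v)) z w) 0 :=
    HasFDerivAt.comp_hasDerivAt (0 : ℝ) (f := fun t : ℝ => z + t • w)
      (l := fun v => M.ι (M.e p v)) (by rw [e0]; exact hasFDerivAt_chart M p z) hline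
  have s1 := (hasDerivAt_iff_tendsto_slope.1 h1).norm
  have s2 := (hasDerivAt_iff_tendsto_slope.1 h2).norm
  have hcont : Tendsto (fun t : ℝ => M.e p (z + t • w)) (𝓝[≠] 0) (𝓝 (M.e p z)) := by
    have : Continuous (fun t : ℝ => M.e p (z + t • w)) := (continuous_e M p).comp (by fun_prop)
    have h3 := this.tendsto 0
    simp only [zero_smul, add_zero] at h3
    exact h3.mono_left nhdsWithin_le_nhds
  refine le_of_forall_pos_le_add fun ε hε => ?_
  set C := ‖fderiv ℝ (fun v => M.ι (M.e p v)) z w‖ with hC
  have hε' : 0 < ε / (C + 1) := by positivity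
  obtain ⟨δ, hδ, hloc⟩ := M.ι_loc (M.e p z) (ε / (C + 1)) hε'
  have key : |fderiv ℝ (fun v => u (M.e p v)) z w| ≤ (1 + ε / (C + 1)) * C := by
    refine le_of_tendsto_of_tendsto s1 (s2.const_mul (1 + ε / (C + 1))) ?_
    filter_upwards [hcont.eventually (Metric.ball_mem_nhds (M.e p z) hδ)] with t ht
    have h4 := hloc (M.e p (z + t • w)) (M.e p z) ht (by simpa using hδ)
    have h5 := hu.dist_le_mul (M.e p (z + t • w)) (M.e p z)
    rw [NNReal.coe_one, one_mul] at h5
    simp only [slope_def_module, zero_smul, add_zero, norm_smul]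
    rw [← dist_eq_norm, ← dist_eq_norm]
    have h6 : dist (u (M.e p (z + t • w))) (u (M.e p z)) ≤
        (1 + ε / (C + 1)) * dist (M.ι (M.e p (z + t • w))) (M.ι (M.e p z)) := h5.trans h4
    calc ‖(t - 0)⁻¹‖ * dist (u (M.e p (z + t • w))) (u (M.e p z))
        ≤ ‖(t - 0)⁻¹‖ * ((1 + ε / (C + 1)) *
            dist (M.ι (M.e p (z + t • w))) (M.ι (M.e p z))) :=
          mul_le_mul_of_nonneg_left h6 (norm_nonneg _)
      _ = _ := by ring
  refine key.trans ?_
  have h7 : ε / (C + 1) * C ≤ ε := by
    rw [div_mul_eq_mul_div, div_le_iff₀ (by positivity)]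
    nlinarith [norm_nonneg (fderiv ℝ (fun v => M.ι (M.e p v)) z w)]
  linarith [h7]

/-- the Riemannian Jacobian of the chart -/
def J (M : CHModel d N k S X) (p : X) (z : Euc d) : ℝ :=
  AF.jac (fderiv ℝ (fun v => M.ι (M.e p v)) z)

theorem J_eq (M : CHModel d N k S X) (p : X) (z : Euc d) :
    J M p z = Real.sqrt (metricMat (fun v => M.ι (M.e p v)) z).det := AF.jac_eq_sqrt _ _

theorem one_le_J (M : CHModel d N k S X) (p : X) (z : Euc d) : 1 ≤ J M p z := by
  rw [J_eq]; exact Real.one_le_sqrt.2 (E5b.one_le_det (M.fderiv_ge p z))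

theorem continuous_fderiv_chart (M : CHModel d N k S X) (p : X) :
    Continuous (fderiv ℝ (fun v => M.ι (M.e p v))) :=
  (M.smooth p).continuous_fderiv (by simp)

theorem continuous_J (M : CHModel d N k S X) (p : X) : Continuous (J M p) := by
  have h1 : Continuous (fun x => metricMat (fun v => M.ι (M.e p v)) x) := by
    apply continuous_pi
    intro i
    apply continuous_pi
    intro j
    have h2 : Continuous (fun x => pd (fun v => M.ι (M.e p v)) x i) :=
      (continuous_fderiv_chart M p).clm_apply continuous_const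
    have h3 : Continuous (fun x => pd (fun v => M.ι (M.e p v)) x j) :=
      (continuous_fderiv_chart M p).clm_apply continuous_const
    exact h2.inner h3
  have : J M p = fun z => Real.sqrt (metricMat (fun v => M.ι (M.e p v)) z).det := by
    funext z; exact J_eq M p z
  rw [this]
  exact Real.continuous_sqrt.comp h1.matrix_det

theorem posSemidef_metricMat (f : Euc d → Euc N) (x : Euc d) : (metricMat f x).PosSemidef := by
  rw [Matrix.posSemidef_iff_dotProduct_mulVec]
  refine ⟨E5b.metricMat_isHermitian f x, fun v => ?_⟩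
  have := E5b.quad_metricMat f x (WithLp.toLp 2 v)
  simp only at this
  rw [star_trivial, this]
  positivity

theorem row_dot {f : Euc d → ℝ} {A : Set (Euc d)} {z : Euc d} (v : Fin d → ℝ) :
    (fun j => fderivWithin ℝ f A z (EuclideanSpace.single j (1 : ℝ))) ⬝ᵥ v =
      fderivWithin ℝ f A z (WithLp.toLp 2 v) := by
  have h1 : (WithLp.toLp 2 v : Euc d) = ∑ i, v i • stdVec d i :=
    (D.sum_stdVec (WithLp.toLp 2 v : Euc d)).symm
  rw [h1, _root_.map_sum]
  simp only [dotProduct, map_smul, smul_eq_mul, stdVec]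
  refine Finset.sum_congr rfl fun i _ => ?_
  ring

/-- Jacobians of tuples of `1`-Lipschitz functions are at most the Riemannian Jacobian. -/
theorem abs_jac_le (M : CHModel d N k S X) (p : X) {π : Fin d → X → ℝ}
    (hπ : ∀ i, LipschitzWith 1 (π i)) {O : Set (Euc d)} (hO : IsOpen O) {z : Euc d} (hz : z ∈ O)
    (hd : ∀ i, DifferentiableWithinAt ℝ (fun v => π i (M.e p v)) O z) :
    |B1Cur.jac O (M.e p) π z| ≤ J M p z := by
  rw [J_eq, B1Cur.jac]
  refine B8LinAlg.abs_det_le_sqrt_det _ _ (posSemidef_metricMat _ _) fun i v => ?_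
  have h1 := row_dot (f := fun w => π i (M.e p w)) (A := O) (z := z) v
  have h2 := E5b.quad_metricMat (fun v => M.ι (M.e p v)) z (WithLp.toLp 2 v)
  simp only at h2
  have hdi : DifferentiableAt ℝ (fun v => π i (M.e p v)) z :=
    (hd i).differentiableAt (hO.mem_nhds hz)
  have h3 := abs_fderiv_le M p (hπ i) hdi (WithLp.toLp 2 v)
  have h4 : ((Matrix.of fun i j => fderivWithin ℝ (fun w => π i (M.e p w)) O z
      (EuclideanSpace.single j (1 : ℝ))) i ⬝ᵥ v) =
      fderiv ℝ (fun v => π i (M.e p v)) z (WithLp.toLp 2 v) := by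
    rw [← fderivWithin_of_isOpen hO hz]
    exact h1
  rw [h4, h2, ← sq_abs]
  exact pow_le_pow_left₀ (abs_nonneg _) h3 2

/-! ### linear coordinates -/

/-- the tuple of linear coordinate functions -/
def lin (M : CHModel d N k S X) (u : Fin d → Euc N) (i : Fin d) (x : X) : ℝ := ⟪u i, M.ι x⟫

theorem lipschitz_lin (M : CHModel d N k S X) {u : Fin d → Euc N} (hu : ∀ i, ‖u i‖ ≤ 1)
    (i : Fin d) : LipschitzWith 1 (lin M u i) := by
  apply LipschitzWith.of_dist_le_mul
  intro x y
  rw [NNReal.coe_one, one_mul, Real.dist_eq, lin, lin, ← inner_sub_right]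
  calc |⟪u i, M.ι x - M.ι y⟫| ≤ ‖u i‖ * ‖M.ι x - M.ι y‖ := abs_real_inner_le_norm _ _
    _ ≤ 1 * ‖M.ι x - M.ι y‖ := by gcongr; exact hu i
    _ = dist (M.ι x) (M.ι y) := by rw [one_mul, dist_eq_norm]
    _ ≤ dist x y := M.ι_le x y

/-- the Jacobian of linear coordinates -/
def hu (M : CHModel d N k S X) (p : X) (u : Fin d → Euc N) (z : Euc d) : ℝ :=
  (Matrix.of fun i j => ⟪u i, pd (fun v => M.ι (M.e p v)) z j⟫).det

theorem continuous_hu (M : CHModel d N k S X) (p : X) (u : Fin d → Euc N) :
    Continuous (hu M p u) := by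
  have h1 : Continuous (fun z => (Matrix.of fun i j =>
      ⟪u i, pd (fun v => M.ι (M.e p v)) z j⟫ : Matrix (Fin d) (Fin d) ℝ)) := by
    apply continuous_pi
    intro i
    apply continuous_pi
    intro j
    have h3 : Continuous (fun x => pd (fun v => M.ι (M.e p v)) x j) :=
      (continuous_fderiv_chart M p).clm_apply continuous_const
    exact continuous_const.inner h3
  exact h1.matrix_det

theorem jac_lin (M : CHModel d N k S X) (p : X) (u : Fin d → Euc N) {O : Set (Euc d)}
    (hO : IsOpen O) {z : Euc d} (hz : z ∈ O) :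
    B1Cur.jac O (M.e p) (lin M u) z = hu M p u z := by
  rw [B1Cur.jac, hu]
  congr 1
  ext i j
  simp only [Matrix.of_apply]
  rw [fderivWithin_of_isOpen hO hz]
  have h1 : HasFDerivAt (fun v => lin M u i (M.e p v))
      ((innerSL ℝ (u i)).comp (fderiv ℝ (fun v => M.ι (M.e p v)) z)) z :=
    (innerSL ℝ (u i)).hasFDerivAt.comp z (hasFDerivAt_chart M p z)
  rw [h1.fderiv]
  rfl

/-- an optimal tuple exists at every point -/
theorem exists_hu_eq (M : CHModel d N k S X) (p : X) (z : Euc d) :
    ∃ u : Fin d → Euc N, (∀ i, ‖u i‖ ≤ 1) ∧ |hu M p u z| = J M p z := by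
  set A := fderiv ℝ (fun v => M.ι (M.e p v)) z with hA
  have hinj : Function.Injective A.toLinearMap := by
    intro v w hvw
    have h1 := M.fderiv_ge p z (v - w)
    have h2 : A (v - w) = 0 := by
      rw [map_sub]; exact sub_eq_zero.2 hvw
    rw [← hA, h2, norm_zero] at h1
    exact sub_eq_zero.1 (norm_le_zero_iff.1 h1)
  have hne : Nonempty (OrthonormalBasis (Fin (Module.finrank ℝ (Euc d))) ℝ A.toLinearMap.range) :=
    (A.toLinearMap.normDet_ne_zero_tfae.out 4 3).mp hinj
  obtain ⟨b0⟩ := hne
  let b : OrthonormalBasis (Fin d) ℝ A.toLinearMap.range :=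
    b0.reindex (finCongr (finrank_euclideanSpace_fin))
  refine ⟨fun i => (b i : Euc N), fun i => ?_, ?_⟩
  · have := b.orthonormal.1 i
    rw [← Submodule.coe_norm] at *
    exact le_of_eq this
  · rw [J, AF.jac, A.toLinearMap.normDet_eq_norm_det_toMatrix_rangeRestrict
      (EuclideanSpace.basisFun (Fin d) ℝ) b, Real.norm_eq_abs, hu]
    congr 2
    ext i j
    rw [LinearMap.toMatrix_apply, Matrix.of_apply]
    simp only [OrthonormalBasis.coe_toBasis, OrthonormalBasis.coe_toBasis_repr_apply,
      OrthonormalBasis.repr_apply_apply]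
    rw [Submodule.coe_inner]
    simp [pd, stdVec, hA]

/-! ### mass of the chain -/

section Mass

variable [MeasurableSpace X] [BorelSpace X]

/-- `A ⊆ ball 0 R'` measurable: the chain of the chart over `A`. -/
theorem chain_apply (M : CHModel d N k S X) (p : X) {A O : Set (Euc d)} (hA : MeasurableSet A)
    (hAO : A ⊆ O) {L : ℝ≥0} (hL : LipschitzOnWith L (M.e p) O) {f : X → ℝ}
    {π : Fin d → X → ℝ} (h : IsTestPair f π) :
    chartAction A (M.e p) (fun _ => 1) f π =
      ∫ z in A, f (M.e p z) * B1Cur.jac O (M.e p) π z := by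
  rw [B1Cur.chartAction_eq, B1Cur.chartR_of_test h]
  refine integral_congr_ae ?_
  filter_upwards [B1Cur.ae_jac_mono hA hAO hL h.2.2] with z hz
  rw [hz]; simp

/-- the Riemannian volume of `A` in the chart, transported to `X`. -/
def mu (M : CHModel d N k S X) (p : X) (A : Set (Euc d)) : Measure X :=
  Measure.map (M.e p) ((volume.restrict A).withDensity fun z => ENNReal.ofReal (J M p z))

theorem mu_univ (M : CHModel d N k S X) (p : X) (A : Set (Euc d)) :
    mu M p A univ = ∫⁻ z in A, ENNReal.ofReal (J M p z) := by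
  rw [mu, Measure.map_apply (continuous_e M p).measurable MeasurableSet.univ, preimage_univ,
    withDensity_apply _ MeasurableSet.univ, Measure.restrict_univ]

theorem lintegral_J_lt_top (M : CHModel d N k S X) (p : X) {A : Set (Euc d)}
    (hb : Bornology.IsBounded A) : ∫⁻ z in A, ENNReal.ofReal (J M p z) < ⊤ := by
  obtain ⟨R, hR⟩ := hb.subset_closedBall 0
  have h1 : IntegrableOn (J M p) (Metric.closedBall 0 R) :=
    (continuous_J M p).continuousOn.integrableOn_compact (isCompact_closedBall _ _)
  have h2 : IntegrableOn (J M p) A := h1.mono_set hR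
  exact (lintegral_ofReal_le_lintegral_enorm _).trans_lt h2.2

theorem isFiniteMeasure_mu (M : CHModel d N k S X) (p : X) {A : Set (Euc d)}
    (hb : Bornology.IsBounded A) : IsFiniteMeasure (mu M p A) :=
  ⟨by rw [mu_univ]; exact lintegral_J_lt_top M p hb⟩

theorem integral_mu (M : CHModel d N k S X) (p : X) (A : Set (Euc d)) {f : X → ℝ}
    (hf : Continuous f) : ∫ x, f x ∂(mu M p A) = ∫ z in A, J M p z * f (M.e p z) := by
  rw [mu, integral_map (continuous_e M p).measurable.aemeasurable hf.aestronglyMeasurable,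
    integral_withDensity_eq_integral_toReal_smul ((continuous_J M p).measurable.ennreal_ofReal)
      (Eventually.of_forall fun x => ENNReal.ofReal_lt_top)]
  refine integral_congr_ae (Eventually.of_forall fun z => ?_)
  simp [ENNReal.toReal_ofReal (zero_le_one.trans (one_le_J M p z))]

/-- upper bound -/
theorem controls_chain (M : CHModel d N k S X) (p : X) {A : Set (Euc d)} (hA : MeasurableSet A)
    (hb : Bornology.IsBounded A) :
    Controls (chartAction A (M.e p) (fun _ => 1)) (mu M p A) := by
  intro f π hfπ hπ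
  obtain ⟨R, hR⟩ := hb.subset_ball 0
  obtain ⟨L, hL⟩ := M.e_lip p R
  have hL' : LipschitzOnWith L (M.e p) (Metric.ball 0 R) := hL.mono Metric.ball_subset_closedBall
  rw [chain_apply M p hA hR hL' hfπ]
  have hf : G1.BL f := (G1.isTestPair_iff.1 hfπ).1
  rw [integral_mu M p A hf.abs.continuous, ← Real.norm_eq_abs]
  refine norm_integral_le_of_norm_le ?_ ?_
  · obtain ⟨C, hC⟩ := hf.2
    have h1 : IntegrableOn (J M p) A :=
      ((continuous_J M p).continuousOn.integrableOn_compact
        (isCompact_closedBall (0 : Euc d) R)).mono_set (hR.trans Metric.ball_subset_closedBall)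
    have h2 : IntegrableOn (fun z => |f (M.e p z)| * J M p z) A :=
      h1.bdd_mul (c := C)
        ((hf.abs.continuous.comp (continuous_e M p)).aestronglyMeasurable)
        (Eventually.of_forall fun x => by simpa using hC (M.e p x))
    refine h2.congr (Eventually.of_forall fun z => ?_)
    simp only; rw [mul_comm]
  · have h1 : ∀ᵐ z ∂(volume.restrict A), ∀ i,
        DifferentiableWithinAt ℝ (fun v => π i (M.e p v)) (Metric.ball 0 R) z := by
      refine ae_all_iff.2 fun i => ?_
      have := B1Cur.ae_good (E := Metric.ball (0 : Euc d) R) measurableSet_ball hL' ⟨1, hπ i⟩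
      have h2 : volume.restrict A ≤ volume.restrict (Metric.ball (0 : Euc d) R) :=
        Measure.restrict_mono_set _ hR
      filter_upwards [ae_mono h2 this] with z hz using hz.2
    filter_upwards [h1, ae_restrict_mem hA] with z hz hzA
    rw [norm_mul, Real.norm_eq_abs, Real.norm_eq_abs, mul_comm]
    exact mul_le_mul_of_nonneg_right (abs_jac_le M p hπ Metric.isOpen_ball (hR hzA) hz)
      (abs_nonneg _)

/-- lower bound -/
theorem le_of_controls (M : CHModel d N k S X) (p : X) {A : Set (Euc d)} (hA : MeasurableSet A)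
    (hb : Bornology.IsBounded A) {μ : Measure X} [IsFiniteMeasure μ]
    (hμ : Controls (chartAction A (M.e p) (fun _ => 1)) μ) :
    ∫⁻ z in A, ENNReal.ofReal (J M p z) ≤ μ univ := by
  obtain ⟨R, hR⟩ := hb.subset_ball 0
  obtain ⟨L, hL⟩ := M.e_lip p R
  have hL' : LipschitzOnWith L (M.e p) (Metric.ball 0 R) := hL.mono Metric.ball_subset_closedBall
  have hrm : Measurable (rho M p) := (lipschitz_rho M p).continuous.measurable
  set ν : Measure (Euc d) := μ.map (rho M p) with hν
  have hνf : IsFiniteMeasure ν := by rw [hν]; infer_instance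
  have hνu : ν univ = μ univ := by
    rw [hν, Measure.map_apply hrm MeasurableSet.univ, preimage_univ]
  -- domination of the Jacobian measures
  have hdom : ∀ u : Fin d → Euc N, (∀ i, ‖u i‖ ≤ 1) → ∀ B ⊆ A, MeasurableSet B →
      ∫⁻ z in B, ENNReal.ofReal |hu M p u z| ≤ ν B := by
    intro u hu1 B hBA hB
    have hi : IntegrableOn (hu M p u) A :=
      ((continuous_hu M p u).continuousOn.integrableOn_compact
        (isCompact_closedBall (0 : Euc d) R)).mono_set (hR.trans Metric.ball_subset_closedBall)
    have h1 : ∫ z in B, |hu M p u z| ≤ ν.real B := by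
      refine dominate (continuous_hu M p u).measurable hi ?_ hB hBA
      intro g hg
      have hgr : G1.BL (fun x => g (rho M p x)) := by
        obtain ⟨⟨K, hK⟩, C, hC⟩ := hg
        exact ⟨⟨_, hK.comp (lipschitz_rho M p)⟩, C, fun x => hC _⟩
      have htest : IsTestPair (fun x => g (rho M p x)) (lin M u) :=
        hgr.isTestPair fun i => ⟨1, lipschitz_lin M hu1 i⟩
      have h2 := hμ _ _ htest (lipschitz_lin M hu1)
      rw [chain_apply M p hA hR hL' htest] at h2
      have h3 : ∫ z in A, g (rho M p (M.e p z)) * B1Cur.jac (Metric.ball 0 R) (M.e p) (lin M u) z =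
          ∫ z in A, g z * hu M p u z := by
        refine setIntegral_congr_fun hA fun z hz => ?_
        rw [rho_e, jac_lin M p u Metric.isOpen_ball (hR hz)]
      rw [h3] at h2
      have h4 : ∫ x, |g (rho M p x)| ∂μ = ∫ z, |g z| ∂ν := by
        rw [hν, integral_map hrm.aemeasurable hg.abs.continuous.aestronglyMeasurable]
      rw [h4] at h2
      exact h2
    have h5 : IntegrableOn (fun z => |hu M p u z|) B := (hi.mono_set hBA).abs
    rw [← ofReal_integral_eq_lintegral_ofReal h5 (Eventually.of_forall fun z => abs_nonneg _)]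
    rw [← ENNReal.ofReal_toReal (measure_ne_top ν B)]
    exact ENNReal.ofReal_le_ofReal h1
  -- covering argument
  have key : ∀ c : ℝ, 0 < c → c < 1 →
      ENNReal.ofReal c * ∫⁻ z in A, ENNReal.ofReal (J M p z) ≤ ν univ := by
    intro c hc0 hc1
    let Oset : (Fin d → Euc N) → Set (Euc d) := fun u => {y | c * J M p y < |hu M p u y|}
    have hOo : ∀ u, IsOpen (Oset u) := fun u =>
      isOpen_lt (continuous_const.mul (continuous_J M p)) (continuous_hu M p u).abs
    let I := {u : Fin d → Euc N // ∀ i, ‖u i‖ ≤ 1}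
    obtain ⟨T, T_count, hT⟩ : ∃ T : Set I, T.Countable ∧
        ⋃ u ∈ T, Oset u.1 = ⋃ u : I, Oset u.1 :=
      TopologicalSpace.isOpen_iUnion_countable _ fun u => hOo u.1
    have huniv : ⋃ u : I, Oset u.1 = univ := by
      rw [eq_univ_iff_forall]
      intro z
      obtain ⟨u, hu1, hu2⟩ := exists_hu_eq M p z
      refine mem_iUnion.2 ⟨⟨u, hu1⟩, ?_⟩
      change c * J M p z < |hu M p u z|
      rw [hu2]
      have := one_le_J M p z
      nlinarith
    rw [huniv] at hT
    have hne : T.Nonempty := by
      rw [nonempty_iff_ne_empty]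
      rintro rfl
      have : (0 : Euc d) ∈ (univ : Set (Euc d)) := mem_univ _
      rw [← hT] at this
      simp at this
    obtain ⟨e, he⟩ := T_count.exists_eq_range hne
    let B : ℕ → Set (Euc d) := fun n => Oset (e n).1
    have hcov : ⋃ n, disjointed B n = univ := by
      rw [iUnion_disjointed, eq_univ_iff_forall]
      intro x
      have : x ∈ (univ : Set (Euc d)) := mem_univ _
      rw [← hT, he] at this
      simpa [B] using this
    have hD : ∀ n, MeasurableSet (disjointed B n) := fun n =>
      MeasurableSet.disjointed (fun i => (hOo _).measurableSet) n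
    have hsub : ∀ n, disjointed B n ⊆ B n := fun n => disjointed_subset _ _
    have hpart : ∀ n, ∫⁻ z in A ∩ disjointed B n, ENNReal.ofReal c * ENNReal.ofReal (J M p z) ≤
        ν (disjointed B n) := by
      intro n
      calc ∫⁻ z in A ∩ disjointed B n, ENNReal.ofReal c * ENNReal.ofReal (J M p z)
          ≤ ∫⁻ z in A ∩ disjointed B n, ENNReal.ofReal |hu M p (e n).1 z| := by
            refine setLIntegral_mono' (hA.inter (hD n)) fun z hz => ?_
            rw [← ENNReal.ofReal_mul hc0.le]
            exact ENNReal.ofReal_le_ofReal (le_of_lt (hsub n hz.2))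
        _ ≤ ν (A ∩ disjointed B n) := hdom _ (e n).2 _ inter_subset_left (hA.inter (hD n))
        _ ≤ ν (disjointed B n) := measure_mono inter_subset_right
    calc ENNReal.ofReal c * ∫⁻ z in A, ENNReal.ofReal (J M p z)
        = ∫⁻ z in A, ENNReal.ofReal c * ENNReal.ofReal (J M p z) := by
          rw [lintegral_const_mul _ (continuous_J M p).measurable.ennreal_ofReal]
      _ = ∫⁻ z in ⋃ n, A ∩ disjointed B n, ENNReal.ofReal c * ENNReal.ofReal (J M p z) := by
          rw [← inter_iUnion, hcov, inter_univ]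
      _ = ∑' n, ∫⁻ z in A ∩ disjointed B n, ENNReal.ofReal c * ENNReal.ofReal (J M p z) := by
          refine lintegral_iUnion (fun n => hA.inter (hD n)) ?_ _
          intro i j hij
          exact ((disjoint_disjointed B) hij).mono inter_subset_right inter_subset_right
      _ ≤ ∑' n, ν (disjointed B n) := ENNReal.tsum_le_tsum hpart
      _ = ν (⋃ n, disjointed B n) := (measure_iUnion (disjoint_disjointed _) hD).symm
      _ = ν univ := by rw [hcov]
  rw [← hνu]
  have T : Tendsto (fun c : ℝ => ENNReal.ofReal c * ∫⁻ z in A, ENNReal.ofReal (J M p z))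
      (𝓝[<] 1) (𝓝 (ENNReal.ofReal 1 * ∫⁻ z in A, ENNReal.ofReal (J M p z))) := by
    refine Tendsto.mono_left ?_ nhdsWithin_le_nhds
    exact ENNReal.Tendsto.mul_const (ENNReal.tendsto_ofReal tendsto_id)
      (Or.inr (lintegral_J_lt_top M p hb).ne)
  rw [ENNReal.ofReal_one, one_mul] at T
  refine le_of_tendsto T ?_
  filter_upwards [Ioo_mem_nhdsLT (zero_lt_one (α := ℝ))] with c hc
  exact key c hc.1 hc.2

/-- the mass of the chain is the Riemannian volume. -/
theorem mass_chart (M : CHModel d N k S X) (p : X) {A : Set (Euc d)} (hA : MeasurableSet A)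
    (hb : Bornology.IsBounded A) :
    mass (chartAction A (M.e p) (fun _ => 1)) =
      (∫⁻ z in A, ENNReal.ofReal (J M p z)).toReal := by
  have := isFiniteMeasure_mu M p hb
  rw [mass]
  refine IsLeast.csInf_eq ⟨⟨mu M p A, isFiniteMeasure_mu M p hb, controls_chain M p hA hb, ?_⟩, ?_⟩
  · rw [mu_univ]
  · rintro r ⟨μ, hμ1, hμ2, rfl⟩
    exact ENNReal.toReal_mono (measure_ne_top μ univ) (le_of_controls M p hA hb hμ2)

/-- area formula for the chart -/
theorem muHE_image (M : CHModel d N k S X) (p : X) {A : Set (Euc d)} (hA : MeasurableSet A) :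
    μHE[d] ((fun v => M.ι (M.e p v)) '' A) = ∫⁻ z in A, ENNReal.ofReal (J M p z) :=
  AF.muHE_image_Euc isOpen_univ (subset_univ _) hA
    ((M.smooth p).differentiable (by simp)).differentiableOn (D6.injective_chart M p).injOn

/-- preimage of a subset of `S` in the chart -/
theorem image_preimage (M : CHModel d N k S X) (p : X) {E : Set (Euc N)} (hE : E ⊆ S) :
    (fun v => M.ι (M.e p v)) '' {v | M.ι (M.e p v) ∈ E} = E := by
  apply Subset.antisymm
  · rintro _ ⟨v, hv, rfl⟩; exact hv
  · intro y hy
    have : y ∈ range M.ι := by rw [M.ι_range]; exact hE hy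
    obtain ⟨x, rfl⟩ := this
    obtain ⟨v, rfl⟩ := (M.e_bij p).2 x
    exact ⟨v, hy, rfl⟩

theorem isBounded_preimage (M : CHModel d N k S X) (p : X) {R : ℝ} {E : Set (Euc N)}
    (hE : E ⊆ M.ι '' Metric.closedBall p R) :
    {v | M.ι (M.e p v) ∈ E} ⊆ Metric.closedBall 0 R := by
  intro v hv
  obtain ⟨x, hx, hxv⟩ := hE hv
  rw [M.ι_inj hxv, Metric.mem_closedBall, dist_comm, M.e_dist] at hx
  simpa using hx

theorem mass_chain_eq (M : CHModel d N k S X) (p : X) {R : ℝ} {E : Set (Euc N)} (hES : E ⊆ S)
    (hE : MeasurableSet {v | M.ι (M.e p v) ∈ E}) (hER : E ⊆ M.ι '' Metric.closedBall p R) :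
    μHE[d] E = ENNReal.ofReal (mass (M.chain p E)) := by
  have hb : Bornology.IsBounded {v | M.ι (M.e p v) ∈ E} :=
    Metric.isBounded_closedBall.subset (isBounded_preimage M p hER)
  rw [CHModel.chain, mass_chart M p hE hb, ENNReal.ofReal_toReal (lintegral_J_lt_top M p hb).ne,
    ← muHE_image M p hE, image_preimage M p hES]

theorem isOpen_preimage (M : CHModel d N k S X) (p : X) {E : Set (Euc N)}
    (hE : ∃ U : Set (Euc N), IsOpen U ∧ E = S ∩ U) : IsOpen {v | M.ι (M.e p v) ∈ E} := by
  obtain ⟨U, hU, hE'⟩ := hE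
  have h1 : {v | M.ι (M.e p v) ∈ E} = (fun v => M.ι (M.e p v)) ⁻¹' U := by
    ext v
    simp only [hE']
    constructor
    · rintro ⟨_, h⟩; exact h
    · intro h
      refine ⟨?_, h⟩
      have : M.ι (M.e p v) ∈ range M.ι := ⟨_, rfl⟩
      rwa [M.ι_range] at this
  rw [h1]
  exact hU.preimage (M.smooth p).continuous

/-- conjunct 2 of `ChainTarget` -/
theorem c2 (M : CHModel d N k S X) (p : X) {R : ℝ} {E : Set (Euc N)} (hES : E ⊆ S)
    (hE : ∃ U : Set (Euc N), IsOpen U ∧ E = S ∩ U) (hER : E ⊆ M.ι '' Metric.closedBall p R) :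
    μHE[d] E = ENNReal.ofReal (mass (M.chain p E)) :=
  mass_chain_eq M p hES (isOpen_preimage M p hE).measurableSet hER

end Mass

end Crest.Agent.R241.E1c2
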