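import Mathlib
import Crest.Agent.R241.E1c

/-! Row 241, block E1 (helper777), part d: mollification of the indicator function of an open set.
`u = 1_Ω * ρ`: smooth, values in `[0,1]`, globally Lipschitz, and
`‖∇u(x)‖ ≤ ∫_{∂Ω} ρ(x - y) dμHE[n](y)`. -/

set_option autoImplicit false
set_option linter.unusedSectionVars false
open MeasureTheory MeasureTheory.Measure Metric Filter Set Module TopologicalSpace
open scoped NNReal ENNReal Topology Convolution

noncomputable section

namespace Crest.Agent.R241.E1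

variable {V : Type*} [NormedAddCommGroup V] [InnerProductSpace ℝ V] [FiniteDimensional ℝ V]
  [MeasurableSpace V] [BorelSpace V]

/-- the mollified indicator of `Ω`. -/
def mol (φ : ContDiffBump (0 : V)) (Ω : Set V) (x : V) : ℝ := ∫ t in Ω, φ.normed volume (x - t)

theorem mol_eq_conv (φ : ContDiffBump (0 : V)) {Ω : Set V} (hΩ : MeasurableSet Ω) :
    mol φ Ω = (Ω.indicator (fun _ => (1 : ℝ))) ⋆[ContinuousLinearMap.lsmul ℝ ℝ, volume]
      (φ.normed volume) := by
  funext x
  rw [mol, convolution_def, ← integral_indicator hΩ]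
  congr 1
  funext t
  by_cases ht : t ∈ Ω
  · simp [indicator_of_mem ht]
  · simp [indicator_of_notMem ht]

theorem mol_eq_conv' (φ : ContDiffBump (0 : V)) {Ω : Set V} (hΩ : MeasurableSet Ω) :
    mol φ Ω = (φ.normed volume) ⋆[ContinuousLinearMap.lsmul ℝ ℝ, volume]
      (Ω.indicator (fun _ => (1 : ℝ))) := by
  funext x
  rw [mol, convolution_eq_swap, ← integral_indicator hΩ]
  congr 1
  funext t
  by_cases ht : t ∈ Ω
  · simp [indicator_of_mem ht]
  · simp [indicator_of_notMem ht]

theorem locInt_ind {Ω : Set V} (hΩ : MeasurableSet Ω) :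
    LocallyIntegrable (Ω.indicator (fun _ => (1 : ℝ))) (volume : Measure V) :=
  (locallyIntegrable_const (1 : ℝ)).indicator hΩ

theorem continuous_normed (φ : ContDiffBump (0 : V)) : Continuous (φ.normed (volume : Measure V)) :=
  φ.contDiff_normed (n := 0).continuous

theorem contDiff_mol (φ : ContDiffBump (0 : V)) {Ω : Set V} (hΩ : MeasurableSet Ω) :
    ContDiff ℝ 1 (mol φ Ω) := by
  rw [mol_eq_conv φ hΩ]
  exact φ.hasCompactSupport_normed.contDiff_convolution_right _ (locInt_ind hΩ) φ.contDiff_normed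

theorem conv_fderiv_apply {f : V → ℝ} (hf : LocallyIntegrable f (volume : Measure V)) {g : V → ℝ}
    (hg : ContDiff ℝ 1 g) (hc : HasCompactSupport g) (x v : V) :
    fderiv ℝ (f ⋆[ContinuousLinearMap.lsmul ℝ ℝ, volume] g) x v =
      ∫ t, f t * fderiv ℝ g (x - t) v := by
  have h1 := hc.hasFDerivAt_convolution_right (ContinuousLinearMap.lsmul ℝ ℝ) hf hg x
  rw [h1.fderiv]
  have hdc : Continuous (fderiv ℝ g) := hg.continuous_fderiv one_ne_zero
  have hds : HasCompactSupport (fderiv ℝ g) := hc.fderiv (𝕜 := ℝ)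
  have hint : ConvolutionExistsAt f (fderiv ℝ g) x
      (ContinuousLinearMap.precompR V (ContinuousLinearMap.lsmul ℝ ℝ)) volume :=
    hds.convolutionExists_right _ hf hdc x
  have h2 := ContinuousLinearMap.integral_apply hint v
  rw [convolution_def]
  rw [h2]
  rfl

theorem fderiv_mol (φ : ContDiffBump (0 : V)) {Ω : Set V} (hΩ : MeasurableSet Ω) (x v : V) :
    fderiv ℝ (mol φ Ω) x v = ∫ t in Ω, fderiv ℝ (φ.normed volume) (x - t) v := by
  rw [mol_eq_conv φ hΩ, conv_fderiv_apply (locInt_ind hΩ) φ.contDiff_normed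
    φ.hasCompactSupport_normed, ← integral_indicator hΩ]
  congr 1
  funext t
  by_cases ht : t ∈ Ω
  · rw [indicator_of_mem ht, indicator_of_mem ht, one_mul]
  · rw [indicator_of_notMem ht, indicator_of_notMem ht, zero_mul]

theorem mol_nonneg (φ : ContDiffBump (0 : V)) (Ω : Set V) (x : V) : 0 ≤ mol φ Ω x :=
  integral_nonneg fun _ => φ.nonneg_normed _

theorem integrable_sub (φ : ContDiffBump (0 : V)) (x : V) :
    Integrable fun t => φ.normed (volume : Measure V) (x - t) := by
  have : Integrable (φ.normed (volume : Measure V)) := φ.integrable_normed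
  exact this.comp_sub_left x

theorem mol_le_one (φ : ContDiffBump (0 : V)) (Ω : Set V) (x : V) : mol φ Ω x ≤ 1 := by
  calc mol φ Ω x ≤ ∫ t, φ.normed volume (x - t) :=
        setIntegral_le_integral (integrable_sub φ x) (Eventually.of_forall fun _ => φ.nonneg_normed _)
    _ = ∫ t, φ.normed volume t := integral_sub_left_eq_self _ _ _
    _ = 1 := φ.integral_normed

/-- `mol φ Ω` is globally Lipschitz. -/
theorem lipschitz_mol (φ : ContDiffBump (0 : V)) {Ω : Set V} (hΩ : MeasurableSet Ω) :
    ∃ C : ℝ≥0, LipschitzWith C (mol φ Ω) := by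
  have hdc : Continuous (fderiv ℝ (φ.normed (volume : Measure V))) :=
    (φ.contDiff_normed (n := 1)).continuous_fderiv one_ne_zero
  have hds : HasCompactSupport (fderiv ℝ (φ.normed (volume : Measure V))) :=
    φ.hasCompactSupport_normed.fderiv (𝕜 := ℝ)
  have hi : Integrable fun t => ‖fderiv ℝ (φ.normed (volume : Measure V)) t‖ :=
    (hdc.integrable_of_hasCompactSupport hds).norm
  set C : ℝ≥0 := ⟨∫ t, ‖fderiv ℝ (φ.normed (volume : Measure V)) t‖,
    integral_nonneg fun _ => norm_nonneg _⟩ with hC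
  refine ⟨C, lipschitzWith_of_nnnorm_fderiv_le ((contDiff_mol φ hΩ).differentiable one_ne_zero)
    fun x => ?_⟩
  rw [← NNReal.coe_le_coe, coe_nnnorm]
  refine ContinuousLinearMap.opNorm_le_of_unit_norm C.2 fun v hv => ?_
  rw [fderiv_mol φ hΩ]
  have hi' : Integrable fun t => ‖fderiv ℝ (φ.normed (volume : Measure V)) (x - t)‖ :=
    hi.comp_sub_left x
  calc ‖∫ t in Ω, fderiv ℝ (φ.normed volume) (x - t) v‖
      ≤ ∫ t in Ω, ‖fderiv ℝ (φ.normed volume) (x - t) v‖ := norm_integral_le_integral_norm _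
    _ ≤ ∫ t in Ω, ‖fderiv ℝ (φ.normed volume) (x - t)‖ := by
        refine integral_mono_of_nonneg (Eventually.of_forall fun _ => norm_nonneg _)
          hi'.integrableOn (Eventually.of_forall fun t => ?_)
        have := (fderiv ℝ (φ.normed volume) (x - t)).le_opNorm v
        rwa [hv, mul_one] at this
    _ ≤ ∫ t, ‖fderiv ℝ (φ.normed volume) (x - t)‖ :=
        setIntegral_le_integral hi' (Eventually.of_forall fun _ => norm_nonneg _)
    _ = ∫ t, ‖fderiv ℝ (φ.normed volume) t‖ := integral_sub_left_eq_self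
        (fun t => ‖fderiv ℝ (φ.normed volume) t‖) _ _

section bdry
variable {n : ℕ} {Ω : Set V}

/-- the boundary measure -/
def bm (n : ℕ) (Ω : Set V) : Measure V := μHE[n].restrict (frontier Ω)

theorem bm_locFin (hfin : ∀ R : ℝ, μHE[n] (frontier Ω ∩ closedBall 0 R) ≠ ∞) :
    IsFiniteMeasureOnCompacts (bm n Ω) := by
  refine ⟨fun K hK => ?_⟩
  obtain ⟨R, hR⟩ := hK.isBounded.subset_closedBall (0 : V)
  calc bm n Ω K ≤ bm n Ω (closedBall 0 R) := measure_mono hR
    _ = μHE[n] (frontier Ω ∩ closedBall 0 R) := by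
        rw [bm, Measure.restrict_apply isClosed_closedBall.measurableSet, inter_comm]
    _ < ∞ := (hfin R).lt_top

/-- **gradient bound** for the mollified indicator. -/
theorem norm_fderiv_mol_le (hn : finrank ℝ V = n + 1) (hΩ : IsOpen Ω)
    (hfin : ∀ R : ℝ, μHE[n] (frontier Ω ∩ closedBall 0 R) ≠ ∞) (φ : ContDiffBump (0 : V)) (x : V) :
    ‖fderiv ℝ (mol φ Ω) x‖ ≤ ∫ y, φ.normed volume (x - y) ∂(bm n Ω) := by
  have hloc := bm_locFin hfin
  refine ContinuousLinearMap.opNorm_le_of_unit_norm
    (integral_nonneg fun _ => φ.nonneg_normed _) fun v hv => ?_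
  rw [fderiv_mol φ hΩ.measurableSet]
  set η : V → ℝ := fun t => φ.normed volume (x - t) with hη
  have hηc : ContDiff ℝ 1 η := (φ.contDiff_normed (n := 1)).comp (by fun_prop)
  have hηs : HasCompactSupport η := by
    have := φ.hasCompactSupport_normed (μ := (volume : Measure V))
    exact this.comp_homeomorph (Homeomorph.subLeft x)
  have hder : ∀ t, fderiv ℝ η t v = - fderiv ℝ (φ.normed volume) (x - t) v := by
    intro t
    have h1 : HasFDerivAt (φ.normed (volume : Measure V)) (fderiv ℝ (φ.normed volume) (x - t))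
        (x - t) := ((φ.contDiff_normed (n := 1)).differentiable one_ne_zero _).hasFDerivAt
    have h2 : HasFDerivAt (fun t : V => x - t) (-ContinuousLinearMap.id ℝ V) t := by
      simpa using (hasFDerivAt_id t).const_sub x
    have h3 := h1.comp t h2
    have h4 : fderiv ℝ η t = (fderiv ℝ (φ.normed volume) (x - t)).comp
      (-ContinuousLinearMap.id ℝ V) := h3.fderiv
    rw [h4]; simp
  have h5 : ∫ t in Ω, fderiv ℝ (φ.normed volume) (x - t) v = - ∫ t in Ω, fderiv ℝ η t v := by
    rw [← integral_neg]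
    congr 1
    funext t
    rw [hder, neg_neg]
  rw [h5, norm_neg, Real.norm_eq_abs]
  have h6 := directional hn hv hΩ hfin hηc hηs
  have h7 : Integrable η (bm n Ω) := hηc.continuous.integrable_of_hasCompactSupport hηs
  have h8 : ∫⁻ x in frontier Ω, ENNReal.ofReal |η x| ∂μHE[n] = ENNReal.ofReal (∫ y, η y ∂(bm n Ω)) := by
    rw [ofReal_integral_eq_lintegral_ofReal h7 (Eventually.of_forall fun _ => φ.nonneg_normed _)]
    refine lintegral_congr fun y => ?_
    rw [abs_of_nonneg (φ.nonneg_normed _)]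
  rw [h8] at h6
  exact (ENNReal.ofReal_le_ofReal_iff (integral_nonneg fun _ => φ.nonneg_normed _)).1 h6

end bdry

end Crest.Agent.R241.E1
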