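import Mathlib
import Crest.Agent.R241.E1d
import Crest.Agent.R241.B1Cur

/-! Row 241, block E1 (helper777), part e: perimeter bounds in Euclidean space.
* vector fields: `∫_Ω div W ≤ ∫_{∂Ω} ‖W‖ dμHE[n]`;
* determinants: `|∫_Ω det D(F₀,…,F_n)| ≤ ∏ Lip F_i ∫_{∂Ω} |F₀| dμHE[n]`. -/

set_option autoImplicit false
set_option linter.unusedSectionVars false
open MeasureTheory MeasureTheory.Measure Metric Filter Set Module TopologicalSpace
open scoped NNReal ENNReal Topology Convolution Pointwise

noncomputable section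

namespace Crest.Agent.R241.E1

variable {V : Type*} [NormedAddCommGroup V] [InnerProductSpace ℝ V] [FiniteDimensional ℝ V]
  [MeasurableSpace V] [BorelSpace V]

/-- the standard sequence of bumps. -/
def bmp (V : Type*) [NormedAddCommGroup V] [InnerProductSpace ℝ V] [FiniteDimensional ℝ V] (k : ℕ) :
    ContDiffBump (0 : V) where
  rIn := 1 / (2 * ((k : ℝ) + 1))
  rOut := 1 / ((k : ℝ) + 1)
  rIn_pos := by positivity
  rIn_lt_rOut := by
    apply one_div_lt_one_div_of_lt (by positivity)
    have : (0 : ℝ) ≤ k := Nat.cast_nonneg k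
    linarith

theorem bmp_rOut (k : ℕ) : (bmp V k).rOut = 1 / ((k : ℝ) + 1) := rfl

theorem tendsto_bmp : Tendsto (fun k => (bmp V k).rOut) atTop (𝓝 0) :=
  tendsto_one_div_add_atTop_nhds_zero_nat

theorem bmp_ratio (k : ℕ) : (bmp V k).rOut ≤ 2 * (bmp V k).rIn := by
  change 1 / ((k : ℝ) + 1) ≤ 2 * (1 / (2 * ((k : ℝ) + 1)))
  apply le_of_eq
  field_simp

/-- `u_k → 1_Ω` a.e. -/
theorem tendsto_mol {Ω : Set V} (hΩ : MeasurableSet Ω) :
    ∀ᵐ x : V, Tendsto (fun k => mol (bmp V k) Ω x) atTop (𝓝 (Ω.indicator (fun _ => (1 : ℝ)) x)) := by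
  have h := ContDiffBump.ae_convolution_tendsto_right_of_locallyIntegrable (μ := (volume : Measure V))
    (φ := fun k => bmp V k) (l := atTop) (K := 2) tendsto_bmp
    (Eventually.of_forall fun k => bmp_ratio k) (locInt_ind hΩ)
  filter_upwards [h] with x hx
  simpa only [mol_eq_conv' _ hΩ] using hx

/-- averages of `G` -/
def avg (φ : ContDiffBump (0 : V)) (G : V → ℝ) (y : V) : ℝ :=
  ∫ x, G x * φ.normed (volume : Measure V) (x - y)

theorem avg_eq_conv (φ : ContDiffBump (0 : V)) (G : V → ℝ) :
    avg φ G = (φ.normed (volume : Measure V)) ⋆[ContinuousLinearMap.lsmul ℝ ℝ, volume] G := by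
  funext y
  rw [avg, convolution_eq_swap]
  congr 1
  funext x
  rw [ContinuousLinearMap.lsmul_apply, smul_eq_mul, ← φ.normed_neg, neg_sub, mul_comm]

theorem avg_eq_zero {φ : ContDiffBump (0 : V)} {G : V → ℝ} {R : ℝ}
    (hR : ∀ x, R < ‖x‖ → G x = 0) {y : V} (hy : R + φ.rOut < ‖y‖) : avg φ G y = 0 := by
  unfold avg
  have : (fun x => G x * φ.normed (volume : Measure V) (x - y)) = fun _ => 0 := by
    funext x
    by_cases hx : R < ‖x‖
    · rw [hR x hx, zero_mul]
    · have h1 : x - y ∉ Function.support (φ.normed (volume : Measure V)) := by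
        rw [φ.support_normed_eq, mem_ball_zero_iff, not_lt]
        have := norm_sub_norm_le y x
        rw [norm_sub_rev] at this
        linarith
      rw [Function.notMem_support.1 h1, mul_zero]
  rw [this]; simp

theorem abs_avg_le {φ : ContDiffBump (0 : V)} {G : V → ℝ} {M : ℝ} (hM : ∀ x, |G x| ≤ M) (y : V) :
    |avg φ G y| ≤ M := by
  have hM0 : 0 ≤ M := (abs_nonneg _).trans (hM 0)
  have hi : Integrable fun x => φ.normed (volume : Measure V) (x - y) :=
    (φ.integrable_normed (μ := (volume : Measure V))).comp_sub_right y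
  calc |avg φ G y| ≤ ∫ x, |G x * φ.normed (volume : Measure V) (x - y)| :=
        abs_integral_le_integral_abs
    _ ≤ ∫ x, M * φ.normed (volume : Measure V) (x - y) := by
        refine integral_mono_of_nonneg (Eventually.of_forall fun _ => abs_nonneg _)
          (hi.const_mul M) (Eventually.of_forall fun x => ?_)
        simp only
        rw [abs_mul, abs_of_nonneg (φ.nonneg_normed _)]
        exact mul_le_mul_of_nonneg_right (hM x) (φ.nonneg_normed _)
    _ = M := by
        rw [integral_const_mul, integral_sub_right_eq_self (fun x => φ.normed volume x),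
          φ.integral_normed, mul_one]

theorem tendsto_avg {G : V → ℝ} (hG : Continuous G) (hc : HasCompactSupport G) (ν : Measure V)
    [IsFiniteMeasureOnCompacts ν] :
    Tendsto (fun k => ∫ y, avg (bmp V k) G y ∂ν) atTop (𝓝 (∫ y, G y ∂ν)) := by
  obtain ⟨R, hR⟩ : ∃ R : ℝ, ∀ x, R < ‖x‖ → G x = 0 := by
    obtain ⟨R, hR⟩ := hc.isBounded.subset_closedBall (0 : V)
    refine ⟨R, fun x hx => ?_⟩
    by_contra hne
    have := hR (subset_tsupport G hne)
    rw [mem_closedBall_zero_iff] at this
    linarith
  obtain ⟨M, hM⟩ := hc.exists_bound_of_continuous hG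
  refine tendsto_integral_of_dominated_convergence
    ((closedBall (0 : V) (R + 1)).indicator fun _ => M) ?_ ?_ ?_ ?_
  · intro k
    rw [avg_eq_conv]
    exact ((bmp V k).hasCompactSupport_normed.continuous_convolution_left _
      (continuous_normed _) hG.locallyIntegrable).aestronglyMeasurable
  · exact (integrable_indicator_iff isClosed_closedBall.measurableSet).2
      (integrableOn_const (isCompact_closedBall (0 : V) (R + 1)).measure_lt_top.ne)
  · intro k
    refine Eventually.of_forall fun y => ?_
    by_cases hy : y ∈ closedBall (0 : V) (R + 1)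
    · rw [indicator_of_mem hy, Real.norm_eq_abs]
      exact abs_avg_le hM y
    · rw [indicator_of_notMem hy, avg_eq_zero hR, norm_zero]
      rw [mem_closedBall_zero_iff, not_le] at hy
      have : (bmp V k).rOut ≤ 1 := by
        rw [bmp_rOut, div_le_one (by positivity)]
        have : (0 : ℝ) ≤ k := Nat.cast_nonneg k
        linarith
      linarith
  · refine Eventually.of_forall fun y => ?_
    simp only [avg_eq_conv]
    exact ContDiffBump.convolution_tendsto_right_of_continuous tendsto_bmp hG y

variable {n : ℕ} {Ω : Set V}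

/-- the gradient of the mollified indicator against a nonnegative weight. -/
theorem integral_norm_fderiv_mol_le (hn : finrank ℝ V = n + 1) (hΩ : IsOpen Ω)
    (hfin : ∀ R : ℝ, μHE[n] (frontier Ω ∩ closedBall 0 R) ≠ ∞) (φ : ContDiffBump (0 : V))
    {G : V → ℝ} (hG : Continuous G) (hc : HasCompactSupport G) (hG0 : ∀ x, 0 ≤ G x) :
    ∫ x, ‖fderiv ℝ (mol φ Ω) x‖ * G x ≤ ∫ y, avg φ G y ∂(bm n Ω) := by
  have hloc := bm_locFin hfin
  have hcont : Continuous (Function.uncurry
      fun x y => G x * φ.normed (volume : Measure V) (x - y)) := by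
    have h1 := continuous_normed φ
    exact (hG.comp continuous_fst).mul (h1.comp (by fun_prop))
  have hcs : HasCompactSupport (Function.uncurry
      fun x y => G x * φ.normed (volume : Measure V) (x - y)) := by
    have hK : IsCompact (tsupport G ×ˢ (tsupport G + closedBall (0 : V) φ.rOut)) :=
      hc.isCompact.prod (hc.isCompact.add (isCompact_closedBall _ _))
    refine HasCompactSupport.of_support_subset_isCompact hK ?_
    rintro ⟨x, y⟩ hxy
    simp only [Function.uncurry, Function.mem_support, ne_eq, mul_eq_zero, not_or] at hxy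
    have hx : x ∈ tsupport G := subset_tsupport G hxy.1
    refine ⟨hx, ?_⟩
    have h2 : x - y ∈ ball (0 : V) φ.rOut := by
      rw [← φ.support_normed_eq (μ := (volume : Measure V))]; exact hxy.2
    refine Set.mem_add.2 ⟨x, hx, -(x - y), ?_, by abel⟩
    rw [mem_closedBall_zero_iff, norm_neg]
    exact (mem_ball_zero_iff.1 h2).le
  have hsw := integral_integral_swap_of_hasCompactSupport (X := V) (Y := V)
    (f := fun x y => G x * φ.normed (volume : Measure V) (x - y)) (μ := volume) (ν := bm n Ω)
    hcont hcs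
  have hloc2 : IsLocallyFiniteMeasure (bm n Ω) := isLocallyFiniteMeasure_of_isFiniteMeasureOnCompacts
  have hpi : Integrable (Function.uncurry
      fun x y => G x * φ.normed (volume : Measure V) (x - y)) (volume.prod (bm n Ω)) :=
    hcont.integrable_of_hasCompactSupport hcs
  calc ∫ x, ‖fderiv ℝ (mol φ Ω) x‖ * G x
      ≤ ∫ x, (∫ y, φ.normed volume (x - y) ∂(bm n Ω)) * G x := by
        have hi : Integrable fun x => (∫ y, φ.normed volume (x - y) ∂(bm n Ω)) * G x := by
          have h1 := hpi.integral_prod_left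
          refine h1.congr (Eventually.of_forall fun x => ?_)
          simp only [Function.uncurry]
          rw [integral_const_mul, mul_comm]
        refine integral_mono_of_nonneg (Eventually.of_forall fun x => by
          exact mul_nonneg (norm_nonneg _) (hG0 x)) hi (Eventually.of_forall fun x => ?_)
        exact mul_le_mul_of_nonneg_right (norm_fderiv_mol_le hn hΩ hfin φ x) (hG0 x)
    _ = ∫ x, ∫ y, G x * φ.normed (volume : Measure V) (x - y) ∂(bm n Ω) := by
        congr 1
        funext x
        rw [integral_const_mul, mul_comm]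
    _ = ∫ y, ∫ x, G x * φ.normed (volume : Measure V) (x - y) ∂volume ∂(bm n Ω) := hsw
    _ = _ := rfl

section det
open Crest.GeometryTopology.Submanifold (Euc)
open B1Null B1Weak

/-- Euclidean norm of the row of partial derivatives. -/
theorem sqrt_row_le {k : ℕ} (A : Euc k →L[ℝ] ℝ) :
    Real.sqrt (∑ j, (A (EuclideanSpace.single j 1)) ^ 2) ≤ ‖A‖ := by
  refine Real.sqrt_le_iff.2 ⟨norm_nonneg _, ?_⟩
  set v : Euc k := WithLp.toLp 2 (fun j => A (EuclideanSpace.single j 1)) with hv
  have h1 : A v = ∑ j, (A (EuclideanSpace.single j 1)) ^ 2 := by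
    have h2 : v = ∑ j, (A (EuclideanSpace.single j 1)) • EuclideanSpace.single j (1 : ℝ) := by
      ext j
      simp [hv, Finset.sum_apply, Pi.single_apply]
    conv_lhs => rw [h2, _root_.map_sum]
    refine Finset.sum_congr rfl fun j _ => ?_
    rw [map_smul, smul_eq_mul, sq]
  have h2 : ‖v‖ ^ 2 = ∑ j, (A (EuclideanSpace.single j 1)) ^ 2 := by
    rw [EuclideanSpace.norm_sq_eq]
    simp [hv]
  have h3 := A.le_opNorm v
  rw [h1, ← h2, Real.norm_eq_abs, abs_of_nonneg (by positivity)] at h3
  rw [← h2]
  rcases eq_or_lt_of_le (norm_nonneg v) with h4 | h4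
  · rw [← h4, zero_pow two_ne_zero]; positivity
  · have h5 : ‖v‖ ≤ ‖A‖ := by
      by_contra h6
      push Not at h6
      nlinarith
    gcongr

/-- Hadamard with the first row separated. -/
theorem abs_det_cons_le {n : ℕ} (F : Fin (n + 1) → Euc (n + 1) → ℝ) {C : Fin n → ℝ≥0}
    (hC : ∀ i, LipschitzWith (C i) (F i.succ)) (z : Euc (n + 1)) :
    |(DM F z).det| ≤ ‖fderiv ℝ (F 0) z‖ * ∏ i, (C i : ℝ) := by
  refine (B8LinAlg.abs_det_le_prod _).trans ?_
  rw [Fin.prod_univ_succ]
  refine mul_le_mul (sqrt_row_le (fderiv ℝ (F 0) z)) ?_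
    (Finset.prod_nonneg fun _ _ => Real.sqrt_nonneg _) (norm_nonneg _)
  refine Finset.prod_le_prod (fun _ _ => Real.sqrt_nonneg _) fun i _ => ?_
  refine (sqrt_row_le (fderiv ℝ (F i.succ) z)).trans ?_
  exact norm_fderiv_le_of_lipschitz ℝ (hC i)

variable {n : ℕ} {Ω : Set (Euc (n + 1))}

/-- **perimeter bound for Jacobians, Euclidean case**. -/
theorem euclid_det (hΩ : IsOpen Ω)
    (hfin : ∀ R : ℝ, μHE[n] (frontier Ω ∩ closedBall 0 R) ≠ ∞)
    {F : Fin (n + 1) → Euc (n + 1) → ℝ} {C₀ : ℝ≥0} (h0 : LipschitzWith C₀ (F 0))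
    (hc : HasCompactSupport (F 0)) {C : Fin n → ℝ≥0} (hC : ∀ i, LipschitzWith (C i) (F i.succ)) :
    |∫ z in Ω, (DM F z).det| ≤ (∏ i, (C i : ℝ)) * ∫ x, |F 0 x| ∂(bm n Ω) := by
  have hn : finrank ℝ (Euc (n + 1)) = n + 1 := finrank_euclideanSpace_fin
  have hloc := bm_locFin hfin
  set P : ℝ := ∏ i, (C i : ℝ) with hP
  have hP0 : 0 ≤ P := Finset.prod_nonneg fun i _ => (C i).2
  have hF : ∀ i, ∃ K : ℝ≥0, LipschitzWith K (F i) := by
    intro i
    refine Fin.cases ⟨C₀, h0⟩ (fun i => ⟨C i, hC i⟩) i
  -- integrability of the determinant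
  obtain ⟨R, hR⟩ := hc.isBounded.subset_closedBall (0 : Euc (n + 1))
  have hdet0 : ∀ z ∉ tsupport (F 0), (DM F z).det = 0 := by
    intro z hz
    refine det_eq_zero_of_row 0 fun j => ?_
    rw [DM_apply, fderiv_eq_zero_of_notMem hz]; rfl
  have hdi : Integrable fun z => (DM F z).det := by
    have h1 : Integrable ((closedBall (0 : Euc (n + 1)) R).indicator fun _ => (1 : ℝ)) :=
      (integrable_indicator_iff isClosed_closedBall.measurableSet).2
        (integrableOn_const (isCompact_closedBall (0 : Euc (n + 1)) R).measure_lt_top.ne)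
    refine (integrable_mul_det h1 hF).congr (Eventually.of_forall fun z => ?_)
    by_cases hz : z ∈ closedBall (0 : Euc (n + 1)) R
    · simp only [indicator_of_mem hz, one_mul]
    · simp only [indicator_of_notMem hz, zero_mul]
      exact (hdet0 z fun h => hz (hR h)).symm
  -- the mollified identity
  have key : ∀ k, |∫ z, mol (bmp _ k) Ω z * (DM F z).det| ≤
      ∫ y, avg (bmp (Euc (n + 1)) k) (fun x => P * |F 0 x|) y ∂(bm n Ω) := by
    intro k
    set u := mol (bmp (Euc (n + 1)) k) Ω with hu
    obtain ⟨Cu, hCu⟩ := lipschitz_mol (bmp (Euc (n + 1)) k) hΩ.measurableSet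
    have hupd : ∀ i, ∃ K : ℝ≥0, LipschitzWith K (Function.update F 0 u i) := by
      intro i
      by_cases h : i = 0
      · subst h; rw [Function.update_self]; exact ⟨Cu, hCu⟩
      · rw [Function.update_of_ne h]; exact hF i
    have e1 := integral_mul_det_eq hupd 0 h0 hc
    rw [Function.update_self, Function.update_idem, Function.update_eq_self] at e1
    have e2 : ∫ z, u z * (DM F z).det = -∫ z, F 0 z * (DM (Function.update F 0 u) z).det := by
      rw [e1, neg_neg]
    rw [e2, abs_neg]
    have hG : Continuous fun x => P * |F 0 x| := continuous_const.mul h0.continuous.abs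
    have hGc : HasCompactSupport fun x => P * |F 0 x| := by
      have : HasCompactSupport fun x => |F 0 x| := hc.norm
      exact this.mul_left
    refine le_trans ?_ (integral_norm_fderiv_mol_le hn hΩ hfin (bmp (Euc (n + 1)) k) hG hGc
      fun x => by positivity)
    refine (abs_integral_le_integral_abs).trans ?_
    have hdu : Continuous fun x => ‖fderiv ℝ u x‖ :=
      ((contDiff_mol _ hΩ.measurableSet).continuous_fderiv one_ne_zero).norm
    refine integral_mono_of_nonneg (Eventually.of_forall fun _ => abs_nonneg _)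
      ((hdu.mul hG).integrable_of_hasCompactSupport hGc.mul_left) (Eventually.of_forall fun z => ?_)
    simp only
    rw [abs_mul]
    have h3 := abs_det_cons_le (Function.update F 0 u) (C := C) (fun i => by
      rw [Function.update_of_ne (Fin.succ_ne_zero i)]; exact hC i) z
    rw [Function.update_self] at h3
    calc |F 0 z| * |(DM (Function.update F 0 u) z).det|
        ≤ |F 0 z| * (‖fderiv ℝ u z‖ * P) := by gcongr
      _ = ‖fderiv ℝ u z‖ * (P * |F 0 z|) := by ring
  -- limits
  have T1 : Tendsto (fun k => ∫ z, mol (bmp (Euc (n + 1)) k) Ω z * (DM F z).det) atTop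
      (𝓝 (∫ z, Ω.indicator (fun _ => (1 : ℝ)) z * (DM F z).det)) := by
    refine tendsto_integral_of_dominated_convergence (fun z => |(DM F z).det|) ?_ hdi.abs ?_ ?_
    · intro k
      exact ((contDiff_mol _ hΩ.measurableSet).continuous.aestronglyMeasurable).mul
        hdi.aestronglyMeasurable
    · intro k
      refine Eventually.of_forall fun z => ?_
      rw [norm_mul, Real.norm_eq_abs, Real.norm_eq_abs, abs_of_nonneg (mol_nonneg _ _ _)]
      exact mul_le_of_le_one_left (abs_nonneg _) (mol_le_one _ _ _)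
    · filter_upwards [tendsto_mol hΩ.measurableSet] with z hz
      exact hz.mul_const _
  have T2 : Tendsto (fun k => ∫ y, avg (bmp (Euc (n + 1)) k) (fun x => P * |F 0 x|) y ∂(bm n Ω))
      atTop (𝓝 (∫ y, P * |F 0 y| ∂(bm n Ω))) := by
    have hG : Continuous fun x => P * |F 0 x| := continuous_const.mul h0.continuous.abs
    have hGc : HasCompactSupport fun x => P * |F 0 x| := by
      have : HasCompactSupport fun x => |F 0 x| := hc.norm
      exact this.mul_left
    exact tendsto_avg hG hGc _
  have e3 := le_of_tendsto_of_tendsto' T1.abs T2 key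
  rw [integral_const_mul] at e3
  have e4 : ∫ z, Ω.indicator (fun _ => (1 : ℝ)) z * (DM F z).det = ∫ z in Ω, (DM F z).det := by
    rw [← integral_indicator hΩ.measurableSet]
    congr 1
    funext z
    by_cases hz : z ∈ Ω
    · rw [indicator_of_mem hz, indicator_of_mem hz, one_mul]
    · rw [indicator_of_notMem hz, indicator_of_notMem hz, zero_mul]
  rwa [e4] at e3

end det

end Crest.Agent.R241.E1
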