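import Mathlib
import Crest.Agent.R241.E1e
import Crest.Agent.R241.AF3

/-! Row 241, block E1 (helper777), part f: linear charts. For a C¹ immersion `ψ` and a point `x₀`
there is a linear automorphism `L` with `‖L v‖ = ‖Dψ(x₀) v‖`, and `ψ ∘ L⁻¹` is almost isometric
near `L x₀`. Comparison of the boundary measures. -/

set_option autoImplicit false
set_option linter.unusedSectionVars false
open MeasureTheory MeasureTheory.Measure Metric Filter Set Module TopologicalSpace
open scoped NNReal ENNReal Topology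

noncomputable section

namespace Crest.Agent.R241.E1

open Crest.GeometryTopology.Submanifold (Euc)

variable {m N : ℕ}

theorem exists_linear (A : Euc m →L[ℝ] Euc N) (hA : Function.Injective A) :
    ∃ L : Euc m ≃L[ℝ] Euc m, ∀ v, ‖L v‖ = ‖A v‖ := by
  let f : Euc m ≃ₗ[ℝ] A.toLinearMap.range := LinearEquiv.ofInjective A.toLinearMap hA
  have hr : finrank ℝ A.toLinearMap.range = m := by
    rw [← f.finrank_eq]; exact finrank_euclideanSpace_fin
  let e : A.toLinearMap.range ≃ₗᵢ[ℝ] Euc m :=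
    ((stdOrthonormalBasis ℝ A.toLinearMap.range).reindex (finCongr hr)).repr
  refine ⟨(f.trans e.toLinearEquiv).toContinuousLinearEquiv, fun v => ?_⟩
  change ‖e (f v)‖ = _
  rw [e.norm_map]
  rfl

/-- local almost isometry of `ψ` with respect to the linear chart. -/
theorem local_cmp {ψ : Euc m → Euc N} (hψ : ContDiff ℝ 1 ψ) {x₀ : Euc m}
    (hinj : Function.Injective (fderiv ℝ ψ x₀)) {L : Euc m ≃L[ℝ] Euc m}
    (hL : ∀ v, ‖L v‖ = ‖fderiv ℝ ψ x₀ v‖) {δ : ℝ} (hδ : 0 < δ) :
    ∃ r > 0, ∀ x ∈ ball x₀ r, ∀ y ∈ ball x₀ r,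
      ‖L x - L y‖ ≤ (1 + δ) * ‖ψ x - ψ y‖ ∧ ‖ψ x - ψ y‖ ≤ (1 + δ) * ‖L x - L y‖ := by
  set A := fderiv ℝ ψ x₀ with hA
  obtain ⟨K, Kpos, hK⟩ := A.toLinearMap.exists_antilipschitzWith (LinearMap.ker_eq_bot.2 hinj)
  have hst : HasStrictFDerivAt ψ A x₀ := (hψ.contDiffAt).hasStrictFDerivAt one_ne_zero
  set c : ℝ := δ / (1 + δ) / K with hc
  have hKr : (0 : ℝ) < K := Kpos
  have hcpos : 0 < c := by positivity
  have h1 := hst.isLittleO.def hcpos
  rw [nhds_prod_eq] at h1
  obtain ⟨u, hu, huv⟩ := (eventually_prod_self_iff'.1 h1)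
  obtain ⟨r, hr, hru⟩ := Metric.mem_nhds_iff.1 hu
  refine ⟨r, hr, fun x hx y hy => ?_⟩
  have h2 := huv x (hru hx) y (hru hy)
  simp only at h2
  have h3 : ‖x - y‖ ≤ K * ‖A (x - y)‖ := by
    have := hK.le_mul_dist x y
    simp only [dist_eq_norm] at this
    rw [map_sub]
    exact this
  have h4 : ‖L x - L y‖ = ‖A (x - y)‖ := by rw [← map_sub, hL]
  have h5 : ‖ψ x - ψ y - A (x - y)‖ ≤ δ / (1 + δ) * ‖A (x - y)‖ := by
    calc _ ≤ c * ‖x - y‖ := h2
      _ ≤ c * (K * ‖A (x - y)‖) := by gcongr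
      _ = _ := by rw [hc]; field_simp
  rw [h4]
  have h6 : ‖A (x - y)‖ ≤ ‖ψ x - ψ y‖ + δ / (1 + δ) * ‖A (x - y)‖ := by
    have := norm_sub_norm_le (A (x - y)) (ψ x - ψ y)
    rw [norm_sub_rev (A (x - y))] at this
    linarith
  have h7 : ‖ψ x - ψ y‖ ≤ ‖A (x - y)‖ + δ / (1 + δ) * ‖A (x - y)‖ := by
    have := norm_sub_norm_le (ψ x - ψ y) (A (x - y))
    linarith
  have h8 : δ / (1 + δ) ≤ δ := by
    rw [div_le_iff₀ (by positivity)]
    nlinarith
  constructor
  · have h9 : (1 - δ / (1 + δ)) * ‖A (x - y)‖ ≤ ‖ψ x - ψ y‖ := by linarith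
    have h10 : 1 - δ / (1 + δ) = 1 / (1 + δ) := by field_simp; ring
    rw [h10, one_div, ← div_eq_inv_mul, div_le_iff₀ (by positivity)] at h9
    linarith
  · calc ‖ψ x - ψ y‖ ≤ ‖A (x - y)‖ + δ / (1 + δ) * ‖A (x - y)‖ := h7
      _ ≤ ‖A (x - y)‖ + δ * ‖A (x - y)‖ := by gcongr
      _ = _ := by ring

/-- the boundary measure of `A` in the metric of `ψ`, on the chart. -/
def bmψ (n : ℕ) (ψ : Euc m → Euc N) (A : Set (Euc m)) : Measure (Euc m) :=
  (Measure.comap ψ μHE[n]).restrict (frontier A)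

theorem measurableEmbedding_ψ {ψ : Euc m → Euc N} (hc : Continuous ψ) (hi : Function.Injective ψ) :
    MeasurableEmbedding ψ := hc.measurableEmbedding hi

theorem bmψ_apply {n : ℕ} {ψ : Euc m → Euc N} (hc : Continuous ψ) (hi : Function.Injective ψ)
    (A : Set (Euc m)) {B : Set (Euc m)} (hB : MeasurableSet B) :
    bmψ n ψ A B = μHE[n] (ψ '' (frontier A ∩ B)) := by
  rw [bmψ, Measure.restrict_apply hB, (measurableEmbedding_ψ hc hi).comap_apply, inter_comm]

/-- comparison of the boundary measures in a linear chart. -/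
theorem bm_image_le {n : ℕ} {ψ : Euc m → Euc N} (hc : Continuous ψ) (hi : Function.Injective ψ)
    {L : Euc m ≃L[ℝ] Euc m} {B : Set (Euc m)} (hB : MeasurableSet B) {K : ℝ≥0}
    (hK : ∀ x ∈ B, ∀ y ∈ B, ‖L x - L y‖ ≤ K * ‖ψ x - ψ y‖) (A : Set (Euc m)) :
    (bm n (L '' A)).restrict (L '' B) ≤ (K : ℝ≥0∞) ^ n • ((bmψ n ψ A).restrict B).map L := by
  have hLm : Measurable L := L.continuous.measurable
  refine Measure.le_iff.2 fun S hS => ?_
  have hLB : MeasurableSet (L '' B) := by
    have : L '' B = L.symm ⁻¹' B := L.image_eq_preimage_symm B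
    rw [this]
    exact L.symm.continuous.measurable hB
  have hfr : frontier (L '' A) = L '' frontier A :=
    (L.toHomeomorph.image_frontier A).symm
  rw [Measure.restrict_apply hS, bm, Measure.restrict_apply (hS.inter hLB), hfr,
    Measure.smul_apply, Measure.map_apply hLm hS, Measure.restrict_apply (hLm hS), smul_eq_mul,
    bmψ_apply hc hi A ((hLm hS).inter hB)]
  have h1 : S ∩ L '' B ∩ L '' frontier A = L '' (frontier A ∩ (L ⁻¹' S ∩ B)) := by
    ext y
    constructor
    · rintro ⟨⟨h1, x, hx, rfl⟩, z, hz, hzx⟩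
      have := L.injective hzx
      subst this
      exact ⟨z, ⟨hz, h1, hx⟩, rfl⟩
    · rintro ⟨x, ⟨h1, h2, h3⟩, rfl⟩
      exact ⟨⟨h2, x, h3, rfl⟩, x, h1, rfl⟩
  rw [h1]
  -- `L ∘ ψ⁻¹` is `K`-Lipschitz on the image
  set T := frontier A ∩ (L ⁻¹' S ∩ B) with hT
  have h2 : L '' T = (fun y => L (Function.invFun ψ y)) '' (ψ '' T) := by
    rw [image_image]
    refine image_congr fun x _ => ?_
    rw [Function.leftInverse_invFun hi x]
  rw [h2]
  refine AF.muHE_image_le ?_ n
  refine LipschitzOnWith.of_dist_le_mul ?_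
  rintro _ ⟨x, hx, rfl⟩ _ ⟨y, hy, rfl⟩
  rw [Function.leftInverse_invFun hi x, Function.leftInverse_invFun hi y, dist_eq_norm,
    dist_eq_norm]
  exact hK x hx.2.2 y hy.2.2

/-- local finiteness in every linear chart. -/
theorem locFin_image {n : ℕ} {ψ : Euc m → Euc N} (hψ : ContDiff ℝ 1 ψ)
    (hi : Function.Injective ψ) (him : ∀ x, Function.Injective (fderiv ℝ ψ x))
    {A : Set (Euc m)} (hfin : ∀ K : Set (Euc m), IsCompact K → bmψ n ψ A K ≠ ∞)
    (L : Euc m ≃L[ℝ] Euc m) (R : ℝ) : μHE[n] (frontier (L '' A) ∩ closedBall 0 R) ≠ ∞ := by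
  have hfr : frontier (L '' A) = L '' frontier A :=
    (L.toHomeomorph.image_frontier A).symm
  set K : Set (Euc m) := L.symm '' closedBall 0 R with hKdef
  have hK : IsCompact K := (isCompact_closedBall _ _).image L.symm.continuous
  have h1 : frontier (L '' A) ∩ closedBall 0 R = L '' (frontier A ∩ K) := by
    rw [hfr]
    ext y
    constructor
    · rintro ⟨⟨x, hx, rfl⟩, hy⟩
      exact ⟨x, ⟨hx, L x, hy, by simp⟩, rfl⟩
    · rintro ⟨x, ⟨hx, z, hz, rfl⟩, rfl⟩
      exact ⟨⟨_, hx, rfl⟩, by simpa using hz⟩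
  rw [h1]
  -- local bound, then compactness
  have hloc : ∀ x₀ ∈ K, ∃ t ∈ 𝓝[K] x₀, μHE[n] (L '' (frontier A ∩ t)) ≠ ∞ := by
    intro x₀ _
    obtain ⟨L0, hL0⟩ := exists_linear (fderiv ℝ ψ x₀) (him x₀)
    obtain ⟨r, hr, hcmp⟩ := local_cmp hψ (him x₀) hL0 one_pos
    refine ⟨ball x₀ r ∩ K, ?_, ?_⟩
    · exact inter_mem (mem_nhdsWithin_of_mem_nhds (ball_mem_nhds x₀ hr)) self_mem_nhdsWithin
    · set C : ℝ≥0 := ‖(L.toContinuousLinearMap ∘L L0.symm.toContinuousLinearMap)‖₊ with hC
      have h2 := bm_image_le (n := n) hψ.continuous hi (L := L) (B := ball x₀ r)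
        measurableSet_ball (K := C * 2) (fun x hx y hy => by
          have h3 := (hcmp x hx y hy).1
          have h4 : ‖L x - L y‖ ≤ C * ‖L0 x - L0 y‖ := by
            have h5 := (L.toContinuousLinearMap ∘L L0.symm.toContinuousLinearMap).le_opNorm
              (L0 x - L0 y)
            have e : (L.toContinuousLinearMap ∘L L0.symm.toContinuousLinearMap) (L0 x - L0 y)
                = L x - L y := by simp [map_sub]
            rw [e] at h5
            exact h5
          calc ‖L x - L y‖ ≤ C * ‖L0 x - L0 y‖ := h4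
            _ ≤ C * ((1 + 1) * ‖ψ x - ψ y‖) := by gcongr
            _ = _ := by push_cast; ring) A
      have h5 := h2 (L '' (ball x₀ r ∩ K))
      have hm : MeasurableSet (L '' (ball x₀ r ∩ K)) := by
        rw [L.image_eq_preimage_symm]
        exact L.symm.continuous.measurable (measurableSet_ball.inter hK.measurableSet)
      rw [Measure.restrict_apply hm, bm, Measure.restrict_apply (hm.inter (by
        rw [L.image_eq_preimage_symm]
        exact L.symm.continuous.measurable measurableSet_ball)), Measure.smul_apply,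
        Measure.map_apply L.continuous.measurable hm, smul_eq_mul, hfr] at h5
      have h6 : L '' (ball x₀ r ∩ K) ∩ L '' ball x₀ r ∩ L '' frontier A =
          L '' (frontier A ∩ (ball x₀ r ∩ K)) := by
        rw [← image_inter L.injective, ← image_inter L.injective]
        congr 1
        ext z; simp only [mem_inter_iff]; tauto
      rw [h6] at h5
      refine ne_top_of_le_ne_top ?_ h5
      refine ENNReal.mul_ne_top (ENNReal.pow_ne_top ENNReal.coe_ne_top) ?_
      refine ne_top_of_le_ne_top (hfin K hK) ?_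
      refine (Measure.restrict_apply_le _ _).trans (measure_mono ?_)
      rw [preimage_image_eq _ L.injective]
      exact inter_subset_right
  -- compact induction
  have hfinal := hK.induction_on (p := fun t => μHE[n] (L '' (frontier A ∩ t)) ≠ ∞) (by simp)
    (fun s t hst ht => ne_top_of_le_ne_top ht (measure_mono (image_mono
      (inter_subset_inter_right _ hst))))
    (fun s t hs ht => by
      rw [inter_union_distrib_left, image_union]
      exact ne_top_of_le_ne_top (ENNReal.add_ne_top.2 ⟨hs, ht⟩) (measure_union_le _ _))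
    hloc
  exact hfinal

end Crest.Agent.R241.E1
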