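import Mathlib
import Crest.Agent.R241.E1f

/-! Row 241, block E1 (helper777), part g: the perimeter bound for Jacobians in one small ball, in
the metric of the immersion `ψ`. -/

set_option autoImplicit false
set_option linter.unusedSectionVars false
open MeasureTheory MeasureTheory.Measure Metric Filter Set Module TopologicalSpace
open scoped NNReal ENNReal Topology

noncomputable section

namespace Crest.Agent.R241.E1

open Crest.GeometryTopology.Submanifold (Euc)
open B1Null B1Weak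

variable {n N : ℕ}

/-- chain rule for `DM` and a linear automorphism. -/
theorem det_DM_comp_equiv {k : ℕ} (L : Euc k ≃L[ℝ] Euc k) (F : Fin k → Euc k → ℝ) (z : Euc k) :
    (DM (fun i x => F i (L x)) z).det =
      (DM F (L z)).det * (L : Euc k →L[ℝ] Euc k).det := by
  set M : Matrix (Fin k) (Fin k) ℝ := Matrix.of fun l j => (L (EuclideanSpace.single j 1)) l with hM
  have h1 : DM (fun i x => F i (L x)) z = DM F (L z) * M := by
    ext i j
    rw [Matrix.mul_apply, DM_apply]
    have h2 : fderiv ℝ (fun x => F i (L x)) z = (fderiv ℝ (F i) (L z)).comp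
        (L : Euc k →L[ℝ] Euc k) := L.comp_right_fderiv (f := F i)
    rw [h2]
    have h3 : L (EuclideanSpace.single j (1 : ℝ)) =
        ∑ l, (L (EuclideanSpace.single j 1)) l • EuclideanSpace.single l (1 : ℝ) := by
      ext a
      simp [Finset.sum_apply, Pi.single_apply]
    change fderiv ℝ (F i) (L z) (L (EuclideanSpace.single j 1)) = _
    conv_lhs => rw [h3, _root_.map_sum]
    refine Finset.sum_congr rfl fun l _ => ?_
    rw [map_smul, smul_eq_mul, DM_apply, hM, Matrix.of_apply, mul_comm]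
  have h4 : (L : Euc k →L[ℝ] Euc k).det = M.det := by
    refine det_eq _ _ ?_
    intro i j
    rfl
  rw [h1, Matrix.det_mul, h4]

/-- change of variables for Jacobians. -/
theorem abs_integral_det_comp {k : ℕ} (L : Euc k ≃L[ℝ] Euc k) (F : Fin k → Euc k → ℝ)
    {A : Set (Euc k)} (hA : MeasurableSet A) :
    |∫ z in A, (DM (fun i x => F i (L x)) z).det| = |∫ y in L '' A, (DM F y).det| := by
  have h1 := integral_image_eq_integral_abs_det_fderiv_smul (volume : Measure (Euc k)) hA
    (f := L) (f' := fun _ => (L : Euc k →L[ℝ] Euc k))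
    (fun x _ => (L.hasFDerivAt).hasFDerivWithinAt) (L.injective.injOn) (fun y => (DM F y).det)
  rw [h1]
  simp_rw [det_DM_comp_equiv L F, smul_eq_mul]
  rw [integral_mul_const, integral_const_mul, abs_mul, abs_mul, abs_abs, mul_comm]

theorem measurableSet_image_equiv {k : ℕ} (L : Euc k ≃L[ℝ] Euc k) {B : Set (Euc k)}
    (hB : MeasurableSet B) : MeasurableSet (L '' B) := by
  rw [L.image_eq_preimage_symm]
  exact L.symm.continuous.measurable hB

/-- comparison of the weighted boundary integrals. -/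
theorem integral_bm_image_le {ψ : Euc (n + 1) → Euc N} (hψ : Continuous ψ)
    (hi : Function.Injective ψ) {A : Set (Euc (n + 1))}
    (hfin : ∀ K : Set (Euc (n + 1)), IsCompact K → bmψ n ψ A K ≠ ∞)
    {L : Euc (n + 1) ≃L[ℝ] Euc (n + 1)} {B : Set (Euc (n + 1))} (hB : MeasurableSet B) {K : ℝ≥0}
    (hK : ∀ x ∈ B, ∀ y ∈ B, ‖L x - L y‖ ≤ K * ‖ψ x - ψ y‖)
    {G : Euc (n + 1) → ℝ} (hG : Continuous G) (hc : HasCompactSupport G) (hG0 : ∀ x, 0 ≤ G x)
    (hs : ∀ x ∉ B, G x = 0) :
    ∫ y, G (L.symm y) ∂(bm n (L '' A)) ≤ (K : ℝ) ^ n * ∫ x, G x ∂(bmψ n ψ A) := by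
  have hloc : IsFiniteMeasureOnCompacts (bmψ n ψ A) := ⟨fun K hK => (hfin K hK).lt_top⟩
  have hGi : Integrable G (bmψ n ψ A) := hG.integrable_of_hasCompactSupport hc
  have hLB := measurableSet_image_equiv L hB
  have h1 : ∫ y, G (L.symm y) ∂(bm n (L '' A)) =
      ∫ y, G (L.symm y) ∂((bm n (L '' A)).restrict (L '' B)) := by
    symm
    refine setIntegral_eq_integral_of_forall_compl_eq_zero fun y hy => hs _ fun h => hy ?_
    exact ⟨_, h, by simp⟩
  have h2 := bm_image_le (n := n) hψ hi (L := L) hB hK A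
  have hKtop : ((K : ℝ≥0∞) ^ n) ≠ ∞ := ENNReal.pow_ne_top ENNReal.coe_ne_top
  have hint : Integrable (fun y => G (L.symm y)) ((K : ℝ≥0∞) ^ n • ((bmψ n ψ A).restrict B).map L) := by
    refine Integrable.smul_measure ?_ hKtop
    have h5 : Continuous fun y => G (L.symm y) := hG.comp L.symm.continuous
    refine (integrable_map_measure h5.aestronglyMeasurable
      L.continuous.measurable.aemeasurable).2 ?_
    have : (fun y => G (L.symm y)) ∘ L = G := by
      funext x; simp
    rw [this]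
    exact hGi.restrict
  rw [h1]
  calc ∫ y, G (L.symm y) ∂((bm n (L '' A)).restrict (L '' B))
      ≤ ∫ y, G (L.symm y) ∂((K : ℝ≥0∞) ^ n • ((bmψ n ψ A).restrict B).map L) :=
        integral_mono_measure h2 (Eventually.of_forall fun y => hG0 _) hint
    _ = (K : ℝ) ^ n * ∫ x in B, G x ∂(bmψ n ψ A) := by
        have h5 : Continuous fun y => G (L.symm y) := hG.comp L.symm.continuous
        rw [integral_smul_measure, integral_map L.continuous.measurable.aemeasurable
          h5.aestronglyMeasurable]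
        simp
    _ = (K : ℝ) ^ n * ∫ x, G x ∂(bmψ n ψ A) := by
        rw [setIntegral_eq_integral_of_forall_compl_eq_zero fun y hy => hs y hy]

/-- the perimeter bound for Jacobians in a small ball. -/
theorem local_det {ψ : Euc (n + 1) → Euc N} (hψ : ContDiff ℝ 1 ψ)
    (hi : Function.Injective ψ) (him : ∀ x, Function.Injective (fderiv ℝ ψ x))
    {A : Set (Euc (n + 1))} (hA : IsOpen A)
    (hfin : ∀ K : Set (Euc (n + 1)), IsCompact K → bmψ n ψ A K ≠ ∞)
    {x₀ : Euc (n + 1)} {r : ℝ} {δ : ℝ≥0} {L : Euc (n + 1) ≃L[ℝ] Euc (n + 1)}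
    (hcmp : ∀ x ∈ ball x₀ r, ∀ y ∈ ball x₀ r,
      ‖L x - L y‖ ≤ (1 + δ) * ‖ψ x - ψ y‖ ∧ ‖ψ x - ψ y‖ ≤ (1 + δ) * ‖L x - L y‖)
    {F : Fin (n + 1) → Euc (n + 1) → ℝ} {C₀ : ℝ≥0} (h0 : LipschitzWith C₀ (F 0))
    (hc : HasCompactSupport (F 0)) (hs : tsupport (F 0) ⊆ ball x₀ r)
    (hF : ∀ i : Fin n, ∀ x ∈ ball x₀ r, ∀ y ∈ ball x₀ r,
      |F i.succ x - F i.succ y| ≤ (1 + δ) * ‖ψ x - ψ y‖) :
    |∫ z in A, (DM F z).det| ≤
      ((1 + δ : ℝ) ^ 2) ^ n * ((1 + δ : ℝ) ^ n * ∫ x, |F 0 x| ∂(bmψ n ψ A)) := by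
  classical
  -- extensions
  have hext : ∀ i : Fin n, ∃ Q : Euc (n + 1) → ℝ, LipschitzWith ((1 + δ) ^ 2) Q ∧
      ∀ x ∈ ball x₀ r, Q (L x) = F i.succ x := by
    intro i
    have hlip : LipschitzOnWith ((1 + δ) ^ 2) (fun y => F i.succ (L.symm y)) (L '' ball x₀ r) := by
      refine LipschitzOnWith.of_dist_le_mul ?_
      rintro _ ⟨x, hx, rfl⟩ _ ⟨y, hy, rfl⟩
      simp only [ContinuousLinearEquiv.symm_apply_apply]
      rw [Real.dist_eq, dist_eq_norm]
      calc |F i.succ x - F i.succ y| ≤ (1 + δ) * ‖ψ x - ψ y‖ := hF i x hx y hy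
        _ ≤ (1 + δ) * ((1 + δ) * ‖L x - L y‖) := by
            gcongr
            exact (hcmp x hx y hy).2
        _ = _ := by push_cast; ring
    obtain ⟨Q, hQ1, hQ2⟩ := hlip.extend_real
    refine ⟨Q, hQ1, fun x hx => ?_⟩
    have := hQ2 (mem_image_of_mem L hx)
    simpa using this.symm
  choose Q hQ1 hQ2 using hext
  let F' : Fin (n + 1) → Euc (n + 1) → ℝ := Fin.cons (fun y => F 0 (L.symm y)) Q
  have hF'0 : F' 0 = fun y => F 0 (L.symm y) := rfl
  have hF's : ∀ i : Fin n, F' i.succ = Q i := fun i => rfl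
  -- the determinants agree
  have hdet : ∀ z, (DM F z).det = (DM (fun i x => F' i (L x)) z).det := by
    intro z
    by_cases hz : z ∈ ball x₀ r
    · congr 1
      ext i j
      rw [DM_apply, DM_apply]
      congr 1
      refine Fin.cases ?_ (fun i => ?_) i
      · congr 1
        funext x
        simp [hF'0]
      · have : F i.succ =ᶠ[𝓝 z] fun x => F' i.succ (L x) := by
          filter_upwards [isOpen_ball.mem_nhds hz] with x hx
          rw [hF's]
          exact (hQ2 i x hx).symm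
        exact this.fderiv_eq
    · have hz' : z ∉ tsupport (F 0) := fun h => hz (hs h)
      rw [det_eq_zero_of_row 0, det_eq_zero_of_row 0]
      · intro j
        rw [DM_apply]
        have : (fun x => F' 0 (L x)) = F 0 := by
          funext x; simp [hF'0]
        rw [this, fderiv_eq_zero_of_notMem hz']; rfl
      · intro j
        rw [DM_apply, fderiv_eq_zero_of_notMem hz']; rfl
  have h1 : |∫ z in A, (DM F z).det| = |∫ y in L '' A, (DM F' y).det| := by
    rw [← abs_integral_det_comp L F' hA.measurableSet]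
    simp_rw [hdet]
  rw [h1]
  have hc' : HasCompactSupport (F' 0) := by
    rw [hF'0]
    exact hc.comp_homeomorph L.symm.toHomeomorph
  have h2 := euclid_det (n := n) (Ω := L '' A) (L.toHomeomorph.isOpenMap A hA)
    (locFin_image hψ hi him hfin L) (F := F')
    (C₀ := C₀ * ‖(L.symm : Euc (n + 1) →L[ℝ] Euc (n + 1))‖₊)
    (h0.comp (L.symm : Euc (n + 1) →L[ℝ] Euc (n + 1)).lipschitz) hc' (C := fun _ => (1 + δ) ^ 2)
    (fun i => hQ1 i)
  refine h2.trans ?_
  have hKf : ∀ x ∈ ball x₀ r, ∀ y ∈ ball x₀ r, ‖L x - L y‖ ≤ ((1 + δ : ℝ≥0) : ℝ) * ‖ψ x - ψ y‖ :=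
    fun x hx y hy => by
      push_cast
      exact (hcmp x hx y hy).1
  have h3 := integral_bm_image_le (n := n) hψ.continuous hi hfin (L := L) (B := ball x₀ r)
    measurableSet_ball hKf (G := fun x => |F 0 x|) h0.continuous.abs hc.norm
    (fun x => abs_nonneg _) (fun x hx => by
      rw [image_eq_zero_of_notMem_tsupport (fun h => hx (hs h)), abs_zero])
  simp only [Finset.prod_const, Finset.card_univ, Fintype.card_fin]
  push_cast at h3 ⊢
  refine mul_le_mul_of_nonneg_left ?_ (by positivity)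
  exact h3

end Crest.Agent.R241.E1
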