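import Crest.Agent.R241.AF3
import Crest.Agent.R241.D1c

/-!
R241, block E5b: rigidity in the volume comparison.  An injective smooth `Ψ : ball 0 r → ℝ^N` that
does not decrease lengths infinitesimally and whose image has at most the Euclidean volume is
infinitesimally isometric.
-/

set_option autoImplicit false

open Set Filter Topology MeasureTheory MeasureTheory.Measure Matrix
open scoped ContDiff RealInnerProductSpace ENNReal
open Crest.GeometryTopology.Submanifold

noncomputable section

namespace Crest.Agent.R241.E5b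

variable {n N : ℕ}

theorem metricMat_isHermitian (f : Euc n → Euc N) (x : Euc n) : (metricMat f x).IsHermitian := by
  ext i j
  simp [metricMat, Matrix.conjTranspose_apply, real_inner_comm]

theorem quad_metricMat (f : Euc n → Euc N) (x w : Euc n) :
    w.ofLp ⬝ᵥ (metricMat f x *ᵥ w.ofLp) = ‖fderiv ℝ f x w‖ ^ 2 := by
  rw [← real_inner_self_eq_norm_sq, D.fderiv_eq_sum_pd f x w, sum_inner]
  simp only [dotProduct, Matrix.mulVec, metricMat, Matrix.of_apply]
  refine Finset.sum_congr rfl fun i _ => ?_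
  rw [inner_sum, Finset.mul_sum]
  refine Finset.sum_congr rfl fun j _ => ?_
  rw [real_inner_smul_left, real_inner_smul_right]
  ring

theorem one_le_eigenvalues {f : Euc n → Euc N} {x : Euc n}
    (h : ∀ w, ‖w‖ ≤ ‖fderiv ℝ f x w‖) (i : Fin n) :
    1 ≤ (metricMat_isHermitian f x).eigenvalues i := by
  have h1 := (metricMat_isHermitian f x).eigenvalues_eq i
  have h2 := quad_metricMat f x ((metricMat_isHermitian f x).eigenvectorBasis i)
  have h3 : ‖(metricMat_isHermitian f x).eigenvectorBasis i‖ = 1 :=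
    (metricMat_isHermitian f x).eigenvectorBasis.orthonormal.1 i
  have h4 := h ((metricMat_isHermitian f x).eigenvectorBasis i)
  rw [h3] at h4
  have h5 : (metricMat_isHermitian f x).eigenvalues i =
      ‖fderiv ℝ f x ((metricMat_isHermitian f x).eigenvectorBasis i)‖ ^ 2 := by
    rw [h1, ← h2]
    simp
  rw [h5]
  nlinarith [norm_nonneg (fderiv ℝ f x ((metricMat_isHermitian f x).eigenvectorBasis i))]

theorem one_le_det {f : Euc n → Euc N} {x : Euc n}
    (h : ∀ w, ‖w‖ ≤ ‖fderiv ℝ f x w‖) : 1 ≤ (metricMat f x).det := by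
  rw [(metricMat_isHermitian f x).det_eq_prod_eigenvalues]
  simp only [RCLike.ofReal_real_eq_id, id_eq]
  apply Finset.prod_induction _ (fun a : ℝ => 1 ≤ a)
  · intro a b ha hb; nlinarith
  · exact le_rfl
  · intro j _; exact one_le_eigenvalues h j

theorem eq_one_of_det_le {f : Euc n → Euc N} {x : Euc n}
    (h : ∀ w, ‖w‖ ≤ ‖fderiv ℝ f x w‖) (hdet : (metricMat f x).det ≤ 1) : metricMat f x = 1 := by
  have h1 := one_le_eigenvalues h
  have h2 : ∏ i, (metricMat_isHermitian f x).eigenvalues i ≤ 1 := by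
    rw [(metricMat_isHermitian f x).det_eq_prod_eigenvalues] at hdet
    simpa using hdet
  have h3 : ∀ i, (metricMat_isHermitian f x).eigenvalues i = 1 := by
    intro i
    apply le_antisymm _ (h1 i)
    calc (metricMat_isHermitian f x).eigenvalues i
        ≤ ∏ i, (metricMat_isHermitian f x).eigenvalues i := by
          rw [← Finset.mul_prod_erase Finset.univ _ (Finset.mem_univ i)]
          apply le_mul_of_one_le_right (by linarith [h1 i])
          apply Finset.prod_induction _ (fun a => 1 ≤ a)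
          · intro a b ha hb; nlinarith
          · exact le_rfl
          · intro j _; exact h1 j
      _ ≤ 1 := h2
  have h4 := (metricMat_isHermitian f x).spectral_theorem
  have h5 : (RCLike.ofReal ∘ (metricMat_isHermitian f x).eigenvalues : Fin n → ℝ) = 1 := by
    ext i; simp [h3 i]
  rw [h5] at h4
  rw [h4]
  simp

/-- **Volume rigidity.** -/
theorem metricMat_eq_one {Ψ : Euc n → Euc N} {B : Set (Euc n)} (hB : IsOpen B)
    (hΨ : ContDiffOn ℝ 1 Ψ B) (hinj : InjOn Ψ B)
    (hexp : ∀ x ∈ B, ∀ w, ‖w‖ ≤ ‖fderiv ℝ Ψ x w‖)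
    (hfin : volume B ≠ ⊤) (hvol : μHE[n] (Ψ '' B) ≤ volume B) :
    ∀ x ∈ B, metricMat Ψ x = 1 := by
  have hdiff : DifferentiableOn ℝ Ψ B := hΨ.differentiableOn (by simp)
  rw [AF.muHE_image_Euc hB Subset.rfl hB.measurableSet hdiff hinj] at hvol
  -- continuity of the Jacobian
  have hcf : ContinuousOn (fderiv ℝ Ψ) B := hΨ.continuousOn_fderiv_of_isOpen hB (by simp)
  have hcm : ContinuousOn (fun x => (metricMat Ψ x).det) B := by
    have h1 : ContinuousOn (fun x => metricMat Ψ x) B := by
      apply continuousOn_pi.2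
      intro i
      apply continuousOn_pi.2
      intro j
      have h2 : ContinuousOn (fun x => pd Ψ x i) B := hcf.clm_apply continuousOn_const
      have h3 : ContinuousOn (fun x => pd Ψ x j) B := hcf.clm_apply continuousOn_const
      exact h2.inner h3
    exact Continuous.comp_continuousOn (continuous_id.matrix_det) h1
  have hcj : ContinuousOn (fun x => AF.jac (fderiv ℝ Ψ x)) B := by
    simp only [AF.jac_eq_sqrt]
    exact hcm.sqrt
  have hj1 : ∀ x ∈ B, 1 ≤ AF.jac (fderiv ℝ Ψ x) := by
    intro x hx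
    rw [AF.jac_eq_sqrt]
    exact Real.one_le_sqrt.2 (one_le_det (hexp x hx))
  -- the open set where the Jacobian is > 1 is null
  have hO : IsOpen (B ∩ (fun x => AF.jac (fderiv ℝ Ψ x)) ⁻¹' Ioi 1) :=
    hcj.isOpen_inter_preimage hB isOpen_Ioi
  have hmeas : AEMeasurable (fun x => ENNReal.ofReal (AF.jac (fderiv ℝ Ψ x)))
      (volume.restrict B) :=
    (hcj.aemeasurable hB.measurableSet).ennreal_ofReal
  have hae : (fun _ => (1 : ℝ≥0∞)) =ᵐ[volume.restrict B]
      fun x => ENNReal.ofReal (AF.jac (fderiv ℝ Ψ x)) := by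
    apply ae_eq_of_ae_le_of_lintegral_le
    · rw [EventuallyLE, ae_restrict_iff' hB.measurableSet]
      filter_upwards with x hx
      rw [← ENNReal.ofReal_one]
      exact ENNReal.ofReal_le_ofReal (hj1 x hx)
    · simpa using hfin
    · exact hmeas
    · simpa using hvol
  have hnull : volume (B ∩ (fun x => AF.jac (fderiv ℝ Ψ x)) ⁻¹' Ioi 1) = 0 := by
    rw [EventuallyEq, ae_restrict_iff' hB.measurableSet, ae_iff] at hae
    refine measure_mono_null ?_ hae
    rintro x ⟨hx, hx1⟩
    simp only [Set.mem_ofPred_eq, Classical.not_imp]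
    refine ⟨hx, ?_⟩
    intro h
    have h1 : (1 : ℝ) < AF.jac (fderiv ℝ Ψ x) := hx1
    have h2 : (1 : ℝ≥0∞) < ENNReal.ofReal (AF.jac (fderiv ℝ Ψ x)) := by
      rw [← ENNReal.ofReal_one]
      exact (ENNReal.ofReal_lt_ofReal_iff (by linarith)).2 h1
    exact absurd h h2.ne
  have hempty := hO.eq_empty_of_measure_zero hnull
  intro x hx
  apply eq_one_of_det_le (hexp x hx)
  by_contra hlt
  push Not at hlt
  have : x ∈ B ∩ (fun x => AF.jac (fderiv ℝ Ψ x)) ⁻¹' Ioi 1 := by
    refine ⟨hx, ?_⟩
    simp only [mem_preimage, mem_Ioi, AF.jac_eq_sqrt]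
    exact Real.lt_sqrt_of_sq_lt (by simpa using hlt)
  rw [hempty] at this
  exact this

end Crest.Agent.R241.E5b
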