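import Mathlib
import Crest.Prelude.Def_Submanifold

/-!
# R241, block E: mollification of continuous functions on `Euc k`
-/

set_option autoImplicit false

open MeasureTheory Filter Topology Set Metric
open scoped ENNReal NNReal ContDiff Convolution

namespace Crest.Agent.R241.EMoll

open Crest.GeometryTopology.Submanifold (Euc)

variable {k : ℕ}

/-- the bump function of scale `ε` -/
noncomputable def bump (k : ℕ) {ε : ℝ} (hε : 0 < ε) : ContDiffBump (0 : Euc k) :=
  ⟨ε / 2, ε, by positivity, by linarith⟩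

/-- mollification at scale `ε` -/
noncomputable def moll {ε : ℝ} (hε : 0 < ε) (u : Euc k → ℝ) : Euc k → ℝ :=
  ((bump k hε).normed volume ⋆[ContinuousLinearMap.lsmul ℝ ℝ, volume] u)

theorem contDiff_moll {ε : ℝ} (hε : 0 < ε) {u : Euc k → ℝ} (hu : Continuous u) :
    ContDiff ℝ ∞ (moll hε u) :=
  HasCompactSupport.contDiff_convolution_left _ (bump k hε).hasCompactSupport_normed
    (bump k hε).contDiff_normed hu.locallyIntegrable

theorem moll_apply {ε : ℝ} (hε : 0 < ε) (u : Euc k → ℝ) (x : Euc k) :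
    moll hε u x = ∫ t, (bump k hε).normed volume t * u (x - t) := rfl

theorem integrable_moll {ε : ℝ} (hε : 0 < ε) {u : Euc k → ℝ} (hu : Continuous u) (x : Euc k) :
    Integrable (fun t => (bump k hε).normed volume t * u (x - t)) := by
  apply Continuous.integrable_of_hasCompactSupport
  · exact ((bump k hε).continuous_normed).mul (hu.comp (continuous_const.sub continuous_id))
  · exact (bump k hε).hasCompactSupport_normed.mul_right

theorem abs_moll_sub_moll_le {ε : ℝ} (hε : 0 < ε) {u : Euc k → ℝ} (hu : Continuous u)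
    {x y : Euc k} {B : ℝ} (h : ∀ t ∈ ball (0 : Euc k) ε, |u (x - t) - u (y - t)| ≤ B) :
    |moll hε u x - moll hε u y| ≤ B := by
  rw [moll_apply, moll_apply, ← integral_sub (integrable_moll hε hu x) (integrable_moll hε hu y),
    ← Real.norm_eq_abs]
  have hB : ∀ t, ‖(bump k hε).normed volume t * u (x - t) -
      (bump k hε).normed volume t * u (y - t)‖ ≤ (bump k hε).normed volume t * B := by
    intro t
    rw [← mul_sub, norm_mul, Real.norm_of_nonneg ((bump k hε).nonneg_normed t)]
    by_cases ht : t ∈ ball (0 : Euc k) ε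
    · exact mul_le_mul_of_nonneg_left (h t ht) ((bump k hε).nonneg_normed t)
    · have : (bump k hε).normed volume t = 0 := by
        have h1 : t ∉ Function.support ((bump k hε).normed volume) := by
          rw [ContDiffBump.support_normed_eq]; exact ht
        simpa using h1
      rw [this]; simp
  refine (norm_integral_le_of_norm_le ((bump k hε).integrable_normed.mul_const B)
    (Eventually.of_forall hB)).trans ?_
  rw [integral_mul_const, ContDiffBump.integral_normed, one_mul]

theorem abs_moll_sub_le {ε : ℝ} (hε : 0 < ε) {u : Euc k → ℝ} (hu : Continuous u)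
    {x : Euc k} {B : ℝ} (h : ∀ y ∈ ball x ε, |u y - u x| ≤ B) :
    |moll hε u x - u x| ≤ B := by
  have := (bump k hε).dist_normed_convolution_le (μ := volume) (g := u) (x₀ := x) (ε := B)
    hu.aestronglyMeasurable (by
      intro y hy
      rw [Real.dist_eq]
      exact h y hy)
  rwa [Real.dist_eq] at this

theorem lipschitz_moll {ε : ℝ} (hε : 0 < ε) {u : Euc k → ℝ} {C : ℝ≥0} (hu : LipschitzWith C u) :
    LipschitzWith C (moll hε u) := by
  refine LipschitzWith.of_dist_le_mul fun x y => ?_
  rw [Real.dist_eq]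
  apply abs_moll_sub_moll_le hε hu.continuous
  intro t _
  have := hu.dist_le_mul (x - t) (y - t)
  rwa [Real.dist_eq, dist_sub_right] at this

theorem abs_moll_sub_le_of_lipschitz {ε : ℝ} (hε : 0 < ε) {u : Euc k → ℝ} {C : ℝ≥0}
    (hu : LipschitzWith C u) (x : Euc k) : |moll hε u x - u x| ≤ C * ε := by
  apply abs_moll_sub_le hε hu.continuous
  intro y hy
  have := hu.dist_le_mul y x
  rw [Real.dist_eq] at this
  refine this.trans ?_
  have h1 : dist y x ≤ ε := (mem_ball.1 hy).le
  gcongr

/-- if a function grows at most like `p` near `x`, so does its derivative -/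
theorem abs_fderiv_le {v : Euc k → ℝ} {x : Euc k} (hv : DifferentiableAt ℝ v x)
    {p : Euc k → ℝ} (hp : ∀ (s : ℝ) w, 0 < s → p (s • w) = s * p w) {δ : ℝ} (hδ : 0 < δ)
    (h : ∀ w, ‖w‖ < δ → |v (x + w) - v x| ≤ p w) (w : Euc k) : |fderiv ℝ v x w| ≤ p w := by
  have h1 : HasLineDerivAt ℝ v (fderiv ℝ v x w) x w := hv.hasFDerivAt.hasLineDerivAt w
  have h2 : Tendsto (fun t : ℝ => t⁻¹ • (v (x + t • w) - v x)) (𝓝[>] 0) (𝓝 (fderiv ℝ v x w)) := by
    have := h1.tendsto_slope_zero_right
    exact this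
  have h3 := h2.abs
  refine le_of_tendsto h3 ?_
  have h4 : ∀ᶠ t : ℝ in 𝓝[>] 0, ‖t • w‖ < δ := by
    have : Tendsto (fun t : ℝ => ‖t • w‖) (𝓝[>] 0) (𝓝 0) := by
      have h5 : Tendsto (fun t : ℝ => ‖t • w‖) (𝓝 0) (𝓝 ‖(0 : ℝ) • w‖) :=
        ((continuous_id.smul continuous_const).norm).tendsto 0
      rw [zero_smul, norm_zero] at h5
      exact h5.mono_left nhdsWithin_le_nhds
    exact this.eventually (gt_mem_nhds hδ)
  filter_upwards [h4, self_mem_nhdsWithin] with t ht ht0
  have ht0' : (0 : ℝ) < t := ht0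
  rw [smul_eq_mul, abs_mul, abs_of_pos (inv_pos.2 ht0')]
  have h5 := h _ ht
  rw [hp t w ht0'] at h5
  calc t⁻¹ * |v (x + t • w) - v x| ≤ t⁻¹ * (t * p w) := by gcongr
    _ = p w := by field_simp

theorem abs_fderiv_moll_le {ε : ℝ} (hε : 0 < ε) {u : Euc k → ℝ} (hu : Continuous u) {x : Euc k}
    {p : Euc k → ℝ} (hp : ∀ (s : ℝ) w, 0 < s → p (s • w) = s * p w) {δ : ℝ} (hδ : 0 < δ)
    (h : ∀ y ∈ ball x ε, ∀ w, ‖w‖ < δ → |u (y + w) - u y| ≤ p w) (w : Euc k) :
    |fderiv ℝ (moll hε u) x w| ≤ p w := by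
  refine abs_fderiv_le ((contDiff_moll hε hu).differentiable (by simp) x) hp hδ ?_ w
  intro w hw
  apply abs_moll_sub_moll_le hε hu
  intro t ht
  have hx : x - t ∈ ball x ε := by
    rw [mem_ball, dist_eq_norm]
    have : x - t - x = -t := by abel
    rw [this, norm_neg]
    simpa using ht
  have := h (x - t) hx w hw
  have e : x - t + w = x + w - t := by abel
  rwa [e] at this

end Crest.Agent.R241.EMoll
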