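import Crest.Agent.R241.Targets
import Crest.Agent.R241.E5b
import Crest.Agent.R241.EMoll

/-!
# R241, block E: the structure `EChart` (a global chart with 1-Lipschitz inverse) and its local
metric estimates; `EChart` of a `CHModel`.
-/

set_option autoImplicit false

open MeasureTheory Filter Topology Set Metric
open scoped ENNReal NNReal ContDiff Matrix

universe u

namespace Crest.Agent.R241

open Crest.GeometryTopology.MetricCurrent
open Crest.GeometryTopology.Submanifold (Euc metricMat)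

/-- A global chart of `X` with 1-Lipschitz inverse, whose metric is induced by `ψ`. -/
structure EChart (k N : ℕ) (X : Type u) [MetricSpace X] where
  e : Euc k → X
  P : X → Euc k
  P_e : ∀ v, P (e v) = v
  e_P : ∀ x, e (P x) = x
  P_lip : LipschitzWith 1 P
  e_lip : ∀ R : ℝ, ∃ L : ℝ≥0, LipschitzOnWith L e (closedBall 0 R)
  ψ : Euc k → Euc N
  smooth : ContDiff ℝ (⊤ : ℕ∞) ψ
  lower : ∀ v w, ‖w‖ ≤ ‖fderiv ℝ ψ v w‖
  loc : ∀ (x : Euc k) (ε : ℝ), 0 < ε → ∃ δ > 0, ∀ y ∈ ball x δ, ∀ z ∈ ball x δ,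
    dist (e y) (e z) ≤ (1 + ε) * ‖ψ y - ψ z‖

namespace EChart

variable {k N : ℕ} {X : Type u} [MetricSpace X] (c : EChart k N X)

theorem continuous_e : Continuous c.e := by
  rw [continuous_iff_continuousAt]
  intro v
  obtain ⟨L, hL⟩ := c.e_lip (‖v‖ + 1)
  refine (hL.continuousOn).continuousAt ?_
  refine mem_of_superset (ball_mem_nhds v one_pos) ?_
  intro w hw
  rw [mem_closedBall_zero_iff]
  have h1 : ‖w - v‖ < 1 := by rwa [mem_ball, dist_eq_norm] at hw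
  have h2 := norm_add_le v (w - v)
  have h3 : v + (w - v) = w := by abel
  rw [h3] at h2
  linarith

theorem expand (v w : Euc k) : dist v w ≤ dist (c.e v) (c.e w) := by
  have := c.P_lip.dist_le_mul (c.e v) (c.e w)
  simpa [c.P_e] using this

/-- local comparison with the differential at the centre -/
theorem loc_fderiv (x : Euc k) {ε : ℝ} (hε : 0 < ε) : ∃ δ > 0, ∀ y ∈ ball x δ, ∀ z ∈ ball x δ,
    dist (c.e y) (c.e z) ≤ (1 + ε) * ‖fderiv ℝ c.ψ x (y - z)‖ := by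
  set a : ℝ := min (ε / 3) 1 with ha
  have ha0 : 0 < a := by positivity
  have ha1 : a ≤ 1 := min_le_right _ _
  have ha2 : a ≤ ε / 3 := min_le_left _ _
  obtain ⟨δ₁, hδ₁, h1⟩ := c.loc x a ha0
  have hstrict : HasStrictFDerivAt c.ψ (fderiv ℝ c.ψ x) x :=
    (c.smooth.contDiffAt).hasStrictFDerivAt (by simp)
  have h2 : ∀ᶠ p : Euc k × Euc k in 𝓝 (x, x),
      ‖c.ψ p.1 - c.ψ p.2 - fderiv ℝ c.ψ x (p.1 - p.2)‖ ≤ a * ‖p.1 - p.2‖ :=
    hstrict.isLittleO.def ha0
  rw [Metric.eventually_nhds_iff] at h2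
  obtain ⟨δ₂, hδ₂, h2⟩ := h2
  refine ⟨min δ₁ δ₂, by positivity, fun y hy z hz => ?_⟩
  have h3 := h1 y (ball_subset_ball (min_le_left _ _) hy) z
    (ball_subset_ball (min_le_left _ _) hz)
  have h4 := @h2 (y, z) (by
    rw [Prod.dist_eq, max_lt_iff]
    exact ⟨ball_subset_ball (min_le_right _ _) hy, ball_subset_ball (min_le_right _ _) hz⟩)
  simp only at h4
  have h5 : ‖y - z‖ ≤ ‖fderiv ℝ c.ψ x (y - z)‖ := c.lower x (y - z)
  have h6 : ‖c.ψ y - c.ψ z‖ ≤ ‖fderiv ℝ c.ψ x (y - z)‖ +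
      ‖c.ψ y - c.ψ z - fderiv ℝ c.ψ x (y - z)‖ := by
    have := norm_add_le (fderiv ℝ c.ψ x (y - z)) (c.ψ y - c.ψ z - fderiv ℝ c.ψ x (y - z))
    simpa using this
  have h7 : ‖c.ψ y - c.ψ z‖ ≤ (1 + a) * ‖fderiv ℝ c.ψ x (y - z)‖ := by nlinarith
  have h8 : (1 + a) * (1 + a) ≤ 1 + ε := by nlinarith
  calc dist (c.e y) (c.e z) ≤ (1 + a) * ‖c.ψ y - c.ψ z‖ := h3
    _ ≤ (1 + a) * ((1 + a) * ‖fderiv ℝ c.ψ x (y - z)‖) := by gcongr
    _ = ((1 + a) * (1 + a)) * ‖fderiv ℝ c.ψ x (y - z)‖ := by ring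
    _ ≤ _ := by gcongr

/-- uniform version on compact sets -/
theorem exists_unif {B : Set (Euc k)} (hB : IsCompact B) {ε : ℝ} (hε : 0 < ε) :
    ∃ δ > 0, ∀ x ∈ B, ∀ y ∈ ball x δ, ∀ w : Euc k, ‖w‖ < δ →
      dist (c.e (y + w)) (c.e y) ≤ (1 + ε) * ‖fderiv ℝ c.ψ x w‖ := by
  set a : ℝ := min (ε / 3) 1 with ha
  have ha0 : 0 < a := by positivity
  have ha1 : a ≤ 1 := min_le_right _ _
  have ha2 : a ≤ ε / 3 := min_le_left _ _
  have h8 : (1 + a) * (1 + a) ≤ 1 + ε := by nlinarith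
  have hloc : ∀ x : Euc k, ∃ δ > 0, (∀ y ∈ ball x δ, ∀ z ∈ ball x δ,
      dist (c.e y) (c.e z) ≤ (1 + a) * ‖fderiv ℝ c.ψ x (y - z)‖) ∧
      ∀ y ∈ ball x δ, ‖fderiv ℝ c.ψ x - fderiv ℝ c.ψ y‖ ≤ a := by
    intro x
    obtain ⟨δ₁, hδ₁, h1⟩ := c.loc_fderiv x ha0
    have h2 : ∀ᶠ y in 𝓝 x, dist (fderiv ℝ c.ψ y) (fderiv ℝ c.ψ x) < a :=
      (c.smooth.continuous_fderiv (by simp)).continuousAt.eventually (ball_mem_nhds _ ha0)
    rw [Metric.eventually_nhds_iff] at h2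
    obtain ⟨δ₂, hδ₂, h2⟩ := h2
    refine ⟨min δ₁ δ₂, by positivity, fun y hy z hz => ?_, fun y hy => ?_⟩
    · exact h1 y (ball_subset_ball (min_le_left _ _) hy) z (ball_subset_ball (min_le_left _ _) hz)
    · have := @h2 y (ball_subset_ball (min_le_right _ _) hy)
      rw [dist_comm, dist_eq_norm] at this
      exact this.le
  choose δ hδ h1 h2 using hloc
  obtain ⟨t, htB, ht⟩ := hB.elim_nhds_subcover (fun x => ball x (δ x / 3))
    (fun x _ => ball_mem_nhds x (by have := hδ x; positivity))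
  by_cases hne : t.Nonempty
  swap
  · have : t = ∅ := Finset.not_nonempty_iff_eq_empty.1 hne
    subst this
    refine ⟨1, one_pos, fun x hx => ?_⟩
    exact absurd (ht hx) (by simp)
  obtain ⟨x₁, hx₁, hmin⟩ := t.exists_min_image δ hne
  refine ⟨δ x₁ / 3, by have := hδ x₁; positivity, fun x hx y hy w hw => ?_⟩
  obtain ⟨x₀, hx₀, hxx₀⟩ := mem_iUnion₂.1 (ht hx)
  have hle := hmin x₀ hx₀
  have hd : dist x x₀ < δ x₀ / 3 := hxx₀
  have hy1 : dist y x < δ x₁ / 3 := hy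
  have hδ0 := hδ x₀
  have hyx : dist y x₀ < δ x₀ := by
    have := dist_triangle y x x₀
    linarith
  have hyw : dist (y + w) x₀ < δ x₀ := by
    have e1 : dist (y + w) y = ‖w‖ := by rw [dist_eq_norm]; simp
    have e2 := dist_triangle (y + w) y x₀
    have e3 := dist_triangle y x x₀
    linarith
  have h3 := h1 x₀ (y + w) hyw y hyx
  have e : y + w - y = w := by abel
  rw [e] at h3
  have h4 : ‖fderiv ℝ c.ψ x₀ w‖ ≤ (1 + a) * ‖fderiv ℝ c.ψ x w‖ := by
    have h5 := h2 x₀ x (by rw [mem_ball]; linarith)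
    have h6 : fderiv ℝ c.ψ x₀ w = fderiv ℝ c.ψ x w + (fderiv ℝ c.ψ x₀ - fderiv ℝ c.ψ x) w := by
      simp
    have h7 : ‖(fderiv ℝ c.ψ x₀ - fderiv ℝ c.ψ x) w‖ ≤ a * ‖w‖ :=
      (ContinuousLinearMap.le_opNorm _ _).trans (by gcongr)
    have h9 := c.lower x w
    rw [h6]
    refine (norm_add_le _ _).trans ?_
    nlinarith
  calc dist (c.e (y + w)) (c.e y) ≤ (1 + a) * ‖fderiv ℝ c.ψ x₀ w‖ := h3
    _ ≤ (1 + a) * ((1 + a) * ‖fderiv ℝ c.ψ x w‖) := by gcongr
    _ = ((1 + a) * (1 + a)) * ‖fderiv ℝ c.ψ x w‖ := by ring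
    _ ≤ _ := by gcongr

end EChart

/-- the chart at `p` of a Cartan–Hadamard model -/
noncomputable def CHModel.echart {d N : ℕ} {k : ℝ} {S : Set (Euc N)} {X : Type} [MetricSpace X]
    (M : CHModel d N k S X) (p : X) : EChart d N X where
  e := M.e p
  P := (Equiv.ofBijective _ (M.e_bij p)).symm
  P_e := fun v => (Equiv.ofBijective _ (M.e_bij p)).symm_apply_apply v
  e_P := fun x => (Equiv.ofBijective _ (M.e_bij p)).apply_symm_apply x
  P_lip := by
    refine LipschitzWith.of_dist_le_mul fun x y => ?_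
    have h := M.e_expand p ((Equiv.ofBijective _ (M.e_bij p)).symm x)
      ((Equiv.ofBijective _ (M.e_bij p)).symm y)
    have h1 := (Equiv.ofBijective _ (M.e_bij p)).apply_symm_apply x
    have h2 := (Equiv.ofBijective _ (M.e_bij p)).apply_symm_apply y
    rw [Equiv.ofBijective_apply] at h1 h2
    rw [h1, h2] at h
    rw [dist_eq_norm, NNReal.coe_one, one_mul]
    exact h
  e_lip := M.e_lip p
  ψ := fun v => M.ι (M.e p v)
  smooth := M.smooth p
  lower := M.fderiv_ge p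
  loc := by
    intro x ε hε
    obtain ⟨δ, hδ, h⟩ := M.ι_loc (M.e p x) ε hε
    obtain ⟨L, hL⟩ := M.e_lip p (‖x‖ + 1)
    refine ⟨min 1 (δ / (L + 1)), by positivity, fun y hy z hz => ?_⟩
    have hmem : ∀ y ∈ ball x (min 1 (δ / (L + 1))), dist (M.e p y) (M.e p x) < δ := by
      intro y hy
      have h1 : dist y x < 1 := lt_of_lt_of_le hy (min_le_left _ _)
      have h2 : dist y x < δ / (L + 1) := lt_of_lt_of_le hy (min_le_right _ _)
      have h3 : y ∈ closedBall (0 : Euc d) (‖x‖ + 1) := by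
        rw [mem_closedBall_zero_iff]
        have h4 := norm_add_le x (y - x)
        have h5 : x + (y - x) = y := by abel
        rw [h5] at h4
        rw [dist_eq_norm] at h1
        linarith
      have h4 : x ∈ closedBall (0 : Euc d) (‖x‖ + 1) := by
        rw [mem_closedBall_zero_iff]; linarith
      have h5 := hL.dist_le_mul y h3 x h4
      have hL0 : (0 : ℝ) ≤ L := L.coe_nonneg
      rw [lt_div_iff₀ (by positivity)] at h2
      have h6 : (0 : ℝ) ≤ dist y x := dist_nonneg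
      nlinarith
    have := h _ _ (hmem y hy) (hmem z hz)
    rwa [dist_eq_norm (M.ι _)] at this

end Crest.Agent.R241
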