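import Crest.Agent.R241.EP1
import Crest.Agent.R241.EChart
import Crest.Agent.R241.B10Mass

/-!
# R241, block EP2: from the perimeter inequality to the boundary mass of `[[A]]`
-/

set_option autoImplicit false

open MeasureTheory Filter Topology Set Metric
open scoped ENNReal NNReal ContDiff Matrix

universe u

namespace Crest.Agent.R241.EP2

open Crest.GeometryTopology.MetricCurrent
open Crest.GeometryTopology.Submanifold (Euc metricMat)
open Crest.Agent.R241.B1Null Crest.Agent.R241.B1Weak Crest.Agent.R241.EP1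

variable {n N : ℕ} {X : Type u} [MetricSpace X]

theorem gr_dotProduct (p : Fin n → Euc (n + 1) → ℝ) (x : Euc (n + 1)) (i : Fin n)
    (w : Fin (n + 1) → ℝ) : gr p x i ⬝ᵥ w = fderiv ℝ (p i) x (WithLp.toLp 2 w) := by
  have h2 : (WithLp.toLp 2 w : Euc (n + 1)) = ∑ j, w j • EuclideanSpace.single j (1 : ℝ) := by
    ext j
    simp [Finset.sum_apply, Pi.single_apply]
  rw [h2, map_sum]
  simp only [dotProduct, gr, map_smul, smul_eq_mul]
  exact Finset.sum_congr rfl fun j _ => mul_comm _ _

theorem posSemidef_metricMat (ψ : Euc (n + 1) → Euc N) (x : Euc (n + 1)) :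
    (metricMat ψ x).PosSemidef := by
  rw [Matrix.posSemidef_iff_dotProduct_mulVec]
  refine ⟨E5b.metricMat_isHermitian ψ x, fun w => ?_⟩
  have h := E5b.quad_metricMat ψ x (WithLp.toLp 2 w)
  simp only at h
  have h1 : star w = w := by ext i; simp
  rw [h1, h]
  positivity

/-- the pointwise bound of the field `F cof ∇p` -/
theorem norm_fld_le (ψ : Euc (n + 1) → Euc N) (F : Euc (n + 1) → ℝ)
    (p : Fin n → Euc (n + 1) → ℝ) (x : Euc (n + 1)) {β : ℝ} (hβ : 0 < β)
    (hb : ∀ i w, |fderiv ℝ (p i) x w| ≤ β * ‖fderiv ℝ ψ x w‖) :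
    ‖fderiv ℝ ψ x (fld F p x)‖ ≤ |F x| * β ^ n * √(metricMat ψ x).det := by
  have h1 : fld F p x = F x • (WithLp.toLp 2 (cof (gr p x)) : Euc (n + 1)) := by
    ext j; simp [fld]
  rw [h1, map_smul, norm_smul, Real.norm_eq_abs, mul_assoc]
  refine mul_le_mul_of_nonneg_left ?_ (abs_nonneg _)
  have h2 := sqrt_quad_cof_le (metricMat ψ x) (posSemidef_metricMat ψ x) (gr p x) hβ (by
    intro i w
    rw [gr_dotProduct]
    have h3 := E5b.quad_metricMat ψ x (WithLp.toLp 2 w)
    simp only at h3
    rw [h3, ← mul_pow, ← sq_abs]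
    exact pow_le_pow_left₀ (abs_nonneg _) (hb i _) 2)
  have h3 := E5b.quad_metricMat ψ x (WithLp.toLp 2 (cof (gr p x)))
  simp only at h3
  rw [h3, Real.sqrt_sq (norm_nonneg _)] at h2
  exact h2

/-- perimeter inequality for the open set `A` in the chart `ψ` -/
def Perim (ψ : Euc (n + 1) → Euc N) (A : Set (Euc (n + 1))) (ν : Measure (Euc (n + 1))) : Prop :=
  ∀ V : Euc (n + 1) → Euc (n + 1), ContDiff ℝ ∞ V → HasCompactSupport V →
    ∫ x in A, dvg V x ≤ ∫ x, ‖fderiv ℝ ψ x (V x)‖ / √(metricMat ψ x).det ∂ν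

variable (c : EChart (n + 1) N X)

/-- derivative bound of mollified 1-Lipschitz functions -/
theorem exists_moll_bound (R : ℝ) {η : ℝ} (hη : 0 < η) :
    ∃ δ > 0, ∀ (q : X → ℝ) (u : Euc (n + 1) → ℝ), LipschitzWith 1 q → Continuous u →
      (∀ v ∈ closedBall (0 : Euc (n + 1)) (R + 1), u v = q (c.e v)) →
      ∀ (ε : ℝ) (hε : 0 < ε), ε < δ → ∀ x ∈ closedBall (0 : Euc (n + 1)) R, ∀ w,
        |fderiv ℝ (EMoll.moll hε u) x w| ≤ (1 + η) * ‖fderiv ℝ c.ψ x w‖ := by
  obtain ⟨δ, hδ, h⟩ := c.exists_unif (isCompact_closedBall (0 : Euc (n + 1)) R) hη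
  refine ⟨min δ (1 / 2), by positivity, fun q u hq hu huq ε hε hεδ x hx w => ?_⟩
  have h1 : ε < δ := lt_of_lt_of_le hεδ (min_le_left _ _)
  have h2 : ε < 1 / 2 := lt_of_lt_of_le hεδ (min_le_right _ _)
  refine EMoll.abs_fderiv_moll_le hε hu (p := fun w => (1 + η) * ‖fderiv ℝ c.ψ x w‖) ?_
    (δ := min δ (1 / 2)) (by positivity) ?_ w
  · intro s w hs
    rw [map_smul, norm_smul, Real.norm_of_nonneg hs.le]; ring
  · intro y hy w hw
    have hw1 : ‖w‖ < δ := lt_of_lt_of_le hw (min_le_left _ _)
    have hw2 : ‖w‖ < 1 / 2 := lt_of_lt_of_le hw (min_le_right _ _)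
    have hxn : ‖x‖ ≤ R := mem_closedBall_zero_iff.1 hx
    have hyx : ‖y - x‖ < ε := by rwa [mem_ball, dist_eq_norm] at hy
    have hyn : ‖y‖ ≤ R + 1 / 2 := by
      have e1 := norm_add_le x (y - x)
      have e2 : x + (y - x) = y := by abel
      rw [e2] at e1; linarith
    have hywn : ‖y + w‖ ≤ R + 1 := by
      have e1 := norm_add_le y w
      linarith
    rw [huq _ (mem_closedBall_zero_iff.2 hywn), huq _ (mem_closedBall_zero_iff.2 (by linarith)),
      ← Real.dist_eq]
    have h3 := hq.dist_le_mul (c.e (y + w)) (c.e y)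
    rw [NNReal.coe_one, one_mul] at h3
    exact h3.trans (h x hx y (ball_subset_ball h1.le hy) w hw1)

/-- One-sided bound of the boundary of `[[A]]`. -/
theorem bd_le {A : Set (Euc (n + 1))} (hA : IsOpen A) (hAb : Bornology.IsBounded A)
    {ν : Measure (Euc (n + 1))} [IsFiniteMeasure ν] (hper : Perim c.ψ A ν)
    {f : X → ℝ} {π : Fin n → X → ℝ} (hfπ : IsTestPair f π) (hπ : ∀ i, LipschitzWith 1 (π i)) :
    bd (chartAction A c.e (fun _ => 1)) f π ≤ ∫ v, |f (c.e v)| ∂ν := by
  classical
  obtain ⟨R₀, hR₀⟩ := hAb.subset_closedBall (0 : Euc (n + 1))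
  set R : ℝ := max R₀ 0 with hR
  have hR0 : 0 ≤ R := le_max_right _ _
  have hAR : A ⊆ closedBall (0 : Euc (n + 1)) R :=
    hR₀.trans (closedBall_subset_closedBall (le_max_left _ _))
  have hAm := hA.measurableSet
  -- the functions `q 0 = f`, `q (i+1) = π i` and their extensions
  set q : Fin (n + 1) → X → ℝ := Fin.cons f π with hq
  obtain ⟨Kf, hKf⟩ := hfπ.1
  have hqL : ∀ i, LipschitzWith (max Kf 1) (q i) := by
    intro i
    refine Fin.cases ?_ (fun i => ?_) i
    · exact hKf.weaken (le_max_left _ _)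
    · exact (hπ i).weaken (le_max_right _ _)
  obtain ⟨L, hL⟩ := c.e_lip (R + 3)
  set C : ℝ≥0 := max Kf 1 * L with hC
  have hext : ∀ i, ∃ g : Euc (n + 1) → ℝ, LipschitzWith C g ∧
      EqOn (fun v => q i (c.e v)) g (closedBall 0 (R + 3)) := fun i =>
    ((hqL i).comp_lipschitzOnWith hL).extend_real
  choose U hUL hUeq using hext
  have hUeq' : ∀ i, ∀ v ∈ closedBall (0 : Euc (n + 1)) (R + 3), U i v = q i (c.e v) :=
    fun i v hv => (hUeq i hv).symm
  have hAR3 : A ⊆ closedBall (0 : Euc (n + 1)) (R + 3) :=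
    hAR.trans (closedBall_subset_closedBall (by linarith))
  -- the boundary as an integral
  have htp := B10.isTestPair_cons hfπ
  have hbd : bd (chartAction A c.e (fun _ => 1)) f π = ∫ z, (A.indicator (fun _ => (1 : ℝ)) z) *
      (DM U z).det := by
    rw [B10.bd_apply hfπ]
    unfold chartAction
    rw [if_pos htp]
    have h1 : ∀ z, (A.indicator (fun _ => (1 : ℝ)) z) * (DM U z).det =
        A.indicator (fun z => (DM U z).det) z := by
      intro z
      by_cases hz : z ∈ A <;> simp [hz]
    simp only [h1]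
    rw [integral_indicator hAm]
    refine setIntegral_congr_fun hAm fun z hz => ?_
    simp only [Int.cast_one, one_mul]
    congr 1
    ext i j
    rw [DM_apply, Matrix.of_apply, fderivWithin_of_isOpen hA hz]
    have h2 : (fun w => (Fin.cons f π : Fin (n + 1) → X → ℝ) i (c.e w)) =ᶠ[𝓝 z] U i := by
      filter_upwards [hA.mem_nhds hz] with w hw
      exact (hUeq' i w (hAR3 hw)).symm
    rw [h2.fderiv_eq]
  -- mollification
  have hpos : ∀ j : ℕ, (0 : ℝ) < 1 / ((j : ℝ) + 1) := fun j => by positivity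
  set UM : ℕ → Fin (n + 1) → Euc (n + 1) → ℝ := fun j i => EMoll.moll (hpos j) (U i) with hUM
  have hUMs : ∀ j i, ContDiff ℝ ∞ (UM j i) := fun j i =>
    EMoll.contDiff_moll (hpos j) (hUL i).continuous
  have hUML : ∀ j i, LipschitzWith C (UM j i) := fun j i => EMoll.lipschitz_moll (hpos j) (hUL i)
  have hUMc : ∀ j i x, |UM j i x - U i x| ≤ C * (1 / ((j : ℝ) + 1)) := fun j i x =>
    EMoll.abs_moll_sub_le_of_lipschitz (hpos j) (hUL i) x
  have hε0 : Tendsto (fun j : ℕ => (C : ℝ) * (1 / ((j : ℝ) + 1))) atTop (𝓝 0) := by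
    have := (tendsto_one_div_add_atTop_nhds_zero_nat (𝕜 := ℝ)).const_mul (C : ℝ)
    simpa using this
  have hind : Integrable (A.indicator (fun _ => (1 : ℝ))) (volume : Measure (Euc (n + 1))) := by
    rw [integrable_indicator_iff hAm]
    exact integrableOn_const (hAb.measure_lt_top).ne
  have hlim := tendsto_integral_mul_det hind hUML hUL hε0 hUMc
  rw [← hbd] at hlim
  -- cut-off function
  let χ : ContDiffBump (0 : Euc (n + 1)) := ⟨R + 1, R + 2, by linarith, by linarith⟩
  have hχ1 : ∀ x ∈ ball (0 : Euc (n + 1)) (R + 1), χ x = 1 := fun x hx =>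
    χ.one_of_mem_closedBall (ball_subset_closedBall hx)
  -- the bound for each approximation
  have hstep : ∀ η : ℝ, 0 < η → ∀ᶠ j : ℕ in atTop,
      ∫ z, (A.indicator (fun _ => (1 : ℝ)) z) * (DM (UM j) z).det ≤
        (1 + η) ^ n * (∫ v, |f (c.e v)| ∂ν + C * (1 / ((j : ℝ) + 1)) * ν.real univ) := by
    intro η hη
    obtain ⟨δ, hδ, hmoll⟩ := exists_moll_bound c (R + 2) hη
    have hev : ∀ᶠ j : ℕ in atTop, 1 / ((j : ℝ) + 1) < δ :=
      (tendsto_one_div_add_atTop_nhds_zero_nat (𝕜 := ℝ)).eventually (gt_mem_nhds hδ)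
    filter_upwards [hev] with j hj
    set F : Euc (n + 1) → ℝ := fun x => χ x * UM j 0 x with hF
    set p : Fin n → Euc (n + 1) → ℝ := fun i => UM j i.succ with hp
    have hFs : ContDiff ℝ ∞ F := χ.contDiff.mul (hUMs j 0)
    have hFc : HasCompactSupport F := χ.hasCompactSupport.mul_right
    have hps : ∀ i, ContDiff ℝ ∞ (p i) := fun i => hUMs j _
    have hdiv := dvg_fld hFs hFc hps (fun i => ⟨C, hUML j _⟩)
    have h1 : ∫ z, (A.indicator (fun _ => (1 : ℝ)) z) * (DM (UM j) z).det =
        ∫ z in A, dvg (fld F p) z := by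
      have h2 : ∀ z, (A.indicator (fun _ => (1 : ℝ)) z) * (DM (UM j) z).det =
          A.indicator (fun z => (DM (UM j) z).det) z := by
        intro z
        by_cases hz : z ∈ A <;> simp [hz]
      simp only [h2]
      rw [integral_indicator hAm]
      refine setIntegral_congr_ae hAm ?_
      filter_upwards [hdiv] with z hz hzA
      rw [hz]
      congr 1
      ext i l
      rw [DM_apply, DM_apply]
      refine Fin.cases ?_ (fun i => ?_) i
      · have h3 : (fun x => UM j 0 x) =ᶠ[𝓝 z] F := by
          have h4 : z ∈ ball (0 : Euc (n + 1)) (R + 1) := by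
            have := hAR hzA
            rw [mem_closedBall_zero_iff] at this
            rw [mem_ball_zero_iff]; linarith
          filter_upwards [isOpen_ball.mem_nhds h4] with x hx
          rw [hF]; simp only; rw [hχ1 x hx, one_mul]
        have h5 : fderiv ℝ (UM j 0) z = fderiv ℝ F z := h3.fderiv_eq
        rw [h5]; rfl
      · rfl
    rw [h1]
    have hV := contDiff_fld hFs hps
    have hVc := hasCompactSupport_fld hFc p
    refine (hper _ hV hVc).trans ?_
    -- pointwise bound
    have hpt : ∀ x, ‖fderiv ℝ c.ψ x (fld F p x)‖ / √(metricMat c.ψ x).det ≤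
        (1 + η) ^ n * (|f (c.e x)| + C * (1 / ((j : ℝ) + 1))) := by
      intro x
      by_cases hx : x ∈ closedBall (0 : Euc (n + 1)) (R + 2)
      · have h2 := norm_fld_le c.ψ F p x (β := 1 + η) (by linarith) (by
          intro i w
          refine hmoll (π i) (U i.succ) (hπ i) (hUL _).continuous ?_ _ (hpos j) hj x hx w
          intro v hv
          exact hUeq' i.succ v (closedBall_subset_closedBall (by linarith) hv))
        have h3 : |F x| ≤ |f (c.e x)| + C * (1 / ((j : ℝ) + 1)) := by
          have h4 : |F x| ≤ |UM j 0 x| := by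
            rw [hF]; simp only
            rw [abs_mul, abs_of_nonneg χ.nonneg]
            exact mul_le_of_le_one_left (abs_nonneg _) χ.le_one
          have h5 := hUMc j 0 x
          have h6 : U 0 x = f (c.e x) := hUeq' 0 x (closedBall_subset_closedBall (by linarith) hx)
          have h7 := abs_add_le (U 0 x) (UM j 0 x - U 0 x)
          rw [add_sub_cancel, h6] at h7
          rw [h6] at h5
          linarith
        refine div_le_of_le_mul₀ (Real.sqrt_nonneg _) (by positivity) ?_
        refine h2.trans ?_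
        have h8 : |F x| * (1 + η) ^ n * √(metricMat c.ψ x).det ≤
            (|f (c.e x)| + C * (1 / ((j : ℝ) + 1))) * (1 + η) ^ n * √(metricMat c.ψ x).det := by
          gcongr
        refine h8.trans (le_of_eq ?_)
        ring
      · have h2 : fld F p x = 0 := by
          have h3 : F x = 0 := by
            rw [hF]; simp only
            have : χ x = 0 := by
              have h4 : x ∉ Function.support χ := by
                rw [χ.support_eq]
                intro h5
                exact hx (ball_subset_closedBall h5)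
              simpa using h4
            rw [this, zero_mul]
          ext l; simp [fld, h3]
        rw [h2, map_zero, norm_zero, zero_div]
        positivity
    have hint : Integrable (fun v => |f (c.e v)|) ν := by
      obtain ⟨D, hD⟩ := hfπ.2.1
      refine Integrable.of_bound ?_ D (Eventually.of_forall fun v => ?_)
      · exact (continuous_abs.comp (hKf.continuous.comp c.continuous_e)).aestronglyMeasurable
      · rw [Real.norm_eq_abs, abs_abs]; exact hD _
    calc ∫ x, ‖fderiv ℝ c.ψ x (fld F p x)‖ / √(metricMat c.ψ x).det ∂ν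
        ≤ ∫ x, (1 + η) ^ n * (|f (c.e x)| + C * (1 / ((j : ℝ) + 1))) ∂ν := by
          refine integral_mono_of_nonneg (Eventually.of_forall fun x => by positivity) ?_
            (Eventually.of_forall hpt)
          exact (hint.add (integrable_const _)).const_mul _
      _ = (1 + η) ^ n * (∫ v, |f (c.e v)| ∂ν + C * (1 / ((j : ℝ) + 1)) * ν.real univ) := by
          rw [integral_const_mul, integral_add hint (integrable_const _), integral_const,
            smul_eq_mul, mul_comm (ν.real univ)]
  -- pass to the limit in `j`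
  have hη : ∀ η : ℝ, 0 < η → bd (chartAction A c.e (fun _ => 1)) f π ≤
      (1 + η) ^ n * ∫ v, |f (c.e v)| ∂ν := by
    intro η hη
    have h1 : Tendsto (fun j : ℕ => (1 + η) ^ n * (∫ v, |f (c.e v)| ∂ν +
        C * (1 / ((j : ℝ) + 1)) * ν.real univ)) atTop
        (𝓝 ((1 + η) ^ n * (∫ v, |f (c.e v)| ∂ν + 0 * ν.real univ))) :=
      ((hε0.mul_const _).const_add _).const_mul _
    rw [zero_mul, add_zero] at h1
    exact le_of_tendsto_of_tendsto hlim h1 (hstep η hη)
  -- pass to the limit in `η`
  have h2 : Tendsto (fun η : ℝ => (1 + η) ^ n * ∫ v, |f (c.e v)| ∂ν) (𝓝[>] 0)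
      (𝓝 ((1 + 0) ^ n * ∫ v, |f (c.e v)| ∂ν)) := by
    have : Continuous fun η : ℝ => (1 + η) ^ n * ∫ v, |f (c.e v)| ∂ν := by fun_prop
    exact (this.tendsto 0).mono_left nhdsWithin_le_nhds
  rw [add_zero, one_pow, one_mul] at h2
  refine ge_of_tendsto h2 ?_
  filter_upwards [self_mem_nhdsWithin] with η hη'
  exact hη η hη'

variable [MeasurableSpace X] [BorelSpace X]

/-- **The boundary mass of `[[A]]`**. -/
theorem controls_bd {A : Set (Euc (n + 1))} (hA : IsOpen A) (hAb : Bornology.IsBounded A)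
    {ν : Measure (Euc (n + 1))} [IsFiniteMeasure ν] (hper : Perim c.ψ A ν) :
    Controls (bd (chartAction A c.e (fun _ => 1))) (ν.map c.e) := by
  intro f π hfπ hπ
  have hmap : ∫ x, |f x| ∂(ν.map c.e) = ∫ v, |f (c.e v)| ∂ν := by
    obtain ⟨Kf, hKf⟩ := hfπ.1
    rw [integral_map c.continuous_e.measurable.aemeasurable]
    exact (continuous_abs.comp hKf.continuous).aestronglyMeasurable
  rw [hmap, abs_le']
  refine ⟨bd_le c hA hAb hper hfπ hπ, ?_⟩
  have hneg : IsTestPair (-f) π := B10.isTestPair_neg hfπ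
  have h1 := bd_le c hA hAb hper hneg hπ
  have h2 : bd (chartAction A c.e (fun _ => 1)) (-f) π =
      - bd (chartAction A c.e (fun _ => 1)) f π := by
    rw [B10.bd_apply hneg, B10.bd_apply hfπ]
    unfold chartAction
    rw [if_pos (B10.isTestPair_cons hneg), if_pos (B10.isTestPair_cons hfπ), ← integral_neg]
    refine setIntegral_congr_fun hA.measurableSet fun z hz => ?_
    simp only [Int.cast_one, one_mul]
    have h3 : (Matrix.of fun (i j : Fin (n + 1)) => fderivWithin ℝ
        (fun w => (Fin.cons (-f) π : Fin (n + 1) → X → ℝ) i (c.e w)) A z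
          (EuclideanSpace.single j (1 : ℝ))) =
        (Matrix.of fun (i j : Fin (n + 1)) => fderivWithin ℝ
          (fun w => (Fin.cons f π : Fin (n + 1) → X → ℝ) i (c.e w)) A z
          (EuclideanSpace.single j (1 : ℝ))).updateRow 0
          ((-1 : ℝ) • fun j => fderivWithin ℝ
          (fun w => (Fin.cons f π : Fin (n + 1) → X → ℝ) 0 (c.e w)) A z
          (EuclideanSpace.single j (1 : ℝ))) := by
      ext i j
      refine Fin.cases ?_ (fun i => ?_) i
      · rw [Matrix.updateRow_self, Matrix.of_apply]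
        have h4 : (fun w => (Fin.cons (-f) π : Fin (n + 1) → X → ℝ) 0 (c.e w)) =
            fun w => -((Fin.cons f π : Fin (n + 1) → X → ℝ) 0 (c.e w)) := rfl
        rw [h4, fderivWithin_fun_neg (hA.uniqueDiffOn z hz)]
        simp
      · rw [Matrix.updateRow_ne (Fin.succ_ne_zero i)]
        rfl
    rw [h3, Matrix.det_updateRow_smul]
    have h5 : ((Matrix.of fun (i j : Fin (n + 1)) => fderivWithin ℝ
          (fun w => (Fin.cons f π : Fin (n + 1) → X → ℝ) i (c.e w)) A z
          (EuclideanSpace.single j (1 : ℝ))).updateRow 0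
          (fun j => fderivWithin ℝ
          (fun w => (Fin.cons f π : Fin (n + 1) → X → ℝ) 0 (c.e w)) A z
          (EuclideanSpace.single j (1 : ℝ)))) = (Matrix.of fun (i j : Fin (n + 1)) =>
          fderivWithin ℝ (fun w => (Fin.cons f π : Fin (n + 1) → X → ℝ) i (c.e w)) A z
          (EuclideanSpace.single j (1 : ℝ))) := Matrix.updateRow_eq_self _ _
    rw [h5]
    ring
  rw [h2] at h1
  simpa using h1

end Crest.Agent.R241.EP2
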