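import Mathlib
import Crest.Agent.R241.E1g
import Crest.Agent.R241.EP2

/-! Row 241, block E1 (helper777), part h: the perimeter inequality for vector fields, Euclidean
case and one small ball of an immersion. -/

set_option autoImplicit false
set_option linter.unusedSectionVars false
open MeasureTheory MeasureTheory.Measure Metric Filter Set Module TopologicalSpace
open scoped NNReal ENNReal Topology

noncomputable section

namespace Crest.Agent.R241.E1

open Crest.GeometryTopology.Submanifold (Euc metricMat)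
open EP1

variable {n N : ℕ}

theorem dvg_eq_zero_of_notMem {V : Euc (n + 1) → Euc (n + 1)} {x : Euc (n + 1)}
    (h : x ∉ tsupport V) : dvg V x = 0 := by
  unfold dvg
  rw [fderiv_of_notMem_tsupport ℝ h]
  simp

theorem continuous_dvg {V : Euc (n + 1) → Euc (n + 1)} (hV : ContDiff ℝ 1 V) :
    Continuous (dvg V) := by
  unfold dvg
  have h := hV.continuous_fderiv one_ne_zero
  refine continuous_finsetSum _ fun i _ => ?_
  have h1 : Continuous fun x => fderiv ℝ V x (EuclideanSpace.single i 1) :=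
    h.clm_apply continuous_const
  exact (EuclideanSpace.proj (𝕜 := ℝ) i).continuous.comp h1

theorem hasCompactSupport_dvg {V : Euc (n + 1) → Euc (n + 1)} (hc : HasCompactSupport V) :
    HasCompactSupport (dvg V) := by
  refine hc.mono' ?_
  intro x hx
  by_contra h
  exact hx (dvg_eq_zero_of_notMem h)

theorem integrable_dvg {V : Euc (n + 1) → Euc (n + 1)} (hV : ContDiff ℝ 1 V)
    (hc : HasCompactSupport V) : Integrable (dvg V) :=
  (continuous_dvg hV).integrable_of_hasCompactSupport (hasCompactSupport_dvg hc)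

/-- integration by parts. -/
theorem integral_mul_dvg {u : Euc (n + 1) → ℝ} {V : Euc (n + 1) → Euc (n + 1)}
    (hu : ContDiff ℝ 1 u) (hV : ContDiff ℝ 1 V) (hc : HasCompactSupport V) :
    ∫ x, u x * dvg V x = - ∫ x, fderiv ℝ u x (V x) := by
  have hu' := hu.continuous_fderiv one_ne_zero
  have hV' := hV.continuous_fderiv one_ne_zero
  -- the components
  have hVi : ∀ i, ContDiff ℝ 1 fun x => V x i := fun i =>
    (EuclideanSpace.proj (𝕜 := ℝ) i).contDiff.comp hV
  have hVc : ∀ i, HasCompactSupport fun x => V x i := fun i =>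
    hc.comp_left (g := fun y : Euc (n + 1) => y i) (by simp)
  have hVd : ∀ i x v, fderiv ℝ (fun x => V x i) x v = fderiv ℝ V x v i := by
    intro i x v
    have h1 : HasFDerivAt V (fderiv ℝ V x) x := (hV.differentiable one_ne_zero x).hasFDerivAt
    have h2 := (EuclideanSpace.proj (𝕜 := ℝ) i).hasFDerivAt.comp x h1
    have h3 : fderiv ℝ (fun x => V x i) x = (EuclideanSpace.proj (𝕜 := ℝ) i).comp (fderiv ℝ V x) :=
      h2.fderiv
    rw [h3]; rfl
  have e1 : ∀ x, u x * dvg V x =
      ∑ i, u x * fderiv ℝ (fun x => V x i) x (EuclideanSpace.single i 1) := by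
    intro x
    unfold dvg
    rw [Finset.mul_sum]
    exact Finset.sum_congr rfl fun i _ => by rw [hVd]
  have e2 : ∀ x, fderiv ℝ u x (V x) =
      ∑ i, fderiv ℝ u x (EuclideanSpace.single i 1) * V x i := by
    intro x
    have h3 : V x = ∑ i, (V x i) • EuclideanSpace.single i (1 : ℝ) := by
      ext a
      simp [Finset.sum_apply, Pi.single_apply]
    conv_lhs => rw [h3, _root_.map_sum]
    exact Finset.sum_congr rfl fun i _ => by rw [map_smul, smul_eq_mul, mul_comm]
  have i1 : ∀ i, Integrable fun x => fderiv ℝ u x (EuclideanSpace.single i 1) * V x i := by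
    intro i
    refine Continuous.integrable_of_hasCompactSupport ?_ (hVc i).mul_left
    exact (hu'.clm_apply continuous_const).mul (hVi i).continuous
  have i2 : ∀ i, Integrable fun x =>
      u x * fderiv ℝ (fun x => V x i) x (EuclideanSpace.single i 1) := by
    intro i
    have h1 : HasCompactSupport fun x => fderiv ℝ (fun x => V x i) x (EuclideanSpace.single i 1) :=
      ((hVc i).fderiv (𝕜 := ℝ)).comp_left
        (g := fun A : Euc (n + 1) →L[ℝ] ℝ => A (EuclideanSpace.single i 1)) (by simp)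
    refine Continuous.integrable_of_hasCompactSupport ?_ h1.mul_left
    exact hu.continuous.mul (((hVi i).continuous_fderiv one_ne_zero).clm_apply continuous_const)
  have i3 : ∀ i, Integrable fun x => u x * V x i := fun i =>
    Continuous.integrable_of_hasCompactSupport (hu.continuous.mul (hVi i).continuous)
      (hVc i).mul_left
  simp_rw [e1, e2]
  rw [integral_finsetSum _ fun i _ => i2 i, integral_finsetSum _ fun i _ => i1 i,
    ← Finset.sum_neg_distrib]
  refine Finset.sum_congr rfl fun i _ => ?_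
  exact integral_mul_fderiv_eq_neg_fderiv_mul_of_integrable (i1 i) (i2 i) (i3 i)
    (fun x _ => hu.differentiable one_ne_zero x) (fun x _ => (hVi i).differentiable one_ne_zero x)

/-- **perimeter inequality for vector fields, Euclidean case**. -/
theorem euclid_div {Ω : Set (Euc (n + 1))} (hΩ : IsOpen Ω)
    (hfin : ∀ R : ℝ, μHE[n] (frontier Ω ∩ closedBall 0 R) ≠ ∞)
    {W : Euc (n + 1) → Euc (n + 1)} (hW : ContDiff ℝ 1 W) (hc : HasCompactSupport W) :
    ∫ x in Ω, dvg W x ≤ ∫ x, ‖W x‖ ∂(bm n Ω) := by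
  have hn : finrank ℝ (Euc (n + 1)) = n + 1 := finrank_euclideanSpace_fin
  have hloc := bm_locFin hfin
  have hG : Continuous fun x => ‖W x‖ := hW.continuous.norm
  have hGc : HasCompactSupport fun x => ‖W x‖ := hc.norm
  have hdi := integrable_dvg hW hc
  have key : ∀ k, ∫ z, mol (bmp _ k) Ω z * dvg W z ≤
      ∫ y, avg (bmp (Euc (n + 1)) k) (fun x => ‖W x‖) y ∂(bm n Ω) := by
    intro k
    set u := mol (bmp (Euc (n + 1)) k) Ω with hu
    have huc : ContDiff ℝ 1 u := contDiff_mol _ hΩ.measurableSet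
    rw [integral_mul_dvg huc hW hc]
    refine le_trans ?_ (integral_norm_fderiv_mol_le hn hΩ hfin (bmp (Euc (n + 1)) k) hG hGc
      fun x => by positivity)
    refine (neg_le_abs _).trans ((abs_integral_le_integral_abs).trans ?_)
    have hdu : Continuous fun x => ‖fderiv ℝ u x‖ := (huc.continuous_fderiv one_ne_zero).norm
    refine integral_mono_of_nonneg (Eventually.of_forall fun _ => abs_nonneg _)
      ((hdu.mul hG).integrable_of_hasCompactSupport hGc.mul_left) (Eventually.of_forall fun z => ?_)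
    exact (fderiv ℝ u z).le_opNorm (W z)
  have T1 : Tendsto (fun k => ∫ z, mol (bmp (Euc (n + 1)) k) Ω z * dvg W z) atTop
      (𝓝 (∫ z, Ω.indicator (fun _ => (1 : ℝ)) z * dvg W z)) := by
    refine tendsto_integral_of_dominated_convergence (fun z => |dvg W z|) ?_ hdi.abs ?_ ?_
    · intro k
      exact ((contDiff_mol _ hΩ.measurableSet).continuous.aestronglyMeasurable).mul
        hdi.aestronglyMeasurable
    · intro k
      refine Eventually.of_forall fun z => ?_
      rw [norm_mul, Real.norm_eq_abs, Real.norm_eq_abs, abs_of_nonneg (mol_nonneg _ _ _)]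
      exact mul_le_of_le_one_left (abs_nonneg _) (mol_le_one _ _ _)
    · filter_upwards [tendsto_mol hΩ.measurableSet] with z hz
      exact hz.mul_const _
  have T2 : Tendsto (fun k => ∫ y, avg (bmp (Euc (n + 1)) k) (fun x => ‖W x‖) y ∂(bm n Ω))
      atTop (𝓝 (∫ y, ‖W y‖ ∂(bm n Ω))) := tendsto_avg hG hGc _
  have e3 := le_of_tendsto_of_tendsto' T1 T2 key
  have e4 : ∫ z, Ω.indicator (fun _ => (1 : ℝ)) z * dvg W z = ∫ z in Ω, dvg W z := by
    rw [← integral_indicator hΩ.measurableSet]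
    congr 1
    funext z
    by_cases hz : z ∈ Ω
    · rw [indicator_of_mem hz, indicator_of_mem hz, one_mul]
    · rw [indicator_of_notMem hz, indicator_of_notMem hz, zero_mul]
  rwa [e4] at e3

/-- invariance of the divergence under linear changes of coordinates. -/
theorem dvg_conj (L : Euc (n + 1) ≃L[ℝ] Euc (n + 1)) {V : Euc (n + 1) → Euc (n + 1)}
    (hV : ContDiff ℝ 1 V) (y : Euc (n + 1)) :
    dvg (fun y => L (V (L.symm y))) y = dvg V (L.symm y) := by
  have h1 : HasFDerivAt V (fderiv ℝ V (L.symm y)) (L.symm y) :=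
    (hV.differentiable one_ne_zero _).hasFDerivAt
  have h2 := (L.hasFDerivAt (x := V (L.symm y))).comp y (h1.comp y (L.symm.hasFDerivAt (x := y)))
  have h3 : fderiv ℝ (fun y => L (V (L.symm y))) y =
      (L : Euc (n + 1) →L[ℝ] Euc (n + 1)).comp ((fderiv ℝ V (L.symm y)).comp
        (L.symm : Euc (n + 1) →L[ℝ] Euc (n + 1))) := h2.fderiv
  have htr : ∀ A : Euc (n + 1) →L[ℝ] Euc (n + 1),
      ∑ i, A (EuclideanSpace.single i 1) i = LinearMap.trace ℝ _ A.toLinearMap := by
    intro A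
    rw [LinearMap.trace_eq_matrix_trace ℝ (EuclideanSpace.basisFun (Fin (n + 1)) ℝ).toBasis,
      Matrix.trace]
    refine Finset.sum_congr rfl fun i _ => ?_
    rw [Matrix.diag_apply, LinearMap.toMatrix_apply]
    simp
  unfold dvg
  rw [htr, htr, h3]
  set B := fderiv ℝ V (L.symm y) with hB
  have h4 : ((L : Euc (n + 1) →L[ℝ] Euc (n + 1)).comp (B.comp
        (L.symm : Euc (n + 1) →L[ℝ] Euc (n + 1)))).toLinearMap =
      L.toLinearEquiv.conj B.toLinearMap := by
    ext v
    rfl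
  rw [h4, LinearMap.trace_conj']

theorem abs_det_eq_jac {m : ℕ} {A : Euc m →L[ℝ] Euc N} {L : Euc m ≃L[ℝ] Euc m}
    (hL : ∀ v, ‖L v‖ = ‖A v‖) : |(L : Euc m →L[ℝ] Euc m).det| = AF.jac A := by
  have h1 : AF.jac (L : Euc m →L[ℝ] Euc m) = |(L : Euc m →L[ℝ] Euc m).det| :=
    LinearMap.normDet_eq_abs_det _
  rw [← h1]
  have h2 : AF.jac (L : Euc m →L[ℝ] Euc m) ^ 2 = AF.jac A ^ 2 := by
    rw [AF.jac_sq_gram _ (EuclideanSpace.basisFun (Fin m) ℝ),
      AF.jac_sq_gram _ (EuclideanSpace.basisFun (Fin m) ℝ)]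
    congr 1
    ext i j
    simp only [Matrix.of_apply]
    have key : ∀ u v : Euc m, inner ℝ (L u) (L v) = (inner ℝ (A u) (A v) : ℝ) := by
      intro u v
      rw [real_inner_eq_norm_mul_self_add_norm_mul_self_sub_norm_sub_mul_self_div_two,
        real_inner_eq_norm_mul_self_add_norm_mul_self_sub_norm_sub_mul_self_div_two,
        ← map_sub, ← map_sub, hL, hL, hL]
    exact key _ _
  have h3 := AF.jac_nonneg (L : Euc m →L[ℝ] Euc m)
  have h4 := AF.jac_nonneg A
  nlinarith [sq_nonneg (AF.jac (L : Euc m →L[ℝ] Euc m) - AF.jac A)]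

theorem jac_pos {m : ℕ} {A : Euc m →L[ℝ] Euc N} (hA : Function.Injective A) : 0 < AF.jac A := by
  obtain ⟨L, hL⟩ := exists_linear A hA
  rw [← abs_det_eq_jac hL]
  refine abs_pos.2 ?_
  have h1 : IsUnit (LinearMap.det (L.toLinearEquiv : Euc m →ₗ[ℝ] Euc m)) :=
    L.toLinearEquiv.isUnit_det'
  exact h1.ne_zero

/-- the derivative is almost isometric in the linear chart. -/
theorem norm_L_le {ψ : Euc (n + 1) → Euc N} (hψ : ContDiff ℝ 1 ψ) {x₀ : Euc (n + 1)} {r : ℝ}
    {L : Euc (n + 1) ≃L[ℝ] Euc (n + 1)} {C : ℝ}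
    (hcmp : ∀ x ∈ ball x₀ r, ∀ y ∈ ball x₀ r, ‖L x - L y‖ ≤ C * ‖ψ x - ψ y‖)
    {x : Euc (n + 1)} (hx : x ∈ ball x₀ r) (v : Euc (n + 1)) :
    ‖L v‖ ≤ C * ‖fderiv ℝ ψ x v‖ := by
  have h1 : HasFDerivAt ψ (fderiv ℝ ψ x) x := (hψ.differentiable one_ne_zero x).hasFDerivAt
  have h2 := (h1.hasLineDerivAt v).tendsto_slope_zero
  have h3 : Tendsto (fun t : ℝ => C * ‖t⁻¹ • (ψ (x + t • v) - ψ x)‖) (𝓝[≠] 0)
      (𝓝 (C * ‖fderiv ℝ ψ x v‖)) := h2.norm.const_mul C
  refine ge_of_tendsto h3 ?_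
  have h4 : ∀ᶠ t : ℝ in 𝓝[≠] 0, x + t • v ∈ ball x₀ r := by
    refine eventually_nhdsWithin_of_eventually_nhds ?_
    have h5 : Continuous fun t : ℝ => x + t • v := by fun_prop
    refine h5.continuousAt.eventually_mem ?_
    simpa using isOpen_ball.mem_nhds hx
  filter_upwards [h4, self_mem_nhdsWithin] with t ht ht0
  have h6 := hcmp _ ht x hx
  rw [norm_smul, ← mul_assoc, mul_comm C, mul_assoc]
  have h7 : L (x + t • v) - L x = t • L v := by
    rw [map_add, map_smul, add_sub_cancel_left]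
  rw [h7, norm_smul] at h6
  have h8 : 0 < ‖t‖ := norm_pos_iff.2 ht0
  rw [norm_inv, inv_mul_eq_div, le_div_iff₀ h8]
  linarith

/-- **the perimeter inequality in one small ball**. -/
theorem local_div {ψ : Euc (n + 1) → Euc N} (hψ : ContDiff ℝ 1 ψ)
    (hi : Function.Injective ψ) (him : ∀ x, Function.Injective (fderiv ℝ ψ x))
    {A : Set (Euc (n + 1))} (hA : IsOpen A)
    (hfin : ∀ K : Set (Euc (n + 1)), IsCompact K → bmψ n ψ A K ≠ ∞)
    (x₀ : Euc (n + 1)) {δ : ℝ} (hδ : 0 < δ) :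
    ∃ r > 0, ∀ V : Euc (n + 1) → Euc (n + 1), ContDiff ℝ 1 V → HasCompactSupport V →
      tsupport V ⊆ ball x₀ r → ∫ x in A, dvg V x ≤ (1 + δ) ^ (n + 2) *
        ∫ x, ‖fderiv ℝ ψ x (V x)‖ / √(metricMat ψ x).det ∂(bmψ n ψ A) := by
  have hloc : IsFiniteMeasureOnCompacts (bmψ n ψ A) := ⟨fun K hK => (hfin K hK).lt_top⟩
  obtain ⟨L, hL⟩ := exists_linear (fderiv ℝ ψ x₀) (him x₀)
  obtain ⟨r₁, hr₁, hcmp⟩ := local_cmp hψ (him x₀) hL hδ
  have hJc : Continuous fun x => AF.jac (fderiv ℝ ψ x) :=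
    AF.continuous_jac.comp (hψ.continuous_fderiv one_ne_zero)
  have hJ0 : ∀ x, 0 < AF.jac (fderiv ℝ ψ x) := fun x => jac_pos (him x)
  have h1 : ∀ᶠ x in 𝓝 x₀, AF.jac (fderiv ℝ ψ x) < (1 + δ) * AF.jac (fderiv ℝ ψ x₀) := by
    refine hJc.continuousAt.eventually_lt_const ?_
    have := hJ0 x₀
    nlinarith
  obtain ⟨r₂, hr₂, hJr⟩ := Metric.eventually_nhds_iff_ball.1 h1
  refine ⟨min r₁ r₂, by positivity, fun V hV hc hs => ?_⟩
  set r := min r₁ r₂ with hr
  have hb1 : ball x₀ r ⊆ ball x₀ r₁ := ball_subset_ball (min_le_left _ _)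
  have hb2 : ball x₀ r ⊆ ball x₀ r₂ := ball_subset_ball (min_le_right _ _)
  set D : ℝ := |(L : Euc (n + 1) →L[ℝ] Euc (n + 1)).det| with hD
  have hDJ : D = AF.jac (fderiv ℝ ψ x₀) := abs_det_eq_jac hL
  have hD0 : 0 < D := by rw [hDJ]; exact hJ0 x₀
  -- the field in the linear chart
  set W : Euc (n + 1) → Euc (n + 1) := fun y => L (V (L.symm y)) with hW
  have hWc : ContDiff ℝ 1 W := L.contDiff.comp (hV.comp L.symm.contDiff)
  have hWs : HasCompactSupport W := by
    have h2 : HasCompactSupport fun y => V (L.symm y) :=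
      hc.comp_homeomorph L.symm.toHomeomorph
    exact h2.comp_left (g := fun v => L v) (by simp)
  have hfin' := locFin_image (n := n) hψ hi him hfin L
  have hLA : IsOpen (L '' A) := L.toHomeomorph.isOpenMap A hA
  have e1 := euclid_div hLA hfin' hWc hWs
  have e2 : ∫ y in L '' A, dvg W y = D * ∫ x in A, dvg V x := by
    have h2 := integral_image_eq_integral_abs_det_fderiv_smul (volume : Measure (Euc (n + 1)))
      hA.measurableSet (f := L) (f' := fun _ => (L : Euc (n + 1) →L[ℝ] Euc (n + 1)))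
      (fun x _ => (L.hasFDerivAt).hasFDerivWithinAt) (L.injective.injOn) (fun y => dvg W y)
    rw [h2, ← integral_const_mul]
    refine integral_congr_ae (Eventually.of_forall fun x => ?_)
    simp only [smul_eq_mul]
    rw [hW, dvg_conj L hV, L.symm_apply_apply]
  have hGcont : Continuous fun x => ‖L (V x)‖ := (L.continuous.comp hV.continuous).norm
  have hGs : HasCompactSupport fun x => ‖L (V x)‖ :=
    hc.comp_left (g := fun v => ‖L v‖) (by simp)
  have hV0 : ∀ x ∉ ball x₀ r, V x = 0 := by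
    intro x hx
    exact image_eq_zero_of_notMem_tsupport fun h => hx (hs h)
  have e3 := integral_bm_image_le (n := n) hψ.continuous hi hfin (L := L) (B := ball x₀ r)
    measurableSet_ball (K := ⟨1 + δ, by positivity⟩)
    (fun x hx y hy => (hcmp x (hb1 hx) y (hb1 hy)).1) (G := fun x => ‖L (V x)‖) hGcont hGs
    (fun x => norm_nonneg _) (fun x hx => by rw [hV0 x hx]; simp)
  have hHcont : Continuous fun x => ‖fderiv ℝ ψ x (V x)‖ / √(metricMat ψ x).det := by
    simp_rw [← AF.jac_eq_sqrt]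
    exact (((hψ.continuous_fderiv one_ne_zero).clm_apply hV.continuous).norm).div₀ hJc
      fun x => (hJ0 x).ne'
  have hHs : HasCompactSupport fun x => ‖fderiv ℝ ψ x (V x)‖ / √(metricMat ψ x).det := by
    refine hc.mono' ?_
    intro x hx
    by_contra h
    refine hx ?_
    simp only
    rw [image_eq_zero_of_notMem_tsupport h, map_zero, norm_zero, zero_div]
  have hHi : Integrable (fun x => ‖fderiv ℝ ψ x (V x)‖ / √(metricMat ψ x).det) (bmψ n ψ A) :=
    hHcont.integrable_of_hasCompactSupport hHs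
  have e4 : ∫ x, ‖L (V x)‖ ∂(bmψ n ψ A) ≤
      ∫ x, D * (1 + δ) ^ 2 * (‖fderiv ℝ ψ x (V x)‖ / √(metricMat ψ x).det) ∂(bmψ n ψ A) := by
    refine integral_mono (hGcont.integrable_of_hasCompactSupport hGs)
      (hHi.const_mul _) fun x => ?_
    simp only
    by_cases hx : x ∈ ball x₀ r
    · rw [← AF.jac_eq_sqrt]
      have h3 := norm_L_le hψ (fun x hx y hy => (hcmp x hx y hy).1) (hb1 hx) (V x)
      have h4 := (hJr x (hb2 hx)).le
      rw [← hDJ] at h4
      have h5 := hJ0 x
      rw [mul_div_assoc', le_div_iff₀ h5]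
      calc ‖L (V x)‖ * AF.jac (fderiv ℝ ψ x)
          ≤ ((1 + δ) * ‖fderiv ℝ ψ x (V x)‖) * ((1 + δ) * D) := by gcongr
        _ = _ := by ring
    · rw [hV0 x hx]; simp
  rw [integral_const_mul] at e4
  have e5 : D * ∫ x in A, dvg V x ≤ D * ((1 + δ) ^ (n + 2) *
      ∫ x, ‖fderiv ℝ ψ x (V x)‖ / √(metricMat ψ x).det ∂(bmψ n ψ A)) := by
    calc D * ∫ x in A, dvg V x = ∫ y in L '' A, dvg W y := e2.symm
      _ ≤ ∫ x, ‖W x‖ ∂(bm n (L '' A)) := e1
      _ ≤ (1 + δ) ^ n * ∫ x, ‖L (V x)‖ ∂(bmψ n ψ A) := e3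
      _ ≤ (1 + δ) ^ n * (D * (1 + δ) ^ 2 *
          ∫ x, ‖fderiv ℝ ψ x (V x)‖ / √(metricMat ψ x).det ∂(bmψ n ψ A)) := by gcongr
      _ = _ := by ring
  exact le_of_mul_le_mul_left e5 hD0

end Crest.Agent.R241.E1
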