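import Mathlib
import Crest.Agent.R241.E1h777

/-! Row 241, block E1 (helper777), part i: the perimeter inequality `EP2.Perim` for immersions and
for Cartan–Hadamard models. -/

set_option autoImplicit false
set_option linter.unusedSectionVars false
open MeasureTheory MeasureTheory.Measure Metric Filter Set Module TopologicalSpace
open scoped NNReal ENNReal Topology Manifold

noncomputable section

namespace Crest.Agent.R241.E1

open Crest.GeometryTopology.Submanifold (Euc metricMat relBoundary)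
open EP1

variable {n N : ℕ}

theorem dvg_sum {ι : Type*} (s : Finset ι) {V : ι → Euc (n + 1) → Euc (n + 1)}
    (hV : ∀ i ∈ s, ContDiff ℝ 1 (V i)) (x : Euc (n + 1)) :
    dvg (fun x => ∑ i ∈ s, V i x) x = ∑ i ∈ s, dvg (V i) x := by
  unfold dvg
  have h1 : fderiv ℝ (fun x => ∑ i ∈ s, V i x) x = ∑ i ∈ s, fderiv ℝ (V i) x :=
    fderiv_fun_sum fun i hi => (hV i hi).differentiable one_ne_zero x
  rw [h1, Finset.sum_comm]
  refine Finset.sum_congr rfl fun j _ => ?_
  rw [_root_.sum_apply]
  simp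

/-- **the perimeter inequality** for `C¹` fields with compact support. -/
theorem global_div {ψ : Euc (n + 1) → Euc N} (hψ : ContDiff ℝ 1 ψ)
    (hi : Function.Injective ψ) (him : ∀ x, Function.Injective (fderiv ℝ ψ x))
    {A : Set (Euc (n + 1))} (hA : IsOpen A)
    (hfin : ∀ K : Set (Euc (n + 1)), IsCompact K → bmψ n ψ A K ≠ ∞)
    {V : Euc (n + 1) → Euc (n + 1)} (hV : ContDiff ℝ 1 V) (hc : HasCompactSupport V) :
    ∫ x in A, dvg V x ≤
      ∫ x, ‖fderiv ℝ ψ x (V x)‖ / √(metricMat ψ x).det ∂(bmψ n ψ A) := by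
  classical
  have hloc : IsFiniteMeasureOnCompacts (bmψ n ψ A) := ⟨fun K hK => (hfin K hK).lt_top⟩
  have hJc : Continuous fun x => AF.jac (fderiv ℝ ψ x) :=
    AF.continuous_jac.comp (hψ.continuous_fderiv one_ne_zero)
  have hJ0 : ∀ x, 0 < AF.jac (fderiv ℝ ψ x) := fun x => jac_pos (him x)
  have hint : ∀ W : Euc (n + 1) → Euc (n + 1), ContDiff ℝ 1 W → HasCompactSupport W →
      Integrable (fun x => ‖fderiv ℝ ψ x (W x)‖ / √(metricMat ψ x).det) (bmψ n ψ A) := by
    intro W hW hWs
    refine Continuous.integrable_of_hasCompactSupport ?_ ?_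
    · simp_rw [← AF.jac_eq_sqrt]
      exact (((hψ.continuous_fderiv one_ne_zero).clm_apply hW.continuous).norm).div₀ hJc
        fun x => (hJ0 x).ne'
    · refine hWs.mono' ?_
      intro x hx
      by_contra h
      refine hx ?_
      simp only
      rw [image_eq_zero_of_notMem_tsupport h, map_zero, norm_zero, zero_div]
  set a := ∫ x in A, dvg V x with ha
  set b := ∫ x, ‖fderiv ℝ ψ x (V x)‖ / √(metricMat ψ x).det ∂(bmψ n ψ A) with hb
  have key : ∀ δ : ℝ, 0 < δ → a ≤ (1 + δ) ^ (n + 2) * b := by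
    intro δ hδ
    choose r hr hloc' using fun x₀ => local_div hψ hi him hA hfin x₀ hδ
    have hK : IsCompact (tsupport V) := hc
    obtain ⟨t, -, htK⟩ := hK.elim_nhds_subcover (fun x => ball x (r x))
      (fun x _ => ball_mem_nhds x (hr x))
    have hcov : tsupport V ⊆ ⋃ i : t, ball (i : Euc (n + 1)) (r i) := by
      intro x hx
      obtain ⟨i, hi, hxi⟩ := mem_iUnion₂.1 (htK hx)
      exact mem_iUnion.2 ⟨⟨i, hi⟩, hxi⟩
    obtain ⟨f, hf⟩ := SmoothPartitionOfUnity.exists_isSubordinate 𝓘(ℝ, Euc (n + 1))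
      (isClosed_tsupport V) (fun i : t => ball (i : Euc (n + 1)) (r i)) (fun i => isOpen_ball) hcov
    have hfc : ∀ i, ContDiff ℝ 1 (f i) := by
      intro i
      have h1 : ContMDiff 𝓘(ℝ, Euc (n + 1)) 𝓘(ℝ) ((⊤ : ℕ∞) : WithTop ℕ∞) (f i) := (f i).contMDiff
      exact h1.contDiff.of_le (by simp)
    have hsum : ∀ x ∈ tsupport V, ∑ i, f i x = 1 := by
      intro x hx
      rw [← finsum_eq_sum_of_fintype]
      exact f.sum_eq_one hx
    have hVi : ∀ i : t, ContDiff ℝ 1 fun x => f i x • V x := fun i => (hfc i).smul hV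
    have hVs : ∀ i : t, HasCompactSupport fun x => f i x • V x := by
      intro i
      refine hc.mono' fun x hx => ?_
      by_contra h
      refine hx ?_
      simp only
      rw [image_eq_zero_of_notMem_tsupport h, smul_zero]
    have hVt : ∀ i : t, tsupport (fun x => f i x • V x) ⊆ ball (i : Euc (n + 1)) (r i) := fun i =>
      (tsupport_smul_subset_left (f i) V).trans (hf i)
    have hVeq : V = fun x => ∑ i : t, f i x • V x := by
      funext x
      rw [← Finset.sum_smul]
      by_cases hx : x ∈ tsupport V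
      · rw [hsum x hx, one_smul]
      · rw [image_eq_zero_of_notMem_tsupport hx, smul_zero]
    have e1 : a = ∑ i : t, ∫ x in A, dvg (fun x => f i x • V x) x := by
      rw [ha, ← integral_finsetSum _ fun i _ => (integrable_dvg (hVi i) (hVs i)).integrableOn]
      refine integral_congr_ae (Eventually.of_forall fun x => ?_)
      simp only
      rw [← dvg_sum Finset.univ (fun i _ => hVi i) x, ← hVeq]
    have e2 : b = ∑ i : t, ∫ x, ‖fderiv ℝ ψ x (f i x • V x)‖ / √(metricMat ψ x).det
        ∂(bmψ n ψ A) := by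
      rw [hb, ← integral_finsetSum _ fun i _ => hint _ (hVi i) (hVs i)]
      refine integral_congr_ae (Eventually.of_forall fun x => ?_)
      simp only
      by_cases hx : x ∈ tsupport V
      · have h1 : ∀ i : t, ‖fderiv ℝ ψ x (f i x • V x)‖ / √(metricMat ψ x).det =
            f i x * (‖fderiv ℝ ψ x (V x)‖ / √(metricMat ψ x).det) := by
          intro i
          rw [map_smul, norm_smul, Real.norm_of_nonneg (f.nonneg i x), mul_div_assoc]
        simp_rw [h1]
        rw [← Finset.sum_mul, hsum x hx, one_mul]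
      · rw [image_eq_zero_of_notMem_tsupport hx]; simp
    rw [e1, e2, Finset.mul_sum]
    exact Finset.sum_le_sum fun i _ => hloc' _ _ (hVi i) (hVs i) (hVt i)
  have hlim : Tendsto (fun δ : ℝ => (1 + δ) ^ (n + 2) * b) (𝓝[>] 0) (𝓝 ((1 + 0) ^ (n + 2) * b)) :=
    Tendsto.mono_left (Continuous.tendsto (by fun_prop) 0) nhdsWithin_le_nhds
  rw [add_zero, one_pow, one_mul] at hlim
  refine ge_of_tendsto hlim ?_
  filter_upwards [self_mem_nhdsWithin] with δ hδ
  exact key δ hδ

/-- **`EP2.Perim`** for smooth injective immersions. -/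
theorem perim {ψ : Euc (n + 1) → Euc N} (hψ : ContDiff ℝ 1 ψ)
    (hi : Function.Injective ψ) (him : ∀ x, Function.Injective (fderiv ℝ ψ x))
    {A : Set (Euc (n + 1))} (hA : IsOpen A)
    (hfin : ∀ K : Set (Euc (n + 1)), IsCompact K → bmψ n ψ A K ≠ ∞) :
    EP2.Perim ψ A (bmψ n ψ A) := fun _ hV hc =>
  global_div hψ hi him hA hfin (hV.of_le (by simp)) hc

/-- the frontier of the preimage of a relatively open set. -/
theorem image_frontier_subset {ψ : Euc (n + 1) → Euc N} (hc : Continuous ψ)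
    {S : Set (Euc N)} (hS : range ψ = S) (E : Set (Euc N)) :
    ψ '' frontier (ψ ⁻¹' E) ⊆ relBoundary S E := by
  rintro _ ⟨x, hx, rfl⟩
  rw [frontier_eq_closure_inter_closure] at hx
  refine ⟨?_, ?_⟩
  · exact closure_mono (image_preimage_subset ψ E) (image_closure_subset_closure_image hc
      (mem_image_of_mem ψ hx.1))
  · refine closure_mono ?_ (image_closure_subset_closure_image hc (mem_image_of_mem ψ hx.2))
    rintro _ ⟨y, hy, rfl⟩
    exact ⟨hS.subset (mem_range_self y), hy⟩

/-- **`EChain.PerimTarget`**, one model. -/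
theorem perim_model {m : ℕ} {k : ℝ} {S : Set (Euc N)} {X : Type} [MetricSpace X]
    (M : CHModel (m + 2) N k S X) (p : X) {E : Set (Euc N)}
    (hE : ∃ U : Set (Euc N), IsOpen U ∧ E = S ∩ U)
    (hfin : μHE[m + 1] (relBoundary S E) < ∞) :
    bmψ (m + 1) (fun v => M.ι (M.e p v)) {v | M.ι (M.e p v) ∈ E} univ ≤
        μHE[m + 1] (relBoundary S E) ∧
      EP2.Perim (fun v => M.ι (M.e p v)) {v | M.ι (M.e p v) ∈ E}
        (bmψ (m + 1) (fun v => M.ι (M.e p v)) {v | M.ι (M.e p v) ∈ E}) := by
  set ψ : Euc (m + 2) → Euc N := fun v => M.ι (M.e p v) with hψdef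
  have hs : ContDiff ℝ (⊤ : ℕ∞) ψ := M.smooth p
  have hψ : ContDiff ℝ 1 ψ := hs.of_le (by simp)
  have hi : Function.Injective ψ := M.ι_inj.comp (M.e_bij p).1
  have hr : range ψ = S := ((M.e_bij p).2.range_comp M.ι).trans M.ι_range
  have him : ∀ x, Function.Injective (fderiv ℝ ψ x) := by
    intro x
    rw [injective_iff_map_eq_zero]
    intro w hw
    have h1 := M.fderiv_ge p x w
    rw [← hψdef, hw, norm_zero] at h1
    exact norm_le_zero_iff.1 h1
  have hA : IsOpen {v | M.ι (M.e p v) ∈ E} := by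
    obtain ⟨U, hU, hEU⟩ := hE
    have h1 : {v | M.ι (M.e p v) ∈ E} = ψ ⁻¹' U := by
      ext v
      rw [hEU]
      exact ⟨fun h => h.2, fun h => ⟨hr.subset (mem_range_self v), h⟩⟩
    rw [h1]
    exact hU.preimage hψ.continuous
  have huniv : bmψ (m + 1) ψ {v | M.ι (M.e p v) ∈ E} univ ≤ μHE[m + 1] (relBoundary S E) := by
    rw [bmψ_apply hψ.continuous hi _ MeasurableSet.univ, inter_univ]
    exact measure_mono (image_frontier_subset hψ.continuous hr E)
  exact ⟨huniv, perim hψ hi him hA fun K _ =>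
    ne_top_of_le_ne_top hfin.ne ((measure_mono (subset_univ K)).trans huniv)⟩

end Crest.Agent.R241.E1
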