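import Crest.Agent.R241.E2
import Crest.Agent.R241.E1c2
import Crest.Agent.R241.B10Mass

/-!
R241 block E, `ChainTarget` conjunct 4 (helper475): uniqueness of top-dimensional fillings.
-/

set_option autoImplicit false
open MeasureTheory Set Filter Topology
open scoped ENNReal NNReal RealInnerProductSpace
open Crest.GeometryTopology.Submanifold
open Crest.GeometryTopology.MetricCurrent

noncomputable section
namespace Crest.Agent.R241.E2c4

variable {d m N : ℕ} {k : ℝ} {S : Set (Euc N)} {X : Type} [MetricSpace X]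

/-- The chart domain of a relatively open set is open. -/
theorem isOpen_dom (M : CHModel d N k S X) (p : X) {E : Set (Euc N)}
    (hE : ∃ U : Set (Euc N), IsOpen U ∧ E = S ∩ U) :
    IsOpen {v | M.ι (M.e p v) ∈ E} := by
  obtain ⟨U, hU, rfl⟩ := hE
  have h1 : {v | M.ι (M.e p v) ∈ S ∩ U} = (fun v => M.ι (M.e p v)) ⁻¹' U := by
    ext v
    constructor
    · intro hv; exact hv.2
    · intro hv
      refine ⟨?_, hv⟩
      have h2 : M.ι (M.e p v) ∈ range M.ι := mem_range_self _
      exact M.ι_range.subset h2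
  rw [h1]
  exact hU.preimage (M.smooth p).continuous

theorem dom_subset (M : CHModel d N k S X) (p : X) {R : ℝ} {E : Set (Euc N)}
    (hER : E ⊆ M.ι '' Metric.closedBall p R) :
    {v | M.ι (M.e p v) ∈ E} ⊆ Metric.closedBall 0 R := by
  intro v hv
  obtain ⟨y, hy, hyv⟩ := hER hv
  have h1 : y = M.e p v := M.ι_inj hyv
  subst h1
  rw [Metric.mem_closedBall, dist_comm, M.e_dist] at hy
  rw [mem_closedBall_zero_iff]; exact hy

variable [MeasurableSpace X] [BorelSpace X]

theorem isCurrent_chain (M : CHModel d N k S X) (p : X) {R : ℝ} {E : Set (Euc N)}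
    (hE : ∃ U : Set (Euc N), IsOpen U ∧ E = S ∩ U)
    (hER : E ⊆ M.ι '' Metric.closedBall p R) : IsCurrent (M.chain p E) := by
  have hsub := dom_subset M p hER
  obtain ⟨L, hL⟩ := M.e_lip p R
  refine B1Cur.isCurrent_chartAction (isOpen_dom M p hE).measurableSet (hL.mono hsub) ?_
  have h2 : IntegrableOn (fun _ : Euc d => (1 : ℝ)) {v | M.ι (M.e p v) ∈ E} := by
    refine integrableOn_const ?_ (by simp)
    exact ((measure_mono hsub).trans_lt (isCompact_closedBall (0 : Euc d) R).measure_lt_top).ne
  simpa using h2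

theorem isSupportedIn_chain (M : CHModel d N k S X) (p : X) {R : ℝ} {E : Set (Euc N)}
    (hE : ∃ U : Set (Euc N), IsOpen U ∧ E = S ∩ U)
    (hER : E ⊆ M.ι '' Metric.closedBall p R) :
    IsSupportedIn (Metric.closedBall p R) (M.chain p E) := by
  intro f π hfπ hf
  have hsub := dom_subset M p hER
  obtain ⟨L, hL⟩ := M.e_lip p R
  have h1 := E1c2.chain_apply M p (isOpen_dom M p hE).measurableSet hsub hL hfπ
  rw [CHModel.chain, h1]
  refine setIntegral_eq_zero_of_forall_eq_zero fun v hv => ?_
  rw [hf _ (by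
    rw [Metric.mem_closedBall, dist_comm, M.e_dist]
    simpa using hsub hv), zero_mul]

/-- **ChainTarget, conjunct 4**. -/
theorem c4 (M : CHModel (m + 2) N k S X) (p : X) {R : ℝ} {E : Set (Euc N)}
    (hE : ∃ U : Set (Euc N), IsOpen U ∧ E = S ∩ U)
    (hER : E ⊆ M.ι '' Metric.closedBall p R)
    (S' : Functional X (m + 2)) (hS' : IsInt (Metric.closedBall p R) S')
    (hbd : bd S' = bd (M.chain p E)) : S' = M.chain p E := by
  have hcur := isCurrent_chain M p hE hER
  have hsup := isSupportedIn_chain M p hE hER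
  have h1 : IsCurrent (S' - M.chain p E) := B10.IsCurrent.sub hS'.cur hcur
  have h2 : bd (S' - M.chain p E) = 0 := by rw [B10.bd_sub, hbd, sub_self]
  have h3 : IsSupportedIn (Metric.closedBall p R) (S' - M.chain p E) :=
    B10.isSupportedIn_sub hS'.supp hsup
  have h4 := E2.eq_zero h1 h2 (E1c2.lipschitz_rho M p) h3 Metric.isBounded_closedBall
    (e := M.e p) (E1c2.e_rho M p) (M.e_lip p)
  exact sub_eq_zero.mp h4

end Crest.Agent.R241.E2c4
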