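import Crest.Agent.R241.EP2
import Crest.Agent.R241.E2c4
import Crest.Agent.R241.G1o
import Crest.Agent.R241.B10Complete

/-!
# R241, block E: assembly of `ChainTarget`
-/

set_option autoImplicit false

open MeasureTheory Filter Topology Set Metric
open scoped ENNReal NNReal ContDiff Matrix

universe u

namespace Crest.Agent.R241.EChain

open Crest.GeometryTopology.MetricCurrent
open Crest.GeometryTopology.Submanifold (Euc metricMat relBoundary)
open Crest.Agent.R241.G1

section General

variable {X : Type u} [MetricSpace X] [MeasurableSpace X] [BorelSpace X] {k : ℕ}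

/-- The boundary of a current is a current as soon as it has finite mass. -/
theorem isCurrent_bd {T : Functional X (k + 1)} (hT : IsCurrent T)
    (hfin : ∃ μ : Measure X, IsFiniteMeasure μ ∧ Controls (bd T) μ) : IsCurrent (bd T) := by
  have hcons0 : ∀ (f g : X → ℝ) (π : Fin k → X → ℝ),
      (Fin.cons g π : Fin (k + 1) → X → ℝ) = Function.update (Fin.cons f π) 0 g := by
    intro f g π
    rw [Fin.update_cons_zero]
  have hconsS : ∀ (f : X → ℝ) (π : Fin k → X → ℝ) (i : Fin k) (g : X → ℝ),
      (Fin.cons f (Function.update π i g) : Fin (k + 1) → X → ℝ) =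
        Function.update (Fin.cons f π) i.succ g := by
    intro f π i g
    rw [Fin.cons_update]
  refine isCurrent_of _ (fun f π h => B10.bd_apply_not h) ?_ ?_ ?_ ?_ ?_ ?_ hfin
  · intro f g π hf hg hπ
    rw [B10.bd_apply ((hf.add hg).isTestPair hπ), B10.bd_apply (hf.isTestPair hπ),
      B10.bd_apply (hg.isTestPair hπ), hcons0 f (f + g) π, hcons0 f g π]
    exact hT.add_coord (fun _ => 1) (Fin.cons f π) 0 g (B10.isTestPair_cons (hf.isTestPair hπ)) hg.1
  · intro c f π hf hπ
    rw [B10.bd_apply ((hf.smul c).isTestPair hπ), B10.bd_apply (hf.isTestPair hπ),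
      hcons0 f (c • f) π]
    exact hT.smul_coord (fun _ => 1) (Fin.cons f π) 0 c (B10.isTestPair_cons (hf.isTestPair hπ))
  · intro f π i g hf hπ hg
    have h1 : IsTestPair f (Function.update π i (π i + g)) :=
      hf.isTestPair (hπ.update i (lip_add (hπ i) hg))
    rw [B10.bd_apply h1, B10.bd_apply (hf.isTestPair hπ),
      B10.bd_apply (hf.isTestPair (hπ.update i hg)), hconsS, hconsS]
    exact hT.add_coord (fun _ => 1) (Fin.cons f π) i.succ g
      (B10.isTestPair_cons (hf.isTestPair hπ)) hg
  · intro f π i c hf hπ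
    have h1 : IsTestPair f (Function.update π i (c • π i)) :=
      hf.isTestPair (hπ.update i (lip_smul c (hπ i)))
    rw [B10.bd_apply h1, B10.bd_apply (hf.isTestPair hπ), hconsS]
    exact hT.smul_coord (fun _ => 1) (Fin.cons f π) i.succ c
      (B10.isTestPair_cons (hf.isTestPair hπ))
  · intro f π πs hf hπ hC hlim
    exact B10.bd_continuity hT f π πs (hf.isTestPair hπ) hC hlim
  · intro f π hf hπ i c h
    have htp := B10.isTestPair_cons (hf.isTestPair hπ)
    have hL : LipT (Fin.cons f π : Fin (k + 1) → X → ℝ) := htp.2.2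
    rw [B10.bd_apply (hf.isTestPair hπ), ← ext_eq hT hL BL.one]
    have hm : MeasurableSet {x | f x ≠ 0} :=
      (hf.measurable (measurableSet_singleton 0)).compl
    have h1 : (fun _ : X => (1 : ℝ)) =
        {x | f x ≠ 0}.indicator (fun _ => 1) + {x | f x ≠ 0}ᶜ.indicator (fun _ => 1) := by
      rw [indicator_self_add_compl]
    rw [h1, ext_add (BL.one.bm.indicator hm) (BL.one.bm.indicator hm.compl)]
    rw [ext_strong_locality hT (BL.one.bm.indicator hm) hL i.succ c ?_,
      ext_strong_locality hT (BL.one.bm.indicator hm.compl) hL 0 0 ?_, add_zero]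
    · intro x hx
      have hx' : x ∈ {x | f x ≠ 0}ᶜ := by
        by_contra hcon
        exact hx (indicator_of_notMem hcon _)
      simpa using hx'
    · intro x hx
      have hx' : x ∈ {x | f x ≠ 0} := by
        by_contra hcon
        exact hx (indicator_of_notMem hcon _)
      simpa using h x hx'

/-- a single bi-Lipschitz chart with multiplicity one is integer rectifiable -/
theorem isIntegerRectifiable_chart {A : Set (Euc k)} (hA : MeasurableSet A)
    (hAb : Bornology.IsBounded A) {e : Euc k → X} {L : ℝ≥0} (hL : LipschitzOnWith L e A) {C : ℝ}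
    (hC : ∀ z ∈ A, ∀ w ∈ A, dist z w ≤ C * dist (e z) (e w))
    (hcur : IsCurrent (chartAction A e (fun _ => 1))) :
    IsIntegerRectifiable (chartAction A e (fun _ => 1)) := by
  classical
  have hempty : ∀ (θ : Euc k → ℤ), chartAction ∅ e θ = (0 : Functional X k) := by
    intro θ
    funext f π
    unfold chartAction
    split_ifs <;> simp
  refine ⟨fun i => if i = 0 then A else ∅, fun _ => e, fun _ _ => 1, ?_, ?_, ?_, ?_, ?_, ?_, ?_,
    ?_⟩
  · intro i; dsimp only; split_ifs
    · exact ⟨hA, hAb⟩
    · exact ⟨MeasurableSet.empty, Bornology.isBounded_empty⟩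
  · intro i; dsimp only; split_ifs
    · exact ⟨L, hL⟩
    · exact ⟨0, fun x hx => hx.elim⟩
  · intro i; dsimp only; split_ifs
    · exact ⟨C, hC⟩
    · exact ⟨0, fun z hz => hz.elim⟩
  · intro i; dsimp only; split_ifs
    · simp only [Int.cast_one]
      have : IsFiniteMeasure (volume.restrict A) :=
        ⟨by rw [Measure.restrict_apply_univ]; exact hAb.measure_lt_top⟩
      exact integrable_const _
    · simp
  · intro i j hij
    dsimp only
    split_ifs with h1 h2 h2
    · exact absurd (h1.trans h2.symm) hij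
    · simp
    · simp
    · simp
  · intro i; dsimp only; split_ifs
    · exact hcur
    · rw [hempty]; exact B10.IsCurrent.zero
  · apply summable_of_ne_finset_zero (s := {0})
    intro i hi
    have hi' : i ≠ 0 := by simpa using hi
    dsimp only
    rw [if_neg hi', hempty, B10.mass_zero]
  · intro f π _
    rw [tsum_eq_single 0]
    · simp
    · intro i hi
      dsimp only
      rw [if_neg hi, hempty]
      rfl

end General

/-- perimeter bound in the chart (owner: helper777) -/
def PerimTarget : Prop :=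
  ∀ (m N : ℕ) (k : ℝ) (_ : 0 ≤ k) (S : Set (Euc N)) (X : Type) (_ : MetricSpace X)
    (_ : ProperSpace X)
    (M : CHModel (m + 2) N k S X) (p : X) (R : ℝ) (E : Set (Euc N)),
    E ⊆ S → (∃ U : Set (Euc N), IsOpen U ∧ E = S ∩ U) → E ⊆ M.ι '' Metric.closedBall p R →
    Measure.euclideanHausdorffMeasure (m + 1) (relBoundary S E) < ⊤ →
    ∃ ν : Measure (Euc (m + 2)), ν univ ≤ Measure.euclideanHausdorffMeasure (m + 1)
      (relBoundary S E) ∧ EP2.Perim (fun v => M.ι (M.e p v)) {v | M.ι (M.e p v) ∈ E} ν

/-- fifth part of `ChainTarget` -/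
def SphereTarget : Prop :=
  ∀ (m N : ℕ) (k : ℝ) (_ : 0 ≤ k) (S : Set (Euc N)) (X : Type) (_ : MetricSpace X)
    (_ : ProperSpace X) (_ : MeasurableSpace X) (_ : BorelSpace X)
    (M : CHModel (m + 2) N k S X) (p : X) (R : ℝ) (E : Set (Euc N)),
    E ⊆ S → (∃ U : Set (Euc N), IsOpen U ∧ E = S ∩ U) → E ⊆ M.ι '' Metric.closedBall p R →
    ∀ (x : X) (r : ℝ), 0 < r → IsSupportedIn (Metric.sphere x r) (bd (M.chain p E)) →
      0 < mass (M.chain p E) →
      Measure.euclideanHausdorffMeasure (m + 2) (symmDiff E (M.ι '' Metric.ball x r)) = 0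

/-- boundary mass bound: third part of `ChainTarget` -/
def BdTarget : Prop :=
  ∀ (m N : ℕ) (k : ℝ) (_ : 0 ≤ k) (S : Set (Euc N)) (X : Type) (_ : MetricSpace X)
    (_ : ProperSpace X) (_ : MeasurableSpace X) (_ : BorelSpace X)
    (M : CHModel (m + 2) N k S X) (p : X) (R : ℝ) (E : Set (Euc N)),
    E ⊆ S → (∃ U : Set (Euc N), IsOpen U ∧ E = S ∩ U) → E ⊆ M.ι '' Metric.closedBall p R →
    Measure.euclideanHausdorffMeasure (m + 1) (relBoundary S E) < ⊤ →
    ∃ μ : Measure X, μ univ ≤ Measure.euclideanHausdorffMeasure (m + 1) (relBoundary S E) ∧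
      Controls (bd (M.chain p E)) μ

theorem bdTarget_of_perim (hP : PerimTarget) : BdTarget := by
  intro m N k hk S X iX iP iM iB M p R E hES hE hER hfin
  obtain ⟨ν, hν, hper⟩ := hP m N k hk S X iX iP M p R E hES hE hER hfin
  have hνf : IsFiniteMeasure ν := ⟨lt_of_le_of_lt hν hfin⟩
  have hopen := E2c4.isOpen_dom M p hE
  have hsub := E2c4.dom_subset M p hER
  have hbdd : Bornology.IsBounded {v | M.ι (M.e p v) ∈ E} := isBounded_closedBall.subset hsub
  have hmeas : Measurable (M.e p) := (M.echart p).continuous_e.measurable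
  refine ⟨ν.map (M.e p), ?_, EP2.controls_bd (M.echart p) hopen hbdd hper⟩
  rw [Measure.map_apply hmeas MeasurableSet.univ, preimage_univ]
  exact hν

theorem chainTarget_of_bd (hP : BdTarget) (h5 : SphereTarget) : ChainTarget := by
  intro m N k hk S X iX iP iM iB M p R E hES hE hER hfin
  obtain ⟨μ, hμ, hctl⟩ := hP m N k hk S X iX iP iM iB M p R E hES hE hER hfin
  have hμf : IsFiniteMeasure μ := ⟨lt_of_le_of_lt hμ hfin⟩
  have hopen := E2c4.isOpen_dom M p hE
  have hsub := E2c4.dom_subset M p hER
  have hbdd : Bornology.IsBounded {v | M.ι (M.e p v) ∈ E} := isBounded_closedBall.subset hsub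
  have hcur := E2c4.isCurrent_chain M p hE hER
  obtain ⟨L, hL⟩ := M.e_lip p R
  refine ⟨⟨hcur, ?_, isCurrent_bd hcur ⟨_, hμf, hctl⟩, E2c4.isSupportedIn_chain M p hE hER⟩,
    E1c2.c2 M p hES hE hER, ?_, ?_, ?_⟩
  · exact isIntegerRectifiable_chart hopen.measurableSet hbdd (hL.mono hsub) (C := 1)
      (fun z _ w _ => by
        rw [one_mul, dist_eq_norm]; exact M.e_expand p z w) hcur
  · refine le_trans ?_ hμ
    exact (ENNReal.ofReal_le_ofReal (B10.mass_le hctl)).trans (ENNReal.ofReal_toReal_le)
  · exact fun S' hS' hbd => E2c4.c4 M p hE hER S' hS' hbd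
  · exact h5 m N k hk S X iX iP iM iB M p R E hES hE hER

theorem chainTarget (hP : PerimTarget) (h5 : SphereTarget) : ChainTarget :=
  chainTarget_of_bd (bdTarget_of_perim hP) h5

end Crest.Agent.R241.EChain
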