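import Mathlib
import Crest.Agent.R241.E1i777
import Crest.Agent.R241.EChain

/-! Row 241, block E1 (helper777), part j: `EChain.PerimTarget` and `EChain.BdTarget` hold. -/

set_option autoImplicit false

namespace Crest.Agent.R241.E1

theorem perimTarget : EChain.PerimTarget := by
  intro m N k _ S X _ _ M p R E _ hE _ hfin
  exact ⟨_, perim_model M p hE hfin⟩

theorem bdTarget : EChain.BdTarget := EChain.bdTarget_of_perim perimTarget

end Crest.Agent.R241.E1
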