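import Crest.Agent.R241.G1e
import Crest.Agent.R241.B1Weak
import Crest.Agent.R241.EMoll

/-!
# R241, block E2: the constancy theorem

A top-dimensional current with bounded support and without boundary vanishes, in a space `X`
with a global chart `e : Euc (k+1) → X` whose inverse `P` is Lipschitz.
-/

set_option autoImplicit false
set_option linter.unusedSectionVars false

open MeasureTheory Filter Topology Set Metric
open scoped ENNReal NNReal ContDiff

universe u

namespace Crest.Agent.R241.E2

open Crest.GeometryTopology.MetricCurrent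
open Crest.GeometryTopology.Submanifold (Euc)
open Crest.Agent.R241.G1

variable {X : Type u} [MetricSpace X] [MeasurableSpace X] [BorelSpace X]
variable {k : ℕ} {T : Functional X k} {P : X → Euc k}

/-- coordinates of `P` -/
def crd (P : X → Euc k) : Fin k → X → ℝ := fun i x => P x i

theorem lipT_crd {C : ℝ≥0} (hP : LipschitzWith C P) : LipT (crd P) := by
  intro i
  refine ⟨C, LipschitzWith.of_dist_le_mul fun x y => ?_⟩
  refine le_trans ?_ (hP.dist_le_mul x y)
  rw [Real.dist_eq, dist_eq_norm]
  have := PiLp.norm_apply_le (P x - P y) i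
  simpa [crd] using this

/-- the chain rule in one slot, for a function of `P` -/
theorem ext_chainP (hT : IsCurrent T) {f : X → ℝ} (hf : BM f) {σ : Fin k → X → ℝ} (hσ : LipT σ)
    (j : Fin k) {C : ℝ≥0} (hP : LipschitzWith C P) {g : Euc k → ℝ} {K : ℝ≥0}
    (hg : ContDiff ℝ 1 g) (hgl : LipschitzWith K g) :
    ext T f (Function.update σ j (fun x => g (P x))) =
      ∑ i, ext T (fun x => f x * fderiv ℝ g (P x) (EuclideanSpace.single i 1))
        (Function.update σ j (crd P i)) := by
  set g' : (Fin k → ℝ) → ℝ := fun y => g (WithLp.toLp 2 y) with hg'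
  have hlin : ContDiff ℝ 1 (fun y : Fin k → ℝ => (WithLp.toLp 2 y : Euc k)) :=
    (PiLp.continuousLinearEquiv 2 ℝ (fun _ : Fin k => ℝ)).symm.contDiff
  have hg'c : ContDiff ℝ 1 g' := hg.comp hlin
  have hP' : ∀ x, (WithLp.toLp 2 (fun i => crd P i x) : Euc k) = P x := fun x => rfl
  have hfd : ∀ x i, fderiv ℝ g' (fun l => crd P l x) (Pi.single i 1) =
      fderiv ℝ g (P x) (EuclideanSpace.single i 1) := by
    intro x i
    have h1 : HasFDerivAt g' ((fderiv ℝ g (P x)).comp
        ((PiLp.continuousLinearEquiv 2 ℝ (fun _ : Fin k => ℝ)).symm :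
          (Fin k → ℝ) →L[ℝ] Euc k)) (fun l => crd P l x) := by
      have h2 : HasFDerivAt g (fderiv ℝ g (P x)) (WithLp.toLp 2 (fun l => crd P l x)) := by
        rw [hP']
        exact ((hg.differentiable one_ne_zero) (P x)).hasFDerivAt
      exact h2.comp (fun l => crd P l x)
        ((PiLp.continuousLinearEquiv 2 ℝ (fun _ : Fin k => ℝ)).symm.hasFDerivAt)
    rw [h1.fderiv]
    rfl
  have key := ext_chain hT hf hσ j (lipT_crd hP) (g := g') hg'c
    ⟨K * C, by
      have : (fun x => g' (fun i => crd P i x)) = fun x => g (P x) := by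
        funext x; rw [hg']; simp only; rw [hP']
      rw [this]; exact hgl.comp hP⟩
    (by
      intro i
      refine ⟨K * 1, fun x => ?_⟩
      rw [hfd, ← Real.norm_eq_abs]
      refine (ContinuousLinearMap.le_opNorm _ _).trans ?_
      have h1 : ‖fderiv ℝ g (P x)‖ ≤ K := norm_fderiv_le_of_lipschitz ℝ hgl
      have h2 : ‖(EuclideanSpace.single i 1 : Euc k)‖ = 1 := by simp
      rw [h2]
      gcongr)
  have e1 : (fun x => g' (fun i => crd P i x)) = fun x => g (P x) := by
    funext x; rw [hg']; simp only; rw [hP']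
  rw [e1] at key
  rw [key]
  refine Finset.sum_congr rfl fun i _ => ?_
  congr 1
  funext x
  rw [hfd]

theorem bm_fderiv {C : ℝ≥0} (hP : LipschitzWith C P) {g : Euc k → ℝ} {K : ℝ≥0}
    (hg : ContDiff ℝ 1 g) (hgl : LipschitzWith K g) (i : Fin k) :
    BM (fun x => fderiv ℝ g (P x) (EuclideanSpace.single i 1)) := by
  refine ⟨(((hg.continuous_fderiv one_ne_zero).comp hP.continuous).clm_apply
    continuous_const).measurable, K * 1, fun x => ?_⟩
  rw [← Real.norm_eq_abs]
  refine (ContinuousLinearMap.le_opNorm _ _).trans ?_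
  have h1 : ‖fderiv ℝ g (P x)‖ ≤ K := norm_fderiv_le_of_lipschitz ℝ hgl
  have h2 : ‖(EuclideanSpace.single i 1 : Euc k)‖ = 1 := by simp
  rw [h2]
  gcongr

/-- if `T(f, P) = 0` for all `f` then `T(f, G ∘ P) = 0` for all `C¹` Lipschitz `G` -/
theorem ext_comp_eq_zero (hT : IsCurrent T) {C : ℝ≥0} (hP : LipschitzWith C P)
    (h0 : ∀ f, BM f → ext T f (crd P) = 0) {G : Fin k → Euc k → ℝ} {K : ℝ≥0}
    (hG : ∀ i, ContDiff ℝ 1 (G i)) (hGl : ∀ i, LipschitzWith K (G i)) {f : X → ℝ} (hf : BM f) :
    ext T f (fun i x => G i (P x)) = 0 := by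
  classical
  have key : ∀ s : Finset (Fin k), ∀ f : X → ℝ, BM f → ∀ τ : Fin k → Fin k,
      ext T f (fun i => if i ∈ s then (fun x => G i (P x)) else crd P (τ i)) = 0 := by
    intro s
    induction s using Finset.induction_on with
    | empty =>
      intro f hf τ
      simp only [Finset.notMem_empty, if_false]
      by_cases hτ : Function.Injective τ
      · let σ : Equiv.Perm (Fin k) := Equiv.ofBijective τ (Finite.injective_iff_bijective.1 hτ)
        have := ext_perm hT hf (lipT_crd hP) σ
        rw [h0 f hf, mul_zero] at this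
        exact this
      · rw [Function.Injective] at hτ
        push Not at hτ
        obtain ⟨i, j, hij, hne⟩ := hτ
        exact ext_zero_of_eq hT hf (fun i => lipT_crd hP (τ i)) hne (by rw [hij])
    | insert a s ha ih =>
      intro f hf τ
      set σ : Fin k → X → ℝ := fun i => if i ∈ s then (fun x => G i (P x)) else crd P (τ i)
        with hσdef
      have hσL : LipT σ := by
        intro i
        by_cases hi : i ∈ s
        · simp only [hσdef, hi, if_true]; exact ⟨_, (hGl i).comp hP⟩
        · simp only [hσdef, hi, if_false]; exact lipT_crd hP _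
      have h1 : (fun i => if i ∈ insert a s then (fun x => G i (P x)) else crd P (τ i)) =
          Function.update σ a (fun x => G a (P x)) := by
        funext i
        by_cases hi : i = a
        · subst hi; simp
        · simp [hσdef, hi]
      rw [h1, ext_chainP hT hf hσL a hP (hG a) (hGl a)]
      refine Finset.sum_eq_zero fun i _ => ?_
      have h2 : Function.update σ a (crd P i) =
          fun j => if j ∈ s then (fun x => G j (P x)) else crd P (Function.update τ a i j) := by
        funext j
        by_cases hj : j = a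
        · subst hj; simp [ha]
        · simp [hσdef, hj]
      rw [h2]
      exact ih _ (hf.mul (bm_fderiv hP (hG a) (hGl a) i)) _
  have := key Finset.univ f hf id
  simpa using this


section Top

variable {S : Functional X (k + 1)} {Q : X → Euc (k + 1)}

/-- `S(∂₀ h ∘ Q, Q) = 0` when `∂S = 0` -/
theorem ext_deriv_eq_zero (hS : IsCurrent S) (hbd : bd S = 0) {C : ℝ≥0} (hQ : LipschitzWith C Q)
    {h : Euc (k + 1) → ℝ} (hh : ContDiff ℝ ∞ h) (hc : HasCompactSupport h) :
    ext S (fun x => fderiv ℝ h (Q x) (EuclideanSpace.single 0 1)) (crd Q) = 0 := by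
  classical
  obtain ⟨K, hK⟩ := hh.lipschitzWith_of_hasCompactSupport hc (by simp)
  obtain ⟨M, hM⟩ := hc.exists_bound_of_continuous hh.continuous
  have hhQ : ∃ K : ℝ≥0, LipschitzWith K (fun x => h (Q x)) := ⟨_, hK.comp hQ⟩
  have hBL : BL (fun x => h (Q x)) := ⟨hhQ, M, fun x => hM _⟩
  have htp : IsTestPair (fun x => h (Q x)) (fun i : Fin k => crd Q i.succ) :=
    hBL.isTestPair fun i => lipT_crd hQ _
  have h1 : bd S (fun x => h (Q x)) (fun i : Fin k => crd Q i.succ) = 0 := by rw [hbd]; rfl
  rw [bd, if_pos htp] at h1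
  have h2 : (Fin.cons (fun x => h (Q x)) (fun i : Fin k => crd Q i.succ) :
      Fin (k + 1) → X → ℝ) = Function.update (crd Q) 0 (fun x => h (Q x)) := by
    funext i
    refine Fin.cases ?_ (fun i => ?_) i
    · simp
    · simp
  rw [h2, ← ext_eq hS ((lipT_crd hQ).update 0 hhQ) BL.one,
    ext_chainP hS BL.one.bm (lipT_crd hQ) 0 hQ (hh.of_le (by simp)) hK,
    Finset.sum_eq_single 0] at h1
  · rw [Function.update_eq_self] at h1
    simpa using h1
  · intro i _ hi
    refine ext_zero_of_eq hS ?_ ((lipT_crd hQ).update 0 (lipT_crd hQ i)) (i := 0) (j := i)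
      (Ne.symm hi) (by simp [hi])
    exact BL.one.bm.mul (bm_fderiv hQ (hh.of_le (by simp)) hK i)
  · simp

theorem bl_comp {C : ℝ≥0} (hQ : LipschitzWith C Q) {h : Euc (k + 1) → ℝ} (hh : ContDiff ℝ ∞ h)
    (hc : HasCompactSupport h) : BL (fun x => h (Q x)) := by
  obtain ⟨K, hK⟩ := hh.lipschitzWith_of_hasCompactSupport hc (by simp)
  obtain ⟨M, hM⟩ := hc.exists_bound_of_continuous hh.continuous
  exact ⟨⟨_, hK.comp hQ⟩, M, fun x => hM _⟩

/-- `S(h ∘ Q, Q) = 0` when `∂S = 0` and the support is bounded -/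
theorem ext_comp_crd_eq_zero (hS : IsCurrent S) (hbd : bd S = 0) {C : ℝ≥0}
    (hQ : LipschitzWith C Q) {K : Set X} (hK : IsSupportedIn K S) (hKb : Bornology.IsBounded K)
    {h : Euc (k + 1) → ℝ} (hh : ContDiff ℝ ∞ h) (hc : HasCompactSupport h) :
    ext S (fun x => h (Q x)) (crd Q) = 0 := by
  set e0 : Euc (k + 1) := EuclideanSpace.single 0 1 with he0
  -- translates
  have hts : ∀ s : ℝ, ContDiff ℝ ∞ (fun y => h (y + s • e0)) := fun s =>
    hh.comp (contDiff_id.add contDiff_const)
  have hcs : ∀ s : ℝ, HasCompactSupport (fun y => h (y + s • e0)) := fun s =>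
    hc.comp_homeomorph (Homeomorph.addRight (s • e0))
  have hfd : ∀ (s : ℝ) (y : Euc (k + 1)),
      fderiv ℝ (fun y => h (y + s • e0)) y e0 = fderiv ℝ h (y + s • e0) e0 := by
    intro s y
    rw [fderiv_comp_add_right]
  set Ψ : ℝ → ℝ := fun s => ext S (fun x => h (Q x + s • e0)) (crd Q) with hΨ
  obtain ⟨M, hM⟩ := (hc.fderiv ℝ).exists_bound_of_continuous (hh.continuous_fderiv (by simp))
  have hbm := bm_dens S (crd Q)
  obtain ⟨D, hD⟩ := hbm.2
  have hD0 : ∀ x, |dens S (crd Q) x| ≤ |D| := fun x => (hD x).trans (le_abs_self _)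
  have hderiv : ∀ s : ℝ, HasDerivAt Ψ 0 s := by
    intro s
    have key : HasDerivAt Ψ (∫ x, fderiv ℝ h (Q x + s • e0) e0 * dens S (crd Q) x ∂(ctrl S)) s := by
      rw [hΨ]
      unfold G1.ext
      refine (hasDerivAt_integral_of_dominated_loc_of_deriv_le (s := univ)
        (F := fun s x => h (Q x + s • e0) * dens S (crd Q) x)
        (F' := fun s x => fderiv ℝ h (Q x + s • e0) e0 * dens S (crd Q) x)
        (bound := fun _ => |M| * |D|) univ_mem ?_ ?_ ?_ ?_ ?_ ?_).2
      · refine Eventually.of_forall fun s => ?_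
        exact (integrable_mul_dens (bl_comp hQ (hts s) (hcs s)).bm _).aestronglyMeasurable
      · exact integrable_mul_dens (bl_comp hQ (hts s) (hcs s)).bm _
      · refine AEStronglyMeasurable.mul ?_ hbm.1.aestronglyMeasurable
        refine (Continuous.clm_apply ?_ continuous_const).aestronglyMeasurable
        exact (hh.continuous_fderiv (by simp)).comp (hQ.continuous.add continuous_const)
      · refine Eventually.of_forall fun x t _ => ?_
        rw [norm_mul, Real.norm_eq_abs (dens S (crd Q) x)]
        refine mul_le_mul ?_ (hD0 x) (abs_nonneg _) (abs_nonneg _)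
        refine (ContinuousLinearMap.le_opNorm _ _).trans ?_
        rw [he0, PiLp.norm_single, norm_one, mul_one]
        exact (hM _).trans (le_abs_self _)
      · exact integrable_const _
      · refine Eventually.of_forall fun x t _ => ?_
        have h1 : HasDerivAt (fun t : ℝ => Q x + t • e0) e0 t := by
          simpa using ((hasDerivAt_id t).smul_const e0).const_add (Q x)
        have h2 : HasFDerivAt h (fderiv ℝ h (Q x + t • e0)) (Q x + t • e0) :=
          ((hh.differentiable (by simp)) _).hasFDerivAt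
        exact (h2.comp_hasDerivAt t h1).mul_const _
    have h0 : (∫ x, fderiv ℝ h (Q x + s • e0) e0 * dens S (crd Q) x ∂(ctrl S)) = 0 := by
      have := ext_deriv_eq_zero hS hbd hQ (hts s) (hcs s)
      unfold G1.ext at this
      rw [← this]
      refine integral_congr_ae (Eventually.of_forall fun x => ?_)
      simp only
      rw [← he0, hfd]
    rwa [h0] at key
  have hconst : ∀ s, Ψ s = Ψ 0 := fun s =>
    is_const_of_deriv_eq_zero (fun s => (hderiv s).differentiableAt) (fun s => (hderiv s).deriv) s 0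
  -- bounded support
  obtain ⟨R, hR⟩ := (hQ.isBounded_image hKb).subset_closedBall (0 : Euc (k + 1))
  obtain ⟨R', hR'⟩ := hc.isCompact.isBounded.subset_closedBall (0 : Euc (k + 1))
  have hfar : Ψ (|R| + |R'| + 1) = 0 := by
    set s := |R| + |R'| + 1 with hs
    rw [hΨ]
    simp only
    rw [ext_eq hS (lipT_crd hQ) (bl_comp hQ (hts s) (hcs s))]
    refine hK _ _ ((bl_comp hQ (hts s) (hcs s)).isTestPair (lipT_crd hQ)) ?_
    intro x hx
    by_contra hne
    have h1 : Q x + s • e0 ∈ tsupport h := subset_tsupport _ (by simpa using hne)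
    have h2 := hR' h1
    have h3 := hR (mem_image_of_mem Q hx)
    rw [mem_closedBall_zero_iff] at h2 h3
    have h4 : ‖s • e0‖ ≤ ‖Q x + s • e0‖ + ‖Q x‖ := by
      have := norm_sub_le (Q x + s • e0) (Q x)
      simpa using this
    have hs0 : 0 ≤ s := by positivity
    rw [norm_smul, he0, PiLp.norm_single, norm_one, mul_one, Real.norm_of_nonneg hs0]
      at h4
    have h5 := le_abs_self R
    have h6 := le_abs_self R'
    rw [he0] at h2
    linarith
  have h1 := hconst (|R| + |R'| + 1)
  rw [hfar] at h1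
  have h2 : Ψ 0 = ext S (fun x => h (Q x)) (crd Q) := by
    rw [hΨ]; simp
  rw [← h2, ← h1]

/-- `S(f, Q) = 0` for all bounded Borel `f` -/
theorem ext_crd_eq_zero (hS : IsCurrent S) (hbd : bd S = 0) {C : ℝ≥0}
    (hQ : LipschitzWith C Q) {K : Set X} (hK : IsSupportedIn K S) (hKb : Bornology.IsBounded K)
    {e : Euc (k + 1) → X} (he : Continuous e) (heQ : ∀ x, e (Q x) = x)
    {f : X → ℝ} : ext S f (crd Q) = 0 := by
  have hQm : Measurable Q := hQ.continuous.measurable
  have hbm := bm_dens S (crd Q)
  have hem : Measurable e := he.measurable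
  have h1 : ∀ᵐ y ∂((ctrl S).map Q), dens S (crd Q) (e y) = 0 := by
    have : IsFiniteMeasure ((ctrl S).map Q) := inferInstance
    have hbm' : Integrable (fun y => dens S (crd Q) (e y)) ((ctrl S).map Q) := by
      obtain ⟨D, hD⟩ := hbm.2
      exact Integrable.of_bound (hbm.1.comp hem).aestronglyMeasurable D
        (Eventually.of_forall fun y => hD _)
    refine ae_eq_zero_of_integral_contDiff_smul_eq_zero hbm'.locallyIntegrable ?_
    intro g hg hgc
    have h2 := ext_comp_crd_eq_zero hS hbd hQ hK hKb hg hgc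
    unfold G1.ext at h2
    rw [integral_map hQm.aemeasurable]
    · rw [← h2]
      refine integral_congr_ae (Eventually.of_forall fun x => ?_)
      simp only [heQ, smul_eq_mul]
    · exact (hg.continuous.aestronglyMeasurable).smul
        (hbm.1.comp hem).aestronglyMeasurable
  have h2 : ∀ᵐ x ∂(ctrl S), dens S (crd Q) x = 0 := by
    have := ae_of_ae_map hQm.aemeasurable h1
    filter_upwards [this] with x hx
    rwa [heQ] at hx
  unfold G1.ext
  rw [integral_eq_zero_of_ae]
  filter_upwards [h2] with x hx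
  simp [hx]

/-- **Constancy theorem.** -/
theorem eq_zero (hS : IsCurrent S) (hbd : bd S = 0) {C : ℝ≥0}
    (hQ : LipschitzWith C Q) {K : Set X} (hK : IsSupportedIn K S) (hKb : Bornology.IsBounded K)
    {e : Euc (k + 1) → X} (heQ : ∀ x, e (Q x) = x)
    (hel : ∀ R : ℝ, ∃ L : ℝ≥0, LipschitzOnWith L e (closedBall 0 R)) : S = 0 := by
  have he : Continuous e := by
    rw [continuous_iff_continuousAt]
    intro v
    obtain ⟨L, hL⟩ := hel (‖v‖ + 1)
    refine (hL.continuousOn).continuousAt ?_
    refine mem_of_superset (ball_mem_nhds v one_pos) ?_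
    intro w hw
    rw [mem_closedBall_zero_iff]
    have h1 : ‖w - v‖ < 1 := by rwa [mem_ball, dist_eq_norm] at hw
    have h2 := norm_add_le v (w - v)
    have h3 : v + (w - v) = w := by abel
    rw [h3] at h2
    linarith
  funext f π
  by_cases hfπ : IsTestPair f π
  swap
  · exact hS.eq_zero_of_not_test f π hfπ
  show S f π = 0
  obtain ⟨hf, hπ⟩ := isTestPair_iff.1 hfπ
  obtain ⟨R, hR⟩ := (hQ.isBounded_image hKb).subset_closedBall (0 : Euc (k + 1))
  obtain ⟨L, hL⟩ := hel (R + 1)
  choose Kπ hKπ using hπ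
  set L' : ℝ≥0 := (∑ i, Kπ i) * L with hL'
  have hu : ∀ i, LipschitzOnWith L' (fun v => π i (e v)) (closedBall 0 (R + 1)) := by
    intro i
    have h1 : LipschitzWith (∑ i, Kπ i) (π i) := (hKπ i).weaken
      (Finset.single_le_sum (fun _ _ => zero_le) (Finset.mem_univ i))
    exact h1.comp_lipschitzOnWith hL
  choose û hû1 hû2 using fun i => (hu i).extend_real
  -- cut-off
  set η : X → ℝ := fun x => max 0 (min 1 (R + 1 - ‖Q x‖)) with hη
  have hηBL : BL η := by
    refine ⟨⟨C, ?_⟩, 1, fun x => ?_⟩
    · have h1 : LipschitzWith C (fun x => R + 1 - ‖Q x‖) := by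
        have h2 : LipschitzWith (1 * C) (fun x => ‖Q x‖) := lipschitzWith_one_norm.comp hQ
        have h3 := (LipschitzWith.const (R + 1)).sub h2
        simpa using h3
      have h2 := (LipschitzWith.const (1 : ℝ) (α := X)).min h1
      have h3 := (LipschitzWith.const (0 : ℝ) (α := X)).max h2
      simpa using h3
    · rw [abs_of_nonneg (le_max_left _ _)]
      exact max_le zero_le_one (min_le_left _ _)
  have hfη : BL (f * η) := hf.mul hηBL
  have h1 : S f π = S (f * η) π := by
    have h2 : f = f * η + (f - f * η) := by ring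
    have h3 : S (f - f * η) π = 0 := by
      refine hK _ _ ((hf.sub hfη).isTestPair hfπ.2.2) ?_
      intro x hx
      have h4 := hR (mem_image_of_mem Q hx)
      rw [mem_closedBall_zero_iff] at h4
      have h5 : η x = 1 := by
        rw [hη]; simp only
        rw [min_eq_left (by linarith), max_eq_right zero_le_one]
      simp [h5]
    conv_lhs => rw [h2]
    rw [hS.add_left _ _ _ (hfη.isTestPair hfπ.2.2) ((hf.sub hfη).isTestPair hfπ.2.2), h3, add_zero]
  have hπ'L : LipT (fun i x => û i (Q x)) := fun i => ⟨_, (hû1 i).comp hQ⟩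
  have h2 : S (f * η) π = S (f * η) (fun i x => û i (Q x)) := by
    rw [← ext_eq hS hfπ.2.2 hfη, ← ext_eq hS hπ'L hfη]
    refine ext_congr_coord hS hfη.bm hfπ.2.2 hπ'L ?_
    intro i x hx
    have h3 : ‖Q x‖ ≤ R + 1 := by
      by_contra hcon
      push Not at hcon
      apply hx
      have : η x = 0 := by
        rw [hη]; simp only
        rw [max_eq_left]
        exact (min_le_right _ _).trans (by linarith)
      simp [this]
    have h4 := hû2 i (mem_closedBall_zero_iff.2 h3)
    simp only [heQ] at h4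
    exact h4
  rw [h1, h2]
  -- mollify
  have hpos : ∀ j : ℕ, (0 : ℝ) < 1 / ((j : ℝ) + 1) := fun j => by positivity
  have hlim := hS.continuity (f * η) (fun i x => û i (Q x))
    (fun j i x => EMoll.moll (hpos j) (û i) (Q x)) (hfη.isTestPair hπ'L)
    ⟨L' * C, fun j i => (EMoll.lipschitz_moll (hpos j) (hû1 i)).comp hQ⟩
    (by
      intro i x
      rw [tendsto_iff_dist_tendsto_zero]
      refine squeeze_zero (g := fun j : ℕ => L' * (1 / ((j : ℝ) + 1))) (fun j => dist_nonneg)
        (fun j => ?_) ?_
      · rw [Real.dist_eq]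
        exact EMoll.abs_moll_sub_le_of_lipschitz (hpos j) (hû1 i) _
      · have := (tendsto_one_div_add_atTop_nhds_zero_nat (𝕜 := ℝ)).const_mul (L' : ℝ)
        simpa using this)
  have hzero : ∀ j : ℕ, S (f * η) (fun i x => EMoll.moll (hpos j) (û i) (Q x)) = 0 := by
    intro j
    have hL2 : LipT (fun i x => EMoll.moll (hpos j) (û i) (Q x)) :=
      fun i => ⟨_, (EMoll.lipschitz_moll (hpos j) (hû1 i)).comp hQ⟩
    rw [← ext_eq hS hL2 hfη]
    exact ext_comp_eq_zero hS hQ (fun f _ => ext_crd_eq_zero hS hbd hQ hK hKb he heQ)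
      (G := fun i => EMoll.moll (hpos j) (û i))
      (fun i => (EMoll.contDiff_moll (hpos j) (hû1 i).continuous).of_le (by simp))
      (fun i => EMoll.lipschitz_moll (hpos j) (hû1 i)) hfη.bm
  simp only [hzero] at hlim
  exact (tendsto_nhds_unique hlim tendsto_const_nhds)

end Top

end Crest.Agent.R241.E2
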