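import Crest.Agent.R241.Targets
import Crest.Agent.R241.EModel

/-!
# R241, block E4: assembly of S0372 (owner: helper212)

From the filling theorem on closed balls (FILL), the chain of a bounded open set (ChainTarget),
the cut-off of unbounded sets (CutTarget), the Cartan–Hadamard package (CHTarget), and the surface
case `n = 2` as a hypothesis.
-/

set_option autoImplicit false

open MeasureTheory Filter Topology Set
open scoped ENNReal NNReal RealInnerProductSpace

namespace Crest.Agent.R241.E4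

open Crest.GeometryTopology.MetricCurrent
open Crest.GeometryTopology.Submanifold
open Crest.Agent.R241.EModel

/-- The inputs on closed balls of proper `CAT(-k²)` spaces. -/
def FillInputs : Prop :=
  ∀ (X : Type) (_ : MetricSpace X) (_ : ProperSpace X) (_ : MeasurableSpace X) (_ : BorelSpace X)
    (k : ℝ) (_ : 0 ≤ k) (_ : CATk k X) (p : X) (R : ℝ) (_ : 0 ≤ R) (m : ℕ) (_ : 1 ≤ m),
    AddTarget X (Metric.closedBall p R) ∧ FillTarget X k (Metric.closedBall p R) m

/-- Isoperimetric inequality for bounded relatively open sets. -/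
theorem bounded_case (hChain : ChainTarget) (hfill : FillInputs) {m N : ℕ} (hm : 1 ≤ m) {k : ℝ}
    (hk : 0 ≤ k) {S : Set (Euc N)} {X : Type} [MetricSpace X] [ProperSpace X] [MeasurableSpace X]
    [BorelSpace X] (M : CHModel (m + 2) N k S X) (p : X) (R : ℝ) (hR : 0 ≤ R)
    {E : Set (Euc N)} (hES : E ⊆ S) (hopen : ∃ U : Set (Euc N), IsOpen U ∧ E = S ∩ U)
    (hER : E ⊆ M.ι '' Metric.closedBall p R)
    (hfin : Measure.euclideanHausdorffMeasure (m + 1) (relBoundary S E) < ⊤) :
    ∃ V : ℝ, 0 ≤ V ∧ Measure.euclideanHausdorffMeasure (m + 2) E = ENNReal.ofReal V ∧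
      ENNReal.ofReal (Ak (m + 1) k V) ≤
        Measure.euclideanHausdorffMeasure (m + 1) (relBoundary S E) := by
  have hmk : m + 1 ≠ 0 := by omega
  obtain ⟨hint, hmass, hbd, huniq, -⟩ :=
    hChain m N k hk S X inferInstance inferInstance inferInstance inferInstance M p R E hES hopen
      hER hfin
  obtain ⟨hadd, hF⟩ := hfill X inferInstance inferInstance inferInstance inferInstance k hk M.cat p R hR m
    hm
  set C := M.chain p E with hC
  have hV0 : 0 ≤ mass C := hadd.mass_nonneg _ C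
  have hb0 : 0 ≤ mass (bd C) := hadd.mass_nonneg _ (bd C)
  have hcyc : IsCyc (Metric.closedBall p R) (bd C) := hadd.isCyc_bd _ C hint
  refine ⟨mass C, hV0, hmass, le_trans (ENNReal.ofReal_le_ofReal ?_) hbd⟩
  -- `mass C ≤ Vk (mass (bd C))`
  have hle : mass C ≤ modelV (m + 1) k (radA (m + 1) k (mass (bd C))) := by
    apply le_of_forall_pos_le_add
    intro ε hε
    obtain ⟨S', h1, h2, h3⟩ := hF (bd C) (radA (m + 1) k (mass (bd C))) hcyc (radA_nonneg _ _ _)
      (modelA_radA hmk hk hb0).ge ε hε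
    rw [huniq S' h1 h2] at h3
    exact h3
  calc Ak (m + 1) k (mass C) ≤ Ak (m + 1) k (Vk (m + 1) k (mass (bd C))) :=
        (strictMonoOn_Ak hmk hk).monotoneOn (mem_Ici.2 hV0) (mem_Ici.2 (Vk_nonneg _ _ _)) hle
    _ = mass (bd C) := Ak_Vk hmk hk hb0

/-- **S0372** for `n = m + 2 ≥ 3` and `κ = -k²`. -/
theorem main (hCH : CHTarget) (hChain : ChainTarget) (hCut : CutTarget) (hfill : FillInputs)
    {m N : ℕ} (hm : 1 ≤ m) {k : ℝ} (hk : 0 ≤ k) (S : Set (Euc N))
    (hS : IsSubmanifold (m + 2) N S) (hclosed : IsClosed S) (hconn : IsConnected S)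
    (hsc : SimplyConnectedSpace S)
    (hsec : ∀ p ∈ S, ∀ (f : Euc (m + 2) → Euc N) (V : Set (Euc (m + 2))),
      IsLocalParam (m + 2) N S p f V →
      ∀ u v : Euc (m + 2), secNum f 0 u v ≤ -k ^ 2 * gramDet f 0 u v)
    (E : Set (Euc N)) (hES : E ⊆ S) (hopen : ∃ U : Set (Euc N), IsOpen U ∧ E = S ∩ U)
    (r : ℝ) (hr : 0 ≤ r)
    (hvol : Measure.euclideanHausdorffMeasure (m + 2) E = ENNReal.ofReal (modelV (m + 1) k r)) :
    ENNReal.ofReal (modelA (m + 1) k r) ≤
      Measure.euclideanHausdorffMeasure (m + 1) (relBoundary S E) := by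
  have hmk : m + 1 ≠ 0 := by omega
  rcases eq_or_lt_of_le hr with h0 | hrpos
  · rw [← h0, modelA_zero hmk]; simp
  by_cases hfin : Measure.euclideanHausdorffMeasure (m + 1) (relBoundary S E) < ⊤
  swap
  · rw [not_lt, top_le_iff] at hfin
    rw [hfin]; exact le_top
  obtain ⟨X, _, _, _, ⟨M⟩⟩ := hCH (m + 2) N (by omega) k hk S hS hclosed hconn hsc hsec
  let _ : MeasurableSpace X := borel X
  have _ : BorelSpace X := ⟨rfl⟩
  obtain ⟨p⟩ := (inferInstance : Nonempty X)
  set V := modelV (m + 1) k r with hVdef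
  have hVpos : 0 < V := modelV_pos hrpos
  have hemb : IsClosedEmbedding M.ι := ⟨M.ι_emb, by rw [M.ι_range]; exact hclosed⟩
  -- the estimate for small `ε`
  have key : ∀ ε : ℝ, 0 < ε → ε < V → ENNReal.ofReal (Ak (m + 1) k (V - ε)) ≤
      Measure.euclideanHausdorffMeasure (m + 1) (relBoundary S E) + ENNReal.ofReal ε := by
    intro ε hε hεV
    obtain ⟨R, hR, h1, h2⟩ := hCut (m + 1) N (by omega) S E hclosed hES hopen
      (by rw [hvol]; exact ENNReal.ofReal_lt_top) hfin ε hε
    -- the truncated set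
    have hE'S : E ∩ Metric.ball 0 R ⊆ S := inter_subset_left.trans hES
    have hE'open : ∃ U : Set (Euc N), IsOpen U ∧ E ∩ Metric.ball 0 R = S ∩ U := by
      obtain ⟨U, hU, hEU⟩ := hopen
      exact ⟨U ∩ Metric.ball 0 R, hU.inter Metric.isOpen_ball, by rw [hEU, inter_assoc]⟩
    have hcomp : IsCompact (M.ι ⁻¹' Metric.closedBall (0 : Euc N) R) :=
      hemb.isCompact_preimage (isCompact_closedBall 0 R)
    obtain ⟨R', hR'⟩ := hcomp.isBounded.subset_closedBall p
    have hE'R : E ∩ Metric.ball 0 R ⊆ M.ι '' Metric.closedBall p (max R' 0) := by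
      rintro y ⟨hy, hyR⟩
      obtain ⟨x, rfl⟩ : y ∈ range M.ι := by rw [M.ι_range]; exact hES hy
      exact ⟨x, Metric.closedBall_subset_closedBall (le_max_left _ _)
        (hR' (Metric.ball_subset_closedBall hyR)), rfl⟩
    have hfin' : Measure.euclideanHausdorffMeasure (m + 1)
        (relBoundary S (E ∩ Metric.ball 0 R)) < ⊤ :=
      lt_of_le_of_lt h2 (ENNReal.add_lt_top.2 ⟨hfin, ENNReal.ofReal_lt_top⟩)
    obtain ⟨V', hV'0, hV', hA⟩ := bounded_case hChain hfill hm hk M p (max R' 0)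
      (le_max_right _ _) hE'S hE'open hE'R hfin'
    have hVV : V ≤ V' + ε := by
      have h3 : Measure.euclideanHausdorffMeasure (m + 2) E ≤
          Measure.euclideanHausdorffMeasure (m + 2) (E ∩ Metric.ball 0 R) +
          Measure.euclideanHausdorffMeasure (m + 2) (E \ Metric.ball 0 R) := by
        conv_lhs => rw [← inter_union_sdiff E (Metric.ball 0 R)]
        exact measure_union_le _ _
      rw [hvol, hV'] at h3
      have h4 : ENNReal.ofReal V ≤ ENNReal.ofReal (V' + ε) := by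
        rw [ENNReal.ofReal_add hV'0 hε.le]
        exact h3.trans (by gcongr)
      exact (ENNReal.ofReal_le_ofReal_iff (by linarith)).1 h4
    calc ENNReal.ofReal (Ak (m + 1) k (V - ε)) ≤ ENNReal.ofReal (Ak (m + 1) k V') := by
          apply ENNReal.ofReal_le_ofReal
          exact (strictMonoOn_Ak hmk hk).monotoneOn (mem_Ici.2 (by linarith)) (mem_Ici.2 hV'0)
            (by linarith)
      _ ≤ _ := hA
      _ ≤ _ := h2
  -- the limit `ε → 0`
  have hAV : Ak (m + 1) k V = modelA (m + 1) k r := Ak_modelV hmk hk hr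
  have hcont : ContinuousAt (Ak (m + 1) k) V :=
    (continuousOn_Ak hmk hk).continuousAt (Ici_mem_nhds hVpos)
  have hlim1 : Tendsto (fun ε : ℝ => ENNReal.ofReal (Ak (m + 1) k (V - ε))) (𝓝[>] 0)
      (𝓝 (ENNReal.ofReal (modelA (m + 1) k r))) := by
    rw [← hAV]
    apply ENNReal.tendsto_ofReal
    have h5 : Tendsto (fun ε : ℝ => V - ε) (𝓝[>] 0) (𝓝 V) := by
      have : Tendsto (fun ε : ℝ => V - ε) (𝓝 0) (𝓝 (V - 0)) :=
        (continuous_const.sub continuous_id).tendsto 0
      rw [sub_zero] at this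
      exact this.mono_left nhdsWithin_le_nhds
    exact hcont.tendsto.comp h5
  have hlim2 : Tendsto (fun ε : ℝ =>
      Measure.euclideanHausdorffMeasure (m + 1) (relBoundary S E) + ENNReal.ofReal ε) (𝓝[>] 0)
      (𝓝 (Measure.euclideanHausdorffMeasure (m + 1) (relBoundary S E))) := by
    have h6 : Tendsto (fun ε : ℝ => ENNReal.ofReal ε) (𝓝[>] 0) (𝓝 0) := by
      have := (ENNReal.continuous_ofReal.tendsto 0).mono_left
        (nhdsWithin_le_nhds (s := Ioi (0 : ℝ)))
      simpa using this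
    have h7 := (tendsto_const_nhds (x := Measure.euclideanHausdorffMeasure (m + 1)
      (relBoundary S E)) (f := 𝓝[>] (0 : ℝ))).add h6
    simpa using h7
  refine le_of_tendsto_of_tendsto hlim1 hlim2 ?_
  filter_upwards [Ioo_mem_nhdsGT hVpos] with ε hε
  exact key ε hε.1 hε.2

/-- The statement of S0372 in dimension `n`. -/
def Stmt (n : ℕ) : Prop :=
  ∀ (N : ℕ) (κ : ℝ) (_ : κ ≤ 0) (S : Set (EuclideanSpace ℝ (Fin N)))
    (_ : IsSubmanifold n N S) (_ : IsClosed S) (_ : IsConnected S)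
    (_ : SimplyConnectedSpace S)
    (_ : ∀ p ∈ S, ∀ (f : EuclideanSpace ℝ (Fin n) → EuclideanSpace ℝ (Fin N))
      (V : Set (EuclideanSpace ℝ (Fin n))), IsLocalParam n N S p f V →
      ∀ u v : EuclideanSpace ℝ (Fin n), secNum f 0 u v ≤ κ * gramDet f 0 u v)
    (E : Set (EuclideanSpace ℝ (Fin N))) (_ : E ⊆ S)
    (_ : ∃ U : Set (EuclideanSpace ℝ (Fin N)), IsOpen U ∧ E = S ∩ U)
    (r : ℝ) (_ : 0 ≤ r)
    (_ : MeasureTheory.Measure.euclideanHausdorffMeasure n E
      = ENNReal.ofReal (modelVolume n κ r)),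
    ENNReal.ofReal (modelArea n κ r)
      ≤ MeasureTheory.Measure.euclideanHausdorffMeasure (n - 1) (relBoundary S E)

theorem stmt_of_three_le (hCH : CHTarget) (hChain : ChainTarget) (hCut : CutTarget)
    (hfill : FillInputs) {n : ℕ} (hn : 3 ≤ n) : Stmt n := by
  obtain ⟨m, rfl⟩ : ∃ m, n = m + 2 := ⟨n - 2, by omega⟩
  have hm : 1 ≤ m := by omega
  intro N κ hκ S hS hclosed hconn hsc hsec E hES hopen r hr hvol
  obtain ⟨k, hk, rfl⟩ : ∃ k : ℝ, 0 ≤ k ∧ κ = -(k ^ 2) :=
    ⟨√(-κ), Real.sqrt_nonneg _, by rw [Real.sq_sqrt (by linarith)]; ring⟩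
  have h1 : modelArea (m + 2) (-(k ^ 2)) r = modelA (m + 1) k r := modelArea_succ hk (m + 1) r
  have h2 : modelVolume (m + 2) (-(k ^ 2)) r = modelV (m + 1) k r := modelVolume_succ hk (m + 1) r
  rw [h2] at hvol
  rw [h1]
  exact main hCH hChain hCut hfill hm hk S hS hclosed hconn hsc hsec E hES hopen r hr hvol

/-- **S0372** from the targets and the surface case. -/
theorem s0372 (hCH : CHTarget) (hChain : ChainTarget) (hCut : CutTarget)
    (hfill : FillInputs) (hsurf : Stmt 2)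
    (n N : ℕ) (hn : 2 ≤ n) (κ : ℝ) (hκ : κ ≤ 0) (S : Set (EuclideanSpace ℝ (Fin N)))
    (hS : IsSubmanifold n N S) (hclosed : IsClosed S) (hconn : IsConnected S)
    (hsc : SimplyConnectedSpace S)
    (hsec : ∀ p ∈ S, ∀ (f : EuclideanSpace ℝ (Fin n) → EuclideanSpace ℝ (Fin N))
      (V : Set (EuclideanSpace ℝ (Fin n))), IsLocalParam n N S p f V →
      ∀ u v : EuclideanSpace ℝ (Fin n), secNum f 0 u v ≤ κ * gramDet f 0 u v)
    (E : Set (EuclideanSpace ℝ (Fin N))) (hES : E ⊆ S)
    (hopen : ∃ U : Set (EuclideanSpace ℝ (Fin N)), IsOpen U ∧ E = S ∩ U)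
    (r : ℝ) (hr : 0 ≤ r)
    (hvol : MeasureTheory.Measure.euclideanHausdorffMeasure n E
      = ENNReal.ofReal (modelVolume n κ r)) :
    ENNReal.ofReal (modelArea n κ r)
      ≤ MeasureTheory.Measure.euclideanHausdorffMeasure (n - 1) (relBoundary S E) := by
  rcases Nat.lt_or_ge 2 n with h | h
  · exact stmt_of_three_le hCH hChain hCut hfill h N κ hκ S hS hclosed hconn hsc hsec E hES
      hopen r hr hvol
  · obtain rfl : n = 2 := le_antisymm h hn
    exact hsurf N κ hκ S hS hclosed hconn hsc hsec E hES hopen r hr hvol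

end Crest.Agent.R241.E4
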