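import Crest.Agent.R241.E4
import Crest.Agent.R241.B11

/-!
# R241, block E4, part 2: the filling input of E4 from the targets of blocks A and B
-/

set_option autoImplicit false

open MeasureTheory Filter Topology Set
open scoped ENNReal NNReal

namespace Crest.Agent.R241.E4

open Crest.GeometryTopology.MetricCurrent

/-- The inputs of blocks A and B on the closed balls of proper `CAT(-k²)` spaces. -/
def BallInputs : Prop :=
  ∀ (X : Type) (_ : MetricSpace X) (_ : ProperSpace X) (_ : MeasurableSpace X) (_ : BorelSpace X)
    (k : ℝ) (_ : 0 ≤ k) (_ : CATk k X) (p : X) (R : ℝ) (_ : 0 ≤ R)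
    (_ : CompactSpace (Metric.closedBall p R)) (m : ℕ) (_ : 1 ≤ m),
    AddTarget X (Metric.closedBall p R) ∧
    ClosureTarget X (Metric.closedBall p R) m ∧
    FVarTarget X k (Metric.closedBall p R) m ∧
    ConeTarget X (Metric.closedBall p R) m ∧
    A.CatD k (Metric.closedBall p R) ∧
    ∀ h, A.TheoremA (m + 1) k h (Metric.closedBall p R)

theorem fillInputs_of (h : BallInputs) : FillInputs := by
  intro X _ _ _ _ k hk C p R hR m hm
  have hc : CompactSpace (Metric.closedBall p R) :=
    isCompact_iff_compactSpace.1 (isCompact_closedBall p R)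
  obtain ⟨hadd, hclo, hfv, hcone, hcat, hA⟩ :=
    h X inferInstance inferInstance inferInstance inferInstance k hk C p R hR hc m hm
  exact ⟨hadd, B11.fillTarget hk hm hadd hclo hfv hcone hcat hA
    ⟨p, Metric.mem_closedBall_self hR⟩⟩

end Crest.Agent.R241.E4
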