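import Crest.Agent.R241.E5b
import Crest.Prelude.Def_SubmanifoldIsoperimetric

/-!
R241, block E5c: final packaging of S0373.
-/

set_option autoImplicit false

open Set Filter Topology MeasureTheory MeasureTheory.Measure Matrix
open scoped ContDiff RealInnerProductSpace ENNReal
open Crest.GeometryTopology.Submanifold

noncomputable section

namespace Crest.Agent.R241.E5c

variable {n N : ℕ}

theorem modelVolume_zero (hn : 1 ≤ n) (r : ℝ) :
    modelVolume n 0 r = unitBallVol n * r ^ n := by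
  have h1 : ∫ t in (0 : ℝ)..r, snk 0 t ^ (n - 1) = r ^ n / n := by
    simp only [snk, if_true]
    rw [integral_pow]
    have : n - 1 + 1 = n := by omega
    rw [this, zero_pow (by omega), sub_zero]
    congr 1
    have : ((n - 1 : ℕ) : ℝ) = (n : ℝ) - 1 := by
      rw [Nat.cast_sub hn]; simp
    rw [this]; ring
  rw [modelVolume, h1, unitSphereArea]
  have : (n : ℝ) ≠ 0 := by positivity
  field_simp

theorem volume_ball_eq (hn : 1 ≤ n) {r : ℝ} (hr : 0 < r) :
    volume (Metric.ball (0 : Euc n) r) = ENNReal.ofReal (modelVolume n 0 r) := by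
  rw [modelVolume_zero hn, unitBallVol]
  have : Nonempty (Fin n) := ⟨⟨0, hn⟩⟩
  rw [Measure.addHaar_ball_of_pos _ _ hr, finrank_euclideanSpace_fin,
    ENNReal.ofReal_mul ENNReal.toReal_nonneg,
    ENNReal.ofReal_toReal measure_ball_lt_top.ne, mul_comm]

/-- Final packaging of S0373: `Ψ` is the exponential map at the centre. -/
theorem finish (hn : 1 ≤ n) {S E : Set (Euc N)} {r : ℝ} (hr : 0 < r)
    (hvol : μHE[n] E = ENNReal.ofReal (modelVolume n 0 r))
    {Ψ : Euc n → Euc N} (hΨ : ContDiff ℝ ∞ Ψ) (hinj : Function.Injective Ψ)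
    (hopen : ∃ U : Set (Euc N), IsOpen U ∧ Ψ '' Metric.ball 0 r = S ∩ U)
    (hexp : ∀ x w, ‖w‖ ≤ ‖fderiv ℝ Ψ x w‖)
    (hae : μHE[n] (symmDiff E (Ψ '' Metric.ball 0 r)) = 0) :
    ∃ U : Set (EuclideanSpace ℝ (Fin N)), IsOpen U ∧
      MeasureTheory.Measure.euclideanHausdorffMeasure n (symmDiff E (S ∩ U)) = 0 ∧
      ∃ φ : EuclideanSpace ℝ (Fin n) → EuclideanSpace ℝ (Fin N),
        ContDiffOn ℝ (⊤ : ℕ∞) φ (Metric.ball 0 r) ∧ Set.InjOn φ (Metric.ball 0 r) ∧
        φ '' Metric.ball 0 r = S ∩ U ∧ ∀ x ∈ Metric.ball 0 r, metricMat φ x = 1 := by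
  obtain ⟨U, hU, hUS⟩ := hopen
  refine ⟨U, hU, ?_, Ψ, ?_, hinj.injOn, hUS, ?_⟩
  · rw [← hUS]; exact hae
  · exact (hΨ.of_le (by simp)).contDiffOn
  · have h1 : μHE[n] (Ψ '' Metric.ball 0 r) = volume (Metric.ball (0 : Euc n) r) := by
      rw [← measure_congr (measure_symmDiff_eq_zero_iff.1 hae), hvol, volume_ball_eq hn hr]
    exact E5b.metricMat_eq_one Metric.isOpen_ball (hΨ.of_le (by simp)).contDiffOn hinj.injOn
      (fun x _ w => hexp x w) measure_ball_lt_top.ne h1.le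

end Crest.Agent.R241.E5c
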