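import Crest.Agent.R241.E4b
import Crest.Agent.R241.E5c

/-!
# R241, block E5: assembly of S0373 (owner: helper534)

From the filling theorem and its equality case on closed balls (FILL, FILLEQ), the chain of a
bounded open set (ChainTarget), the Cartan–Hadamard package (CHTarget), and the surface case
`n = 2` as a hypothesis.
-/

set_option autoImplicit false

open MeasureTheory Filter Topology Set
open scoped ENNReal NNReal RealInnerProductSpace

namespace Crest.Agent.R241.E5

open Crest.GeometryTopology.MetricCurrent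
open Crest.GeometryTopology.Submanifold
open Crest.Agent.R241.EModel

/-- The equality inputs on closed balls of proper `CAT(0)` spaces. -/
def FillEqInputs : Prop :=
  ∀ (X : Type) (_ : MetricSpace X) (_ : ProperSpace X) (_ : MeasurableSpace X) (_ : BorelSpace X)
    (_ : CATk 0 X) (p : X) (R : ℝ) (_ : 0 ≤ R) (m : ℕ) (_ : 1 ≤ m),
    FillEqTarget X (Metric.closedBall p R) m

/-- The equality case of Theorem A on the closed balls of proper `CAT(0)` spaces. -/
def EqInputs : Prop :=
  ∀ (X : Type) (_ : MetricSpace X) (_ : ProperSpace X) (_ : MeasurableSpace X) (_ : BorelSpace X)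
    (_ : CATk 0 X) (p : X) (R : ℝ) (_ : 0 ≤ R)
    (_ : CompactSpace (Metric.closedBall p R)) (m : ℕ) (_ : 1 ≤ m),
    ∀ h, A.TheoremAeq (m + 1) h (Metric.closedBall p R)

theorem fillEqInputs_of (h : E4.BallInputs) (h' : EqInputs) : FillEqInputs := by
  intro X _ _ _ _ C p R hR m hm
  have hc : CompactSpace (Metric.closedBall p R) :=
    isCompact_iff_compactSpace.1 (isCompact_closedBall p R)
  obtain ⟨hadd, hclo, hfv, hcone, hcat, hA⟩ :=
    h X inferInstance inferInstance inferInstance inferInstance 0 le_rfl C p R hR hc m hm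
  exact B11.fillEqTarget hm hadd hclo hfv hcone hcat hA
    (h' X inferInstance inferInstance inferInstance inferInstance C p R hR hc m hm)
    ⟨p, Metric.mem_closedBall_self hR⟩

/-- **S0373** for `n = m + 2 ≥ 3`. -/
theorem main (hCH : CHTarget) (hChain : ChainTarget) (hfill : E4.FillInputs)
    (hfeq : FillEqInputs) {m N : ℕ} (hm : 1 ≤ m) (S : Set (Euc N))
    (hS : IsSubmanifold (m + 2) N S) (hclosed : IsClosed S) (hconn : IsConnected S)
    (hsc : SimplyConnectedSpace S)
    (hsec : ∀ p ∈ S, ∀ (f : Euc (m + 2) → Euc N) (V : Set (Euc (m + 2))),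
      IsLocalParam (m + 2) N S p f V →
      ∀ u v : Euc (m + 2), secNum f 0 u v ≤ 0)
    (E : Set (Euc N)) (hES : E ⊆ S) (hE : IsCompact (closure E))
    (hopen : ∃ U : Set (Euc N), IsOpen U ∧ E = S ∩ U)
    (r : ℝ) (hr : 0 < r)
    (hvol : Measure.euclideanHausdorffMeasure (m + 2) E = ENNReal.ofReal (modelVolume (m + 2) 0 r))
    (harea : Measure.euclideanHausdorffMeasure (m + 1) (relBoundary S E)
      = ENNReal.ofReal (modelArea (m + 2) 0 r)) :
    ∃ U : Set (Euc N), IsOpen U ∧
      MeasureTheory.Measure.euclideanHausdorffMeasure (m + 2) (symmDiff E (S ∩ U)) = 0 ∧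
      ∃ φ : Euc (m + 2) → Euc N,
        ContDiffOn ℝ (⊤ : ℕ∞) φ (Metric.ball 0 r) ∧ Set.InjOn φ (Metric.ball 0 r) ∧
        φ '' Metric.ball 0 r = S ∩ U ∧ ∀ x ∈ Metric.ball 0 r, metricMat φ x = 1 := by
  have hmk : m + 1 ≠ 0 := by omega
  have hle : (0 : ℝ) ≤ 0 := le_rfl
  have hmA : modelArea (m + 2) 0 r = modelA (m + 1) 0 r := by
    have h1 := modelArea_succ hle (m + 1) r
    simpa using h1
  have hmV : modelVolume (m + 2) 0 r = modelV (m + 1) 0 r := by
    have h1 := modelVolume_succ hle (m + 1) r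
    simpa using h1
  obtain ⟨X, _, _, _, ⟨M⟩⟩ := hCH (m + 2) N (by omega) 0 le_rfl S hS hclosed hconn hsc (by
    intro p hp f V hf u v
    have := hsec p hp f V hf u v
    simpa using this)
  let _ : MeasurableSpace X := borel X
  have _ : BorelSpace X := ⟨rfl⟩
  obtain ⟨p⟩ := (inferInstance : Nonempty X)
  have hemb : IsClosedEmbedding M.ι := ⟨M.ι_emb, by rw [M.ι_range]; exact hclosed⟩
  -- a ball containing `E`
  have hcomp : IsCompact (M.ι ⁻¹' closure E) := hemb.isCompact_preimage hE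
  obtain ⟨R', hR'⟩ := hcomp.isBounded.subset_closedBall p
  set R := max R' 0 with hRdef
  have hR : 0 ≤ R := le_max_right _ _
  have hER : E ⊆ M.ι '' Metric.closedBall p R := by
    intro y hy
    obtain ⟨x, rfl⟩ : y ∈ range M.ι := by rw [M.ι_range]; exact hES hy
    exact ⟨x, Metric.closedBall_subset_closedBall (le_max_left _ _)
      (hR' (subset_closure hy)), rfl⟩
  have hfin : Measure.euclideanHausdorffMeasure (m + 1) (relBoundary S E) < ⊤ := by
    rw [harea]; exact ENNReal.ofReal_lt_top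
  obtain ⟨hint, hmass, hbd, huniq, hball⟩ :=
    hChain m N 0 le_rfl S X inferInstance inferInstance inferInstance inferInstance M p R E hES
      hopen hER hfin
  obtain ⟨hadd, hF⟩ := hfill X inferInstance inferInstance inferInstance inferInstance 0 le_rfl
    M.cat p R hR m hm
  have hFeq := hfeq X inferInstance inferInstance inferInstance inferInstance M.cat p R hR m hm
  set C := M.chain p E with hC
  have hV0 : 0 ≤ mass C := hadd.mass_nonneg _ C
  have hb0 : 0 ≤ mass (bd C) := hadd.mass_nonneg _ (bd C)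
  have hcyc : IsCyc (Metric.closedBall p R) (bd C) := hadd.isCyc_bd _ C hint
  -- the mass of `C` is the model volume
  have hmC : mass C = modelV (m + 1) 0 r := by
    rw [hvol, hmV] at hmass
    exact ((ENNReal.ofReal_eq_ofReal_iff (modelV_nonneg hr.le) hV0).1 hmass).symm
  have hbC : mass (bd C) ≤ modelA (m + 1) 0 r := by
    rw [harea, hmA] at hbd
    exact (ENNReal.ofReal_le_ofReal_iff (modelA_nonneg hr.le)).1 hbd
  -- `mass C ≤ Vk (mass (bd C))`
  have hle2 : mass C ≤ modelV (m + 1) 0 (radA (m + 1) 0 (mass (bd C))) := by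
    apply le_of_forall_pos_le_add
    intro ε hε
    obtain ⟨S', h1, h2, h3⟩ := hF (bd C) (radA (m + 1) 0 (mass (bd C))) hcyc (radA_nonneg _ _ _)
      (modelA_radA hmk le_rfl hb0).ge ε hε
    rw [huniq S' h1 h2] at h3
    exact h3
  have hbC' : modelA (m + 1) 0 r ≤ mass (bd C) := by
    calc modelA (m + 1) 0 r = Ak (m + 1) 0 (mass C) := by
          rw [hmC, Ak_modelV hmk le_rfl hr.le]
      _ ≤ Ak (m + 1) 0 (Vk (m + 1) 0 (mass (bd C))) :=
        (strictMonoOn_Ak hmk le_rfl).monotoneOn (mem_Ici.2 hV0) (mem_Ici.2 (Vk_nonneg _ _ _)) hle2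
      _ = mass (bd C) := Ak_Vk hmk le_rfl hb0
  -- the equality case
  obtain ⟨x, -, hsupp⟩ := hFeq (bd C) r hcyc hr (le_antisymm hbC hbC') (by
    intro S' h1 h2
    rw [huniq S' h1 h2, hmC])
  have hsupp' : IsSupportedIn (Metric.sphere x r) (bd C) := by
    intro f π hf h
    exact hsupp f π hf fun y hy => h y hy.2
  have hae := hball x r hr hsupp' (by rw [hmC]; exact modelV_pos hr)
  -- the exponential map at the centre
  have himg : (fun v => M.ι (M.e x v)) '' Metric.ball 0 r = M.ι '' Metric.ball x r := by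
    ext y
    constructor
    · rintro ⟨v, hv, rfl⟩
      refine ⟨M.e x v, ?_, rfl⟩
      rw [Metric.mem_ball, dist_comm, M.e_dist]
      simpa using hv
    · rintro ⟨z, hz, rfl⟩
      obtain ⟨v, rfl⟩ := (M.e_bij x).2 z
      refine ⟨v, ?_, rfl⟩
      rw [Metric.mem_ball, dist_comm, M.e_dist] at hz
      simpa using hz
  have hinj : Function.Injective (fun v => M.ι (M.e x v)) := M.ι_inj.comp (M.e_bij x).1
  have hopen' : ∃ U : Set (Euc N), IsOpen U ∧
      (fun v => M.ι (M.e x v)) '' Metric.ball 0 r = S ∩ U := by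
    obtain ⟨U, hU, hUe⟩ := M.ι_emb.isInducing.isOpen_iff.1 (Metric.isOpen_ball (x := x) (ε := r))
    refine ⟨U, hU, ?_⟩
    rw [himg, ← hUe, image_preimage_eq_inter_range, M.ι_range, inter_comm]
  exact E5c.finish (by omega) hr hvol (M.smooth x) hinj hopen'
    (fun v w => M.fderiv_ge x v w) (by rw [himg]; exact hae)

/-- The statement of S0373 in dimension `n`. -/
def Stmt (n : ℕ) : Prop :=
  ∀ (N : ℕ) (S : Set (EuclideanSpace ℝ (Fin N)))
    (_ : IsSubmanifold n N S) (_ : IsClosed S) (_ : IsConnected S)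
    (_ : SimplyConnectedSpace S)
    (_ : ∀ p ∈ S, ∀ (f : EuclideanSpace ℝ (Fin n) → EuclideanSpace ℝ (Fin N))
      (V : Set (EuclideanSpace ℝ (Fin n))), IsLocalParam n N S p f V →
      ∀ u v : EuclideanSpace ℝ (Fin n), secNum f 0 u v ≤ 0)
    (E : Set (EuclideanSpace ℝ (Fin N))) (_ : E ⊆ S) (_ : IsCompact (closure E))
    (_ : ∃ U : Set (EuclideanSpace ℝ (Fin N)), IsOpen U ∧ E = S ∩ U)
    (r : ℝ) (_ : 0 < r)
    (_ : MeasureTheory.Measure.euclideanHausdorffMeasure n E
      = ENNReal.ofReal (modelVolume n 0 r))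
    (_ : MeasureTheory.Measure.euclideanHausdorffMeasure (n - 1) (relBoundary S E)
      = ENNReal.ofReal (modelArea n 0 r)),
    ∃ U : Set (EuclideanSpace ℝ (Fin N)), IsOpen U ∧
      MeasureTheory.Measure.euclideanHausdorffMeasure n (symmDiff E (S ∩ U)) = 0 ∧
      ∃ φ : EuclideanSpace ℝ (Fin n) → EuclideanSpace ℝ (Fin N),
        ContDiffOn ℝ (⊤ : ℕ∞) φ (Metric.ball 0 r) ∧ Set.InjOn φ (Metric.ball 0 r) ∧
        φ '' Metric.ball 0 r = S ∩ U ∧ ∀ x ∈ Metric.ball 0 r, metricMat φ x = 1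

theorem stmt_of_three_le (hCH : CHTarget) (hChain : ChainTarget) (hfill : E4.FillInputs)
    (hfeq : FillEqInputs) {n : ℕ} (hn : 3 ≤ n) : Stmt n := by
  obtain ⟨m, rfl⟩ : ∃ m, n = m + 2 := ⟨n - 2, by omega⟩
  have hm : 1 ≤ m := by omega
  intro N S hS hclosed hconn hsc hsec E hES hE hopen r hr hvol harea
  exact main hCH hChain hfill hfeq hm S hS hclosed hconn hsc hsec E hES hE hopen r hr hvol harea

/-- **S0373** from the targets and the surface case. -/
theorem s0373 (hCH : CHTarget) (hChain : ChainTarget) (hfill : E4.FillInputs)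
    (hfeq : FillEqInputs) (hsurf : Stmt 2)
    (n N : ℕ) (hn : 2 ≤ n) (S : Set (EuclideanSpace ℝ (Fin N)))
    (hS : IsSubmanifold n N S) (hclosed : IsClosed S) (hconn : IsConnected S)
    (hsc : SimplyConnectedSpace S)
    (hsec : ∀ p ∈ S, ∀ (f : EuclideanSpace ℝ (Fin n) → EuclideanSpace ℝ (Fin N))
      (V : Set (EuclideanSpace ℝ (Fin n))), IsLocalParam n N S p f V →
      ∀ u v : EuclideanSpace ℝ (Fin n), secNum f 0 u v ≤ 0)
    (E : Set (EuclideanSpace ℝ (Fin N))) (hES : E ⊆ S) (hE : IsCompact (closure E))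
    (hopen : ∃ U : Set (EuclideanSpace ℝ (Fin N)), IsOpen U ∧ E = S ∩ U)
    (r : ℝ) (hr : 0 < r)
    (hvol : MeasureTheory.Measure.euclideanHausdorffMeasure n E
      = ENNReal.ofReal (modelVolume n 0 r))
    (harea : MeasureTheory.Measure.euclideanHausdorffMeasure (n - 1) (relBoundary S E)
      = ENNReal.ofReal (modelArea n 0 r)) :
    ∃ U : Set (EuclideanSpace ℝ (Fin N)), IsOpen U ∧
      MeasureTheory.Measure.euclideanHausdorffMeasure n (symmDiff E (S ∩ U)) = 0 ∧
      ∃ φ : EuclideanSpace ℝ (Fin n) → EuclideanSpace ℝ (Fin N),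
        ContDiffOn ℝ (⊤ : ℕ∞) φ (Metric.ball 0 r) ∧ Set.InjOn φ (Metric.ball 0 r) ∧
        φ '' Metric.ball 0 r = S ∩ U ∧ ∀ x ∈ Metric.ball 0 r, metricMat φ x = 1 := by
  rcases Nat.lt_or_ge 2 n with h | h
  · exact stmt_of_three_le hCH hChain hfill hfeq h N S hS hclosed hconn hsc hsec E hES hE
      hopen r hr hvol harea
  · obtain rfl : n = 2 := le_antisymm h hn
    exact hsurf N S hS hclosed hconn hsc hsec E hES hE hopen r hr hvol harea

end Crest.Agent.R241.E5
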