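import Crest.Agent.R241.EChain
import Crest.Agent.R241.E1e

/-!
# R241, block E, conjunct 5 of `ChainTarget`: a bounded open set whose boundary current is
supported in a sphere is a ball up to a null set.
-/

set_option autoImplicit false

open MeasureTheory Filter Topology Set Metric
open scoped ENNReal NNReal ContDiff Matrix

universe u

namespace Crest.Agent.R241.ESphere

open Crest.GeometryTopology.MetricCurrent
open Crest.GeometryTopology.Submanifold (Euc metricMat relBoundary)

section Pure

variable {V : Type*} [NormedAddCommGroup V] [InnerProductSpace ℝ V] [FiniteDimensional ℝ V]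
  [MeasurableSpace V] [BorelSpace V]

/-- if the indicator of `A` has zero gradient on a ball, it is a.e. constant on the half ball -/
theorem ae_const_ball {A : Set V} (hA : MeasurableSet A) {x₀ : V} {ρ : ℝ} (hρ : 0 < ρ)
    (h : ∀ φ : V → ℝ, ContDiff ℝ ∞ φ → HasCompactSupport φ → tsupport φ ⊆ ball x₀ (2 * ρ) →
      ∀ v, ∫ y in A, fderiv ℝ φ y v = 0) :
    volume (ball x₀ ρ ∩ A) = 0 ∨ volume (ball x₀ ρ \ A) = 0 := by
  have hev : ∀ᶠ k : ℕ in atTop, 1 / ((k : ℝ) + 1) < ρ :=
    (tendsto_one_div_add_atTop_nhds_zero_nat (𝕜 := ℝ)).eventually (gt_mem_nhds hρ)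
  have hconst : ∀ᶠ k : ℕ in atTop, ∀ x ∈ ball x₀ ρ, ∀ y ∈ ball x₀ ρ,
      E1.mol (E1.bmp V k) A x = E1.mol (E1.bmp V k) A y := by
    filter_upwards [hev] with k hk x hx y hy
    have hd := E1.contDiff_mol (E1.bmp V k) hA
    refine isOpen_ball.is_const_of_fderiv_eq_zero (convex_ball x₀ ρ).isPreconnected
      (hd.differentiable one_ne_zero).differentiableOn ?_ hx hy
    intro z hz
    ext v
    rw [E1.fderiv_mol _ hA]
    simp only [Pi.zero_apply, _root_.zero_apply]
    -- the test function
    set g : V → ℝ := (E1.bmp V k).normed (volume : Measure V) with hg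
    have hgs : ContDiff ℝ ∞ g := (E1.bmp V k).contDiff_normed
    set φ : V → ℝ := fun t => g (z - t) with hφ
    have hφs : ContDiff ℝ ∞ φ := hgs.comp (contDiff_const.sub contDiff_id)
    have hsupp : ∀ t, t ∉ closedBall z (1 / ((k : ℝ) + 1)) → φ t = 0 := by
      intro t ht
      have h1 : z - t ∉ Function.support g := by
        rw [hg, ContDiffBump.support_normed_eq, E1.bmp_rOut]
        intro h2
        apply ht
        rw [mem_ball_zero_iff] at h2
        rw [mem_closedBall, dist_comm, dist_eq_norm]
        exact h2.le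
      simpa using h1
    have hts : tsupport φ ⊆ closedBall z (1 / ((k : ℝ) + 1)) := by
      apply closure_minimal _ isClosed_closedBall
      intro t ht
      by_contra hcon
      exact ht (hsupp t hcon)
    have hφc : HasCompactSupport φ :=
      (isCompact_closedBall z _).of_isClosed_subset (isClosed_tsupport φ) hts
    have hsub : tsupport φ ⊆ ball x₀ (2 * ρ) := by
      refine hts.trans fun t ht => ?_
      have h1 : dist t z ≤ 1 / ((k : ℝ) + 1) := ht
      have h2 : dist z x₀ < ρ := hz
      have h3 := dist_triangle t z x₀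
      rw [mem_ball]; linarith
    have h1 := h φ hφs hφc hsub v
    have h2 : ∀ t, fderiv ℝ φ t v = - fderiv ℝ g (z - t) v := by
      intro t
      have h3 : HasFDerivAt φ ((fderiv ℝ g (z - t)).comp (-(ContinuousLinearMap.id ℝ V))) t := by
        have h4 : HasFDerivAt g (fderiv ℝ g (z - t)) (z - t) :=
          ((hgs.differentiable (by simp)) _).hasFDerivAt
        have h5 : HasFDerivAt (fun t : V => z - t) (-(ContinuousLinearMap.id ℝ V)) t :=
          (hasFDerivAt_id t).const_sub z
        exact h4.comp t h5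
      rw [h3.fderiv]
      simp
    simp only [h2] at h1
    rw [integral_neg, neg_eq_zero] at h1
    exact h1
  have hae := E1.tendsto_mol (V := V) hA
  by_contra hcon
  push Not at hcon
  obtain ⟨h1, h2⟩ := hcon
  have e1 : ∃ x ∈ ball x₀ ρ ∩ A, Tendsto (fun k => E1.mol (E1.bmp V k) A x) atTop
      (𝓝 (A.indicator (fun _ => (1 : ℝ)) x)) := by
    by_contra hno
    push Not at hno
    exact h1 (measure_mono_null (fun x hx => hno x hx) (ae_iff.1 hae))
  have e2 : ∃ x ∈ ball x₀ ρ \ A, Tendsto (fun k => E1.mol (E1.bmp V k) A x) atTop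
      (𝓝 (A.indicator (fun _ => (1 : ℝ)) x)) := by
    by_contra hno
    push Not at hno
    exact h2 (measure_mono_null (fun x hx => hno x hx) (ae_iff.1 hae))
  obtain ⟨x, hx, hxl⟩ := e1
  obtain ⟨y, hy, hyl⟩ := e2
  have h3 : Tendsto (fun k => E1.mol (E1.bmp V k) A x) atTop
      (𝓝 (A.indicator (fun _ => (1 : ℝ)) y)) := by
    refine hyl.congr' ?_
    filter_upwards [hconst] with k hk
    exact hk y hy.1 x hx.1
  have h4 := tendsto_nhds_unique hxl h3
  rw [indicator_of_mem hx.2, indicator_of_notMem hy.2] at h4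
  exact one_ne_zero h4

/-- version on open preconnected sets -/
theorem ae_const_of_isPreconnected {A W : Set V} (hA : MeasurableSet A) (hW : IsOpen W)
    (hWc : IsPreconnected W)
    (h : ∀ φ : V → ℝ, ContDiff ℝ ∞ φ → HasCompactSupport φ → tsupport φ ⊆ W →
      ∀ v, ∫ y in A, fderiv ℝ φ y v = 0) :
    volume (W ∩ A) = 0 ∨ volume (W \ A) = 0 := by
  set U₀ : Set V := {x | ∃ ρ > 0, volume (ball x ρ ∩ A) = 0} with hU₀
  set U₁ : Set V := {x | ∃ ρ > 0, volume (ball x ρ \ A) = 0} with hU₁
  have hopen : ∀ B : Set V, IsOpen {x : V | ∃ ρ > 0, volume (ball x ρ ∩ B) = 0} := by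
    intro B
    rw [Metric.isOpen_iff]
    rintro x ⟨ρ, hρ, hx⟩
    refine ⟨ρ, hρ, fun y hy => ⟨ρ - dist y x, by rw [mem_ball] at hy; linarith, ?_⟩⟩
    refine measure_mono_null (inter_subset_inter_left _ ?_) hx
    exact ball_subset_ball' (by linarith)
  have ho0 : IsOpen U₀ := hopen A
  have ho1 : IsOpen U₁ := by
    have := hopen Aᶜ
    simpa only [hU₁, sdiff_eq] using this
  have hcov : W ⊆ U₀ ∪ U₁ := by
    intro x hx
    obtain ⟨ε, hε, hball⟩ := Metric.isOpen_iff.1 hW x hx
    rcases ae_const_ball hA (x₀ := x) (ρ := ε / 2) (by positivity) (by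
      intro φ hφ hφc hφs v
      refine h φ hφ hφc (hφs.trans ?_) v
      have : 2 * (ε / 2) = ε := by ring
      rw [this]; exact hball) with h1 | h1
    · exact Or.inl ⟨ε / 2, by positivity, h1⟩
    · exact Or.inr ⟨ε / 2, by positivity, h1⟩
  have hdisj : ¬ (W ∩ (U₀ ∩ U₁)).Nonempty := by
    rintro ⟨x, hx, ⟨ρ, hρ, h0⟩, ⟨ρ', hρ', h1⟩⟩
    have hpos : 0 < min ρ ρ' := lt_min hρ hρ'
    have h2 : volume (ball x (min ρ ρ')) = 0 := by
      have h3 : ball x (min ρ ρ') ⊆ (ball x ρ ∩ A) ∪ (ball x ρ' \ A) := by
        intro y hy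
        by_cases hyA : y ∈ A
        · exact Or.inl ⟨ball_subset_ball (min_le_left _ _) hy, hyA⟩
        · exact Or.inr ⟨ball_subset_ball (min_le_right _ _) hy, hyA⟩
      exact measure_mono_null h3 (measure_union_null h0 h1)
    exact (Metric.measure_ball_pos (volume : Measure V) x hpos).ne' h2
  have hpre := hWc U₀ U₁ ho0 ho1 hcov
  by_cases hne1 : (W ∩ U₁).Nonempty
  · have hne0 : ¬ (W ∩ U₀).Nonempty := fun hne0 => hdisj (hpre hne0 hne1)
    right
    refine measure_null_of_locally_null _ ?_
    intro x hx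
    have hx1 : x ∈ U₁ := by
      rcases hcov hx.1 with h0 | h1
      · exact absurd ⟨x, hx.1, h0⟩ hne0
      · exact h1
    obtain ⟨ρ, hρ, h1⟩ := hx1
    refine ⟨ball x ρ ∩ (W \ A), inter_mem (mem_nhdsWithin_of_mem_nhds (ball_mem_nhds x hρ))
      self_mem_nhdsWithin, measure_mono_null ?_ h1⟩
    rintro y ⟨hy, _, hyA⟩
    exact ⟨hy, hyA⟩
  · left
    refine measure_null_of_locally_null _ ?_
    intro x hx
    have hx0 : x ∈ U₀ := by
      rcases hcov hx.1 with h0 | h1
      · exact h0
      · exact absurd ⟨x, hx.1, h1⟩ hne1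
    obtain ⟨ρ, hρ, h1⟩ := hx0
    refine ⟨ball x ρ ∩ (W ∩ A), inter_mem (mem_nhdsWithin_of_mem_nhds (ball_mem_nhds x hρ))
      self_mem_nhdsWithin, measure_mono_null ?_ h1⟩
    rintro y ⟨hy, _, hyA⟩
    exact ⟨hy, hyA⟩

/-- the exterior of a ball is preconnected in dimension at least 2 -/
theorem isPreconnected_exterior {W : Type*} [NormedAddCommGroup W] [NormedSpace ℝ W]
    (hr : 1 < Module.rank ℝ W) {r : ℝ} (hr0 : 0 ≤ r) : IsPreconnected {w : W | r < ‖w‖} := by
  have h1 : IsPreconnected ({0}ᶜ : Set W) :=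
    (isConnected_compl_singleton_of_one_lt_rank hr 0).isPreconnected
  have h2 : {w : W | r < ‖w‖} = (fun w : W => (1 + r / ‖w‖) • w) '' ({0}ᶜ : Set W) := by
    ext w
    constructor
    · intro hw
      have hw' : r < ‖w‖ := hw
      have hpos : 0 < ‖w‖ := lt_of_le_of_lt hr0 hw'
      have hc : 0 < 1 - r / ‖w‖ := by
        rw [sub_pos, div_lt_one hpos]; exact hw'
      refine ⟨(1 - r / ‖w‖) • w, ?_, ?_⟩
      · simp only [mem_compl_iff, mem_singleton_iff, smul_eq_zero, not_or]
        exact ⟨hc.ne', norm_pos_iff.1 hpos⟩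
      · simp only
        rw [norm_smul, Real.norm_of_nonneg hc.le, smul_smul]
        have h3 : (1 - r / ‖w‖) * ‖w‖ = ‖w‖ - r := by field_simp
        have h4 : (1 + r / ((1 - r / ‖w‖) * ‖w‖)) * (1 - r / ‖w‖) = 1 := by
          rw [h3]
          have h5 : ‖w‖ - r ≠ 0 := by linarith
          field_simp
          ring
        rw [h4, one_smul]
    · rintro ⟨w', hw', rfl⟩
      have hpos : 0 < ‖w'‖ := norm_pos_iff.2 hw'
      show r < ‖(1 + r / ‖w'‖) • w'‖
      rw [norm_smul, Real.norm_of_nonneg (by positivity)]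
      have : (1 + r / ‖w'‖) * ‖w'‖ = ‖w'‖ + r := by field_simp
      rw [this]; linarith
  rw [h2]
  refine h1.image _ ?_
  refine ContinuousOn.smul ?_ continuousOn_id
  refine continuousOn_const.add (continuousOn_const.div continuous_norm.continuousOn ?_)
  intro w hw
  exact (norm_pos_iff.2 hw).ne'

end Pure

section Model

open Crest.Agent.R241.B1Null

variable {m N : ℕ} {k : ℝ} {S : Set (Euc N)} {X : Type} [MetricSpace X]

/-- cofactors of the complementary coordinate vectors -/
theorem cof_coord {n : ℕ} (i l : Fin (n + 1)) :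
    EP1.cof (fun (j : Fin n) (l' : Fin (n + 1)) => if i.succAbove j = l' then (1 : ℝ) else 0) l =
      if l = i then (-1) ^ (i : ℕ) else 0 := by
  unfold EP1.cof
  by_cases hl : l = i
  · subst hl
    rw [if_pos rfl]
    have h1 : (Matrix.of fun (a b : Fin n) => if l.succAbove a = l.succAbove b then (1 : ℝ) else 0) =
        1 := by
      ext a b
      simp only [Matrix.of_apply, Matrix.one_apply, Fin.succAbove_right_injective.eq_iff]
    rw [h1, Matrix.det_one, mul_one]
  · rw [if_neg hl]
    obtain ⟨j, hj⟩ := Fin.exists_succAbove_eq hl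
    rw [Matrix.det_eq_zero_of_row_eq_zero j, mul_zero]
    intro b
    show (if i.succAbove j = l.succAbove b then (1 : ℝ) else 0) = 0
    rw [if_neg]
    rw [hj]
    exact (Fin.succAbove_ne l b).symm

variable [MeasurableSpace X] [BorelSpace X]

/-- the first variation of `A` vanishes off the support of the boundary current -/
theorem integral_fderiv_eq_zero (M : CHModel (m + 2) N k S X) (p : X) {E : Set (Euc N)}
    (hopen : IsOpen {v | M.ι (M.e p v) ∈ E}) {K : Set X}
    (hK : IsSupportedIn K (bd (M.chain p E))) {φ : Euc (m + 2) → ℝ} (hφ : ContDiff ℝ ∞ φ)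
    (hφc : HasCompactSupport φ) (hφK : ∀ v, M.e p v ∈ K → φ v = 0) (v : Euc (m + 2)) :
    ∫ y in {v | M.ι (M.e p v) ∈ E}, fderiv ℝ φ y v = 0 := by
  set A := {v | M.ι (M.e p v) ∈ E} with hA
  set c := M.echart p with hc
  -- coordinate directions
  have hcoord : ∀ i : Fin (m + 2), ∫ y in A, fderiv ℝ φ y (EuclideanSpace.single i 1) = 0 := by
    intro i
    have hQ : LipschitzWith 1 c.P := c.P_lip
    have hf : G1.BL (fun x => φ (c.P x)) := E2.bl_comp hQ hφ hφc
    have hπ : G1.LipT (fun j : Fin (m + 1) => E2.crd c.P (i.succAbove j)) := fun j =>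
      E2.lipT_crd hQ _
    have htp := hf.isTestPair hπ
    have h1 := hK _ _ htp (by
      intro x hx
      refine hφK _ ?_
      have : M.e p (c.P x) = x := c.e_P x
      rw [this]; exact hx)
    rw [B10.bd_apply htp] at h1
    unfold CHModel.chain chartAction at h1
    rw [if_pos (B10.isTestPair_cons htp)] at h1
    have h2 : ∀ z ∈ A, (((1 : ℤ) : ℝ)) * 1 * (Matrix.of fun (a b : Fin (m + 2)) =>
        fderivWithin ℝ (fun w => (Fin.cons (fun x => φ (c.P x))
          (fun j : Fin (m + 1) => E2.crd c.P (i.succAbove j)) : Fin (m + 2) → X → ℝ) a (M.e p w))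
          A z (EuclideanSpace.single b (1 : ℝ))).det =
        (-1) ^ (i : ℕ) * fderiv ℝ φ z (EuclideanSpace.single i 1) := by
      intro z hz
      have h3 : (Matrix.of fun (a b : Fin (m + 2)) =>
        fderivWithin ℝ (fun w => (Fin.cons (fun x => φ (c.P x))
          (fun j : Fin (m + 1) => E2.crd c.P (i.succAbove j)) : Fin (m + 2) → X → ℝ) a (M.e p w))
          A z (EuclideanSpace.single b (1 : ℝ))) =
          Matrix.of (Fin.cons (fun b => fderiv ℝ φ z (EuclideanSpace.single b 1))
            (fun (j : Fin (m + 1)) (b : Fin (m + 2)) => if i.succAbove j = b then (1 : ℝ) else 0) :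
            Fin (m + 2) → Fin (m + 2) → ℝ) := by
        ext a b
        rw [Matrix.of_apply, Matrix.of_apply, fderivWithin_of_isOpen hopen hz]
        refine Fin.cases ?_ (fun j => ?_) a
        · have h4 : (fun w => (Fin.cons (fun x => φ (c.P x))
            (fun j : Fin (m + 1) => E2.crd c.P (i.succAbove j)) : Fin (m + 2) → X → ℝ) 0
              (M.e p w)) = φ := by
            funext w
            rw [Fin.cons_zero]
            have : c.P (M.e p w) = w := c.P_e w
            rw [this]
          rw [h4, Fin.cons_zero]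
        · have h4 : (fun w => (Fin.cons (fun x => φ (c.P x))
            (fun j : Fin (m + 1) => E2.crd c.P (i.succAbove j)) : Fin (m + 2) → X → ℝ) j.succ
              (M.e p w)) = fun w => w (i.succAbove j) := by
            funext w
            rw [Fin.cons_succ]
            have : c.P (M.e p w) = w := c.P_e w
            rw [E2.crd, this]
          rw [h4, Fin.cons_succ]
          have h5 : fderiv ℝ (fun w : Euc (m + 2) => w (i.succAbove j)) z =
              (EuclideanSpace.proj (i.succAbove j) : Euc (m + 2) →L[ℝ] ℝ) :=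
            (EuclideanSpace.proj (i.succAbove j) : Euc (m + 2) →L[ℝ] ℝ).fderiv
          rw [h5]
          simp
      rw [h3, EP1.det_cons]
      simp only [cof_coord, mul_ite, mul_zero, Finset.sum_ite_eq', Finset.mem_univ, if_true,
        Int.cast_one, one_mul]
      ring
    rw [setIntegral_congr_fun hopen.measurableSet h2, integral_const_mul] at h1
    have h3 : ((-1 : ℝ)) ^ (i : ℕ) ≠ 0 := pow_ne_zero _ (by norm_num)
    exact (mul_eq_zero.1 h1).resolve_left h3
  have h2 : v = ∑ j, v j • EuclideanSpace.single j (1 : ℝ) := by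
    ext j
    simp [Finset.sum_apply, Pi.single_apply]
  have hint : ∀ w : Euc (m + 2), Integrable (fun y => fderiv ℝ φ y w) (volume.restrict A) := by
    intro w
    refine Integrable.restrict ?_
    refine Continuous.integrable_of_hasCompactSupport
      ((hφ.continuous_fderiv (by simp)).clm_apply continuous_const) ?_
    exact (hφc.fderiv ℝ).comp_left (g := fun L : Euc (m + 2) →L[ℝ] ℝ => L w) (by simp)
  rw [h2]
  simp only [map_sum, map_smul, smul_eq_mul]
  rw [integral_finsetSum _ fun j _ => (hint (EuclideanSpace.single j 1)).const_mul (v j)]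
  refine Finset.sum_eq_zero fun j _ => ?_
  rw [integral_const_mul, hcoord, mul_zero]

/-- **ChainTarget, conjunct 5.** -/
theorem sphereTarget : EChain.SphereTarget := by
  intro m N k hk S X iX iP iM iB M p R E hES hE hER x r hr hsupp hmass
  set A := {v | M.ι (M.e p v) ∈ E} with hA
  have hopen : IsOpen A := E2c4.isOpen_dom M p hE
  have hsub : A ⊆ closedBall 0 R := E2c4.dom_subset M p hER
  set c := M.echart p with hc
  set cx := M.echart x with hcx
  have hce : Continuous (M.e p) := c.continuous_e
  -- the transition map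
  set τ : Euc (m + 2) → Euc (m + 2) := fun w => c.P (M.e x w) with hτ
  have hτc : Continuous τ := c.P_lip.continuous.comp cx.continuous_e
  have heτ : ∀ w, M.e p (τ w) = M.e x w := fun w => c.e_P _
  have hsurj : ∀ v, ∃ w, τ w = v ∧ M.e x w = M.e p v := by
    intro v
    obtain ⟨w, hw⟩ := (M.e_bij x).2 (M.e p v)
    refine ⟨w, ?_, hw⟩
    rw [hτ]; simp only; rw [hw]; exact c.P_e v
  set W₁ : Set (Euc (m + 2)) := {v | dist (M.e p v) x < r} with hW₁
  set W₂ : Set (Euc (m + 2)) := {v | r < dist (M.e p v) x} with hW₂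
  have hW₁o : IsOpen W₁ := isOpen_lt (hce.dist continuous_const) continuous_const
  have hW₂o : IsOpen W₂ := isOpen_lt continuous_const (hce.dist continuous_const)
  have hdist : ∀ w, dist (M.e x w) x = ‖w‖ := fun w => by rw [dist_comm, M.e_dist]
  have hW₁eq : W₁ = τ '' ball 0 r := by
    ext v
    constructor
    · intro hv
      obtain ⟨w, hw1, hw2⟩ := hsurj v
      refine ⟨w, ?_, hw1⟩
      have hv' : dist (M.e p v) x < r := hv
      rw [← hw2, hdist] at hv'
      rwa [mem_ball_zero_iff]
    · rintro ⟨w, hw, rfl⟩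
      show dist (M.e p (τ w)) x < r
      rw [heτ, hdist]
      rwa [mem_ball_zero_iff] at hw
  have hW₂eq : W₂ = τ '' {w | r < ‖w‖} := by
    ext v
    constructor
    · intro hv
      obtain ⟨w, hw1, hw2⟩ := hsurj v
      refine ⟨w, ?_, hw1⟩
      have hv' : r < dist (M.e p v) x := hv
      rw [← hw2, hdist] at hv'
      exact hv'
    · rintro ⟨w, hw, rfl⟩
      show r < dist (M.e p (τ w)) x
      rw [heτ, hdist]
      exact hw
  have hW₁c : IsPreconnected W₁ := by
    rw [hW₁eq]
    exact (convex_ball (0 : Euc (m + 2)) r).isPreconnected.image _ hτc.continuousOn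
  have hrank : 1 < Module.rank ℝ (Euc (m + 2)) := by
    rw [← Module.finrank_eq_rank, finrank_euclideanSpace_fin]
    have : (1 : ℕ) < m + 2 := by omega
    exact_mod_cast this
  have hW₂c : IsPreconnected W₂ := by
    rw [hW₂eq]
    exact (isPreconnected_exterior hrank hr.le).image _ hτc.continuousOn
  -- the first variation
  have hvar : ∀ W : Set (Euc (m + 2)), (∀ v ∈ W, M.e p v ∉ sphere x r) →
      ∀ φ : Euc (m + 2) → ℝ, ContDiff ℝ ∞ φ → HasCompactSupport φ → tsupport φ ⊆ W →
      ∀ v, ∫ y in A, fderiv ℝ φ y v = 0 := by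
    intro W hW φ hφ hφc hφW v
    refine integral_fderiv_eq_zero M p hopen hsupp hφ hφc ?_ v
    intro v hv
    by_contra hne
    exact hW v (hφW (subset_tsupport _ hne)) hv
  have hc1 := ae_const_of_isPreconnected hopen.measurableSet hW₁o hW₁c
    (hvar W₁ (fun v hv hv' => by
      have h1 : dist (M.e p v) x < r := hv
      have h2 : dist (M.e p v) x = r := hv'
      linarith))
  have hc2 := ae_const_of_isPreconnected hopen.measurableSet hW₂o hW₂c
    (hvar W₂ (fun v hv hv' => by
      have h1 : r < dist (M.e p v) x := hv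
      have h2 : dist (M.e p v) x = r := hv'
      linarith))
  -- outside
  have hout : volume (W₂ ∩ A) = 0 := by
    rcases hc2 with h | h
    · exact h
    · exfalso
      have hopen2 : IsOpen (W₂ ∩ (closedBall (0 : Euc (m + 2)) R)ᶜ) :=
        hW₂o.inter isClosed_closedBall.isOpen_compl
      have hne : (W₂ ∩ (closedBall (0 : Euc (m + 2)) R)ᶜ).Nonempty := by
        set ρ : ℝ := |R| + r + dist p x + 1 with hρ
        have hρ0 : 0 ≤ ρ := by positivity
        refine ⟨EuclideanSpace.single 0 ρ, ?_, ?_⟩
        · show r < dist (M.e p (EuclideanSpace.single 0 ρ)) x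
          have h1 := M.e_dist p (EuclideanSpace.single 0 ρ)
          rw [PiLp.norm_single, Real.norm_of_nonneg hρ0] at h1
          have h2 := dist_triangle p x (M.e p (EuclideanSpace.single 0 ρ))
          rw [h1, dist_comm x] at h2
          have := abs_nonneg R
          linarith
        · rw [mem_compl_iff, mem_closedBall_zero_iff, PiLp.norm_single,
            Real.norm_of_nonneg hρ0, not_le]
          have h1 := le_abs_self R
          have h2 : 0 ≤ dist p x := dist_nonneg
          linarith
      refine (hopen2.measure_pos volume hne).ne' (measure_mono_null ?_ h)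
      rintro v ⟨hv1, hv2⟩
      exact ⟨hv1, fun hvA => hv2 (hsub hvA)⟩
  -- the sphere is null
  have hsph : volume {v | dist (M.e p v) x = r} = 0 := by
    have h1 : {v | dist (M.e p v) x = r} = τ '' sphere 0 r := by
      ext v
      constructor
      · intro hv
        obtain ⟨w, hw1, hw2⟩ := hsurj v
        refine ⟨w, ?_, hw1⟩
        have hv' : dist (M.e p v) x = r := hv
        rw [← hw2, hdist] at hv'
        rwa [mem_sphere_zero_iff_norm]
      · rintro ⟨w, hw, rfl⟩
        show dist (M.e p (τ w)) x = r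
        rw [heτ, hdist]
        rwa [mem_sphere_zero_iff_norm] at hw
    obtain ⟨L, hL⟩ := M.e_lip x r
    have h2 : LipschitzOnWith L τ (sphere 0 r) := by
      have h3 : LipschitzOnWith L (M.e x) (sphere 0 r) := hL.mono sphere_subset_closedBall
      have := c.P_lip.comp_lipschitzOnWith h3
      rwa [one_mul] at this
    have h4 := AF.muHE_image_null_of_lipschitz h2 (Measure.addHaar_sphere volume 0 r)
    rw [InnerProductSpace.euclideanHausdorffMeasure_eq_volume] at h4
    rw [h1]; exact h4
  -- inside
  have hin : volume (W₁ \ A) = 0 := by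
    rcases hc1 with h | h
    · exfalso
      have hA0 : volume A = 0 := by
        have h1 : A ⊆ (W₁ ∩ A) ∪ ((W₂ ∩ A) ∪ {v | dist (M.e p v) x = r}) := by
          intro v hv
          rcases lt_trichotomy (dist (M.e p v) x) r with h2 | h2 | h2
          · exact Or.inl ⟨h2, hv⟩
          · exact Or.inr (Or.inr h2)
          · exact Or.inr (Or.inl ⟨h2, hv⟩)
        exact measure_mono_null h1 (measure_union_null h (measure_union_null hout hsph))
      have h2 := E1c2.c2 M p hES hE hER
      have h3 := E1c2.muHE_image M p hopen.measurableSet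
      rw [hA, E1c2.image_preimage M p hES, ← hA, setLIntegral_measure_zero _ _ hA0] at h3
      rw [h3] at h2
      have h4 := ENNReal.ofReal_eq_zero.1 h2.symm
      linarith
    · exact h
  -- conclusion
  have hnull : volume (symmDiff A W₁) = 0 := by
    have h1 : symmDiff A W₁ ⊆ (W₁ \ A) ∪ ((W₂ ∩ A) ∪ {v | dist (M.e p v) x = r}) := by
      intro v hv
      rcases hv with ⟨hvA, hvW⟩ | ⟨hvW, hvA⟩
      · rcases lt_trichotomy (dist (M.e p v) x) r with h2 | h2 | h2
        · exact absurd h2 hvW
        · exact Or.inr (Or.inr h2)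
        · exact Or.inr (Or.inl ⟨h2, hvA⟩)
      · exact Or.inl ⟨hvW, hvA⟩
    exact measure_mono_null h1 (measure_union_null hin (measure_union_null hout hsph))
  have himg : symmDiff E (M.ι '' ball x r) = (fun v => M.ι (M.e p v)) '' symmDiff A W₁ := by
    have h1 : (fun v => M.ι (M.e p v)) '' W₁ = M.ι '' ball x r := by
      ext y
      constructor
      · rintro ⟨v, hv, rfl⟩
        exact ⟨M.e p v, hv, rfl⟩
      · rintro ⟨z, hz, rfl⟩
        obtain ⟨v, rfl⟩ := (M.e_bij p).2 z
        exact ⟨v, hz, rfl⟩
    rw [image_symmDiff (D6.injective_chart M p), h1, hA, E1c2.image_preimage M p hES]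
  rw [himg, E1c2.muHE_image M p (hopen.measurableSet.symmDiff hW₁o.measurableSet),
    setLIntegral_measure_zero _ _ hnull]

end Model

end Crest.Agent.R241.ESphere
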