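import Crest.Agent.R241.EChain
import Crest.Agent.R241.ESphere576
import Crest.Agent.R241.E1j777

/-! # R241, block E: `ChainTarget` (unconditional) -/

set_option autoImplicit false

namespace Crest.Agent.R241.EFinal

theorem chainTarget : ChainTarget := EChain.chainTarget_of_bd E1.bdTarget ESphere.sphereTarget

end Crest.Agent.R241.EFinal
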