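import Crest.Agent.R241.B1Weak
import Crest.Agent.R241.B8LinAlg
import Crest.Agent.R241.EMoll

/-!
# R241, block EP1: the cofactor vector field
-/

set_option autoImplicit false

open MeasureTheory Filter Topology Set Metric
open scoped ENNReal NNReal ContDiff Matrix

namespace Crest.Agent.R241.EP1

open Crest.GeometryTopology.Submanifold (Euc)
open Crest.Agent.R241.B1Null Crest.Agent.R241.B1Weak

variable {n : ℕ}

/-- cofactors of a family of `n` vectors in `ℝ^{n+1}` -/
def cof (b : Fin n → Fin (n + 1) → ℝ) (j : Fin (n + 1)) : ℝ :=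
  (-1) ^ (j : ℕ) * (Matrix.of fun i l => b i (j.succAbove l)).det

theorem det_cons (a : Fin (n + 1) → ℝ) (b : Fin n → Fin (n + 1) → ℝ) :
    (Matrix.of (Fin.cons a b : Fin (n + 1) → Fin (n + 1) → ℝ)).det = ∑ j, a j * cof b j := by
  rw [Matrix.det_succ_row_zero]
  refine Finset.sum_congr rfl fun j _ => ?_
  unfold cof
  have h1 : (Matrix.of (Fin.cons a b : Fin (n + 1) → Fin (n + 1) → ℝ)) 0 j = a j := rfl
  have h2 : (Matrix.of (Fin.cons a b : Fin (n + 1) → Fin (n + 1) → ℝ)).submatrix Fin.succ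
      j.succAbove = Matrix.of fun i l => b i (j.succAbove l) := rfl
  rw [h1, h2]
  ring

/-- **Norm of the cofactor vector.** -/
theorem sqrt_quad_cof_le (G : Matrix (Fin (n + 1)) (Fin (n + 1)) ℝ) (hG : G.PosSemidef)
    (b : Fin n → Fin (n + 1) → ℝ) {β : ℝ} (hβ : 0 < β)
    (hb : ∀ i w, (b i ⬝ᵥ w) ^ 2 ≤ β ^ 2 * (w ⬝ᵥ (G *ᵥ w))) :
    √(cof b ⬝ᵥ (G *ᵥ cof b)) ≤ β ^ n * √G.det := by
  set v := cof b with hv
  set q : ℝ := v ⬝ᵥ (G *ᵥ v) with hq
  have hq0 : 0 ≤ q := by
    have := hG.dotProduct_mulVec_nonneg v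
    simpa using this
  rcases hq0.eq_or_lt with h0 | hpos
  · rw [← h0, Real.sqrt_zero]; positivity
  have hsym : ∀ u w : Fin (n + 1) → ℝ, u ⬝ᵥ (G *ᵥ w) = w ⬝ᵥ (G *ᵥ u) := by
    intro u w
    have h1 : Gᵀ = G := by
      have := hG.1
      rwa [Matrix.IsHermitian, Matrix.conjTranspose_eq_transpose_of_trivial] at this
    rw [Matrix.dotProduct_mulVec, ← Matrix.mulVec_transpose, h1, dotProduct_comm]
  -- Cauchy-Schwarz for the form
  have hCS : ∀ w : Fin (n + 1) → ℝ, ((G *ᵥ v) ⬝ᵥ w) ^ 2 ≤ q * (w ⬝ᵥ (G *ᵥ w)) := by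
    intro w
    have h1 : ∀ t : ℝ, 0 ≤ q * (t * t) + (2 * (w ⬝ᵥ (G *ᵥ v))) * t + (w ⬝ᵥ (G *ᵥ w)) := by
      intro t
      have h2 := hG.dotProduct_mulVec_nonneg (t • v + w)
      have h3 : (t • v + w) ⬝ᵥ (G *ᵥ (t • v + w)) =
          q * (t * t) + (2 * (w ⬝ᵥ (G *ᵥ v))) * t + (w ⬝ᵥ (G *ᵥ w)) := by
        rw [Matrix.mulVec_add, Matrix.mulVec_smul, add_dotProduct, dotProduct_add, dotProduct_add,
          smul_dotProduct, smul_dotProduct, dotProduct_smul, dotProduct_smul, hsym v w, ← hq]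
        simp only [smul_eq_mul]
        ring
      have h4 : star (t • v + w) = t • v + w := by
        ext i; simp
      rw [h4, h3] at h2
      exact h2
    have h2 := discrim_le_zero h1
    rw [discrim] at h2
    rw [dotProduct_comm]
    nlinarith
  -- the matrix
  set R : Matrix (Fin (n + 1)) (Fin (n + 1)) ℝ :=
    Matrix.of (Fin.cons ((√q)⁻¹ • (G *ᵥ v)) (fun i => β⁻¹ • b i) :
      Fin (n + 1) → Fin (n + 1) → ℝ) with hR
  have hRrow : ∀ (i : Fin (n + 1)) (w : Fin (n + 1) → ℝ), (R i ⬝ᵥ w) ^ 2 ≤ w ⬝ᵥ (G *ᵥ w) := by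
    intro i w
    refine Fin.cases ?_ (fun i => ?_) i
    · have h1 : R 0 = (√q)⁻¹ • (G *ᵥ v) := rfl
      rw [h1, smul_dotProduct, smul_eq_mul, mul_pow, inv_pow, Real.sq_sqrt hpos.le]
      rw [inv_mul_le_iff₀ hpos]
      exact hCS w
    · have h1 : R i.succ = β⁻¹ • b i := rfl
      rw [h1, smul_dotProduct, smul_eq_mul, mul_pow, inv_pow]
      rw [inv_mul_le_iff₀ (by positivity)]
      exact hb i w
  have hdet := B8LinAlg.abs_det_le_sqrt_det R G hG hRrow
  have hdetR : R.det = (√q)⁻¹ * (β⁻¹) ^ n * q := by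
    rw [hR, det_cons]
    have h1 : ∀ j, cof (fun i => β⁻¹ • b i) j = (β⁻¹) ^ n * v j := by
      intro j
      rw [hv]
      unfold cof
      have h2 : (Matrix.of fun (i : Fin n) (l : Fin n) => (β⁻¹ • b i) (j.succAbove l)) =
          β⁻¹ • (Matrix.of fun i l => b i (j.succAbove l)) := by
        ext i l; simp
      rw [h2, Matrix.det_smul, Fintype.card_fin]
      ring
    simp only [h1]
    have h3 : ∀ j, ((√q)⁻¹ • (G *ᵥ v)) j * ((β⁻¹) ^ n * v j) =
        ((√q)⁻¹ * (β⁻¹) ^ n) * (v j * (G *ᵥ v) j) := by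
      intro j; simp only [Pi.smul_apply, smul_eq_mul]; ring
    simp only [h3]
    rw [← Finset.mul_sum]
    rfl
  rw [hdetR, abs_of_nonneg (by positivity)] at hdet
  have h5 : (√q)⁻¹ * (β⁻¹) ^ n * q = √q / β ^ n := by
    have h6 : q = √q * √q := (Real.mul_self_sqrt hpos.le).symm
    have h7 : √q ≠ 0 := (Real.sqrt_pos.2 hpos).ne'
    conv_lhs => rw [h6]
    rw [Real.sqrt_mul_self (Real.sqrt_nonneg q), inv_pow]
    field_simp
  rw [h5, div_le_iff₀ (by positivity)] at hdet
  linarith

/-- gradients of a family of `n` functions on `Euc (n+1)` -/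
noncomputable def gr (p : Fin n → Euc (n + 1) → ℝ) (x : Euc (n + 1)) : Fin n → Fin (n + 1) → ℝ :=
  fun i j => fderiv ℝ (p i) x (EuclideanSpace.single j 1)

theorem det_DM_cons (F : Euc (n + 1) → ℝ) (p : Fin n → Euc (n + 1) → ℝ) (x : Euc (n + 1)) :
    (DM (Fin.cons F p : Fin (n + 1) → Euc (n + 1) → ℝ) x).det =
      ∑ j, fderiv ℝ F x (EuclideanSpace.single j 1) * cof (gr p x) j := by
  rw [← det_cons]
  congr 1
  ext i j
  refine Fin.cases ?_ (fun i => ?_) i
  · rfl
  · rfl

/-- the cofactor field is smooth -/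
theorem contDiff_cof {p : Fin n → Euc (n + 1) → ℝ} (hp : ∀ i, ContDiff ℝ ∞ (p i))
    (j : Fin (n + 1)) : ContDiff ℝ ∞ (fun x => cof (gr p x) j) := by
  unfold cof
  simp only [Matrix.det_apply]
  refine contDiff_const.mul (ContDiff.sum fun σ _ => ?_)
  refine ContDiff.const_smul _ ?_
  refine contDiff_prod fun i _ => ?_
  simp only [Matrix.of_apply, gr]
  exact ((hp _).fderiv_right (m := ∞) (by simp)).clm_apply contDiff_const

/-- the divergence -/
noncomputable def dvg (V : Euc (n + 1) → Euc (n + 1)) (x : Euc (n + 1)) : ℝ :=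
  ∑ i, fderiv ℝ V x (EuclideanSpace.single i 1) i

/-- the field `F cof ∇p` -/
noncomputable def fld (F : Euc (n + 1) → ℝ) (p : Fin n → Euc (n + 1) → ℝ) (x : Euc (n + 1)) :
    Euc (n + 1) := WithLp.toLp 2 (fun j => F x * cof (gr p x) j)

theorem contDiff_fld {F : Euc (n + 1) → ℝ} (hF : ContDiff ℝ ∞ F)
    {p : Fin n → Euc (n + 1) → ℝ} (hp : ∀ i, ContDiff ℝ ∞ (p i)) : ContDiff ℝ ∞ (fld F p) := by
  rw [contDiff_euclidean]
  intro i
  exact hF.mul (contDiff_cof hp i)

theorem hasCompactSupport_fld {F : Euc (n + 1) → ℝ} (hF : HasCompactSupport F)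
    (p : Fin n → Euc (n + 1) → ℝ) : HasCompactSupport (fld F p) := by
  refine hF.mono ?_
  intro x hx
  contrapose! hx
  have hx' : F x = 0 := by simpa using hx
  simp only [Function.mem_support, not_not]
  ext j
  simp [fld, hx']

theorem dvg_fld {F : Euc (n + 1) → ℝ} (hF : ContDiff ℝ ∞ F) (hFc : HasCompactSupport F)
    {p : Fin n → Euc (n + 1) → ℝ} (hp : ∀ i, ContDiff ℝ ∞ (p i))
    (hpl : ∀ i, ∃ C : ℝ≥0, LipschitzWith C (p i)) :
    ∀ᵐ x ∂(volume : Measure (Euc (n + 1))), dvg (fld F p) x =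
      (DM (Fin.cons F p : Fin (n + 1) → Euc (n + 1) → ℝ) x).det := by
  have hV := contDiff_fld hF hp
  have hVc := hasCompactSupport_fld hFc p
  have hcont1 : Continuous (dvg (fld F p)) := by
    unfold dvg
    refine continuous_finsetSum _ fun i _ => ?_
    have h1 : Continuous fun x => fderiv ℝ (fld F p) x (EuclideanSpace.single i 1) :=
      (hV.continuous_fderiv (by simp)).clm_apply continuous_const
    exact (PiLp.continuous_apply 2 _ i).comp h1
  have hcont2 : Continuous fun x => (DM (Fin.cons F p : Fin (n + 1) → Euc (n + 1) → ℝ) x).det := by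
    simp only [det_DM_cons]
    refine continuous_finsetSum _ fun j _ => ?_
    exact ((hF.continuous_fderiv (by simp)).clm_apply continuous_const).mul
      (contDiff_cof hp j).continuous
  refine ae_eq_of_integral_contDiff_smul_eq hcont1.locallyIntegrable hcont2.locallyIntegrable ?_
  intro u hu huc
  -- components of the field
  have hcomp : ∀ (i : Fin (n + 1)) x, fderiv ℝ (fld F p) x (EuclideanSpace.single i 1) i =
      fderiv ℝ (fun x => F x * cof (gr p x) i) x (EuclideanSpace.single i 1) := by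
    intro i x
    have h1 : HasFDerivAt (fld F p) (fderiv ℝ (fld F p) x) x :=
      ((hV.differentiable (by simp)) x).hasFDerivAt
    have h2 := (EuclideanSpace.proj i : Euc (n + 1) →L[ℝ] ℝ).hasFDerivAt.comp x h1
    have h3 : (⇑(EuclideanSpace.proj i : Euc (n + 1) →L[ℝ] ℝ) ∘ fld F p) =
        fun x => F x * cof (gr p x) i := rfl
    rw [h3] at h2
    rw [h2.fderiv]
    rfl
  have hci : ∀ i, ContDiff ℝ ∞ (fun x => F x * cof (gr p x) i) := fun i =>
    hF.mul (contDiff_cof hp i)
  have hcic : ∀ i, HasCompactSupport (fun x => F x * cof (gr p x) i) := fun i => hFc.mul_right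
  have hint1 : ∀ i : Fin (n + 1), Integrable (fun x =>
      u x * fderiv ℝ (fun x => F x * cof (gr p x) i) x (EuclideanSpace.single i 1)) := by
    intro i
    refine Continuous.integrable_of_hasCompactSupport ?_ huc.mul_right
    exact hu.continuous.mul (((hci i).continuous_fderiv (by simp)).clm_apply continuous_const)
  have hint2 : ∀ i : Fin (n + 1), Integrable (fun x =>
      fderiv ℝ u x (EuclideanSpace.single i 1) * (F x * cof (gr p x) i)) := by
    intro i
    refine Continuous.integrable_of_hasCompactSupport ?_ (hcic i).mul_left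
    exact ((hu.continuous_fderiv (by simp)).clm_apply continuous_const).mul (hci i).continuous
  have hint3 : ∀ i : Fin (n + 1), Integrable (fun x => u x * (F x * cof (gr p x) i)) := by
    intro i
    refine Continuous.integrable_of_hasCompactSupport ?_ huc.mul_right
    exact hu.continuous.mul (hci i).continuous
  have hIBP : ∀ i : Fin (n + 1), ∫ x, u x *
      fderiv ℝ (fun x => F x * cof (gr p x) i) x (EuclideanSpace.single i 1) =
      - ∫ x, fderiv ℝ u x (EuclideanSpace.single i 1) * (F x * cof (gr p x) i) := fun i =>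
    integral_mul_fderiv_eq_neg_fderiv_mul_of_integrable (hint2 i) (hint1 i) (hint3 i)
      (fun x _ => (hu.differentiable (by simp)) x) (fun x _ => ((hci i).differentiable (by simp)) x)
  -- left-hand side
  have hL : ∫ x, u x • dvg (fld F p) x =
      - ∫ x, F x * (DM (Fin.cons u p : Fin (n + 1) → Euc (n + 1) → ℝ) x).det := by
    have h1 : (fun x => u x • dvg (fld F p) x) = fun x => ∑ i, u x *
        fderiv ℝ (fun x => F x * cof (gr p x) i) x (EuclideanSpace.single i 1) := by
      funext x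
      unfold dvg
      simp only [hcomp, smul_eq_mul, Finset.mul_sum]
    rw [h1, integral_finsetSum _ fun i _ => hint1 i]
    simp only [hIBP]
    rw [Finset.sum_neg_distrib, ← integral_finsetSum _ fun i _ => hint2 i]
    congr 1
    refine integral_congr_ae (Eventually.of_forall fun x => ?_)
    simp only [det_DM_cons, Finset.mul_sum]
    refine Finset.sum_congr rfl fun j _ => ?_
    ring
  -- right-hand side
  obtain ⟨Cu, hCu⟩ := hu.lipschitzWith_of_hasCompactSupport huc (by simp)
  obtain ⟨CF, hCF⟩ := hF.lipschitzWith_of_hasCompactSupport hFc (by simp)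
  have hR := integral_mul_det_eq (F := (Fin.cons F p : Fin (n + 1) → Euc (n + 1) → ℝ))
    (by
      intro i
      refine Fin.cases ?_ (fun i => ?_) i
      · exact ⟨CF, hCF⟩
      · exact hpl i) 0 hCu huc
  have hupd : Function.update (Fin.cons F p : Fin (n + 1) → Euc (n + 1) → ℝ) 0 u =
      Fin.cons u p := by
    rw [Fin.update_cons_zero]
  rw [hupd] at hR
  simp only [Fin.cons_zero] at hR
  rw [hL, ← hR]
  rfl

end Crest.Agent.R241.EP1
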