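import Mathlib
import Crest.Agent.R241.E1e
import Crest.Agent.R241.AF3
import Crest.Prelude.Def_SubmanifoldIsoperimetric

/-! Row 241, block L-C (helper331): approximation of the indicator function of an open subset `A`
of a chart domain by smooth compactly supported functions, with the sharp bound of the Riemannian
total variation by the `n`-dimensional Hausdorff measure of the boundary in `ℝ^N`. -/

set_option autoImplicit false
set_option linter.unusedSectionVars false
open MeasureTheory MeasureTheory.Measure Metric Filter Set Module TopologicalSpace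
open scoped NNReal ENNReal Topology ContDiff

noncomputable section

namespace Crest.Agent.R241.LC

open Crest.GeometryTopology.Submanifold (Euc)

variable {n N : ℕ}

/-- uniform closeness of `ψ` to its derivative on small balls -/
theorem local_anti {ψ : Euc (n + 1) → Euc N} (hψ : ContDiff ℝ 1 ψ)
    (hge : ∀ x w, ‖w‖ ≤ ‖fderiv ℝ ψ x w‖) (R : ℝ) {η : ℝ} (hη : 0 < η) :
    ∃ δ > 0, ∀ z ∈ closedBall (0 : Euc (n + 1)) R, ∀ x ∈ ball z δ, ∀ y ∈ ball z δ,
      ‖fderiv ℝ ψ z (x - y)‖ ≤ (1 + η) * ‖ψ x - ψ y‖ := by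
  have hc : Continuous (fderiv ℝ ψ) := hψ.continuous_fderiv one_ne_zero
  have hd : Differentiable ℝ ψ := hψ.differentiable one_ne_zero
  have hK : IsCompact (closedBall (0 : Euc (n + 1)) (R + 1)) := isCompact_closedBall _ _
  have huc := hK.uniformContinuousOn_of_continuous hc.continuousOn
  rw [Metric.uniformContinuousOn_iff] at huc
  obtain ⟨δ, hδ0, hδ⟩ := huc (η / (1 + η)) (by positivity)
  refine ⟨min δ 1, by positivity, ?_⟩
  intro z hz x hx y hy
  have hsub : ball z (min δ 1) ⊆ closedBall (0 : Euc (n + 1)) (R + 1) := by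
    intro u hu
    rw [mem_closedBall] at hz ⊢
    rw [mem_ball] at hu
    calc dist u 0 ≤ dist u z + dist z 0 := dist_triangle _ _ _
      _ ≤ 1 + R := by
          gcongr
          exact hu.le.trans (min_le_right _ _)
      _ = R + 1 := add_comm _ _
  have hzm : z ∈ ball z (min δ 1) := mem_ball_self (by positivity)
  have hb : ∀ u ∈ ball z (min δ 1), ‖fderiv ℝ ψ u - fderiv ℝ ψ z‖ ≤ η / (1 + η) := by
    intro u hu
    have := hδ u (hsub hu) z (hsub hzm) (lt_of_lt_of_le (mem_ball.1 hu) (min_le_left _ _))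
    rw [dist_eq_norm] at this
    exact this.le
  have h1 := (convex_ball z (min δ 1)).norm_image_sub_le_of_norm_fderiv_le'
    (f := ψ) (φ := fderiv ℝ ψ z) (C := η / (1 + η)) (fun u _ => hd u) hb hy hx
  have h2 : ‖fderiv ℝ ψ z (x - y)‖ ≤ ‖ψ x - ψ y‖ + η / (1 + η) * ‖x - y‖ := by
    calc ‖fderiv ℝ ψ z (x - y)‖ = ‖(ψ x - ψ y) - (ψ x - ψ y - fderiv ℝ ψ z (x - y))‖ := by
          congr 1; abel
      _ ≤ ‖ψ x - ψ y‖ + ‖ψ x - ψ y - fderiv ℝ ψ z (x - y)‖ := norm_sub_le _ _
      _ ≤ _ := by gcongr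
  have h3 : ‖fderiv ℝ ψ z (x - y)‖ ≤ ‖ψ x - ψ y‖ + η / (1 + η) * ‖fderiv ℝ ψ z (x - y)‖ := by
    refine h2.trans ?_
    gcongr
    exact hge z (x - y)
  have h4 : (1 + η) * ‖fderiv ℝ ψ z (x - y)‖ ≤
      (1 + η) * ‖ψ x - ψ y‖ + η * ‖fderiv ℝ ψ z (x - y)‖ := by
    calc (1 + η) * ‖fderiv ℝ ψ z (x - y)‖ ≤
        (1 + η) * (‖ψ x - ψ y‖ + η / (1 + η) * ‖fderiv ℝ ψ z (x - y)‖) := by gcongr
      _ = _ := by field_simp
  linarith

/-- an endomorphism with the same metric as an injective linear map -/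
theorem exists_endo (B : Euc (n + 1) →L[ℝ] Euc N) (hB : ∀ w, ‖w‖ ≤ ‖B w‖) :
    ∃ T : Euc (n + 1) ≃L[ℝ] Euc (n + 1), (∀ w, ‖T w‖ = ‖B w‖) ∧
      |(T : Euc (n + 1) →L[ℝ] Euc (n + 1)).det| = AF.jac B := by
  have hinj : Function.Injective B := by
    intro x y hxy
    have h := hB (x - y)
    rw [map_sub, hxy, sub_self, norm_zero] at h
    exact sub_eq_zero.1 (norm_le_zero_iff.1 h)
  let V : Submodule ℝ (Euc N) := LinearMap.range (B : Euc (n + 1) →ₗ[ℝ] Euc N)
  have hfr : finrank ℝ V = n + 1 := by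
    rw [LinearMap.finrank_range_of_inj hinj]; simp
  let iso : V ≃ₗᵢ[ℝ] Euc (n + 1) := (stdOrthonormalBasis ℝ V).repr.trans
    (LinearIsometryEquiv.piLpCongrLeft 2 ℝ ℝ (finCongr hfr))
  let e : Euc (n + 1) ≃ₗ[ℝ] V := LinearEquiv.ofInjective (B : Euc (n + 1) →ₗ[ℝ] Euc N) hinj
  let T : Euc (n + 1) ≃L[ℝ] Euc (n + 1) := (e.trans iso.toLinearEquiv).toContinuousLinearEquiv
  have hT : ∀ w, ‖T w‖ = ‖B w‖ := by
    intro w
    change ‖iso (e w)‖ = ‖B w‖
    rw [iso.norm_map]
    rfl
  refine ⟨T, hT, ?_⟩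
  have hin : ∀ v w, inner ℝ (T v) (T w) = inner ℝ (B v) (B w) := by
    intro v w
    rw [real_inner_eq_norm_add_mul_self_sub_norm_mul_self_sub_norm_mul_self_div_two,
      real_inner_eq_norm_add_mul_self_sub_norm_mul_self_sub_norm_mul_self_div_two,
      ← map_add, ← map_add, hT, hT, hT]
  have h1 : |(T : Euc (n + 1) →L[ℝ] Euc (n + 1)).det| =
      AF.jac (T : Euc (n + 1) →L[ℝ] Euc (n + 1)) := by
    unfold AF.jac
    rw [LinearMap.normDet_eq_abs_det]
  rw [h1]
  have h2 : AF.jac (T : Euc (n + 1) →L[ℝ] Euc (n + 1)) ^ 2 = AF.jac B ^ 2 := by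
    rw [AF.jac_sq_gram _ (EuclideanSpace.basisFun (Fin (n + 1)) ℝ),
      AF.jac_sq_gram _ (EuclideanSpace.basisFun (Fin (n + 1)) ℝ)]
    congr 1
    ext i j
    simp only [Matrix.of_apply]
    exact hin _ _
  exact (pow_left_inj₀ (AF.jac_nonneg _) (AF.jac_nonneg _) two_ne_zero).1 h2

/-- the surface measure of the boundary of `A`, seen in the chart -/
def nu (n : ℕ) {N : ℕ} (ψ : Euc (n + 1) → Euc N) (A : Set (Euc (n + 1))) :
    Measure (Euc (n + 1)) :=
  Measure.comap ψ ((μHE[n]).restrict (ψ '' frontier A))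

theorem nu_apply {ψ : Euc (n + 1) → Euc N} (hψ : Continuous ψ) (hinj : Function.Injective ψ)
    {A C : Set (Euc (n + 1))} (hC : MeasurableSet C) :
    nu n ψ A C = μHE[n] (ψ '' (C ∩ frontier A)) := by
  have he : MeasurableEmbedding ψ := hψ.measurableEmbedding hinj
  unfold nu
  rw [he.comap_apply, Measure.restrict_apply (he.measurableSet_image.2 hC),
    image_inter hinj]

theorem nu_univ {ψ : Euc (n + 1) → Euc N} (hψ : Continuous ψ) (hinj : Function.Injective ψ)
    {A : Set (Euc (n + 1))} : nu n ψ A univ = μHE[n] (ψ '' frontier A) := by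
  rw [nu_apply hψ hinj MeasurableSet.univ, univ_inter]

/-- local finiteness of the boundary measure in the chart -/
theorem frontier_finite {ψ : Euc (n + 1) → Euc N} (hψ : ContDiff ℝ 1 ψ)
    (hge : ∀ x w, ‖w‖ ≤ ‖fderiv ℝ ψ x w‖) {A : Set (Euc (n + 1))}
    (hP : μHE[n] (ψ '' frontier A) ≠ ⊤) (R : ℝ) :
    μHE[n] (frontier A ∩ closedBall 0 R) ≠ ⊤ := by
  obtain ⟨δ, hδ0, hδ⟩ := local_anti hψ hge R one_pos
  have hK : IsCompact (closedBall (0 : Euc (n + 1)) R) := isCompact_closedBall _ _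
  obtain ⟨t, htK, ht⟩ := hK.elim_nhds_subcover (fun z => ball z δ)
    (fun z _ => ball_mem_nhds z hδ0)
  have hle : μHE[n] (frontier A ∩ closedBall 0 R) ≤
      ∑ z ∈ t, μHE[n] (frontier A ∩ ball z δ) := by
    refine (measure_mono ?_).trans (measure_biUnion_finset_le t _)
    rintro x ⟨hx1, hx2⟩
    have := ht hx2
    rw [mem_iUnion₂] at this ⊢
    obtain ⟨z, hz, hxz⟩ := this
    exact ⟨z, hz, hx1, hxz⟩
  refine ne_top_of_le_ne_top ?_ hle
  rw [← lt_top_iff_ne_top, ENNReal.sum_lt_top]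
  intro z hz
  have h2 : μHE[n] (frontier A ∩ ball z δ) ≤
      ((2 : ℝ≥0) : ℝ≥0∞) ^ n * μHE[n] (ψ '' (frontier A ∩ ball z δ)) := by
    refine AF.muHE_le_image ?_ n
    rintro x ⟨_, hx⟩ y ⟨_, hy⟩
    rw [edist_dist, edist_dist, ← ENNReal.ofReal_coe_nnreal, ← ENNReal.ofReal_mul (by simp)]
    refine ENNReal.ofReal_le_ofReal ?_
    rw [dist_eq_norm, dist_eq_norm]
    have := (hge z (x - y)).trans (hδ z (htK z hz) x hx y hy)
    norm_num at this ⊢
    linarith
  refine lt_of_le_of_lt h2 (ENNReal.mul_lt_top (by finiteness) ?_)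
  exact lt_of_le_of_lt (measure_mono (image_mono inter_subset_left)) (lt_top_iff_ne_top.2 hP)

/-- **sharp local directional bound** in the chart. -/
theorem dir_local {ψ : Euc (n + 1) → Euc N} (hψ : ContDiff ℝ 1 ψ) (hinj : Function.Injective ψ)
    (hge : ∀ x w, ‖w‖ ≤ ‖fderiv ℝ ψ x w‖) {A : Set (Euc (n + 1))} (hA : IsOpen A)
    (hP : μHE[n] (ψ '' frontier A) ≠ ⊤) {η δ : ℝ} (hη : 0 < η) {z : Euc (n + 1)}
    (hδ : ∀ x ∈ ball z δ, ∀ y ∈ ball z δ,
      ‖fderiv ℝ ψ z (x - y)‖ ≤ (1 + η) * ‖ψ x - ψ y‖)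
    {ζ : Euc (n + 1) → ℝ} (hζ : ContDiff ℝ 1 ζ) (hc : HasCompactSupport ζ)
    (hs : ∀ x, x ∉ ball z δ → ζ x = 0) (w : Euc (n + 1)) :
    ENNReal.ofReal (AF.jac (fderiv ℝ ψ z) * |∫ x in A, fderiv ℝ ζ x w|) ≤
      ENNReal.ofReal ((1 + η) ^ n * ‖fderiv ℝ ψ z w‖) *
        ∫⁻ x, ENNReal.ofReal |ζ x| ∂(nu n ψ A) := by
  obtain ⟨T, hT, hdet⟩ := exists_endo (fderiv ℝ ψ z) (hge z)
  by_cases hw : w = 0
  · subst hw; simp
  have hTw : 0 < ‖T w‖ := by
    rw [norm_pos_iff]
    intro h
    exact hw (by simpa using congrArg T.symm h)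
  set Ω : Set (Euc (n + 1)) := T '' A with hΩdef
  have hΩ : IsOpen Ω := T.toHomeomorph.isOpenMap A hA
  have hfr : frontier Ω = T '' frontier A := (T.toHomeomorph.image_frontier A).symm
  have hfin : ∀ R : ℝ, μHE[n] (frontier Ω ∩ closedBall 0 R) ≠ ⊤ := by
    intro R
    have h1 : frontier Ω ∩ closedBall 0 R ⊆ T '' (frontier A ∩ closedBall 0 R) := by
      rw [hfr]
      rintro _ ⟨⟨x, hx, rfl⟩, hxR⟩
      refine ⟨x, ⟨hx, ?_⟩, rfl⟩
      rw [mem_closedBall_zero_iff] at hxR ⊢
      have := hge z x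
      rw [← hT x] at this
      exact this.trans hxR
    refine ne_top_of_le_ne_top ?_ (measure_mono h1)
    have hL : LipschitzOnWith ‖(T : Euc (n + 1) →L[ℝ] Euc (n + 1))‖₊ T
        (frontier A ∩ closedBall 0 R) :=
      (T : Euc (n + 1) →L[ℝ] Euc (n + 1)).lipschitz.lipschitzOnWith
    refine ne_top_of_le_ne_top ?_ (AF.muHE_image_le hL n)
    exact ENNReal.mul_ne_top (by finiteness) (frontier_finite hψ hge hP R)
  set g : Euc (n + 1) → ℝ := fun y => ζ (T.symm y) with hg
  have hgC : ContDiff ℝ 1 g := hζ.comp T.symm.contDiff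
  have hgc : HasCompactSupport g := hc.comp_homeomorph T.symm.toHomeomorph
  set v : Euc (n + 1) := ‖T w‖⁻¹ • T w with hv
  have hv1 : ‖v‖ = 1 := by
    rw [hv, norm_smul, norm_inv, norm_norm, inv_mul_cancel₀ hTw.ne']
  have hdir := E1.directional (n := n) (V := Euc (n + 1)) (by simp) hv1 hΩ hfin hgC hgc
  -- left-hand side
  have hgd : ∀ x, fderiv ℝ g (T x) v = ‖T w‖⁻¹ * fderiv ℝ ζ x w := by
    intro x
    have h1 : HasFDerivAt g ((fderiv ℝ ζ x).comp (T.symm : Euc (n + 1) →L[ℝ] Euc (n + 1)))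
        (T x) := by
      have h2 : HasFDerivAt ζ (fderiv ℝ ζ x) (T.symm (T x)) := by
        rw [T.symm_apply_apply]
        exact (hζ.differentiable one_ne_zero x).hasFDerivAt
      exact h2.comp (T x) T.symm.hasFDerivAt
    rw [h1.fderiv]
    simp [hv]
  have hlhs : ∫ y in Ω, fderiv ℝ g y v =
      AF.jac (fderiv ℝ ψ z) * (‖T w‖⁻¹ * ∫ x in A, fderiv ℝ ζ x w) := by
    rw [hΩdef, integral_image_eq_integral_abs_det_fderiv_smul volume hA.measurableSet
      (fun x _ => (T.hasFDerivAt (x := x)).hasFDerivWithinAt) T.injective.injOn]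
    simp only [hgd, hdet, smul_eq_mul]
    rw [integral_const_mul, integral_const_mul]
  have hJ0 : 0 ≤ AF.jac (fderiv ℝ ψ z) := AF.jac_nonneg _
  have hl : AF.jac (fderiv ℝ ψ z) * |∫ x in A, fderiv ℝ ζ x w| =
      ‖T w‖ * |∫ y in Ω, fderiv ℝ g y v| := by
    rw [hlhs, abs_mul, abs_mul, abs_of_nonneg hJ0, abs_inv, abs_of_pos hTw]
    field_simp
  rw [hl, ENNReal.ofReal_mul hTw.le, hT w]
  -- right-hand side
  have hrhs : ∫⁻ y in frontier Ω, ENNReal.ofReal |g y| ∂μHE[n] ≤
      ENNReal.ofReal ((1 + η) ^ n) * ∫⁻ x, ENNReal.ofReal |ζ x| ∂(nu n ψ A) := by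
    have hm : ((μHE[n]).restrict (frontier Ω ∩ T '' ball z δ)).map T.symm ≤
        ENNReal.ofReal ((1 + η) ^ n) • nu n ψ A := by
      refine Measure.le_iff.2 fun C hC => ?_
      have hTs : Measurable T.symm := T.symm.continuous.measurable
      rw [Measure.map_apply hTs hC, Measure.restrict_apply (hTs hC), Measure.smul_apply,
        nu_apply hψ.continuous hinj hC, smul_eq_mul]
      have he : T.symm ⁻¹' C ∩ (frontier Ω ∩ T '' ball z δ) =
          T '' (C ∩ frontier A ∩ ball z δ) := by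
        rw [hfr, image_inter T.injective, image_inter T.injective, inter_assoc]
        congr 1
        ext y
        constructor
        · intro hy; exact ⟨T.symm y, hy, by simp⟩
        · rintro ⟨x, hx, rfl⟩; simpa using hx
      rw [he]
      have h1 : μHE[n] (T '' (C ∩ frontier A ∩ ball z δ)) ≤
          (((1 + η).toNNReal : ℝ≥0) : ℝ≥0∞) ^ n *
            μHE[n] ((fun y => ψ (T.symm y)) '' (T '' (C ∩ frontier A ∩ ball z δ))) := by
        refine AF.muHE_le_image ?_ n
        rintro _ ⟨x, ⟨_, hx⟩, rfl⟩ _ ⟨y, ⟨_, hy⟩, rfl⟩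
        simp only [T.symm_apply_apply]
        rw [edist_dist, edist_dist]
        change _ ≤ ENNReal.ofReal (1 + η) * _
        rw [← ENNReal.ofReal_mul (by positivity)]
        refine ENNReal.ofReal_le_ofReal ?_
        rw [dist_eq_norm, dist_eq_norm, ← map_sub, hT]
        exact hδ x hx y hy
      refine h1.trans ?_
      rw [image_image]
      simp only [T.symm_apply_apply]
      rw [ENNReal.ofReal_pow (by positivity)]
      change ENNReal.ofReal (1 + η) ^ n * _ ≤ _
      exact mul_le_mul_right (measure_mono (image_mono inter_subset_left)) _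
    have hg0 : ∀ y ∈ frontier Ω \ (frontier Ω ∩ T '' ball z δ), ENNReal.ofReal |g y| = 0 := by
      rintro y ⟨hy1, hy2⟩
      have : T.symm y ∉ ball z δ := fun h => hy2 ⟨hy1, T.symm y, h, by simp⟩
      rw [hg]
      simp [hs _ this]
    have hms : MeasurableSet (frontier Ω ∩ T '' ball z δ) :=
      isClosed_frontier.measurableSet.inter (T.toHomeomorph.isOpenMap _ isOpen_ball).measurableSet
    have hmeas : Measurable fun x => ENNReal.ofReal |ζ x| :=
      (hζ.continuous.abs.measurable).ennreal_ofReal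
    have e1 : ∫⁻ y in frontier Ω, ENNReal.ofReal |g y| ∂μHE[n] =
        ∫⁻ y in frontier Ω ∩ T '' ball z δ, ENNReal.ofReal |g y| ∂μHE[n] := by
      rw [← lintegral_inter_add_sdiff _ (frontier Ω) hms, 
        setLIntegral_eq_zero (isClosed_frontier.measurableSet.diff hms) hg0, add_zero,
        ← inter_assoc, inter_self]
    rw [e1]
    calc ∫⁻ y in frontier Ω ∩ T '' ball z δ, ENNReal.ofReal |g y| ∂μHE[n]
        = ∫⁻ x, ENNReal.ofReal |ζ x|
            ∂(((μHE[n]).restrict (frontier Ω ∩ T '' ball z δ)).map T.symm) := by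
          rw [lintegral_map hmeas T.symm.continuous.measurable]
      _ ≤ ∫⁻ x, ENNReal.ofReal |ζ x| ∂(ENNReal.ofReal ((1 + η) ^ n) • nu n ψ A) :=
          lintegral_mono' hm le_rfl
      _ = _ := lintegral_smul_measure _ _
  calc ENNReal.ofReal ‖fderiv ℝ ψ z w‖ * ENNReal.ofReal |∫ y in Ω, fderiv ℝ g y v|
      ≤ ENNReal.ofReal ‖fderiv ℝ ψ z w‖ *
        (ENNReal.ofReal ((1 + η) ^ n) * ∫⁻ x, ENNReal.ofReal |ζ x| ∂(nu n ψ A)) := by
        gcongr
        exact hdir.trans hrhs
    _ = _ := by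
        rw [← mul_assoc, ← ENNReal.ofReal_mul (norm_nonneg _), mul_comm ‖fderiv ℝ ψ z w‖]

/-- mollification of the indicator function -/
def mo {d : ℕ} (φ : ContDiffBump (0 : Euc d)) (A : Set (Euc d)) (x : Euc d) : ℝ :=
  ∫ y in A, φ.normed volume (x - y)

section Moll
variable {d : ℕ} (φ : ContDiffBump (0 : Euc d)) {A : Set (Euc d)}

theorem normed_zero_of_notMem {x : Euc d} (hx : φ.rOut ≤ ‖x‖) : φ.normed volume x = 0 := by
  have h := φ.support_normed_eq (μ := (volume : Measure (Euc d)))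
  by_contra hne
  have : x ∈ Function.support (φ.normed volume) := hne
  rw [h, mem_ball_zero_iff] at this
  exact absurd this (not_lt.2 hx)

theorem mo_eq_conv (hA : MeasurableSet A) : mo φ A =
    MeasureTheory.convolution (φ.normed volume) (A.indicator fun _ => (1 : ℝ))
      (ContinuousLinearMap.mul ℝ ℝ) volume := by
  funext x
  rw [mo, MeasureTheory.convolution_mul_swap, ← integral_indicator hA]
  congr 1
  ext y
  by_cases hy : y ∈ A <;> simp [hy]

theorem locInt (hA : MeasurableSet A) :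
    LocallyIntegrable (A.indicator fun _ => (1 : ℝ)) (volume : Measure (Euc d)) :=
  (locallyIntegrable_const 1).indicator hA

theorem contDiff_mo (hA : MeasurableSet A) : ContDiff ℝ ∞ (mo φ A) := by
  rw [mo_eq_conv φ hA]
  exact φ.hasCompactSupport_normed.contDiff_convolution_left _ φ.contDiff_normed (locInt hA)

theorem integrable_normed_sub (x : Euc d) : Integrable (fun y => φ.normed volume (x - y)) :=
  φ.integrable_normed.comp_sub_left x

theorem mo_nonneg (x : Euc d) : 0 ≤ mo φ A x :=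
  integral_nonneg fun _ => φ.nonneg_normed _

theorem mo_le_one (x : Euc d) : mo φ A x ≤ 1 := by
  calc mo φ A x ≤ ∫ y, φ.normed volume (x - y) :=
        setIntegral_le_integral (integrable_normed_sub φ x)
          (Eventually.of_forall fun _ => φ.nonneg_normed _)
    _ = ∫ y, φ.normed volume y := integral_sub_left_eq_self (fun y => φ.normed volume y) volume x
    _ = 1 := φ.integral_normed

theorem fderiv_mo (hA : MeasurableSet A) (x w : Euc d) :
    fderiv ℝ (mo φ A) x w =
      - ∫ y in A, fderiv ℝ (fun y => φ.normed volume (x - y)) y w := by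
  have hd : ContDiff ℝ 1 (φ.normed (volume : Measure (Euc d))) := φ.contDiff_normed
  have h := φ.hasCompactSupport_normed.hasFDerivAt_convolution_left
    (ContinuousLinearMap.mul ℝ ℝ) hd (locInt hA) x
  rw [mo_eq_conv φ hA, h.fderiv]
  have hf : ∀ y, fderiv ℝ (fun y => φ.normed volume (x - y)) y w =
      - fderiv ℝ (φ.normed volume) (x - y) w := by
    intro y
    have h1 : HasFDerivAt (fun y : Euc d => x - y) (-(ContinuousLinearMap.id ℝ (Euc d))) y := by
      simpa using (hasFDerivAt_id y).const_sub x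
    have h2 := ((hd.differentiable one_ne_zero (x - y)).hasFDerivAt).comp y h1
    have h3 : HasFDerivAt (fun y : Euc d => φ.normed volume (x - y)) _ y := h2
    rw [h3.fderiv]
    simp
  simp only [hf]
  rw [integral_neg, neg_neg, ← integral_indicator hA]
  have hex := φ.hasCompactSupport_normed.fderiv (𝕜 := ℝ)
    |>.convolutionExists_left (L := (ContinuousLinearMap.mul ℝ ℝ).precompL (Euc d))
      (hd.continuous_fderiv one_ne_zero) (locInt hA) x
  rw [MeasureTheory.convolution_eq_swap, ContinuousLinearMap.integral_apply hex.integrable_swap]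
  congr 1
  ext y
  by_cases hy : y ∈ A <;> simp [hy, ContinuousLinearMap.precompL_apply]

theorem mo_eq_mol : mo φ A = E1.mol φ A := rfl

end Moll

section Bound
variable {ψ : Euc (n + 1) → Euc N}

theorem jac_pos (hge : ∀ x w, ‖w‖ ≤ ‖fderiv ℝ ψ x w‖) (x : Euc (n + 1)) :
    0 < AF.jac (fderiv ℝ ψ x) := by
  obtain ⟨T, -, hdet⟩ := exists_endo (fderiv ℝ ψ x) (hge x)
  rw [← hdet, abs_pos]
  exact T.toLinearEquiv.isUnit_det'.ne_zero

theorem continuous_jac' (hψ : ContDiff ℝ 1 ψ) : Continuous fun x => AF.jac (fderiv ℝ ψ x) :=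
  AF.continuous_jac.comp (hψ.continuous_fderiv one_ne_zero)

theorem isFinite_nu (hψ : ContDiff ℝ 1 ψ) (hinj : Function.Injective ψ)
    {A : Set (Euc (n + 1))} (hP : μHE[n] (ψ '' frontier A) ≠ ⊤) :
    IsFiniteMeasure (nu n ψ A) :=
  ⟨by rw [nu_univ hψ.continuous hinj]; exact lt_top_iff_ne_top.2 hP⟩

/-- smoothed boundary measure -/
def sm (ν : Measure (Euc (n + 1))) (φ : ContDiffBump (0 : Euc (n + 1))) (x : Euc (n + 1)) : ℝ :=
  ∫ y, φ.normed volume (x - y) ∂ν

theorem sm_nonneg (ν : Measure (Euc (n + 1))) (φ : ContDiffBump (0 : Euc (n + 1)))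
    (x : Euc (n + 1)) : 0 ≤ sm ν φ x := integral_nonneg fun _ => φ.nonneg_normed _

theorem exists_bound_normed (φ : ContDiffBump (0 : Euc (n + 1))) :
    ∃ M, ∀ x, ‖φ.normed (volume : Measure (Euc (n + 1))) x‖ ≤ M :=
  φ.hasCompactSupport_normed.exists_bound_of_continuous (E1.continuous_normed φ)

theorem integrable_normed_nu (ν : Measure (Euc (n + 1))) [IsFiniteMeasure ν]
    (φ : ContDiffBump (0 : Euc (n + 1))) (x : Euc (n + 1)) :
    Integrable (fun y => φ.normed volume (x - y)) ν := by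
  obtain ⟨M, hM⟩ := exists_bound_normed φ
  exact Integrable.of_bound
    ((E1.continuous_normed φ).comp (continuous_const.sub continuous_id)).aestronglyMeasurable M
    (Eventually.of_forall fun y => hM _)

theorem continuous_sm (ν : Measure (Euc (n + 1))) [IsFiniteMeasure ν]
    (φ : ContDiffBump (0 : Euc (n + 1))) : Continuous (sm ν φ) := by
  obtain ⟨M, hM⟩ := exists_bound_normed φ
  refine continuous_of_dominated (F := fun x y => φ.normed volume (x - y)) (bound := fun _ => M)
    ?_ ?_ (integrable_const M) ?_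
  · intro x
    exact ((E1.continuous_normed φ).comp (continuous_const.sub continuous_id)).aestronglyMeasurable
  · intro x
    exact Eventually.of_forall fun y => hM _
  · refine Eventually.of_forall fun y => ?_
    exact (E1.continuous_normed φ).comp (continuous_id.sub continuous_const)

theorem lintegral_sm (ν : Measure (Euc (n + 1))) [IsFiniteMeasure ν]
    (φ : ContDiffBump (0 : Euc (n + 1))) :
    ∫⁻ x, ENNReal.ofReal (sm ν φ x) = ν univ := by
  have h1 : ∀ x, ENNReal.ofReal (sm ν φ x) =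
      ∫⁻ y, ENNReal.ofReal (φ.normed volume (x - y)) ∂ν := fun x => by
    rw [sm, ofReal_integral_eq_lintegral_ofReal (integrable_normed_nu ν φ x)
      (Eventually.of_forall fun _ => φ.nonneg_normed _)]
  simp only [h1]
  rw [lintegral_lintegral_swap]
  · have h2 : ∀ y, ∫⁻ x, ENNReal.ofReal (φ.normed volume (x - y)) = 1 := by
      intro y
      rw [lintegral_sub_right_eq_self (fun x => ENNReal.ofReal (φ.normed volume x)) y,
        ← ofReal_integral_eq_lintegral_ofReal φ.integrable_normed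
          (Eventually.of_forall fun _ => φ.nonneg_normed _), φ.integral_normed]
      simp
    simp [h2]
  · have : Continuous (Function.uncurry fun (x y : Euc (n + 1)) =>
        φ.normed (volume : Measure (Euc (n + 1))) (x - y)) :=
      (E1.continuous_normed φ).comp (continuous_fst.sub continuous_snd)
    exact this.measurable.ennreal_ofReal.aemeasurable

theorem integrable_sm (ν : Measure (Euc (n + 1))) [IsFiniteMeasure ν]
    (φ : ContDiffBump (0 : Euc (n + 1))) : Integrable (sm ν φ) := by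
  refine ⟨(continuous_sm ν φ).aestronglyMeasurable, ?_⟩
  rw [hasFiniteIntegral_iff_ofReal (Eventually.of_forall (sm_nonneg ν φ)), lintegral_sm]
  exact measure_lt_top _ _

theorem integral_sm (ν : Measure (Euc (n + 1))) [IsFiniteMeasure ν]
    (φ : ContDiffBump (0 : Euc (n + 1))) : ∫ x, sm ν φ x = ν.real univ := by
  rw [integral_eq_lintegral_of_nonneg_ae (Eventually.of_forall (sm_nonneg ν φ))
    (continuous_sm ν φ).aestronglyMeasurable, lintegral_sm]
  rfl

/-- pointwise bound of the `g`-gradient of the mollified indicator. -/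
theorem grad_bound (hψ : ContDiff ℝ 1 ψ) (hinj : Function.Injective ψ)
    (hge : ∀ x w, ‖w‖ ≤ ‖fderiv ℝ ψ x w‖) {A : Set (Euc (n + 1))} (hA : IsOpen A)
    (hP : μHE[n] (ψ '' frontier A) ≠ ⊤) {η δ : ℝ} (hη : 0 < η) {z : Euc (n + 1)}
    (hδ : ∀ x ∈ ball z δ, ∀ y ∈ ball z δ,
      ‖fderiv ℝ ψ z (x - y)‖ ≤ (1 + η) * ‖ψ x - ψ y‖)
    (φ : ContDiffBump (0 : Euc (n + 1))) (hφ : φ.rOut ≤ δ) (w : Euc (n + 1)) :
    AF.jac (fderiv ℝ ψ z) * |fderiv ℝ (mo φ A) z w| ≤
      (1 + η) ^ n * sm (nu n ψ A) φ z * ‖fderiv ℝ ψ z w‖ := by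
  have := isFinite_nu hψ hinj hP
  have hζ : ContDiff ℝ 1 (fun y => φ.normed (volume : Measure (Euc (n + 1))) (z - y)) :=
    φ.contDiff_normed.comp (contDiff_const.sub contDiff_id)
  have hc : HasCompactSupport (fun y => φ.normed (volume : Measure (Euc (n + 1))) (z - y)) :=
    φ.hasCompactSupport_normed.comp_homeomorph (Homeomorph.subLeft z)
  have h := dir_local hψ hinj hge hA hP hη hδ hζ hc (by
    intro x hx
    apply normed_zero_of_notMem
    rw [mem_ball, not_lt, dist_eq_norm, norm_sub_rev] at hx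
    exact hφ.trans hx) w
  have h1 : ∫⁻ y, ENNReal.ofReal |φ.normed volume (z - y)| ∂(nu n ψ A) =
      ENNReal.ofReal (sm (nu n ψ A) φ z) := by
    rw [sm, ofReal_integral_eq_lintegral_ofReal (integrable_normed_nu _ φ z)
      (Eventually.of_forall fun _ => φ.nonneg_normed _)]
    congr 1
    ext y
    rw [abs_of_nonneg (φ.nonneg_normed _)]
  rw [h1, ← ENNReal.ofReal_mul (by positivity)] at h
  have h2 := (ENNReal.ofReal_le_ofReal_iff (by
    have := sm_nonneg (nu n ψ A) φ z
    positivity)).1 h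
  rw [fderiv_mo φ hA.measurableSet, abs_neg]
  calc _ ≤ _ := h2
    _ = _ := by ring

/-- smooth cut-off functions with small gradient. -/
theorem exists_cut (d : ℕ) : ∃ C : ℝ, 0 ≤ C ∧ ∀ R : ℝ, 0 < R → ∃ χ : Euc d → ℝ,
    ContDiff ℝ ∞ χ ∧ (∀ x, 0 ≤ χ x ∧ χ x ≤ 1) ∧ (∀ x, ‖x‖ ≤ R → χ x = 1) ∧
    (∀ x, 2 * R ≤ ‖x‖ → χ x = 0) ∧ ∀ x, ‖fderiv ℝ χ x‖ ≤ C / R := by
  let b : ContDiffBump (0 : Euc d) := ⟨1, 2, one_pos, one_lt_two⟩
  have hb : ContDiff ℝ ∞ (b : Euc d → ℝ) := b.contDiff
  obtain ⟨C, hC⟩ := (b.hasCompactSupport.fderiv (𝕜 := ℝ)).exists_bound_of_continuous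
    (hb.continuous_fderiv (by simp))
  refine ⟨C, (norm_nonneg _).trans (hC 0), fun R hR => ⟨fun x => b (R⁻¹ • x), ?_, ?_, ?_, ?_, ?_⟩⟩
  · exact hb.comp (contDiff_const_smul _)
  · exact fun x => ⟨b.nonneg, b.le_one⟩
  · intro x hx
    apply b.one_of_mem_closedBall
    rw [mem_closedBall_zero_iff, norm_smul, norm_inv, Real.norm_of_nonneg hR.le]
    change R⁻¹ * ‖x‖ ≤ 1
    rw [inv_mul_le_iff₀ hR]; linarith
  · intro x hx
    apply b.zero_of_le_dist
    rw [dist_zero_right, norm_smul, norm_inv, Real.norm_of_nonneg hR.le]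
    change 2 ≤ R⁻¹ * ‖x‖
    rw [le_inv_mul_iff₀ hR]; linarith
  · intro x
    have h1 : HasFDerivAt (fun x : Euc d => R⁻¹ • x) (R⁻¹ • ContinuousLinearMap.id ℝ (Euc d)) x :=
      (hasFDerivAt_id x).const_smul R⁻¹
    have h2 : HasFDerivAt (fun x : Euc d => b (R⁻¹ • x))
        ((fderiv ℝ b (R⁻¹ • x)).comp (R⁻¹ • ContinuousLinearMap.id ℝ (Euc d))) x :=
      ((hb.differentiable (by simp) (R⁻¹ • x)).hasFDerivAt).comp x h1
    rw [h2.fderiv]
    have h3 : (fderiv ℝ b (R⁻¹ • x)).comp (R⁻¹ • ContinuousLinearMap.id ℝ (Euc d)) =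
        R⁻¹ • fderiv ℝ b (R⁻¹ • x) := by
      ext w; simp
    rw [h3, norm_smul, norm_inv, Real.norm_of_nonneg hR.le, div_eq_inv_mul]
    gcongr
    exact hC _

/-- **(L-C)** the sharp approximation theorem. -/
theorem approx (hψ : ContDiff ℝ ∞ ψ) (hinj : Function.Injective ψ)
    (hge : ∀ x w, ‖w‖ ≤ ‖fderiv ℝ ψ x w‖) {A : Set (Euc (n + 1))} (hA : IsOpen A)
    (hP : μHE[n] (ψ '' frontier A) ≠ ⊤)
    (hvol : IntegrableOn (fun x => AF.jac (fderiv ℝ ψ x)) A) {ε : ℝ} (hε : 0 < ε) :
    ∃ u c : Euc (n + 1) → ℝ, ContDiff ℝ ∞ u ∧ HasCompactSupport u ∧ (∀ x, 0 ≤ u x ∧ u x ≤ 1) ∧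
      Continuous c ∧ HasCompactSupport c ∧ (∀ x, 0 ≤ c x) ∧
      (∀ x w, |fderiv ℝ u x w| ≤ c x * ‖fderiv ℝ ψ x w‖) ∧
      ∫ x, c x * AF.jac (fderiv ℝ ψ x) ≤ (μHE[n] (ψ '' frontier A)).toReal + ε ∧
      Integrable (fun x => |u x - A.indicator (fun _ => (1 : ℝ)) x| * AF.jac (fderiv ℝ ψ x)) ∧
      ∫ x, |u x - A.indicator (fun _ => (1 : ℝ)) x| * AF.jac (fderiv ℝ ψ x) ≤ ε := by
  have hψ1 : ContDiff ℝ 1 ψ := hψ.of_le (by exact_mod_cast le_top)
  set J : Euc (n + 1) → ℝ := fun x => AF.jac (fderiv ℝ ψ x) with hJdef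
  have hJc : Continuous J := continuous_jac' hψ1
  have hJ0 : ∀ x, 0 < J x := jac_pos hge
  set ind : Euc (n + 1) → ℝ := A.indicator (fun _ => (1 : ℝ)) with hind
  have := isFinite_nu hψ1 hinj hP
  set ν := nu n ψ A with hν
  set P : ℝ := ν.real univ with hPdef
  have hPeq : (μHE[n] (ψ '' frontier A)).toReal = P := by
    rw [hPdef, Measure.real, hν, nu_univ hψ1.continuous hinj]
  have hP0 : 0 ≤ P := measureReal_nonneg
  rw [hPeq]
  have hindm : Measurable ind := measurable_const.indicator hA.measurableSet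
  have hind01 : ∀ x, 0 ≤ ind x ∧ ind x ≤ 1 := by
    intro x
    by_cases hx : x ∈ A <;> simp [hind, hx]
  have hmi : ∀ (φ : ContDiffBump (0 : Euc (n + 1))) (x : Euc (n + 1)),
      |mo φ A x - ind x| ≤ 1 := by
    intro φ x
    have h1 := mo_nonneg φ (A := A) x
    have h2 := mo_le_one φ (A := A) x
    have h3 := hind01 x
    rw [abs_le]; constructor <;> linarith [h3.1, h3.2]
  -- choice of η
  obtain ⟨η, hη0, hη⟩ : ∃ η > 0, (1 + η) ^ n * P ≤ P + ε / 2 := by
    have hc : Tendsto (fun η : ℝ => (1 + η) ^ n * P) (𝓝[>] 0) (𝓝 ((1 + 0) ^ n * P)) :=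
      ((by fun_prop : Continuous fun η : ℝ => (1 + η) ^ n * P).tendsto 0).mono_left
        nhdsWithin_le_nhds
    have h1 : ∀ᶠ η in 𝓝[>] (0 : ℝ), (1 + η) ^ n * P < P + ε / 2 := by
      apply hc.eventually_lt_const
      simp; positivity
    obtain ⟨η, h2, h3⟩ := (h1.and self_mem_nhdsWithin).exists
    exact ⟨η, h3, h2.le⟩
  -- choice of R
  obtain ⟨C, hC0, hcut⟩ := exists_cut (n + 1)
  set M : ℝ := ∫ x in A, J x with hM
  have hM0 : 0 ≤ M := setIntegral_nonneg hA.measurableSet fun x _ => (hJ0 x).le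
  have htail : Tendsto (fun R : ℝ => ∫ x in A \ closedBall 0 R, J x) atTop (𝓝 0) := by
    have hms : ∀ R : ℝ, MeasurableSet (A \ closedBall (0 : Euc (n + 1)) R) := fun R =>
      hA.measurableSet.diff measurableSet_closedBall
    have h1 : Tendsto (fun R : ℝ => ∫ x, (A \ closedBall (0 : Euc (n + 1)) R).indicator J x)
        atTop (𝓝 (∫ _ : Euc (n + 1), (0 : ℝ))) := by
      refine tendsto_integral_filter_of_dominated_convergence (A.indicator J)
        (Eventually.of_forall fun R => (hJc.measurable.indicator (hms R)).aestronglyMeasurable)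
        (Eventually.of_forall fun R => Eventually.of_forall fun x => ?_)
        (hvol.integrable_indicator hA.measurableSet) (Eventually.of_forall fun x => ?_)
      · rw [norm_indicator_eq_indicator_norm]
        simp only [Real.norm_of_nonneg (hJ0 _).le]
        exact indicator_le_indicator_of_subset sdiff_subset (fun x => (hJ0 x).le) x
      · refine tendsto_const_nhds.congr' ?_
        filter_upwards [eventually_ge_atTop ‖x‖] with R hR
        rw [indicator_of_notMem]
        rintro ⟨_, h⟩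
        exact h (mem_closedBall_zero_iff.2 hR)
    simp only [integral_indicator (hms _)] at h1
    simpa using h1
  obtain ⟨R, hR0, hR1, hR2⟩ : ∃ R : ℝ, 0 < R ∧ C / R * (M + 1) ≤ ε / 2 ∧
      ∫ x in A \ closedBall 0 R, J x ≤ ε / 2 := by
    have h1 : Tendsto (fun R : ℝ => C / R * (M + 1)) atTop (𝓝 (0 * (M + 1))) :=
      (tendsto_const_nhds.div_atTop tendsto_id).mul_const _
    rw [zero_mul] at h1
    obtain ⟨R, h3, h4, h5⟩ := ((h1.eventually_lt_const (half_pos hε)).and
      ((htail.eventually_lt_const (half_pos hε)).and (eventually_gt_atTop 0))).exists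
    exact ⟨R, h5, h3.le, h4.le⟩
  obtain ⟨χ, hχs, hχ01, hχ1, hχ0, hχd⟩ := hcut R hR0
  have hInt1 : ∀ φ : ContDiffBump (0 : Euc (n + 1)), Measurable (mo φ A) →
      IntegrableOn (fun x => |mo φ A x - ind x| * J x)
        (closedBall (0 : Euc (n + 1)) (2 * R)) := by
    intro φ hm
    refine Integrable.mono' (g := J)
      (hJc.continuousOn.integrableOn_compact (isCompact_closedBall _ _))
      (((hm.sub hindm).norm).mul hJc.measurable).aestronglyMeasurable
      (Eventually.of_forall fun x => ?_)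
    rw [norm_mul, norm_abs_eq_norm, Real.norm_of_nonneg (hJ0 x).le, Real.norm_eq_abs]
    exact mul_le_of_le_one_left (hJ0 x).le (hmi φ x)
  have hInt2 : IntegrableOn (fun x => ind x * J x) (closedBall (0 : Euc (n + 1)) (2 * R)) := by
    refine Integrable.mono' (g := J)
      (hJc.continuousOn.integrableOn_compact (isCompact_closedBall _ _))
      (hindm.mul hJc.measurable).aestronglyMeasurable
      (Eventually.of_forall fun x => ?_)
    rw [norm_mul, Real.norm_of_nonneg (hJ0 x).le, Real.norm_of_nonneg (hind01 x).1]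
    exact mul_le_of_le_one_left (hJ0 x).le (hind01 x).2
  -- choice of the mollifier
  obtain ⟨δ, hδ0, hδ⟩ := local_anti hψ1 hge (2 * R) hη0
  have hmol : Tendsto (fun k => ∫ x in closedBall (0 : Euc (n + 1)) (2 * R),
      |mo (E1.bmp (Euc (n + 1)) k) A x - ind x| * J x) atTop (𝓝 0) := by
    have h0 := E1.tendsto_mol hA.measurableSet
    have h1 : Tendsto (fun k => ∫ x in closedBall (0 : Euc (n + 1)) (2 * R),
        |mo (E1.bmp (Euc (n + 1)) k) A x - ind x| * J x) atTop
        (𝓝 (∫ _ in closedBall (0 : Euc (n + 1)) (2 * R), (0 : ℝ))) := by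
      refine tendsto_integral_of_dominated_convergence J (fun k => ?_) ?_ (fun k => ?_) ?_
      · exact ((((contDiff_mo (E1.bmp (Euc (n + 1)) k)
          hA.measurableSet).continuous.measurable.sub hindm).norm).mul
            hJc.measurable).aestronglyMeasurable
      · exact hJc.continuousOn.integrableOn_compact (isCompact_closedBall _ _)
      · refine Eventually.of_forall fun x => ?_
        rw [norm_mul, norm_abs_eq_norm, Real.norm_of_nonneg (hJ0 x).le]
        have := hmi (E1.bmp (Euc (n + 1)) k) x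
        rw [Real.norm_eq_abs]
        exact mul_le_of_le_one_left (hJ0 x).le this
      · refine ae_restrict_of_ae ?_
        filter_upwards [h0] with x hx
        have : Tendsto (fun k => |mo (E1.bmp (Euc (n + 1)) k) A x - ind x| * J x) atTop
            (𝓝 (|ind x - ind x| * J x)) :=
          ((Tendsto.sub hx tendsto_const_nhds).abs).mul_const _
        simpa using this
    simpa using h1
  obtain ⟨k, hk1, hk2⟩ : ∃ k : ℕ, (E1.bmp (Euc (n + 1)) k).rOut ≤ δ ∧
      ∫ x in closedBall (0 : Euc (n + 1)) (2 * R),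
        |mo (E1.bmp (Euc (n + 1)) k) A x - ind x| * J x ≤ min 1 (ε / 2) := by
    obtain ⟨k, h1, h2⟩ := (((E1.tendsto_bmp (V := Euc (n + 1))).eventually_lt_const hδ0).and
      (hmol.eventually_lt_const (lt_min one_pos (half_pos hε)))).exists
    exact ⟨k, h1.le, h2.le⟩
  set φ := E1.bmp (Euc (n + 1)) k with hφ
  have hmoC : ContDiff ℝ ∞ (mo φ A) := contDiff_mo φ hA.measurableSet
  have hχout : ∀ x, x ∉ closedBall (0 : Euc (n + 1)) (2 * R) → χ x = 0 := by
    intro x hx
    rw [mem_closedBall_zero_iff, not_le] at hx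
    exact hχ0 x hx.le
  have hDχout : ∀ x, x ∉ closedBall (0 : Euc (n + 1)) (2 * R) → fderiv ℝ χ x = 0 := by
    intro x hx
    have h1 : χ =ᶠ[𝓝 x] fun _ => 0 := by
      filter_upwards [isClosed_closedBall.isOpen_compl.mem_nhds hx] with y hy
      exact hχout y hy
    rw [h1.fderiv_eq]; simp
  have hDχc : Continuous fun x => ‖fderiv ℝ χ x‖ := (hχs.continuous_fderiv (by simp)).norm
  have hmo0 : ∀ x, 0 ≤ mo φ A x := fun x => mo_nonneg φ x
  have hmo1 : ∀ x, mo φ A x ≤ 1 := fun x => mo_le_one φ x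
  have hsm0 := sm_nonneg ν φ
  have hsmc := continuous_sm ν φ
  have hKc : IsCompact (closedBall (0 : Euc (n + 1)) (2 * R)) := isCompact_closedBall _ _
  have hc1 : Continuous fun x => χ x * ((1 + η) ^ n * sm ν φ x / J x) :=
    hχs.continuous.mul ((continuous_const.mul hsmc).div hJc fun x => (hJ0 x).ne')
  have hc2 : Continuous fun x => mo φ A x * ‖fderiv ℝ χ x‖ := hmoC.continuous.mul hDχc
  have hs1 : HasCompactSupport fun x => χ x * ((1 + η) ^ n * sm ν φ x / J x) :=
    HasCompactSupport.intro hKc fun x hx => by rw [hχout x hx, zero_mul]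
  have hs2 : HasCompactSupport fun x => mo φ A x * ‖fderiv ℝ χ x‖ :=
    HasCompactSupport.intro hKc fun x hx => by rw [hDχout x hx, norm_zero, mul_zero]
  refine ⟨fun x => χ x * mo φ A x,
    fun x => χ x * ((1 + η) ^ n * sm ν φ x / J x) + mo φ A x * ‖fderiv ℝ χ x‖,
    hχs.mul hmoC, HasCompactSupport.intro hKc fun x hx => by rw [hχout x hx, zero_mul], ?_,
    hc1.add hc2, hs1.add hs2, ?_, ?_, ?_, ?_⟩
  · intro x
    refine ⟨mul_nonneg (hχ01 x).1 (hmo0 x), ?_⟩
    exact mul_le_one₀ (hχ01 x).2 (hmo0 x) (hmo1 x)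
  · intro x
    have h1 := (hχ01 x).1
    have h2 := hmo0 x
    have h3 := hsm0 x
    have h4 := hJ0 x
    positivity
  · intro x w
    by_cases hx : x ∈ closedBall (0 : Euc (n + 1)) (2 * R)
    · have hf : HasFDerivAt (fun x => χ x * mo φ A x)
          (χ x • fderiv ℝ (mo φ A) x + mo φ A x • fderiv ℝ χ x) x :=
        ((hχs.differentiable (by simp) x).hasFDerivAt).mul
          ((hmoC.differentiable (by simp) x).hasFDerivAt)
      rw [hf.fderiv]
      have hg := grad_bound hψ1 hinj hge hA hP hη0 (hδ x hx) φ hk1 w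
      have hg' : |fderiv ℝ (mo φ A) x w| ≤ (1 + η) ^ n * sm ν φ x / J x * ‖fderiv ℝ ψ x w‖ := by
        rw [div_mul_eq_mul_div, le_div_iff₀ (hJ0 x), mul_comm]
        exact hg
      calc |(χ x • fderiv ℝ (mo φ A) x + mo φ A x • fderiv ℝ χ x) w|
          = |χ x * fderiv ℝ (mo φ A) x w + mo φ A x * fderiv ℝ χ x w| := by simp
        _ ≤ |χ x * fderiv ℝ (mo φ A) x w| + |mo φ A x * fderiv ℝ χ x w| := abs_add_le _ _
        _ = χ x * |fderiv ℝ (mo φ A) x w| + mo φ A x * |fderiv ℝ χ x w| := by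
            rw [abs_mul, abs_mul, abs_of_nonneg (hχ01 x).1, abs_of_nonneg (hmo0 x)]
        _ ≤ χ x * ((1 + η) ^ n * sm ν φ x / J x * ‖fderiv ℝ ψ x w‖) +
            mo φ A x * (‖fderiv ℝ χ x‖ * ‖fderiv ℝ ψ x w‖) := by
            have h1 : |fderiv ℝ χ x w| ≤ ‖fderiv ℝ χ x‖ * ‖fderiv ℝ ψ x w‖ :=
              ((fderiv ℝ χ x).le_opNorm w).trans
                (mul_le_mul_of_nonneg_left (hge x w) (norm_nonneg _))
            exact add_le_add (mul_le_mul_of_nonneg_left hg' (hχ01 x).1)
              (mul_le_mul_of_nonneg_left h1 (hmo0 x))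
        _ = _ := by ring
    · have h1 : (fun x => χ x * mo φ A x) =ᶠ[𝓝 x] fun _ => 0 := by
        filter_upwards [isClosed_closedBall.isOpen_compl.mem_nhds hx] with y hy
        rw [hχout y hy, zero_mul]
      rw [h1.fderiv_eq]
      simp only [hχout x hx, hDχout x hx]
      simp
  · -- total variation
    have e1 : ∫ x, (χ x * ((1 + η) ^ n * sm ν φ x / J x) + mo φ A x * ‖fderiv ℝ χ x‖) * J x =
        (∫ x, χ x * ((1 + η) ^ n * sm ν φ x)) + ∫ x, mo φ A x * ‖fderiv ℝ χ x‖ * J x := by
      rw [← integral_add]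
      · congr 1
        ext x
        have := (hJ0 x).ne'
        field_simp
      · refine Continuous.integrable_of_hasCompactSupport (by fun_prop) ?_
        exact HasCompactSupport.intro hKc fun x hx => by rw [hχout x hx, zero_mul]
      · refine (hc2.mul hJc).integrable_of_hasCompactSupport hs2.mul_right
    have e2 : ∫ x, χ x * ((1 + η) ^ n * sm ν φ x) ≤ (1 + η) ^ n * P := by
      rw [hPdef, ← integral_sm ν φ, ← integral_const_mul]
      refine integral_mono_of_nonneg (Eventually.of_forall fun x => ?_)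
        ((integrable_sm ν φ).const_mul _) (Eventually.of_forall fun x => ?_)
      · have h1 := (hχ01 x).1
        have h3 := hsm0 x
        simp only [Pi.zero_apply]
        positivity
      · have h3 := hsm0 x
        exact mul_le_of_le_one_left (by positivity) (hχ01 x).2
    have e3 : ∫ x, mo φ A x * ‖fderiv ℝ χ x‖ * J x ≤ C / R * (M + 1) := by
      have f1 : ∫ x, mo φ A x * ‖fderiv ℝ χ x‖ * J x ≤
          ∫ x in closedBall (0 : Euc (n + 1)) (2 * R), C / R * (|mo φ A x - ind x| * J x) +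
            C / R * (ind x * J x) := by
        rw [← setIntegral_eq_integral_of_forall_compl_eq_zero
          (s := closedBall (0 : Euc (n + 1)) (2 * R)) (fun x hx => by
            rw [hDχout x hx, norm_zero, mul_zero, zero_mul])]
        refine setIntegral_mono_on ?_ ?_ measurableSet_closedBall fun x hx => ?_
        · exact (hc2.mul hJc).continuousOn.integrableOn_compact hKc
        · exact ((hInt1 φ hmoC.continuous.measurable).const_mul _).add (hInt2.const_mul _)
        · have h1 : mo φ A x ≤ |mo φ A x - ind x| + ind x := by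
            linarith [le_abs_self (mo φ A x - ind x)]
          have h4 := hJ0 x
          have h5 := hmo0 x
          have h6 : 0 ≤ C / R := by positivity
          calc mo φ A x * ‖fderiv ℝ χ x‖ * J x ≤ mo φ A x * (C / R) * J x := by
                gcongr
                exact hχd x
            _ ≤ (|mo φ A x - ind x| + ind x) * (C / R) * J x := by gcongr
            _ = _ := by ring
      refine f1.trans ?_
      rw [integral_add ((hInt1 φ hmoC.continuous.measurable).const_mul _) (hInt2.const_mul _),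
        integral_const_mul, integral_const_mul, ← mul_add]
      have f2 : ∫ x in closedBall (0 : Euc (n + 1)) (2 * R), ind x * J x ≤ M := by
        rw [hM, ← integral_indicator hA.measurableSet]
        have f3 : ∀ x, ind x * J x = A.indicator J x := by
          intro x
          by_cases hx : x ∈ A <;> simp [hind, hx]
        simp only [f3]
        refine setIntegral_le_integral (hvol.integrable_indicator hA.measurableSet)
          (Eventually.of_forall fun x => indicator_nonneg (fun x _ => (hJ0 x).le) x)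
      have f4 : 0 ≤ C / R := by positivity
      have f5 := hk2.trans (min_le_left _ _)
      refine mul_le_mul_of_nonneg_left ?_ f4
      linarith
    rw [e1]
    linarith
  · -- `L¹` distance
    have hdom : ∀ x, |χ x * mo φ A x - ind x| * J x ≤
        (closedBall (0 : Euc (n + 1)) (2 * R)).indicator (fun x => |mo φ A x - ind x| * J x) x +
          (A \ closedBall (0 : Euc (n + 1)) R).indicator J x := by
      intro x
      have hJx := (hJ0 x).le
      by_cases h2 : x ∈ closedBall (0 : Euc (n + 1)) (2 * R)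
      · rw [indicator_of_mem h2]
        by_cases h1 : x ∈ closedBall (0 : Euc (n + 1)) R
        · rw [hχ1 x (mem_closedBall_zero_iff.1 h1), one_mul]
          have := indicator_nonneg (s := A \ closedBall (0 : Euc (n + 1)) R) (f := J)
            (fun x _ => (hJ0 x).le) x
          linarith
        · have h3 : |χ x * mo φ A x - ind x| ≤ |mo φ A x - ind x| + ind x := by
            have e : χ x * mo φ A x - ind x = χ x * (mo φ A x - ind x) + -((1 - χ x) * ind x) := by
              ring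
            rw [e]
            refine (abs_add_le _ _).trans ?_
            rw [abs_neg, abs_mul, abs_mul, abs_of_nonneg (hχ01 x).1,
              abs_of_nonneg (hind01 x).1, abs_of_nonneg (sub_nonneg.2 (hχ01 x).2)]
            have g1 : χ x * |mo φ A x - ind x| ≤ |mo φ A x - ind x| :=
              mul_le_of_le_one_left (abs_nonneg _) (hχ01 x).2
            have g2 : (1 - χ x) * ind x ≤ ind x :=
              mul_le_of_le_one_left (hind01 x).1 (by linarith [(hχ01 x).1])
            linarith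
          have h4 : (A \ closedBall (0 : Euc (n + 1)) R).indicator J x = ind x * J x := by
            by_cases hA' : x ∈ A
            · rw [indicator_of_mem (show x ∈ A \ closedBall 0 R from ⟨hA', h1⟩)]; simp [hind, hA']
            · rw [indicator_of_notMem (fun h => hA' h.1)]; simp [hind, hA']
          rw [h4, ← add_mul]
          exact mul_le_mul_of_nonneg_right h3 hJx
      · have h1 : x ∉ closedBall (0 : Euc (n + 1)) R := by
          rw [mem_closedBall_zero_iff] at h2 ⊢
          linarith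
        have h4 : (A \ closedBall (0 : Euc (n + 1)) R).indicator J x = ind x * J x := by
          by_cases hA' : x ∈ A
          · rw [indicator_of_mem (show x ∈ A \ closedBall 0 R from ⟨hA', h1⟩)]; simp [hind, hA']
          · rw [indicator_of_notMem (fun h => hA' h.1)]; simp [hind, hA']
        rw [indicator_of_notMem h2, h4, hχout x h2]
        simp [abs_of_nonneg (hind01 x).1]
    have hI1 : Integrable ((closedBall (0 : Euc (n + 1)) (2 * R)).indicator
        (fun x => |mo φ A x - ind x| * J x)) :=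
      (hInt1 φ hmoC.continuous.measurable).integrable_indicator measurableSet_closedBall
    have hI2 : Integrable ((A \ closedBall (0 : Euc (n + 1)) R).indicator J) :=
      (hvol.mono_set sdiff_subset).integrable_indicator
        (hA.measurableSet.diff measurableSet_closedBall)
    have hnn : ∀ x, 0 ≤ |χ x * mo φ A x - ind x| * J x := fun x =>
      mul_nonneg (abs_nonneg _) (hJ0 x).le
    refine ⟨Integrable.mono' (hI1.add hI2) ?_ (Eventually.of_forall fun x => ?_), ?_⟩
    · exact ((((hχs.continuous.measurable.mul hmoC.continuous.measurable).sub hindm).norm).mul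
        hJc.measurable).aestronglyMeasurable
    · rw [Real.norm_of_nonneg (hnn x)]
      exact hdom x
    · calc ∫ x, |χ x * mo φ A x - ind x| * J x
          ≤ ∫ x, ((closedBall (0 : Euc (n + 1)) (2 * R)).indicator
              (fun x => |mo φ A x - ind x| * J x) x +
              (A \ closedBall (0 : Euc (n + 1)) R).indicator J x) :=
            integral_mono_of_nonneg (Eventually.of_forall hnn) (hI1.add hI2)
              (Eventually.of_forall hdom)
        _ = (∫ x in closedBall (0 : Euc (n + 1)) (2 * R), |mo φ A x - ind x| * J x) +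
              ∫ x in A \ closedBall (0 : Euc (n + 1)) R, J x := by
            rw [integral_add hI1 hI2, integral_indicator measurableSet_closedBall,
              integral_indicator (hA.measurableSet.diff measurableSet_closedBall)]
        _ ≤ ε / 2 + ε / 2 := add_le_add (hk2.trans (min_le_right _ _)) hR2
        _ = ε := by ring

open Crest.GeometryTopology.Submanifold (relBoundary) in
/-- the relative boundary in the chart. -/
theorem relBoundary_eq (hemb : Topology.IsClosedEmbedding ψ) {S E : Set (Euc N)} (hS : range ψ = S)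
    (hE : E ⊆ S) : relBoundary S E = ψ '' frontier (ψ ⁻¹' E) := by
  subst hS
  have h1 : ψ '' (ψ ⁻¹' E) = E := by
    rw [image_preimage_eq_inter_range, inter_eq_left.2 hE]
  have h2 : ψ '' (ψ ⁻¹' E)ᶜ = range ψ \ E := by
    rw [image_compl_eq_range_sdiff_image hemb.injective, h1]
  unfold relBoundary
  rw [frontier_eq_closure_inter_closure, image_inter hemb.injective,
    ← hemb.closure_image_eq, ← hemb.closure_image_eq, h1, h2]

open Crest.GeometryTopology.Submanifold (relBoundary) in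
/-- **(L-C)** for a relatively open subset `E` of `S = ψ(ℝ^{n+1})`. -/
theorem approx_set (hψ : ContDiff ℝ ∞ ψ) (hemb : Topology.IsClosedEmbedding ψ)
    (hge : ∀ x w, ‖w‖ ≤ ‖fderiv ℝ ψ x w‖) {S E : Set (Euc N)} (hS : range ψ = S) (hES : E ⊆ S)
    (hE : ∃ U : Set (Euc N), IsOpen U ∧ E = S ∩ U)
    (hP : μHE[n] (relBoundary S E) ≠ ⊤) (hvol : μHE[n + 1] E ≠ ⊤) {ε : ℝ} (hε : 0 < ε) :
    ∃ u c : Euc (n + 1) → ℝ, ContDiff ℝ ∞ u ∧ HasCompactSupport u ∧ (∀ x, 0 ≤ u x ∧ u x ≤ 1) ∧
      Continuous c ∧ HasCompactSupport c ∧ (∀ x, 0 ≤ c x) ∧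
      (∀ x w, |fderiv ℝ u x w| ≤ c x * ‖fderiv ℝ ψ x w‖) ∧
      ∫ x, c x * AF.jac (fderiv ℝ ψ x) ≤ (μHE[n] (relBoundary S E)).toReal + ε ∧
      Integrable (fun x => |u x - (ψ ⁻¹' E).indicator (fun _ => (1 : ℝ)) x| *
        AF.jac (fderiv ℝ ψ x)) ∧
      ∫ x, |u x - (ψ ⁻¹' E).indicator (fun _ => (1 : ℝ)) x| * AF.jac (fderiv ℝ ψ x) ≤ ε := by
  have hψ1 : ContDiff ℝ 1 ψ := hψ.of_le (by exact_mod_cast le_top)
  have hA : IsOpen (ψ ⁻¹' E) := by
    obtain ⟨U, hU, rfl⟩ := hE
    rw [preimage_inter, ← hS, preimage_range, univ_inter]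
    exact hU.preimage hemb.continuous
  have hb := relBoundary_eq hemb hS hES
  rw [hb] at hP ⊢
  have himg : ψ '' (ψ ⁻¹' E) = E := by
    rw [image_preimage_eq_inter_range, hS, inter_eq_left.2 hES]
  refine approx hψ hemb.injective hge hA hP ?_ hε
  have hJc := continuous_jac' hψ1
  refine ⟨hJc.aestronglyMeasurable, ?_⟩
  rw [hasFiniteIntegral_iff_ofReal (Eventually.of_forall fun x => AF.jac_nonneg _)]
  have h := AF.lintegral_jac_eq_muHE_image (U := Euc (n + 1)) (V := Euc N) (f := ψ)
    (f' := fun x => fderiv ℝ ψ x) hA.measurableSet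
    (fun x _ => (hψ1.differentiable one_ne_zero x).hasFDerivAt.hasFDerivWithinAt)
    hemb.injective.injOn
  rw [h, himg]
  simpa using lt_top_iff_ne_top.2 hvol

end Bound

end Crest.Agent.R241.LC
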