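import Crest.Agent.R241.CBall_534
import Crest.Agent.R241.CCone_534
import Crest.Agent.R241.B9Final992
import Crest.Agent.R241.AAll723
import Crest.Agent.R241.D5e
import Crest.Agent.R241.EFinal576
import Crest.Agent.R241.Cut882
import Crest.Agent.R241.Surf576

/-!
# R241: final assembly of S0372 and S0373 from the two surface statements (helper882)
-/

set_option autoImplicit false

open MeasureTheory Filter Topology Set
open scoped ENNReal NNReal

namespace Crest.Agent.R241.Final882

open Crest.GeometryTopology.Submanifold

theorem ballInputs : E4.BallInputs :=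
  CBall.e4BallInputs B9Final.fvarAll CBall.coneAll AAll723.aAll

theorem fillInputs : E4.FillInputs := E4.fillInputs_of ballInputs

theorem fillEqInputs : E5.FillEqInputs :=
  E5.fillEqInputs_of ballInputs (CBall.e5EqInputs AAll723.aeqAll)

/-- `S0372` in every dimension `n ≥ 3`. -/
theorem stmt372 {n : ℕ} (hn : 3 ≤ n) : E4.Stmt n :=
  E4.stmt_of_three_le D5e.chTarget EFinal.chainTarget Cut882.cutTarget fillInputs hn

/-- `S0373` in every dimension `n ≥ 3`. -/
theorem stmt373 {n : ℕ} (hn : 3 ≤ n) : E5.Stmt n :=
  E5.stmt_of_three_le D5e.chTarget EFinal.chainTarget fillInputs fillEqInputs hn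

end Crest.Agent.R241.Final882
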