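import Crest.Agent.R241.Surf373a

/-!
# R241, block L-D (helper734): the surface case `n = 2` of S0373.
-/

set_option autoImplicit false

open MeasureTheory MeasureTheory.Measure Filter Topology Set
open scoped ENNReal NNReal ContDiff

namespace Crest.Agent.R241.Surf373

open Crest.GeometryTopology.Submanifold
open Crest.Agent.R241.LSob

lemma unitBallVol_two : unitBallVol 2 = Real.pi := by
  unfold unitBallVol
  rw [EuclideanSpace.volume_ball_fin_two]
  simp [Real.pi_pos.le]

lemma modelVolume_two (r : ℝ) : modelVolume 2 0 r = Real.pi * r ^ 2 := by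
  rw [E5c.modelVolume_zero (by norm_num), unitBallVol_two]

lemma modelArea_two (r : ℝ) : modelArea 2 0 r = 2 * Real.pi * r := by
  unfold modelArea unitSphereArea
  rw [unitBallVol_two]
  simp [snk]

section model

variable {N : ℕ} {k : ℝ} {S : Set (Euc N)} {X : Type} [MetricSpace X]

/-- The frontier in the chart is not longer than the relative boundary. -/
theorem muHE_frontier_le (M : CHModel 2 N k S X) (p : X) (hclosed : IsClosed S)
    {E : Set (Euc N)} (hES : E ⊆ S) :
    μHE[1] (frontier (psi M p ⁻¹' E)) ≤ μHE[1] (relBoundary S E) := by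
  have hemb := closedEmb M p hclosed
  rw [LC.relBoundary_eq hemb (range_psi M p) hES]
  set F := frontier (psi M p ⁻¹' E) with hF
  set f : Euc N → Euc 2 := Function.invFun (psi M p) with hf
  have hfp : ∀ v, f (psi M p v) = v := Function.leftInverse_invFun (inj_psi M p)
  have himg : f '' (psi M p '' F) = F := by
    rw [image_image]
    simp only [hfp, image_id']
  have h := AF.muHE_image_le_of_local (f := f) (s := psi M p '' F) 1 ?_
  · rw [himg] at h
    exact h
  · rintro _ ⟨v₀, -, rfl⟩ K hK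
    obtain ⟨δ, hδ, hloc⟩ := M.ι_loc (M.e p v₀) ((K : ℝ) - 1) (by
      have : (1 : ℝ) < K := by exact_mod_cast hK
      linarith)
    have hcont : Filter.Tendsto M.ι (𝓝 (M.e p v₀)) (𝓝 (M.ι (M.e p v₀))) :=
      M.ι_emb.continuous.continuousAt
    obtain ⟨ρ, hρ, hball⟩ : ∃ ρ > 0, ∀ a : X, dist (M.ι a) (M.ι (M.e p v₀)) < ρ →
        dist a (M.e p v₀) < δ := by
      have h1 : Metric.ball (M.e p v₀) δ ∈ 𝓝 (M.e p v₀) := Metric.ball_mem_nhds _ hδ
      rw [M.ι_emb.isInducing.nhds_eq_comap] at h1
      obtain ⟨t, ht, hts⟩ := h1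
      obtain ⟨ρ, hρ, hρt⟩ := Metric.mem_nhds_iff.1 ht
      exact ⟨ρ, hρ, fun a ha => hts (hρt ha)⟩
    refine ⟨ρ, hρ, LipschitzOnWith.of_dist_le_mul ?_⟩
    rintro _ ⟨⟨v, -, rfl⟩, hv⟩ _ ⟨⟨w, -, rfl⟩, hw⟩
    rw [hfp, hfp]
    have h1 := hloc (M.e p v) (M.e p w) (hball _ hv) (hball _ hw)
    have h2 := M.e_expand p v w
    rw [dist_eq_norm]
    refine h2.trans (h1.trans (le_of_eq ?_))
    simp only [psi]
    ring

end model

/-- **L-D**: the surface case of S0373. -/
theorem surface_373 (hSob : SobTarget) : E5.Stmt 2 := by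
  intro N S hS hclosed hconn hsc hsec E hES hEc hopen r hr hvol harea
  rw [modelVolume_two] at hvol
  have harea' : μHE[1] (relBoundary S E) ≤ ENNReal.ofReal (2 * Real.pi * r) := by
    rw [← modelArea_two]; exact harea.le
  have hPi := Real.pi_pos
  obtain ⟨X, _, _, _, M, hM⟩ := hSob N 0 le_rfl S hS hclosed hconn hsc (by
    intro p hp f V hf u v
    have := hsec p hp f V hf u v
    simpa using this)
  obtain ⟨p⟩ := (inferInstance : Nonempty X)
  obtain ⟨W, hW⟩ := hM p
  have hnull := kernel_null M p hW hclosed hES hopen hr hvol harea'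
  have hAo := isOpen_preimage M p hopen
  -- a base point in `E`
  have hne : (psi M p ⁻¹' E).Nonempty := by
    by_contra hcon
    rw [not_nonempty_iff_eq_empty] at hcon
    have h1 := muHE_eq M p hES hopen
    rw [hcon, hvol] at h1
    simp only [Measure.restrict_empty, lintegral_zero_measure] at h1
    rw [ENNReal.ofReal_eq_zero] at h1
    have : 0 < Real.pi * r ^ 2 := by positivity
    linarith
  obtain ⟨z₀, hz₀⟩ := hne
  set x₀ := M.e p z₀ with hx₀
  set B := psi M x₀ ⁻¹' E with hB
  have hBo : IsOpen B := isOpen_preimage M x₀ hopen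
  -- the chart at `x₀` is isometric at the points of `B`
  have hiso : ∀ v ∈ B, metricMat (psi M x₀) v = 1 := by
    intro v hv
    obtain ⟨w₀, hw₀⟩ := (M.e_bij p).2 (M.e x₀ v)
    have hw₀A : w₀ ∈ psi M p ⁻¹' E := by
      change M.ι (M.e p w₀) ∈ E
      rw [hw₀]
      exact hv
    have h1 := hW.rigid rfl (psi M p ⁻¹' E) hAo hnull z₀ hz₀ w₀ hw₀A v hw₀.symm 1
      ⟨zero_le_one, le_rfl⟩
    rwa [one_smul] at h1
  -- volume
  have hvolB : volume B = ENNReal.ofReal (Real.pi * r ^ 2) := by
    rw [← hvol, muHE_eq M x₀ hES hopen]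
    have h1 : ∫⁻ z in psi M x₀ ⁻¹' E, ENNReal.ofReal (dn M x₀ z) =
        ∫⁻ _ in psi M x₀ ⁻¹' E, 1 := by
      refine setLIntegral_congr_fun hBo.measurableSet fun z hz => ?_
      simp only [dn, hiso z hz, Matrix.det_one, Real.sqrt_one, ENNReal.ofReal_one]
    rw [h1, setLIntegral_one]
  -- boundedness
  have hbd : Bornology.IsBounded B := by
    have h1 : IsCompact (psi M x₀ ⁻¹' closure E) :=
      (closedEmb M x₀ hclosed).isCompact_preimage hEc
    exact h1.isBounded.subset (preimage_mono subset_closure)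
  -- the planar equality case
  obtain ⟨c, hc⟩ := LP.planarEq B r hBo hbd hr hvolB
    ((muHE_frontier_le M x₀ hclosed hES).trans harea')
  -- the parametrisation
  set Ψ : Euc 2 → Euc N := fun v => psi M x₀ (c + v) with hΨ
  have hΨs : ContDiff ℝ ∞ Ψ := (contDiff_psi M x₀).comp (contDiff_const.add contDiff_id)
  have himg : Ψ '' Metric.ball 0 r = psi M x₀ '' Metric.ball c r := by
    ext y
    constructor
    · rintro ⟨v, hv, rfl⟩
      refine ⟨c + v, ?_, rfl⟩
      rw [Metric.mem_ball, dist_eq_norm] at hv ⊢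
      simpa using hv
    · rintro ⟨v, hv, rfl⟩
      refine ⟨v - c, ?_, ?_⟩
      · rw [Metric.mem_ball, dist_eq_norm] at hv ⊢
        simpa using hv
      · simp [hΨ]
  refine E5c.finish (by norm_num) hr (by rw [modelVolume_two]; exact hvol) hΨs ?_ ?_ ?_ ?_
  · intro v w hvw
    have h1 := inj_psi M x₀ hvw
    simpa using h1
  · have hemb := (closedEmb M x₀ hclosed).isInducing
    obtain ⟨U, hU, hUe⟩ := hemb.isOpen_iff.1 (Metric.isOpen_ball (x := c) (ε := r))
    refine ⟨U, hU, ?_⟩
    rw [himg, ← hUe, image_preimage_eq_inter_range, range_psi, inter_comm]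
  · intro v w
    have h1 : fderiv ℝ Ψ v = fderiv ℝ (psi M x₀) (c + v) := by
      simp only [hΨ]
      exact fderiv_comp_add_left c
    rw [h1]
    exact M.fderiv_ge x₀ (c + v) w
  · rw [himg]
    have h1 : symmDiff E (psi M x₀ '' Metric.ball c r) =
        psi M x₀ '' symmDiff B (Metric.ball c r) := by
      rw [image_symmDiff (inj_psi M x₀), hB, image_preimage_psi M x₀ hES]
    rw [h1]
    have h2 := AF.muHE_image_null (U := Euc 2) (V := Euc N) (f := psi M x₀)
      (s := symmDiff B (Metric.ball c r))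
      ((contDiff_psi M x₀).differentiable (by simp)).differentiableOn hc
    rw [AF.finrank_Euc] at h2
    exact h2

end Crest.Agent.R241.Surf373
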