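import Crest.Agent.R241.Final882
import Crest.Agent.R241.Surf373

/-!
# R241: S0372 and S0373 from the surface Sobolev inequality `LSob.SobTarget` (helper882)
-/

set_option autoImplicit false

open MeasureTheory Filter Topology Set
open scoped ENNReal NNReal

namespace Crest.Agent.R241.FinalB882

open Crest.GeometryTopology.Submanifold

/-- `S0372` in every dimension. -/
theorem stmt372 (h : LSob.SobTarget) {n : ℕ} (hn : 2 ≤ n) : E4.Stmt n := by
  rcases Nat.lt_or_ge 2 n with h3 | h2
  · exact Final882.stmt372 h3
  · obtain rfl : n = 2 := le_antisymm h2 hn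
    exact Surf576.surface_372 h

/-- `S0373` in every dimension. -/
theorem stmt373 (h : LSob.SobTarget) {n : ℕ} (hn : 2 ≤ n) : E5.Stmt n := by
  rcases Nat.lt_or_ge 2 n with h3 | h2
  · exact Final882.stmt373 h3
  · obtain rfl : n = 2 := le_antisymm h2 hn
    exact Surf373.surface_373 h

end Crest.Agent.R241.FinalB882
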