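import Crest.Agent.R241.G1c

/-!
R241, block G1d: the chain rule in one coordinate, Leibniz rule, alternation.
-/

set_option autoImplicit false
set_option linter.unusedSectionVars false

open MeasureTheory Filter Topology
open scoped ENNReal NNReal

namespace Crest.Agent.R241.G1

open Crest.GeometryTopology.MetricCurrent

universe u

variable {X : Type u} [MetricSpace X] [MeasurableSpace X] [BorelSpace X]
variable {k : ℕ} {T : Functional X k}

/-- A functional which is small on functions supported in small pieces vanishes. -/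
theorem eq_zero_of_local {N : ℕ} (μ : Measure X) [IsFiniteMeasure μ] {P : X → (Fin N → ℝ)}
    (hP : Continuous P) (Δ : (X → ℝ) → ℝ)
    (hadd : ∀ f g, BM f → BM g → Δ (f + g) = Δ f + Δ g)
    (hlim : ∀ (f : X → ℝ) (g : ℕ → X → ℝ) (C : ℝ), BM f → (∀ n, BM (g n)) →
      (∀ n x, |g n x| ≤ C) → (∀ x, Tendsto (fun n => g n x) atTop (𝓝 (f x))) →
      Tendsto (fun n => Δ (g n)) atTop (𝓝 (Δ f)))
    (hloc : ∀ R : ℝ, 0 < R → ∀ ω : ℝ, 0 < ω → ∃ δ : ℝ, 0 < δ ∧ ∀ (c : Fin N → ℝ) (f : X → ℝ),
      BM f → (∀ x, f x ≠ 0 → ‖P x‖ ≤ R ∧ dist (P x) c < δ) → |Δ f| ≤ ω * ∫ x, |f x| ∂μ)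
    {f : X → ℝ} (hf : BM f) : Δ f = 0 := by
  have hzero : Δ 0 = 0 := by
    have := hadd 0 0 (BM.const 0) (BM.const 0)
    simp only [add_zero] at this
    linarith
  -- step A : bounded case
  have stepA : ∀ R : ℝ, 0 < R → ∀ f : X → ℝ, BM f → (∀ x, f x ≠ 0 → ‖P x‖ ≤ R) → Δ f = 0 := by
    intro R hR f hf hfR
    have key : ∀ ω : ℝ, 0 < ω → |Δ f| ≤ ω * ∫ x, |f x| ∂μ := by
      intro ω hω
      obtain ⟨δ, hδ, hloc'⟩ := hloc R hR ω hω
      let d : ℕ → (Fin N → ℝ) := TopologicalSpace.denseSeq (Fin N → ℝ)
      let A : ℕ → Set X := fun n => P ⁻¹' (Metric.ball (d n) δ)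
      let B : ℕ → Set X := disjointed A
      have hA : ∀ n, MeasurableSet (A n) := fun n => (Metric.isOpen_ball.preimage hP).measurableSet
      have hB : ∀ n, MeasurableSet (B n) := MeasurableSet.disjointed hA
      have hcov : ∀ x, ∃ n, x ∈ A n := by
        intro x
        obtain ⟨n, hn⟩ := (TopologicalSpace.denseRange_denseSeq (Fin N → ℝ)).exists_dist_lt (P x) hδ
        exact ⟨n, hn⟩
      have hcovB : ∀ x, ∃ n, x ∈ B n := by
        intro x
        obtain ⟨n, hn⟩ := hcov x
        have h1 : x ∈ ⋃ n, B n := by
          rw [iUnion_disjointed]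
          exact Set.mem_iUnion.2 ⟨n, hn⟩
        exact Set.mem_iUnion.1 h1
      let F : ℕ → X → ℝ := fun M => ∑ n ∈ Finset.range M, (B n).indicator f
      have hFM : ∀ M, BM (F M) := fun M => BM.sum _ fun n _ => hf.indicator (hB n)
      have hdisj : Pairwise (Function.onFun Disjoint B) := disjoint_disjointed A
      have hFval : ∀ M x, F M x = (⋃ n ∈ Finset.range M, B n).indicator f x := by
        intro M x
        rw [Finset.indicator_biUnion_apply]
        · simp [F]
        · intro i _ j _ hij
          exact hdisj hij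
      have hFabs : ∀ M x, |F M x| ≤ |f x| := by
        intro M x
        rw [hFval]
        by_cases hx : x ∈ ⋃ n ∈ Finset.range M, B n
        · rw [Set.indicator_of_mem hx]
        · rw [Set.indicator_of_notMem hx]; simp
      obtain ⟨C, hC⟩ := hf.2
      have hlimF : Tendsto (fun M => Δ (F M)) atTop (𝓝 (Δ f)) := by
        apply hlim f F C hf hFM (fun M x => (hFabs M x).trans (hC x))
        intro x
        obtain ⟨n, hn⟩ := hcovB x
        apply tendsto_atTop_of_eventually_const (i₀ := n + 1)
        intro M hM
        rw [hFval, Set.indicator_of_mem]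
        simp only [Set.mem_iUnion, Finset.mem_range]
        exact ⟨n, by omega, hn⟩
      have hΔF : ∀ M, Δ (F M) = ∑ n ∈ Finset.range M, Δ ((B n).indicator f) := by
        intro M
        induction M with
        | zero => simp [F, hzero]
        | succ M ih =>
          have : F (M + 1) = F M + (B M).indicator f := by
            simp only [F, Finset.sum_range_succ]
          rw [this, hadd _ _ (hFM M) (hf.indicator (hB M)), ih, Finset.sum_range_succ]
      have hbound : ∀ M, |Δ (F M)| ≤ ω * ∫ x, |f x| ∂μ := by
        intro M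
        rw [hΔF]
        refine (Finset.abs_sum_le_sum_abs _ _).trans ?_
        calc ∑ n ∈ Finset.range M, |Δ ((B n).indicator f)|
            ≤ ∑ n ∈ Finset.range M, ω * ∫ x, |(B n).indicator f x| ∂μ := by
              apply Finset.sum_le_sum
              intro n _
              apply hloc' (d n) _ (hf.indicator (hB n))
              intro x hx
              have hxB : x ∈ B n := by
                by_contra hcon
                exact hx (Set.indicator_of_notMem hcon _)
              have hfx : f x ≠ 0 := by
                rw [Set.indicator_of_mem hxB] at hx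
                exact hx
              exact ⟨hfR x hfx, disjointed_subset A n hxB⟩
          _ = ω * ∑ n ∈ Finset.range M, ∫ x, |(B n).indicator f x| ∂μ := by rw [Finset.mul_sum]
          _ = ω * ∫ x, ∑ n ∈ Finset.range M, |(B n).indicator f x| ∂μ := by
              rw [integral_finsetSum]
              intro n _
              exact (hf.indicator (hB n)).abs.integrable μ
          _ ≤ ω * ∫ x, |f x| ∂μ := by
              apply mul_le_mul_of_nonneg_left _ hω.le
              apply integral_mono_of_nonneg
              · exact Eventually.of_forall fun x => Finset.sum_nonneg fun n _ => abs_nonneg _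
              · exact hf.abs.integrable μ
              · refine Eventually.of_forall fun x => ?_
                have h2 : ∑ n ∈ Finset.range M, |(B n).indicator f x|
                    = |F M x| := by
                  rw [hFval, Finset.indicator_biUnion_apply _ _ (fun i _ j _ hij => hdisj hij)]
                  by_cases hex : ∃ n ∈ Finset.range M, x ∈ B n
                  · obtain ⟨n, hn, hxn⟩ := hex
                    have h0 : ∀ m ∈ Finset.range M, m ≠ n → x ∉ B m := fun m _ hmn hxm =>
                      (Set.disjoint_left.1 (hdisj hmn)) hxm hxn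
                    rw [Finset.sum_eq_single n
                      (fun m hm hmn => by simp [Set.indicator_of_notMem (h0 m hm hmn)])
                      (fun h => absurd hn h)]
                    rw [Finset.sum_eq_single n
                      (fun m hm hmn => by simp [Set.indicator_of_notMem (h0 m hm hmn)])
                      (fun h => absurd hn h)]
                  · push Not at hex
                    rw [Finset.sum_eq_zero (fun m hm => by
                      simp [Set.indicator_of_notMem (hex m hm)])]
                    rw [Finset.sum_eq_zero (fun m hm => by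
                      simp [Set.indicator_of_notMem (hex m hm)])]
                    simp
                simp only [h2]
                exact hFabs M x
      exact le_of_tendsto' hlimF.abs hbound
    have h0 : |Δ f| ≤ 0 := by
      have hI : 0 ≤ ∫ x, |f x| ∂μ := integral_nonneg fun x => abs_nonneg _
      apply le_of_forall_pos_le_add
      intro ε hε
      have := key (ε / ((∫ x, |f x| ∂μ) + 1)) (by positivity)
      refine this.trans ?_
      rw [zero_add, div_mul_eq_mul_div, div_le_iff₀ (by positivity)]
      nlinarith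
    exact abs_eq_zero.1 (le_antisymm h0 (abs_nonneg _))
  -- step B : general case
  obtain ⟨C, hC⟩ := hf.2
  let G : ℕ → X → ℝ := fun n => (P ⁻¹' (Metric.closedBall 0 ((n : ℝ) + 1))).indicator f
  have hGm : ∀ n, MeasurableSet (P ⁻¹' (Metric.closedBall (0 : Fin N → ℝ) ((n : ℝ) + 1))) :=
    fun n => (Metric.isClosed_closedBall.preimage hP).measurableSet
  have hG : ∀ n, BM (G n) := fun n => hf.indicator (hGm n)
  have h1 : ∀ n, Δ (G n) = 0 := by
    intro n
    apply stepA ((n : ℝ) + 1) (by positivity) _ (hG n)
    intro x hx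
    by_contra hcon
    apply hx
    apply Set.indicator_of_notMem
    simpa using hcon
  have h2 : Tendsto (fun n => Δ (G n)) atTop (𝓝 (Δ f)) := by
    apply hlim f G |C| hf hG
    · intro n x
      by_cases hx : x ∈ P ⁻¹' (Metric.closedBall (0 : Fin N → ℝ) ((n : ℝ) + 1))
      · simp only [G, Set.indicator_of_mem hx]
        exact (hC x).trans (le_abs_self C)
      · simp only [G, Set.indicator_of_notMem hx]
        simp
    · intro x
      obtain ⟨n, hn⟩ := exists_nat_ge ‖P x‖
      apply tendsto_atTop_of_eventually_const (i₀ := n)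
      intro M hM
      apply Set.indicator_of_mem
      simp only [Set.mem_preimage, Metric.mem_closedBall, dist_zero_right]
      have : (n : ℝ) ≤ M := by exact_mod_cast hM
      linarith
  simp only [h1] at h2
  exact (tendsto_nhds_unique h2 tendsto_const_nhds)

/-- chain rule in one coordinate, `C¹` function of `N` Lipschitz variables -/
theorem ext_chain (hT : IsCurrent T) {f : X → ℝ} (hf : BM f) {σ : Fin k → X → ℝ} (hσ : LipT σ)
    (j : Fin k) {N : ℕ} {p : Fin N → X → ℝ} (hp : LipT p) {g : (Fin N → ℝ) → ℝ}
    (hg : ContDiff ℝ 1 g) (hgl : ∃ K : ℝ≥0, LipschitzWith K (fun x => g (fun i => p i x)))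
    (hb : ∀ i, ∃ C : ℝ, ∀ x, |fderiv ℝ g (fun l => p l x) (Pi.single i 1)| ≤ C) :
    ext T f (Function.update σ j (fun x => g (fun i => p i x))) =
      ∑ i, ext T (fun x => f x * fderiv ℝ g (fun l => p l x) (Pi.single i 1))
        (Function.update σ j (p i)) := by
  classical
  choose Kσ hKσ using hσ
  choose Kp hKp using hp
  have hσ : LipT σ := fun i => ⟨_, hKσ i⟩
  have hp : LipT p := fun i => ⟨_, hKp i⟩
  set P : X → (Fin N → ℝ) := fun x i => p i x with hPdef
  have hPc : Continuous P := continuous_pi fun i => (hKp i).continuous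
  set L : ℝ≥0 := ∑ i, Kp i with hL
  have hKL : ∀ i, Kp i ≤ L := fun i =>
    Finset.single_le_sum (f := Kp) (fun i _ => zero_le) (Finset.mem_univ i)
  have hPL : ∀ x y, dist (P x) (P y) ≤ L * dist x y := by
    intro x y
    rw [dist_pi_le_iff (by positivity)]
    intro i
    exact ((hKp i).dist_le_mul x y).trans
      (mul_le_mul_of_nonneg_right (NNReal.coe_le_coe.2 (hKL i)) dist_nonneg)
  have hDc : Continuous (fderiv ℝ g) := hg.continuous_fderiv one_ne_zero
  have hDm : ∀ i, BM (fun x => fderiv ℝ g (P x) (Pi.single i 1)) := by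
    intro i
    obtain ⟨C, hC⟩ := hb i
    exact ⟨((hDc.comp hPc).clm_apply continuous_const).measurable, C, hC⟩
  have hfD : ∀ (f : X → ℝ), BM f → ∀ i, BM (fun x => f x * fderiv ℝ g (P x) (Pi.single i 1)) :=
    fun f hf i => hf.mul (hDm i)
  set μ := ctrl T with hμ
  set Q : ℝ := ∏ i ∈ Finset.univ \ {j}, (Kσ i : ℝ) with hQ
  have hQ0 : 0 ≤ Q := Finset.prod_nonneg fun i _ => (Kσ i).coe_nonneg
  -- the difference functional
  let Δ : (X → ℝ) → ℝ := fun f => ext T f (Function.update σ j (fun x => g (P x))) -
    ∑ i, ext T (fun x => f x * fderiv ℝ g (P x) (Pi.single i 1)) (Function.update σ j (p i))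
  suffices h : Δ f = 0 by
    simp only [Δ] at h
    linarith
  apply eq_zero_of_local μ hPc Δ ?_ ?_ ?_ hf
  · intro f f' hf hf'
    simp only [Δ]
    rw [ext_add hf hf']
    have : ∀ i, ext T (fun x => (f + f') x * fderiv ℝ g (P x) (Pi.single i 1))
        (Function.update σ j (p i)) = ext T (fun x => f x * fderiv ℝ g (P x) (Pi.single i 1))
        (Function.update σ j (p i)) + ext T (fun x => f' x * fderiv ℝ g (P x) (Pi.single i 1))
        (Function.update σ j (p i)) := by
      intro i
      rw [← ext_add (hfD f hf i) (hfD f' hf' i)]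
      congr 1
      funext x
      simp only [Pi.add_apply]; ring
    simp only [this, Finset.sum_add_distrib]
    ring
  · intro f G C hf hG hC hlim
    simp only [Δ]
    apply Tendsto.sub
    · exact ext_tendsto hf.1 (fun n => (hG n).1) hC hlim _
    · apply tendsto_finsetSum
      intro i _
      obtain ⟨C', hC'⟩ := (hDm i).2
      apply ext_tendsto (hfD f hf i).1 (fun n => (hfD _ (hG n) i).1) (C := |C| * |C'|)
      · intro n x
        rw [abs_mul]
        exact mul_le_mul ((hC n x).trans (le_abs_self C)) ((hC' x).trans (le_abs_self C'))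
          (abs_nonneg _) (abs_nonneg _)
      · exact fun x => (hlim x).mul_const _
  · intro R hR ω hω
    -- uniform continuity of the derivative on the closed ball
    set ω' : ℝ := ω / (((N : ℝ) + 1) * (Q * (L + 1)) + 1) with hω'
    have hω'0 : 0 < ω' := by positivity
    have huc : UniformContinuousOn (fderiv ℝ g) (Metric.closedBall 0 R) :=
      (isCompact_closedBall 0 R).uniformContinuousOn_of_continuous hDc.continuousOn
    obtain ⟨δ', hδ', hδ''⟩ := Metric.uniformContinuousOn_iff_le.1 huc ω' hω'0
    refine ⟨δ' / 2, by positivity, fun c f hf hfs => ?_⟩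
    have hI : 0 ≤ ∫ x, |f x| ∂μ := integral_nonneg fun x => abs_nonneg _
    by_cases hne : ∃ x0, f x0 ≠ 0
    swap
    · push Not at hne
      have : f = 0 := funext hne
      subst this
      have h0 : ∀ π : Fin k → X → ℝ, ext T (fun x : X => (0 : X → ℝ) x * (0 : ℝ)) π = 0 := by
        intro π; simp [ext]
      simp only [Δ, ext_zero, Pi.zero_apply, zero_mul]
      have h1 : ∀ π : Fin k → X → ℝ, ext T (fun _ : X => (0 : ℝ)) π = 0 := fun π => ext_zero π
      simp [h1]
    obtain ⟨x0, hx0⟩ := hne
    set a := P x0 with ha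
    set S : Set (Fin N → ℝ) := Metric.closedBall 0 R ∩ Metric.ball c (δ' / 2) with hS
    have hSconv : Convex ℝ S := (convex_closedBall 0 R).inter (convex_ball c _)
    have hmemS : ∀ x, f x ≠ 0 → P x ∈ S := by
      intro x hx
      obtain ⟨h1, h2⟩ := hfs x hx
      exact ⟨by simpa using h1, h2⟩
    have haS : a ∈ S := hmemS x0 hx0
    have hder : ∀ y ∈ S, ‖fderiv ℝ g y - fderiv ℝ g a‖ ≤ ω' := by
      intro y hy
      have := hδ'' y hy.1 a haS.1 (by
        have h1 : dist y c < δ' / 2 := hy.2
        have h2 : dist a c < δ' / 2 := haS.2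
        calc dist y a ≤ dist y c + dist a c := dist_triangle_right _ _ _
          _ ≤ δ' := by linarith)
      rwa [dist_eq_norm] at this
    set B : Set X := {x | f x ≠ 0} with hB
    -- the affine approximation
    let A : X → ℝ := ∑ i, (fderiv ℝ g a (Pi.single i 1)) • p i
    have hAL : ∃ K : ℝ≥0, LipschitzWith K A := lip_sum _ fun i _ =>
      ⟨_, lipschitzWith_smul (hKp i) _⟩
    have hAval : ∀ x, A x = fderiv ℝ g a (P x) := by
      intro x
      have h1 : P x = ∑ i, (p i x) • (Pi.single i (1 : ℝ) : Fin N → ℝ) := by
        have := pi_eq_sum_univ' (P x)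
        convert! this using 2
      rw [h1, map_sum]
      simp only [A, Finset.sum_apply, Pi.smul_apply, smul_eq_mul, map_smul]
      exact Finset.sum_congr rfl fun i _ => mul_comm _ _
    have hlin : ∀ x ∈ B, ∀ y ∈ B, |(g (P x) - A x) - (g (P y) - A y)| ≤ ω' * (L * dist x y) := by
      intro x hx y hy
      have h1 := hSconv.norm_image_sub_le_of_norm_fderiv_le' (f := g) (φ := fderiv ℝ g a)
        (C := ω') (fun z _ => (hg.differentiable one_ne_zero) z) hder (hmemS y hy) (hmemS x hx)
      rw [hAval, hAval]
      have h2 : g (P x) - fderiv ℝ g a (P x) - (g (P y) - fderiv ℝ g a (P y))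
          = g (P x) - g (P y) - fderiv ℝ g a (P x - P y) := by
        rw [map_sub]; ring
      rw [h2]
      refine (h1).trans ?_
      rw [← dist_eq_norm]
      exact mul_le_mul_of_nonneg_left (hPL x y) hω'0.le
    have hB1 : LipschitzOnWith (Real.toNNReal ω' * L) ((fun x => g (P x)) - A) B := by
      apply LipschitzOnWith.of_dist_le_mul
      intro x hx y hy
      rw [Real.dist_eq, NNReal.coe_mul, Real.coe_toNNReal _ hω'0.le, mul_assoc]
      exact hlin x hx y hy
    have hBmem : ∀ x, f x ≠ 0 → x ∈ B := fun x hx => hx
    have hgA : ∃ K : ℝ≥0, LipschitzWith K ((fun x => g (P x)) - A) := by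
      obtain ⟨K1, hK1⟩ := hgl
      obtain ⟨K2, hK2⟩ := hAL
      exact ⟨_, hK1.sub hK2⟩
    have E1 : |ext T f (Function.update σ j ((fun x => g (P x)) - A))| ≤
        (ω' * L * Q) * ∫ x, |f x| ∂μ := by
      have h1 := abs_ext_le_local hT (controls_ctrl hT) hf (hσ.update j hgA) hBmem
        (K := Function.update Kσ j (Real.toNNReal ω' * L)) (by
          intro i
          by_cases hi : i = j
          · subst hi; simpa using hB1
          · simpa [hi] using (hKσ i).lipschitzOnWith)
      refine h1.trans (le_of_eq ?_)
      congr 1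
      have : (fun i => ((Function.update Kσ j (Real.toNNReal ω' * L) i : ℝ≥0) : ℝ)) =
          Function.update (fun i => (Kσ i : ℝ)) j (ω' * L) := by
        funext i
        by_cases hi : i = j
        · subst hi; simp [Real.coe_toNNReal _ hω'0.le]
        · simp [hi]
      rw [this, Finset.prod_update_of_mem (Finset.mem_univ j)]
    have E2 : ext T f (Function.update σ j ((fun x => g (P x)) - A)) =
        ext T f (Function.update σ j (fun x => g (P x))) -
        ∑ i, (fderiv ℝ g a (Pi.single i 1)) * ext T f (Function.update σ j (p i)) := by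
      rw [ext_sub_coord hT hf hσ j hgl hAL]
      congr 1
      simp only [A]
      rw [ext_sum_coord hT hf hσ j _ fun i _ => ⟨_, lipschitzWith_smul (hKp i) _⟩]
      exact Finset.sum_congr rfl fun i _ => ext_smul_coord hT hf hσ j _ ⟨_, hKp i⟩
    have E3 : ∀ i, |ext T (fun x => f x * fderiv ℝ g (P x) (Pi.single i 1))
        (Function.update σ j (p i)) -
        (fderiv ℝ g a (Pi.single i 1)) * ext T f (Function.update σ j (p i))| ≤
        (ω' * L * Q) * ∫ x, |f x| ∂μ := by
      intro i
      rw [← ext_smul, ← ext_sub (hfD f hf i) (hf.smul _)]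
      have h1 := abs_ext_le (T := T) hT (controls_ctrl hT) ((hfD f hf i).sub
        (hf.smul (fderiv ℝ g a (Pi.single i 1))))
        (π := Function.update σ j (p i)) (K := Function.update Kσ j L) (by
          intro l
          by_cases hl : l = j
          · subst hl; simpa using (hKp i).weaken (hKL i)
          · simpa [hl] using hKσ l)
      refine h1.trans ?_
      have : (fun i => ((Function.update Kσ j L i : ℝ≥0) : ℝ)) =
          Function.update (fun i => (Kσ i : ℝ)) j (L : ℝ) := by
        funext i
        by_cases hi : i = j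
        · subst hi; simp
        · simp [hi]
      rw [this, Finset.prod_update_of_mem (Finset.mem_univ j)]
      have h2 : ∫ x, |((fun x => f x * fderiv ℝ g (P x) (Pi.single i 1)) -
          (fderiv ℝ g a (Pi.single i 1)) • f) x| ∂μ ≤ ω' * ∫ x, |f x| ∂μ := by
        rw [← integral_const_mul]
        apply integral_mono_of_nonneg (Eventually.of_forall fun x => abs_nonneg _)
          ((hf.abs.integrable μ).const_mul _)
        refine Eventually.of_forall fun x => ?_
        simp only [Pi.sub_apply, Pi.smul_apply, smul_eq_mul]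
        by_cases hx : f x = 0
        · simp [hx]
        · have h3 : f x * fderiv ℝ g (P x) (Pi.single i 1) - fderiv ℝ g a (Pi.single i 1) * f x
              = (fderiv ℝ g (P x) - fderiv ℝ g a) (Pi.single i 1) * f x := by
            simp only [sub_apply]; ring
          rw [h3, abs_mul]
          apply mul_le_mul_of_nonneg_right _ (abs_nonneg _)
          calc |(fderiv ℝ g (P x) - fderiv ℝ g a) (Pi.single i 1)|
              ≤ ‖fderiv ℝ g (P x) - fderiv ℝ g a‖ * ‖(Pi.single i 1 : Fin N → ℝ)‖ := by
                rw [← Real.norm_eq_abs]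
                exact ContinuousLinearMap.le_opNorm _ _
            _ ≤ ω' * 1 := by
                apply mul_le_mul (hder _ (hmemS x hx)) _ (norm_nonneg _) hω'0.le
                rw [Pi.norm_single]; simp
            _ = ω' := mul_one _
      calc (L : ℝ) * Q * ∫ x, |((fun x => f x * fderiv ℝ g (P x) (Pi.single i 1)) -
          (fderiv ℝ g a (Pi.single i 1)) • f) x| ∂μ
          ≤ (L : ℝ) * Q * (ω' * ∫ x, |f x| ∂μ) := mul_le_mul_of_nonneg_left h2 (by positivity)
        _ = _ := by ring
    have E4 : Δ f = ext T f (Function.update σ j ((fun x => g (P x)) - A)) -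
        ∑ i, (ext T (fun x => f x * fderiv ℝ g (P x) (Pi.single i 1))
        (Function.update σ j (p i)) -
        (fderiv ℝ g a (Pi.single i 1)) * ext T f (Function.update σ j (p i))) := by
      rw [E2, Finset.sum_sub_distrib]
      simp only [Δ]
      ring
    rw [E4]
    refine (abs_sub _ _).trans ?_
    have E5 : |∑ i, (ext T (fun x => f x * fderiv ℝ g (P x) (Pi.single i 1))
        (Function.update σ j (p i)) -
        (fderiv ℝ g a (Pi.single i 1)) * ext T f (Function.update σ j (p i)))| ≤
        N * ((ω' * L * Q) * ∫ x, |f x| ∂μ) := by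
      refine (Finset.abs_sum_le_sum_abs _ _).trans ?_
      refine (Finset.sum_le_sum fun i _ => E3 i).trans ?_
      simp
    refine (add_le_add E1 E5).trans ?_
    have E6 : ω' * (((N : ℝ) + 1) * (Q * (L + 1)) + 1) = ω := by
      rw [hω']; field_simp
    have E7 : ω' * L * Q * ((N : ℝ) + 1) ≤ ω := by
      rw [← E6]
      have : (0 : ℝ) ≤ (L : ℝ) := L.coe_nonneg
      have h1 : (L : ℝ) * Q * ((N : ℝ) + 1) ≤ ((N : ℝ) + 1) * (Q * (L + 1)) + 1 := by
        nlinarith [mul_nonneg hQ0 (by positivity : (0 : ℝ) ≤ (N : ℝ) + 1)]
      calc ω' * L * Q * ((N : ℝ) + 1) = ω' * (L * Q * ((N : ℝ) + 1)) := by ring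
        _ ≤ _ := mul_le_mul_of_nonneg_left h1 hω'0.le
    calc ω' * L * Q * (∫ x, |f x| ∂μ) + N * (ω' * L * Q * ∫ x, |f x| ∂μ)
        = (ω' * L * Q * ((N : ℝ) + 1)) * ∫ x, |f x| ∂μ := by ring
      _ ≤ ω * ∫ x, |f x| ∂μ := mul_le_mul_of_nonneg_right E7 hI

end Crest.Agent.R241.G1
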