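import Mathlib
import Crest.Prelude.Def_Submanifold

/-!
R241, block D (helper842): local parametrisations, smooth left inverses, second derivatives of maps
into an embedded submanifold.
-/

set_option autoImplicit false

open Set Filter Topology
open scoped ContDiff
open Crest.GeometryTopology.Submanifold

noncomputable section

namespace Crest.Agent.R241.Geo

variable {n N : ℕ} {S : Set (Euc N)} {p : Euc N} {f : Euc n → Euc N} {V : Set (Euc n)}

theorem lp_mem (h : IsLocalParam n N S p f V) {y : Euc n} (hy : y ∈ V) : f y ∈ S := by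
  obtain ⟨U, -, hU⟩ := h.image_open V Subset.rfl h.isOpen
  have : f y ∈ S ∩ U := hU ▸ mem_image_of_mem f hy
  exact this.1

theorem lp_base_mem (h : IsLocalParam n N S p f V) : p ∈ S := by
  have := lp_mem h h.zero_mem
  rwa [h.map_zero] at this

theorem lp_contDiffAt (h : IsLocalParam n N S p f V) {y : Euc n} (hy : y ∈ V) :
    ContDiffAt ℝ ∞ f y :=
  (h.contDiffOn).contDiffAt (h.isOpen.mem_nhds hy)

theorem lp_translate (h : IsLocalParam n N S p f V) {y : Euc n} (hy : y ∈ V) :
    IsLocalParam n N S (f y) (fun z => f (z + y)) ((fun z => z + y) ⁻¹' V) where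
  isOpen := h.isOpen.preimage (by fun_prop)
  zero_mem := by simpa using hy
  map_zero := by simp
  contDiffOn := by
    have h1 : ContDiffOn ℝ (⊤ : ℕ∞) (fun z : Euc n => z + y) ((fun z => z + y) ⁻¹' V) := by fun_prop
    exact h.contDiffOn.comp h1 (fun z hz => hz)
  injOn := by
    intro a ha b hb hab
    have := h.injOn ha hb hab
    simpa using this
  injective_fderiv := by
    intro z hz
    have : fderiv ℝ (fun z => f (z + y)) z = fderiv ℝ f (z + y) := by
      rw [fderiv_comp_add_right]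
    rw [this]
    exact h.injective_fderiv _ hz
  image_open := by
    intro W hW hWo
    have h1 : IsOpen ((fun z => z - y) ⁻¹' W) := hWo.preimage (by fun_prop)
    obtain ⟨U, hU, hU'⟩ := h.image_open ((fun z => z - y) ⁻¹' W) (by
      intro z hz
      have := hW hz
      simpa using this) h1
    refine ⟨U, hU, ?_⟩
    rw [← hU']
    ext x
    constructor
    · rintro ⟨z, hz, rfl⟩
      exact ⟨z + y, by simpa using hz, rfl⟩
    · rintro ⟨z, hz, rfl⟩
      exact ⟨z - y, hz, by simp⟩

/-- Smooth local left inverse of a parametrisation. -/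
structure LInv (S : Set (Euc N)) (f : Euc n → Euc N) (V : Set (Euc n)) (p : Euc N)
    (ρ : Euc N → Euc n) (U : Set (Euc N)) (W : Set (Euc n)) : Prop where
  isOpen : IsOpen U
  mem : p ∈ U
  W_open : IsOpen W
  zero_mem : (0 : Euc n) ∈ W
  W_sub : W ⊆ V
  smooth : ContDiffOn ℝ ∞ ρ U
  maps : ∀ x ∈ U, ρ x ∈ W
  right : ∀ x ∈ S, x ∈ U → f (ρ x) = x
  left : ∀ y ∈ W, f y ∈ U ∧ ρ (f y) = y

theorem exists_linv (h : IsLocalParam n N S p f V) :
    ∃ (ρ : Euc N → Euc n) (U : Set (Euc N)) (W : Set (Euc n)), LInv S f V p ρ U W := by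
  classical
  set A : Euc n →L[ℝ] Euc N := fderiv ℝ f 0 with hA
  have hAinj : Function.Injective A := h.injective_fderiv 0 h.zero_mem
  obtain ⟨B₀, hB₀⟩ := LinearMap.exists_leftInverse_of_injective (A : Euc n →ₗ[ℝ] Euc N)
    (LinearMap.ker_eq_bot.2 hAinj)
  set B : Euc N →L[ℝ] Euc n := B₀.toContinuousLinearMap with hB
  have hBA : B.comp A = ContinuousLinearMap.id ℝ (Euc n) := by
    ext1 x
    have := congrArg (fun L : Euc n →ₗ[ℝ] Euc n => L x) hB₀
    simpa [hB] using this
  set g : Euc n → Euc n := fun y => B (f y) with hg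
  have hfc : ∀ y ∈ V, ContDiffAt ℝ ∞ f y := fun y hy => lp_contDiffAt h hy
  have hgc : ∀ y ∈ V, ContDiffAt ℝ ∞ g y := fun y hy =>
    B.contDiff.contDiffAt.comp y (hfc y hy)
  have hgd : HasFDerivAt g ((ContinuousLinearEquiv.refl ℝ (Euc n) : Euc n ≃L[ℝ] Euc n) :
      Euc n →L[ℝ] Euc n) 0 := by
    have h1 : HasFDerivAt f A 0 :=
      ((hfc 0 h.zero_mem).differentiableAt (by simp)).hasFDerivAt
    have h2 : HasFDerivAt g (B.comp A) 0 := B.hasFDerivAt.comp 0 h1
    rw [hBA] at h2
    exact h2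
  set e := (hgc 0 h.zero_mem).toOpenPartialHomeomorph g hgd (by simp) with he
  have he0 : (0 : Euc n) ∈ e.source :=
    ContDiffAt.mem_toOpenPartialHomeomorph_source (hgc 0 h.zero_mem) hgd (by simp)
  have heg : ∀ y, e y = g y := fun y => rfl
  -- the set where the derivative is invertible
  have hgcont : ContinuousOn (fderiv ℝ g) V := by
    have : ContDiffOn ℝ ∞ g V := fun y hy => (hgc y hy).contDiffWithinAt
    exact (this.continuousOn_fderiv_of_isOpen h.isOpen (by simp))
  set I : Set (Euc n →L[ℝ] Euc n) := range ((↑) : (Euc n ≃L[ℝ] Euc n) → (Euc n →L[ℝ] Euc n)) with hI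
  have hIo : IsOpen I := ContinuousLinearEquiv.isOpen
  set V' : Set (Euc n) := V ∩ fderiv ℝ g ⁻¹' I with hV'
  have hV'o : IsOpen V' := hgcont.isOpen_inter_preimage h.isOpen hIo
  set W : Set (Euc n) := e.source ∩ V' with hW
  have hWo : IsOpen W := e.open_source.inter hV'o
  have h0W : (0 : Euc n) ∈ W := by
    refine ⟨he0, h.zero_mem, ?_⟩
    change fderiv ℝ g 0 ∈ I
    rw [hgd.fderiv]
    exact ⟨_, rfl⟩
  have hWV : W ⊆ V := fun y hy => hy.2.1
  obtain ⟨U₁, hU₁, hfW⟩ := h.image_open W hWV hWo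
  have hgW : IsOpen (e '' W) := e.isOpen_image_of_subset_source hWo (fun y hy => hy.1)
  set U : Set (Euc N) := U₁ ∩ B ⁻¹' (e '' W) with hU
  refine ⟨fun x => e.symm (B x), U, W, ?_⟩
  have hleft : ∀ y ∈ W, e.symm (B (f y)) = y := by
    intro y hy
    have : B (f y) = e y := rfl
    rw [this, e.left_inv hy.1]
  refine ⟨hU₁.inter (hgW.preimage B.continuous), ?_, hWo, h0W, hWV, ?_, ?_, ?_, ?_⟩
  · refine ⟨?_, ?_⟩
    · have : f 0 ∈ S ∩ U₁ := hfW ▸ mem_image_of_mem f h0W
      rw [← h.map_zero]; exact this.2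
    · rw [← h.map_zero]
      exact ⟨0, h0W, rfl⟩
  · intro x hx
    obtain ⟨y, hy, hyx⟩ := hx.2
    obtain ⟨L, hL⟩ := hy.2.2
    have hsymm : ContDiffAt ℝ ∞ e.symm (B x) := by
      rw [← hyx]
      refine e.contDiffAt_symm (f₀' := L) (e.map_source hy.1) ?_ ?_
      · rw [e.left_inv hy.1]
        have : HasFDerivAt g (fderiv ℝ g y) y :=
          ((hgc y hy.2.1).differentiableAt (by simp)).hasFDerivAt
        rw [← hL] at this
        exact this
      · rw [e.left_inv hy.1]
        exact hgc y hy.2.1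
    exact (hsymm.comp x B.contDiff.contDiffAt).contDiffWithinAt
  · intro x hx
    obtain ⟨y, hy, hyx⟩ := hx.2
    have : e.symm (B x) = y := by rw [← hyx, e.left_inv hy.1]
    change e.symm (B x) ∈ W
    rw [this]; exact hy
  · intro x hxS hx
    have : x ∈ f '' W := by rw [hfW]; exact ⟨hxS, hx.1⟩
    obtain ⟨y, hy, rfl⟩ := this
    change f (e.symm (B (f y))) = f y
    rw [hleft y hy]
  · intro y hy
    refine ⟨⟨?_, ⟨y, hy, rfl⟩⟩, hleft y hy⟩
    have : f y ∈ S ∩ U₁ := hfW ▸ mem_image_of_mem f hy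
    exact this.2

end Crest.Agent.R241.Geo
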