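import Crest.Agent.R241.GeoLoc

/-!
R241, block D (helper842): tangent spaces, projections, second derivatives of maps into S.
-/

set_option autoImplicit false

open Set Filter Topology
open scoped ContDiff InnerProductSpace
open Crest.GeometryTopology.Submanifold

noncomputable section

namespace Crest.Agent.R241.Geo

section Pinv

variable {E F : Type*} [NormedAddCommGroup E] [InnerProductSpace ℝ E] [FiniteDimensional ℝ E]
  [NormedAddCommGroup F] [InnerProductSpace ℝ F] [FiniteDimensional ℝ F]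

/-- Adjoint as a continuous linear map (real case). -/
def adjL : (E →L[ℝ] F) →L[ℝ] (F →L[ℝ] E) :=
  haveI := FiniteDimensional.complete ℝ E
  haveI := FiniteDimensional.complete ℝ F
  LinearMap.mkContinuous
    { toFun := fun A => ContinuousLinearMap.adjoint A
      map_add' := fun A B => by simp
      map_smul' := fun c A => by simp } 1 (fun A => by simp)

theorem adjL_inner (A : E →L[ℝ] F) (x : E) (y : F) : ⟪adjL A y, x⟫_ℝ = ⟪y, A x⟫_ℝ := by
  have := FiniteDimensional.complete ℝ E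
  have := FiniteDimensional.complete ℝ F
  exact ContinuousLinearMap.adjoint_inner_left A x y

/-- Moore–Penrose inverse of an injective operator: `(A†A)⁻¹A†`. -/
def pinv (A : E →L[ℝ] F) : F →L[ℝ] E :=
  (ContinuousLinearMap.inverse ((adjL A).comp A)).comp (adjL A)

theorem exists_equiv_adj_comp {A : E →L[ℝ] F} (hA : Function.Injective A) :
    ∃ e : E ≃L[ℝ] E, (e : E →L[ℝ] E) = (adjL A).comp A := by
  have hinj : Function.Injective ((adjL A).comp A : E →L[ℝ] E) := by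
    rw [injective_iff_map_eq_zero]
    intro x hx
    have h1 : ⟪((adjL A).comp A) x, x⟫_ℝ = ⟪A x, A x⟫_ℝ := by
      rw [ContinuousLinearMap.comp_apply, adjL_inner]
    rw [hx, inner_zero_left] at h1
    have h2 : A x = 0 := inner_self_eq_zero.1 h1.symm
    exact hA (by rw [h2, map_zero])
  have hinj' : Function.Injective (((adjL A).comp A : E →L[ℝ] E) : E →ₗ[ℝ] E) := hinj
  refine ⟨(LinearEquiv.ofInjectiveEndo _ hinj').toContinuousLinearEquiv, ?_⟩
  ext x
  rfl

theorem pinv_comp_self {A : E →L[ℝ] F} (hA : Function.Injective A) (x : E) :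
    pinv A (A x) = x := by
  obtain ⟨e, he⟩ := exists_equiv_adj_comp hA
  have h1 : pinv A (A x) = ContinuousLinearMap.inverse ((adjL A).comp A) (((adjL A).comp A) x) :=
    rfl
  rw [h1, ← he, ContinuousLinearMap.inverse_equiv]
  simp

/-- `A (A†A)⁻¹ A†` is the orthogonal projection onto the range. -/
theorem self_comp_pinv {A : E →L[ℝ] F} (hA : Function.Injective A) (K : Submodule ℝ F)
    (hK : K = LinearMap.range (A : E →ₗ[ℝ] F)) (u : F) :
    K.starProjection u = A (pinv A u) := by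
  obtain ⟨e, he⟩ := exists_equiv_adj_comp hA
  refine Submodule.eq_starProjection_of_mem_of_inner_eq_zero (K := K) ?_ ?_
  · rw [hK]; exact ⟨pinv A u, rfl⟩
  · intro w hw
    rw [hK] at hw
    obtain ⟨x, rfl⟩ := hw
    have h2 : ((adjL A).comp A) (pinv A u) = adjL A u := by
      have : pinv A u = e.symm (adjL A u) := by
        rw [pinv, ← he, ContinuousLinearMap.inverse_equiv]; rfl
      rw [this, ← he]
      simp
    change ⟪u - A (pinv A u), A x⟫_ℝ = 0
    rw [← adjL_inner, map_sub]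
    rw [show adjL A (A (pinv A u)) = ((adjL A).comp A) (pinv A u) from rfl, h2, sub_self,
      inner_zero_left]

theorem contDiffAt_pinv {A : E →L[ℝ] F} (hA : Function.Injective A) {n : WithTop ℕ∞} :
    ContDiffAt ℝ n (pinv : (E →L[ℝ] F) → (F →L[ℝ] E)) A := by
  have := FiniteDimensional.complete ℝ E
  obtain ⟨e, he⟩ := exists_equiv_adj_comp hA
  have h1 : ContDiffAt ℝ n (fun A : E →L[ℝ] F => (adjL A).comp A) A := by fun_prop
  have h2 : ContDiffAt ℝ n (ContinuousLinearMap.inverse : (E →L[ℝ] E) → (E →L[ℝ] E))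
      ((adjL A).comp A) := by
    rw [← he]; exact contDiffAt_map_inverse e
  have h3 : ContDiffAt ℝ n (fun A : E →L[ℝ] F => ContinuousLinearMap.inverse ((adjL A).comp A)) A :=
    ContDiffAt.comp (g := ContinuousLinearMap.inverse) (f := fun A : E →L[ℝ] F => (adjL A).comp A)
      A h2 h1
  have h4 : ContDiffAt ℝ n (fun A : E →L[ℝ] F => adjL A) A := by fun_prop
  exact h3.clm_comp h4

end Pinv

variable {n N : ℕ} {S : Set (Euc N)} {p : Euc N} {f : Euc n → Euc N} {V : Set (Euc n)}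
  {ρ : Euc N → Euc n} {U : Set (Euc N)} {W : Set (Euc n)}

theorem two_le_infty : (2 : WithTop ℕ∞) ≤ ∞ := by
  exact WithTop.coe_le_coe.2 (le_top : (2 : ℕ∞) ≤ ⊤)

theorem starProjection_congr {K K' : Submodule ℝ (Euc N)} (h : K = K') (u : Euc N) :
    K.starProjection u = K'.starProjection u := by subst h; rfl

theorem tangentAt_eq_range (f : Euc n → Euc N) (x : Euc n) :
    tangentAt f x = LinearMap.range (fderiv ℝ f x : Euc n →ₗ[ℝ] Euc N) := by
  rw [tangentAt, LinearMap.range_eq_map, ← (EuclideanSpace.basisFun (Fin n) ℝ).toBasis.span_eq,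
    Submodule.map_span, ← Set.range_comp]
  congr 1
  ext v
  simp [pd, stdVec, Function.comp_def]

/-- Intrinsic tangent space of a set, spanned by velocities of curves. -/
def Tn (S : Set (Euc N)) (x : Euc N) : Submodule ℝ (Euc N) :=
  Submodule.span ℝ {v | ∃ c : ℝ → Euc N, c 0 = x ∧ HasDerivAt c v 0 ∧ ∀ᶠ t in 𝓝 (0 : ℝ), c t ∈ S}

/-- Orthogonal projection on the tangent space. -/
def Pt (S : Set (Euc N)) (x : Euc N) : Euc N →L[ℝ] Euc N := (Tn S x).starProjection

/-- Orthogonal projection on the normal space. -/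
def Nt (S : Set (Euc N)) (x : Euc N) : Euc N →L[ℝ] Euc N :=
  ContinuousLinearMap.id ℝ (Euc N) - (Tn S x).starProjection

theorem linv_fderiv_comp (h : IsLocalParam n N S p f V) (hl : LInv S f V p ρ U W) {y : Euc n}
    (hy : y ∈ W) (w : Euc n) : fderiv ℝ ρ (f y) (fderiv ℝ f y w) = w := by
  have h1 : (fun z => ρ (f z)) =ᶠ[𝓝 y] fun z => z := by
    filter_upwards [hl.W_open.mem_nhds hy] with z hz using (hl.left z hz).2
  have hf : DifferentiableAt ℝ f y := (lp_contDiffAt h (hl.W_sub hy)).differentiableAt (by simp)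
  have hρ : DifferentiableAt ℝ ρ (f y) :=
    (hl.smooth.contDiffAt (hl.isOpen.mem_nhds (hl.left y hy).1)).differentiableAt (by simp)
  have h2 : HasFDerivAt (fun z => ρ (f z)) ((fderiv ℝ ρ (f y)).comp (fderiv ℝ f y)) y :=
    hρ.hasFDerivAt.comp y hf.hasFDerivAt
  have h3 : HasFDerivAt (fun z : Euc n => z)
      ((fderiv ℝ ρ (f y)).comp (fderiv ℝ f y)) y := h2.congr_of_eventuallyEq h1.symm
  have h4 := h3.unique (hasFDerivAt_id y)
  have := congrArg (fun L : Euc n →L[ℝ] Euc n => L w) h4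
  simpa using this

/-- For a differentiable map `Γ` into `S`: its derivative factors through the chart. -/
theorem fderiv_factor {H : Type*} [NormedAddCommGroup H] [NormedSpace ℝ H]
    (h : IsLocalParam n N S p f V) (hl : LInv S f V p ρ U W) {Γ : H → Euc N} {z0 : H}
    (hΓ : DifferentiableAt ℝ Γ z0) (hS : ∀ᶠ z in 𝓝 z0, Γ z ∈ S) (hU : Γ z0 ∈ U) (a : H) :
    fderiv ℝ f (ρ (Γ z0)) (fderiv ℝ ρ (Γ z0) (fderiv ℝ Γ z0 a)) = fderiv ℝ Γ z0 a := by
  have hUz : ∀ᶠ z in 𝓝 z0, Γ z ∈ U := hΓ.continuousAt.eventually_mem (hl.isOpen.mem_nhds hU)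
  have h1 : Γ =ᶠ[𝓝 z0] fun z => f (ρ (Γ z)) := by
    filter_upwards [hS, hUz] with z hz1 hz2 using (hl.right _ hz1 hz2).symm
  have hy : ρ (Γ z0) ∈ W := hl.maps _ hU
  have hf : DifferentiableAt ℝ f (ρ (Γ z0)) :=
    (lp_contDiffAt h (hl.W_sub hy)).differentiableAt (by simp)
  have hρ : DifferentiableAt ℝ ρ (Γ z0) :=
    (hl.smooth.contDiffAt (hl.isOpen.mem_nhds hU)).differentiableAt (by simp)
  have h2 : HasFDerivAt (fun z => f (ρ (Γ z)))
      ((fderiv ℝ f (ρ (Γ z0))).comp ((fderiv ℝ ρ (Γ z0)).comp (fderiv ℝ Γ z0))) z0 :=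
    hf.hasFDerivAt.comp z0 (hρ.hasFDerivAt.comp z0 hΓ.hasFDerivAt)
  have h3 := h2.congr_of_eventuallyEq h1
  have h4 := hΓ.hasFDerivAt.unique h3
  have := congrArg (fun L : H →L[ℝ] Euc N => L a) h4
  simpa using this.symm

/-- Second derivative of a C² map `Γ` into `S`, through the chart. -/
theorem snd_factor {H : Type*} [NormedAddCommGroup H] [NormedSpace ℝ H]
    (h : IsLocalParam n N S p f V) (hl : LInv S f V p ρ U W) {Γ : H → Euc N} {z0 : H}
    (hΓ : ContDiffAt ℝ 2 Γ z0) (hS : ∀ᶠ z in 𝓝 z0, Γ z ∈ S) (hU : Γ z0 ∈ U) (a b : H) :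
    ∃ w : Euc n, fderiv ℝ (fderiv ℝ Γ) z0 a b =
      fderiv ℝ (fderiv ℝ f) (ρ (Γ z0)) (fderiv ℝ ρ (Γ z0) (fderiv ℝ Γ z0 a))
        (fderiv ℝ ρ (Γ z0) (fderiv ℝ Γ z0 b)) + fderiv ℝ f (ρ (Γ z0)) w := by
  set C : H → Euc n := fun z => ρ (Γ z) with hC
  have hρc : ContDiffAt ℝ 2 ρ (Γ z0) :=
    (hl.smooth.contDiffAt (hl.isOpen.mem_nhds hU)).of_le two_le_infty
  have hCc : ContDiffAt ℝ 2 C z0 := hρc.comp z0 hΓ
  have hUz : ∀ᶠ z in 𝓝 z0, Γ z ∈ U := hΓ.continuousAt.eventually_mem (hl.isOpen.mem_nhds hU)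
  have h1 : Γ =ᶠ[𝓝 z0] fun z => f (C z) := by
    filter_upwards [hS, hUz] with z hz1 hz2 using (hl.right _ hz1 hz2).symm
  have hy : C z0 ∈ W := hl.maps _ hU
  have hfc : ContDiffAt ℝ 2 f (C z0) :=
    (lp_contDiffAt h (hl.W_sub hy)).of_le two_le_infty
  have hWz : ∀ᶠ z in 𝓝 z0, C z ∈ W := by
    filter_upwards [hUz] with z hz using hl.maps _ hz
  have hCd : ∀ᶠ z in 𝓝 z0, DifferentiableAt ℝ C z := by
    have := hCc.eventually (by simp)
    filter_upwards [this] with z hz using hz.differentiableAt (by simp)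
  have h2 : fderiv ℝ Γ =ᶠ[𝓝 z0] fun z => (fderiv ℝ f (C z)).comp (fderiv ℝ C z) := by
    filter_upwards [h1.eventuallyEq_nhds, hWz, hCd] with z hz hzW hzd
    rw [hz.fderiv_eq]
    have hf : DifferentiableAt ℝ f (C z) :=
      (lp_contDiffAt h (hl.W_sub hzW)).differentiableAt (by simp)
    exact fderiv_comp z hf hzd
  have hfd : DifferentiableAt ℝ (fderiv ℝ f) (C z0) :=
    (hfc.fderiv_right (m := 1) (by norm_num)).differentiableAt (by simp)
  have hCdd : DifferentiableAt ℝ (fderiv ℝ C) z0 :=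
    (hCc.fderiv_right (m := 1) (by norm_num)).differentiableAt (by simp)
  have h3 : HasFDerivAt (fun z => fderiv ℝ f (C z))
      ((fderiv ℝ (fderiv ℝ f) (C z0)).comp (fderiv ℝ C z0)) z0 :=
    hfd.hasFDerivAt.comp z0 hCd.self_of_nhds.hasFDerivAt
  have h4 := h3.clm_comp hCdd.hasFDerivAt
  have h5 := (h4.congr_of_eventuallyEq h2).fderiv
  have hCa : ∀ a, fderiv ℝ C z0 a = fderiv ℝ ρ (Γ z0) (fderiv ℝ Γ z0 a) := by
    intro a
    have hρd : DifferentiableAt ℝ ρ (Γ z0) := hρc.differentiableAt (by simp)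
    have hΓd : DifferentiableAt ℝ Γ z0 := hΓ.differentiableAt (by simp)
    have : fderiv ℝ C z0 = (fderiv ℝ ρ (Γ z0)).comp (fderiv ℝ Γ z0) :=
      fderiv_comp z0 hρd hΓd
    rw [this]; rfl
  refine ⟨fderiv ℝ (fderiv ℝ C) z0 a b, ?_⟩
  rw [h5, ← hCa, ← hCa]
  change _ = fderiv ℝ (fderiv ℝ f) (C z0) _ _ + fderiv ℝ f (C z0) _
  simp [add_comm]

theorem mem_Tn_of_fderiv {H : Type*} [NormedAddCommGroup H] [NormedSpace ℝ H]
    {Γ : H → Euc N} {z0 : H} (hΓ : DifferentiableAt ℝ Γ z0) (hS : ∀ᶠ z in 𝓝 z0, Γ z ∈ S)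
    (a : H) : fderiv ℝ Γ z0 a ∈ Tn S (Γ z0) := by
  apply Submodule.subset_span
  have hline : HasDerivAt (fun t : ℝ => z0 + t • a) a 0 := by
    have := ((hasDerivAt_id (0 : ℝ)).smul_const a).const_add z0
    simpa using this
  refine ⟨fun t => Γ (z0 + t • a), by simp, ?_, ?_⟩
  · have h0 : HasFDerivAt Γ (fderiv ℝ Γ z0) (z0 + (0 : ℝ) • a) := by simpa using hΓ.hasFDerivAt
    exact h0.comp_hasDerivAt (0 : ℝ) hline
  · have hc : Tendsto (fun t : ℝ => z0 + t • a) (𝓝 0) (𝓝 z0) := by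
      have := hline.continuousAt.tendsto
      simpa using this
    exact hc.eventually hS

/-- The tangent space through any parametrisation and any point of the chart. -/
theorem Tn_eq (h : IsLocalParam n N S p f V) (hl : LInv S f V p ρ U W) {x : Euc N}
    (hx : x ∈ S) (hxU : x ∈ U) :
    Tn S x = LinearMap.range (fderiv ℝ f (ρ x) : Euc n →ₗ[ℝ] Euc N) := by
  have hy : ρ x ∈ W := hl.maps _ hxU
  apply le_antisymm
  · rw [Tn, Submodule.span_le]
    rintro v ⟨c, hc0, hc, hcS⟩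
    have h1 := fderiv_factor h hl (Γ := c) (z0 := (0 : ℝ)) hc.differentiableAt hcS
      (by rw [hc0]; exact hxU) (1 : ℝ)
    rw [hc0] at h1
    have h2 : fderiv ℝ c 0 1 = v := by
      rw [fderiv_apply_one_eq_deriv]; exact hc.deriv
    rw [h2] at h1
    rw [← h1]
    exact ⟨_, rfl⟩
  · rintro v ⟨w, rfl⟩
    have hf : DifferentiableAt ℝ f (ρ x) :=
      (lp_contDiffAt h (hl.W_sub hy)).differentiableAt (by simp)
    have := mem_Tn_of_fderiv (S := S) hf (by
      filter_upwards [h.isOpen.mem_nhds (hl.W_sub hy)] with z hz using lp_mem h hz) w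
    rw [hl.right x hx hxU] at this
    exact this

theorem Tn_eq_of_param (h : IsLocalParam n N S p f V) {y : Euc n} (hy : y ∈ V) :
    Tn S (f y) = LinearMap.range (fderiv ℝ f y : Euc n →ₗ[ℝ] Euc N) := by
  have h' := lp_translate h hy
  obtain ⟨ρ, U, W, hl⟩ := exists_linv h'
  have h1 := Tn_eq h' hl (lp_mem h hy) hl.mem
  have h2 : ρ (f y) = 0 := by
    have := (hl.left 0 hl.zero_mem).2
    simpa using this
  rw [h1, h2]
  have : fderiv ℝ (fun z => f (z + y)) 0 = fderiv ℝ f y := by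
    rw [fderiv_comp_add_right]; simp
  rw [this]

theorem Tn_eq_tangentAt (h : IsLocalParam n N S p f V) {y : Euc n} (hy : y ∈ V) :
    Tn S (f y) = tangentAt f y := by
  rw [Tn_eq_of_param h hy, tangentAt_eq_range]

theorem Nt_eq_normalPart (h : IsLocalParam n N S p f V) {y : Euc n} (hy : y ∈ V) (u : Euc N) :
    Nt S (f y) u = normalPart f y u := by
  rw [Nt, normalPart, ← starProjection_congr (Tn_eq_tangentAt h hy)]
  simp

theorem Nt_apply_of_mem {x : Euc N} {v : Euc N} (hv : v ∈ Tn S x) : Nt S x v = 0 := by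
  simp [Nt, Submodule.starProjection_eq_self_iff.2 hv]

theorem inner_Nt_of_mem {x : Euc N} {v : Euc N} (hv : v ∈ Tn S x) (u : Euc N) :
    ⟪v, Nt S x u⟫_ℝ = 0 := by
  have h1 : u - (Tn S x).starProjection u ∈ (Tn S x)ᗮ :=
    Submodule.sub_starProjection_mem_orthogonal u
  exact (Submodule.mem_orthogonal _ _).1 h1 v hv

/-- Normal part of second derivatives of maps into `S`. -/
theorem Nt_snd {H : Type*} [NormedAddCommGroup H] [NormedSpace ℝ H]
    (h : IsLocalParam n N S p f V) (hl : LInv S f V p ρ U W) {Γ : H → Euc N} {z0 : H}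
    (hΓ : ContDiffAt ℝ 2 Γ z0) (hS : ∀ᶠ z in 𝓝 z0, Γ z ∈ S) (hU : Γ z0 ∈ U) (a b : H) :
    Nt S (Γ z0) (fderiv ℝ (fderiv ℝ Γ) z0 a b) =
      Nt S (Γ z0) (fderiv ℝ (fderiv ℝ f) (ρ (Γ z0)) (fderiv ℝ ρ (Γ z0) (fderiv ℝ Γ z0 a))
        (fderiv ℝ ρ (Γ z0) (fderiv ℝ Γ z0 b))) := by
  obtain ⟨w, hw⟩ := snd_factor h hl hΓ hS hU a b
  rw [hw, map_add]
  have hy : ρ (Γ z0) ∈ W := hl.maps _ hU
  have : fderiv ℝ f (ρ (Γ z0)) w ∈ Tn S (Γ z0) := by
    rw [Tn_eq h hl hS.self_of_nhds hU]; exact ⟨w, rfl⟩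
  rw [Nt_apply_of_mem this, add_zero]

end Crest.Agent.R241.Geo
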