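import Mathlib

/-!
R241, block L (surfaces): the sharp Sobolev inequality of Banchoff–Pohl type on a surface with
curvature `≤ -k²`, in an abstract form which only uses polar coordinates at every point.

`(∫ ‖grad u‖)² ≥ 4 π ∫ u² + ∫ u(x) ∫∫ u(pt x ρ θ) C'(x, ρ, θ) dρ dθ dμ(x)`.
-/

set_option autoImplicit false

open MeasureTheory Set Filter Topology Real
open scoped RealInnerProductSpace ENNReal

noncomputable section

namespace Crest.Agent.R241.LA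

/-- integration by parts on the half line for a compactly supported function -/
theorem radial_parts {R : ℝ} (hR : 0 < R) {U Ur J J' : ℝ → ℝ}
    (hU : ContinuousOn U (Icc 0 R)) (hUd : ∀ ρ ∈ Ioo 0 R, HasDerivAt U (Ur ρ) ρ)
    (hUr : IntervalIntegrable Ur volume 0 R)
    (hJ : ContinuousOn J (Icc 0 R)) (hJd : ∀ ρ ∈ Ioo 0 R, HasDerivAt J (J' ρ) ρ)
    (hJi : IntervalIntegrable J' volume 0 R)
    (hU0 : ∀ ρ, R ≤ ρ → U ρ = 0) (hUr0 : ∀ ρ, R ≤ ρ → Ur ρ = 0) :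
    ∫ ρ in Ioi (0 : ℝ), Ur ρ * J ρ = - (U 0 * J 0) - ∫ ρ in Ioi (0 : ℝ), U ρ * J' ρ := by
  have key : ∀ f : ℝ → ℝ, (∀ ρ, R ≤ ρ → f ρ = 0) →
      ∫ ρ in Ioi (0 : ℝ), f ρ = ∫ ρ in (0 : ℝ)..R, f ρ := by
    intro f hf
    rw [intervalIntegral.integral_of_le hR.le]
    apply setIntegral_eq_of_subset_of_forall_sdiff_eq_zero measurableSet_Ioi Ioc_subset_Ioi_self
    intro ρ hρ
    apply hf
    by_contra h
    exact hρ.2 ⟨hρ.1, (not_le.1 h).le⟩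
  rw [key _ (fun ρ h => by rw [hUr0 ρ h, zero_mul]), key _ (fun ρ h => by rw [hU0 ρ h, zero_mul])]
  have h := intervalIntegral.integral_mul_deriv_eq_deriv_mul_of_hasDerivAt (a := 0) (b := R)
    (u := U) (v := J) (u' := Ur) (v' := J') (by rwa [uIcc_of_le hR.le])
    (by rwa [uIcc_of_le hR.le])
    (by rwa [min_eq_left hR.le, max_eq_right hR.le])
    (by rwa [min_eq_left hR.le, max_eq_right hR.le]) hUr hJi
  rw [hU0 R le_rfl, zero_mul] at h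
  linarith

/-- periodic integration by parts -/
theorem angular_parts {U Ut d d' : ℝ → ℝ} (hUd : ∀ θ, HasDerivAt U (Ut θ) θ)
    (hUt : Continuous Ut) (hd : ∀ θ, HasDerivAt d (d' θ) θ) (hd' : Continuous d')
    (hper : U (-π) = U π) (hdper : d (-π) = d π) :
    ∫ θ in Ioo (-π) π, Ut θ * d θ = - ∫ θ in Ioo (-π) π, U θ * d' θ := by
  rw [← integral_Ioc_eq_integral_Ioo, ← integral_Ioc_eq_integral_Ioo,
    ← intervalIntegral.integral_of_le (by linarith [pi_pos]),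
    ← intervalIntegral.integral_of_le (by linarith [pi_pos])]
  have h := intervalIntegral.integral_mul_deriv_eq_deriv_mul (a := -π) (b := π)
    (u := U) (v := d) (u' := Ut) (v' := d') (fun x _ => hUd x) (fun x _ => hd x)
    (hUt.intervalIntegrable _ _) (hd'.intervalIntegrable _ _)
  rw [hper, hdper] at h
  linarith

/-- Lebesgue measure on the half line -/
abbrev nu1 : Measure ℝ := (volume : Measure ℝ).restrict (Ioi 0)

/-- Lebesgue measure on the circle of directions -/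
abbrev nu2 : Measure ℝ := (volume : Measure ℝ).restrict (Ioo (-π) π)

theorem integrable_half_of_supp {f : ℝ → ℝ} {R : ℝ} (hR : 0 < R)
    (hf : IntervalIntegrable f volume 0 R) (h0 : ∀ ρ, R ≤ ρ → f ρ = 0) : Integrable f nu1 := by
  rw [intervalIntegrable_iff_integrableOn_Ioc_of_le hR.le] at hf
  have h2 : IntegrableOn f (Ioi R) := by
    have h3 : IntegrableOn (fun _ : ℝ => (0 : ℝ)) (Ioi R) := integrableOn_zero
    refine h3.congr_fun ?_ measurableSet_Ioi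
    intro ρ hρ
    exact (h0 ρ (le_of_lt hρ)).symm
  have := hf.union h2
  rwa [Ioc_union_Ioi_eq_Ioi hR.le] at this

variable {X V : Type*} [MeasurableSpace X] [NormedAddCommGroup V] [InnerProductSpace ℝ V]

/-- Polar coordinates at every point of a surface `S`: `pt x ρ θ` is the point at distance `ρ` from
`x` in direction `θ`, `vel`/`nrm` the radial / angular unit vectors there, `J` the Jacobian,
`C` the cosine Jacobi solution; `K x y` is the kernel `(C + 1)/J` times a unit vector at `y`. -/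
structure Polar (μ : Measure X) (S : Set X) (V : Type*) [NormedAddCommGroup V]
    [InnerProductSpace ℝ V] where
  pt : X → ℝ → ℝ → X
  vel : X → ℝ → ℝ → V
  nrm : X → ℝ → ℝ → V
  b1 : X → V
  b2 : X → V
  J : X → ℝ → ℝ → ℝ
  J' : X → ℝ → ℝ → ℝ
  C : X → ℝ → ℝ → ℝ
  C' : X → ℝ → ℝ → ℝ
  K : X → X → V
  pt_mem : ∀ x ∈ S, ∀ ρ θ, pt x ρ θ ∈ S
  pt_zero : ∀ x ∈ S, ∀ θ, pt x 0 θ = x
  pt_per : ∀ x ∈ S, ∀ ρ, pt x ρ (-π) = pt x ρ π
  base_orth : ∀ x ∈ S, ‖b1 x‖ = 1 ∧ ‖b2 x‖ = 1 ∧ ⟪b1 x, b2 x⟫ = 0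
  frame_orth : ∀ x ∈ S, ∀ ρ, 0 < ρ → ∀ θ,
    ‖vel x ρ θ‖ = 1 ∧ ‖nrm x ρ θ‖ = 1 ∧ ⟪vel x ρ θ, nrm x ρ θ⟫ = 0
  J_pos : ∀ x ∈ S, ∀ ρ, 0 < ρ → ∀ θ, 0 ≤ J x ρ θ
  J_zero : ∀ x ∈ S, ∀ θ, J x 0 θ = 0
  J_cont : ∀ x ∈ S, ∀ θ, ContinuousOn (fun ρ => J x ρ θ) (Ici 0)
  J_deriv : ∀ x ∈ S, ∀ θ, ∀ ρ, 0 < ρ → HasDerivAt (fun ρ => J x ρ θ) (J' x ρ θ) ρ
  J'_int : ∀ x ∈ S, ∀ θ R, 0 < R → IntervalIntegrable (fun ρ => J' x ρ θ) volume 0 R
  C_zero : ∀ x ∈ S, ∀ θ, C x 0 θ = 1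
  C_cont : ∀ x ∈ S, ∀ θ, ContinuousOn (fun ρ => C x ρ θ) (Ici 0)
  C_deriv : ∀ x ∈ S, ∀ θ, ∀ ρ, 0 < ρ → HasDerivAt (fun ρ => C x ρ θ) (C' x ρ θ) ρ
  C'_int : ∀ x ∈ S, ∀ θ R, 0 < R → IntervalIntegrable (fun ρ => C' x ρ θ) volume 0 R
  K_src : ∀ y ∈ S, ∀ ρ, 0 < ρ → ∀ θ,
    J y ρ θ • K (pt y ρ θ) y = (J' y ρ θ + 1) • (cos θ • b1 y + sin θ • b2 y)
  K_tgt : ∀ x ∈ S, ∀ ρ, 0 < ρ → ∀ θ,
    J x ρ θ • K x (pt x ρ θ) = -((C x ρ θ + 1) • vel x ρ θ)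
  polar : ∀ x ∈ S, ∀ F : X → ℝ, Integrable F μ →
    Integrable (fun p : ℝ × ℝ => J x p.1 p.2 * F (pt x p.1 p.2))
      (nu1.prod nu2) ∧
    ∫ p, J x p.1 p.2 * F (pt x p.1 p.2)
      ∂(nu1.prod nu2) = ∫ z, F z ∂μ

/-- test functions with their gradients -/
structure Polar.Test {μ : Measure X} {S : Set X} (P : Polar μ S V) (u : X → ℝ) (g : X → V) :
    Prop where
  rad : ∀ x ∈ S, ∀ θ, ∀ ρ, 0 < ρ →
    HasDerivAt (fun ρ => u (P.pt x ρ θ)) ⟪g (P.pt x ρ θ), P.vel x ρ θ⟫ ρ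
  rad_cont : ∀ x ∈ S, ∀ θ, ContinuousOn (fun ρ => u (P.pt x ρ θ)) (Ici 0)
  rad_int : ∀ x ∈ S, ∀ θ R, 0 < R →
    IntervalIntegrable (fun ρ => ⟪g (P.pt x ρ θ), P.vel x ρ θ⟫) volume 0 R
  ang : ∀ x ∈ S, ∀ ρ, 0 < ρ → ∀ θ,
    HasDerivAt (fun θ => u (P.pt x ρ θ)) (P.J x ρ θ * ⟪g (P.pt x ρ θ), P.nrm x ρ θ⟫) θ
  ang_cont : ∀ x ∈ S, ∀ ρ, 0 < ρ →
    Continuous (fun θ => P.J x ρ θ * ⟪g (P.pt x ρ θ), P.nrm x ρ θ⟫)
  supp : ∀ x ∈ S, ∃ R, 0 < R ∧ ∀ ρ, R ≤ ρ → ∀ θ, u (P.pt x ρ θ) = 0 ∧ g (P.pt x ρ θ) = 0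
  bdd : ∃ M, ∀ x ∈ S, |u x| ≤ M
  int_g : Integrable (fun x => ‖g x‖) μ
  int_u2 : Integrable (fun x => u x ^ 2) μ
  meas_strip : ∀ x ∈ S, AEStronglyMeasurable (fun p : ℝ × ℝ => u (P.pt x p.1 p.2))
      (nu1.prod nu2)
  meas_vel : ∀ x ∈ S, AEStronglyMeasurable
      (fun p : ℝ × ℝ => ⟪g (P.pt x p.1 p.2), P.vel x p.1 p.2⟫)
      (nu1.prod nu2)
  meas_nrm : ∀ x ∈ S, AEStronglyMeasurable
      (fun p : ℝ × ℝ => ⟪g (P.pt x p.1 p.2), P.nrm x p.1 p.2⟫)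
      (nu1.prod nu2)
  meas_J : ∀ x ∈ S, AEStronglyMeasurable
      (fun p : ℝ × ℝ => P.J x p.1 p.2)
      (nu1.prod nu2)
  int_K : Integrable (fun p : X × X => u p.1 * ⟪g p.2, P.K p.1 p.2⟫) (μ.prod μ)

variable {μ : Measure X} {S : Set X} (P : Polar μ S V) {u : X → ℝ} {g : X → V}

/-- Bessel inequality for an orthonormal pair -/
theorem bessel2 {e n v : V} (he : ‖e‖ = 1) (hn : ‖n‖ = 1) (hen : ⟪e, n⟫ = 0) :
    ⟪v, e⟫ ^ 2 + ⟪v, n⟫ ^ 2 ≤ ‖v‖ ^ 2 := by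
  have h : 0 ≤ ‖v - ⟪v, e⟫ • e - ⟪v, n⟫ • n‖ ^ 2 := by positivity
  have hne : ⟪n, e⟫ = 0 := by rw [real_inner_comm]; exact hen
  have he2 : ⟪e, e⟫ = 1 := by rw [real_inner_self_eq_norm_sq, he]; norm_num
  have hn2 : ⟪n, n⟫ = 1 := by rw [real_inner_self_eq_norm_sq, hn]; norm_num
  rw [← real_inner_self_eq_norm_sq] at h ⊢
  simp only [inner_sub_left, inner_sub_right, inner_smul_left, inner_smul_right,
    RCLike.conj_to_real, hen, hne, he2, hn2, mul_zero, mul_one, sub_zero] at h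
  rw [real_inner_comm v e, real_inner_comm v n] at h
  linarith

/-- the pointwise bound for the double form -/
theorem form_le {a b c d A B : ℝ} (h1 : a ^ 2 + b ^ 2 ≤ A ^ 2) (h2 : c ^ 2 + d ^ 2 ≤ B ^ 2)
    (hA : 0 ≤ A) (hB : 0 ≤ B) : -(a * c) + b * d ≤ A * B := by
  have h3 : (-(a * c) + b * d) ^ 2 ≤ (A * B) ^ 2 := by
    calc (-(a * c) + b * d) ^ 2 ≤ (a ^ 2 + b ^ 2) * (c ^ 2 + d ^ 2) := by
          nlinarith [sq_nonneg (a * d + b * c)]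
      _ ≤ A ^ 2 * B ^ 2 := by gcongr
      _ = (A * B) ^ 2 := by ring
  exact abs_le_of_sq_le_sq' h3 (by positivity) |>.2

theorem ae_strip_pos : ∀ᵐ p : ℝ × ℝ ∂(nu1.prod nu2), 0 < p.1 := by
  have : ∀ᵐ r : ℝ ∂nu1, 0 < r := ae_restrict_mem measurableSet_Ioi
  exact Measure.quasiMeasurePreserving_fst.ae this

theorem integrable_of_supp {f : ℝ × ℝ → ℝ} {R M : ℝ}
    (hf : AEStronglyMeasurable f (nu1.prod nu2)) (hM : ∀ p, |f p| ≤ M)
    (hR : ∀ p : ℝ × ℝ, R ≤ p.1 → f p = 0) : Integrable f (nu1.prod nu2) := by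
  have h1 : Integrable (fun p : ℝ × ℝ => (Ioo 0 R).indicator (fun _ => M) p.1 * (1 : ℝ))
      (nu1.prod nu2) := by
    apply Integrable.mul_prod (f := (Ioo 0 R).indicator (fun _ => M)) (g := fun _ : ℝ => (1 : ℝ))
    · apply Integrable.restrict
      rw [integrable_indicator_iff measurableSet_Ioo]
      exact integrableOn_const (by simp)
    · exact integrableOn_const (by simp)
  apply h1.mono' hf
  filter_upwards [ae_strip_pos] with p hp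
  rw [mul_one, Real.norm_eq_abs]
  by_cases h : R ≤ p.1
  · rw [hR p h, abs_zero]
    exact indicator_nonneg (fun _ _ => (abs_nonneg _).trans (hM p)) _
  · rw [indicator_of_mem (show p.1 ∈ Ioo 0 R from ⟨hp, not_le.1 h⟩)]
    exact hM p

theorem source_le (T : P.Test u g) {y : X} (hy : y ∈ S)
    (hF : Integrable (fun x => u x * ⟪g y, P.K x y⟫) μ) :
    ∫ x, u x * ⟪g y, P.K x y⟫ ∂μ ≤ ‖g y‖ * ∫ x, ‖g x‖ ∂μ := by
  obtain ⟨R, hR, hsupp⟩ := T.supp y hy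
  obtain ⟨M, hM⟩ := T.bdd
  set η := g y with hη
  set U : ℝ → ℝ → ℝ := fun ρ θ => u (P.pt y ρ θ) with hU
  set a : ℝ → ℝ → ℝ := fun ρ θ => ⟪g (P.pt y ρ θ), P.vel y ρ θ⟫ with ha
  set b : ℝ → ℝ → ℝ := fun ρ θ => ⟪g (P.pt y ρ θ), P.nrm y ρ θ⟫ with hb
  set d : ℝ → ℝ := fun θ => cos θ * ⟪η, P.b1 y⟫ + sin θ * ⟪η, P.b2 y⟫ with hd
  set dn : ℝ → ℝ := fun θ => -sin θ * ⟪η, P.b1 y⟫ + cos θ * ⟪η, P.b2 y⟫ with hdn
  have hdd : ∀ θ, HasDerivAt d (dn θ) θ := fun θ =>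
    ((hasDerivAt_cos θ).mul_const _).add ((hasDerivAt_sin θ).mul_const _)
  have hdnd : ∀ θ, HasDerivAt dn (-d θ) θ := by
    intro θ
    have := ((hasDerivAt_sin θ).neg.mul_const ⟪η, P.b1 y⟫).add
      ((hasDerivAt_cos θ).mul_const ⟪η, P.b2 y⟫)
    refine this.congr_deriv ?_
    simp only [hd]; ring
  have hdcont : Continuous d := by simp only [hd]; fun_prop
  have hdncont : Continuous dn := by simp only [hdn]; fun_prop
  have hbase := P.base_orth y hy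
  have hdsq : ∀ θ, d θ ^ 2 + dn θ ^ 2 ≤ ‖η‖ ^ 2 := by
    intro θ
    have h := bessel2 (v := η) hbase.1 hbase.2.1 hbase.2.2
    have h2 := sin_sq_add_cos_sq θ
    have : d θ ^ 2 + dn θ ^ 2 = (sin θ ^ 2 + cos θ ^ 2) * (⟪η, P.b1 y⟫ ^ 2 + ⟪η, P.b2 y⟫ ^ 2) := by
      simp only [hd, hdn]; ring
    rw [this, h2, one_mul]; exact h
  have hdabs : ∀ θ, |d θ| ≤ ‖η‖ := fun θ => abs_le_of_sq_le_sq (by nlinarith [hdsq θ, sq_nonneg (dn θ)]) (norm_nonneg _)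
  have hdnabs : ∀ θ, |dn θ| ≤ ‖η‖ := fun θ => abs_le_of_sq_le_sq (by nlinarith [hdsq θ, sq_nonneg (d θ)]) (norm_nonneg _)
  -- the kernel integral in polar coordinates
  obtain ⟨hpi, hpe⟩ := P.polar y hy _ hF
  obtain ⟨hgi, hge⟩ := P.polar y hy _ T.int_g
  have hker : ∀ p : ℝ × ℝ, 0 < p.1 →
      P.J y p.1 p.2 * (u (P.pt y p.1 p.2) * ⟪η, P.K (P.pt y p.1 p.2) y⟫) =
        U p.1 p.2 * (P.J' y p.1 p.2 + 1) * d p.2 := by
    intro p hp
    have h := P.K_src y hy p.1 hp p.2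
    have h2 : P.J y p.1 p.2 * ⟪η, P.K (P.pt y p.1 p.2) y⟫ = (P.J' y p.1 p.2 + 1) * d p.2 := by
      have h3 := congrArg (fun v => ⟪η, v⟫) h
      simpa only [inner_smul_right, inner_add_right, hd] using h3
    calc _ = U p.1 p.2 * (P.J y p.1 p.2 * ⟪η, P.K (P.pt y p.1 p.2) y⟫) := by simp only [hU]; ring
      _ = _ := by rw [h2]; ring
  have hpi' : Integrable (fun p : ℝ × ℝ => U p.1 p.2 * (P.J' y p.1 p.2 + 1) * d p.2)
      (nu1.prod nu2) := by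
    refine hpi.congr ?_
    filter_upwards [ae_strip_pos] with p hp using hker p hp
  have hpe' : ∫ x, u x * ⟪η, P.K x y⟫ ∂μ =
      ∫ p : ℝ × ℝ, U p.1 p.2 * (P.J' y p.1 p.2 + 1) * d p.2 ∂(nu1.prod nu2) := by
    rw [← hpe]
    apply integral_congr_ae
    filter_upwards [ae_strip_pos] with p hp using hker p hp
  -- integrability of the two pieces
  have hab : ∀ p : ℝ × ℝ, 0 < p.1 → a p.1 p.2 ^ 2 + b p.1 p.2 ^ 2 ≤ ‖g (P.pt y p.1 p.2)‖ ^ 2 := by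
    intro p hp
    have h := P.frame_orth y hy p.1 hp p.2
    exact bessel2 h.1 h.2.1 h.2.2
  have hi1 : Integrable (fun p : ℝ × ℝ => a p.1 p.2 * P.J y p.1 p.2 * d p.2) (nu1.prod nu2) := by
    refine (hgi.const_mul ‖η‖).mono' ?_ ?_
    · exact ((T.meas_vel y hy).mul (T.meas_J y hy)).mul
        (hdcont.comp continuous_snd).aestronglyMeasurable
    · filter_upwards [ae_strip_pos] with p hp
      have h1 : |a p.1 p.2| ≤ ‖g (P.pt y p.1 p.2)‖ :=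
        abs_le_of_sq_le_sq (by nlinarith [hab p hp, sq_nonneg (b p.1 p.2)]) (norm_nonneg _)
      have hJ := P.J_pos y hy p.1 hp p.2
      rw [Real.norm_eq_abs, abs_mul, abs_mul, abs_of_nonneg hJ]
      calc |a p.1 p.2| * P.J y p.1 p.2 * |d p.2|
          ≤ ‖g (P.pt y p.1 p.2)‖ * P.J y p.1 p.2 * ‖η‖ := by
            gcongr
            exact hdabs _
        _ = _ := by ring
  have hi2 : Integrable (fun p : ℝ × ℝ => P.J y p.1 p.2 * b p.1 p.2 * dn p.2) (nu1.prod nu2) := by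
    refine (hgi.const_mul ‖η‖).mono' ?_ ?_
    · exact ((T.meas_J y hy).mul (T.meas_nrm y hy)).mul
        (hdncont.comp continuous_snd).aestronglyMeasurable
    · filter_upwards [ae_strip_pos] with p hp
      have h1 : |b p.1 p.2| ≤ ‖g (P.pt y p.1 p.2)‖ :=
        abs_le_of_sq_le_sq (by nlinarith [hab p hp, sq_nonneg (a p.1 p.2)]) (norm_nonneg _)
      have hJ := P.J_pos y hy p.1 hp p.2
      rw [Real.norm_eq_abs, abs_mul, abs_mul, abs_of_nonneg hJ]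
      calc P.J y p.1 p.2 * |b p.1 p.2| * |dn p.2|
          ≤ P.J y p.1 p.2 * ‖g (P.pt y p.1 p.2)‖ * ‖η‖ := by
            gcongr
            exact hdnabs _
        _ = _ := by ring
  have hi3 : Integrable (fun p : ℝ × ℝ => U p.1 p.2 * d p.2) (nu1.prod nu2) := by
    apply integrable_of_supp (R := R) (M := M * ‖η‖)
    · exact (T.meas_strip y hy).mul (hdcont.comp continuous_snd).aestronglyMeasurable
    · intro p
      rw [abs_mul]
      have := hM _ (P.pt_mem y hy p.1 p.2)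
      have hM0 : 0 ≤ M := (abs_nonneg _).trans this
      gcongr
      exact hdabs _
    · intro p hp
      simp only [hU, (hsupp p.1 hp p.2).1, zero_mul]
  -- radial integration by parts
  have hrad : ∀ θ, ∫ ρ, U ρ θ * (P.J' y ρ θ + 1) * d θ ∂nu1 =
      -(∫ ρ, a ρ θ * P.J y ρ θ * d θ ∂nu1) + ∫ ρ, U ρ θ * d θ ∂nu1 := by
    intro θ
    have hUc : ContinuousOn (fun ρ => U ρ θ) (Icc 0 R) :=
      (T.rad_cont y hy θ).mono Icc_subset_Ici_self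
    have h := radial_parts hR (U := fun ρ => U ρ θ) (Ur := fun ρ => a ρ θ)
      (J := fun ρ => P.J y ρ θ) (J' := fun ρ => P.J' y ρ θ) hUc
      (fun ρ hρ => T.rad y hy θ ρ hρ.1) (T.rad_int y hy θ R hR)
      ((P.J_cont y hy θ).mono Icc_subset_Ici_self) (fun ρ hρ => P.J_deriv y hy θ ρ hρ.1)
      (P.J'_int y hy θ R hR) (fun ρ hρ => (hsupp ρ hρ θ).1)
      (fun ρ hρ => by simp only [ha, (hsupp ρ hρ θ).2, inner_zero_left])
    rw [P.J_zero y hy θ, mul_zero, neg_zero, zero_sub] at h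
    have hint := fun (f : ℝ → ℝ) => integrable_half_of_supp (f := f) hR
    have h1 : Integrable (fun ρ => U ρ θ * P.J' y ρ θ) nu1 := by
      apply hint
      · exact (P.J'_int y hy θ R hR).continuousOn_mul (by rwa [uIcc_of_le hR.le])
      · intro ρ hρ
        simp only [hU, (hsupp ρ hρ θ).1, zero_mul]
    have h2 : Integrable (fun ρ => U ρ θ) nu1 := by
      apply hint
      · exact ContinuousOn.intervalIntegrable (by rwa [uIcc_of_le hR.le])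
      · intro ρ hρ
        simp only [hU, (hsupp ρ hρ θ).1]
    have e1 : (fun ρ => U ρ θ * (P.J' y ρ θ + 1) * d θ) =
        fun ρ => (U ρ θ * P.J' y ρ θ) * d θ + U ρ θ * d θ := by
      funext ρ; ring
    rw [e1, integral_add (h1.mul_const _) (h2.mul_const _), integral_mul_const,
      integral_mul_const, integral_mul_const]
    rw [h]
    ring
  have hang : ∀ ρ, 0 < ρ → ∫ θ, U ρ θ * d θ ∂nu2 = ∫ θ, P.J y ρ θ * b ρ θ * dn θ ∂nu2 := by
    intro ρ hρ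
    have h := angular_parts (U := fun θ => U ρ θ) (Ut := fun θ => P.J y ρ θ * b ρ θ)
      (d := dn) (d' := fun θ => -d θ) (T.ang y hy ρ hρ) (T.ang_cont y hy ρ hρ) hdnd
      hdcont.neg (by simp only [hU, P.pt_per y hy ρ]) (by simp [hdn])
    rw [h, ← integral_neg]
    apply integral_congr_ae
    filter_upwards with θ
    ring
  have hfin : ∫ x, u x * ⟪η, P.K x y⟫ ∂μ =
      ∫ p : ℝ × ℝ, (-(a p.1 p.2 * P.J y p.1 p.2 * d p.2) + P.J y p.1 p.2 * b p.1 p.2 * dn p.2)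
        ∂(nu1.prod nu2) := by
    have hi1n : Integrable (fun p : ℝ × ℝ => -(a p.1 p.2 * P.J y p.1 p.2 * d p.2))
      (nu1.prod nu2) := hi1.neg
    rw [hpe', integral_prod_symm _ hpi', integral_add hi1n hi2, integral_neg,
      integral_prod_symm _ hi1, integral_prod _ hi2]
    have e1 : ∫ ρ, ∫ θ, P.J y ρ θ * b ρ θ * dn θ ∂nu2 ∂nu1 = ∫ ρ, ∫ θ, U ρ θ * d θ ∂nu2 ∂nu1 := by
      apply setIntegral_congr_fun measurableSet_Ioi
      intro ρ hρ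
      exact (hang ρ hρ).symm
    have hA : Integrable (fun θ => -∫ ρ, a ρ θ * P.J y ρ θ * d θ ∂nu1) nu2 :=
      hi1.integral_prod_right.neg
    have hB : Integrable (fun θ => ∫ ρ, U ρ θ * d θ ∂nu1) nu2 := hi3.integral_prod_right
    rw [e1, ← integral_prod _ hi3, integral_prod_symm _ hi3, ← integral_neg]
    simp only []
    rw [← integral_add hA hB]
    apply integral_congr_ae
    filter_upwards with θ
    rw [hrad θ]
  rw [hfin, ← hge, ← integral_const_mul]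
  apply integral_mono_ae (hi1.neg.add hi2) (hgi.const_mul _)
  filter_upwards [ae_strip_pos] with p hp
  have hJ := P.J_pos y hy p.1 hp p.2
  have h := form_le (hab p hp) (hdsq p.2) (norm_nonneg _) (norm_nonneg _)
  calc -(a p.1 p.2 * P.J y p.1 p.2 * d p.2) + P.J y p.1 p.2 * b p.1 p.2 * dn p.2
      = P.J y p.1 p.2 * (-(a p.1 p.2 * d p.2) + b p.1 p.2 * dn p.2) := by ring
    _ ≤ P.J y p.1 p.2 * (‖g (P.pt y p.1 p.2)‖ * ‖η‖) := by gcongr
    _ = _ := by ring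

theorem target_eq (T : P.Test u g) {x : X} (hx : x ∈ S)
    (hF : Integrable (fun y => ⟪g y, P.K x y⟫) μ) :
    ∫ y, ⟪g y, P.K x y⟫ ∂μ =
      4 * π * u x + ∫ θ, ∫ ρ, u (P.pt x ρ θ) * P.C' x ρ θ ∂nu1 ∂nu2 ∧
    Integrable (fun θ => ∫ ρ, u (P.pt x ρ θ) * P.C' x ρ θ ∂nu1) nu2 := by
  obtain ⟨R, hR, hsupp⟩ := T.supp x hx
  obtain ⟨hpi, hpe⟩ := P.polar x hx _ hF
  have hker : ∀ p : ℝ × ℝ, 0 < p.1 →
      P.J x p.1 p.2 * ⟪g (P.pt x p.1 p.2), P.K x (P.pt x p.1 p.2)⟫ =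
        -(⟪g (P.pt x p.1 p.2), P.vel x p.1 p.2⟫ * (P.C x p.1 p.2 + 1)) := by
    intro p hp
    have h := P.K_tgt x hx p.1 hp p.2
    have h3 := congrArg (fun v => ⟪g (P.pt x p.1 p.2), v⟫) h
    simp only [inner_smul_right, inner_neg_right] at h3
    rw [h3]; ring
  have hpi' : Integrable (fun p : ℝ × ℝ =>
      -(⟪g (P.pt x p.1 p.2), P.vel x p.1 p.2⟫ * (P.C x p.1 p.2 + 1))) (nu1.prod nu2) := by
    refine hpi.congr ?_
    filter_upwards [ae_strip_pos] with p hp using hker p hp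
  have hpe' : ∫ y, ⟪g y, P.K x y⟫ ∂μ = ∫ p : ℝ × ℝ,
      -(⟪g (P.pt x p.1 p.2), P.vel x p.1 p.2⟫ * (P.C x p.1 p.2 + 1)) ∂(nu1.prod nu2) := by
    rw [← hpe]
    apply integral_congr_ae
    filter_upwards [ae_strip_pos] with p hp using hker p hp
  have hrad : ∀ θ, ∫ ρ, -(⟪g (P.pt x ρ θ), P.vel x ρ θ⟫ * (P.C x ρ θ + 1)) ∂nu1 =
      2 * u x + ∫ ρ, u (P.pt x ρ θ) * P.C' x ρ θ ∂nu1 := by
    intro θ
    have h := radial_parts hR (U := fun ρ => u (P.pt x ρ θ))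
      (Ur := fun ρ => ⟪g (P.pt x ρ θ), P.vel x ρ θ⟫)
      (J := fun ρ => P.C x ρ θ + 1) (J' := fun ρ => P.C' x ρ θ)
      ((T.rad_cont x hx θ).mono Icc_subset_Ici_self)
      (fun ρ hρ => T.rad x hx θ ρ hρ.1) (T.rad_int x hx θ R hR)
      (((P.C_cont x hx θ).mono Icc_subset_Ici_self).add continuousOn_const)
      (fun ρ hρ => (P.C_deriv x hx θ ρ hρ.1).add_const _)
      (P.C'_int x hx θ R hR) (fun ρ hρ => (hsupp ρ hρ θ).1)
      (fun ρ hρ => by simp only [(hsupp ρ hρ θ).2, inner_zero_left])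
    simp only [P.C_zero x hx θ, P.pt_zero x hx θ] at h
    rw [integral_neg, h]
    ring
  have hi := hpi'.integral_prod_right
  have hi' : Integrable (fun θ => 2 * u x + ∫ ρ, u (P.pt x ρ θ) * P.C' x ρ θ ∂nu1) nu2 := by
    refine hi.congr ?_
    filter_upwards with θ using hrad θ
  have hc : Integrable (fun _ : ℝ => 2 * u x) nu2 := integrable_const _
  have hi2 : Integrable (fun θ => ∫ ρ, u (P.pt x ρ θ) * P.C' x ρ θ ∂nu1) nu2 := by
    refine (hi'.sub hc).congr ?_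
    filter_upwards with θ
    simp
  refine ⟨?_, hi2⟩
  rw [hpe', integral_prod_symm _ hpi']
  have e1 : ∫ θ, ∫ ρ, -(⟪g (P.pt x ρ θ), P.vel x ρ θ⟫ * (P.C x ρ θ + 1)) ∂nu1 ∂nu2 =
      ∫ θ, (2 * u x + ∫ ρ, u (P.pt x ρ θ) * P.C' x ρ θ ∂nu1) ∂nu2 := by
    apply integral_congr_ae
    filter_upwards with θ using hrad θ
  rw [e1, integral_add hc hi2]
  congr 1
  rw [integral_const]
  simp only [smul_eq_mul, measureReal_restrict_apply_univ, Real.volume_real_Ioo]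
  rw [max_eq_left (by linarith [pi_pos])]
  ring

/-- **Sharp Sobolev inequality** with the curvature remainder. -/
theorem sobolev [SFinite μ] (hμ : ∀ᵐ x ∂μ, x ∈ S) (T : P.Test u g) :
    Integrable (fun x => u x * ∫ θ, ∫ ρ, u (P.pt x ρ θ) * P.C' x ρ θ ∂nu1 ∂nu2) μ ∧
    4 * π * ∫ x, u x ^ 2 ∂μ +
      ∫ x, u x * (∫ θ, ∫ ρ, u (P.pt x ρ θ) * P.C' x ρ θ ∂nu1 ∂nu2) ∂μ ≤ (∫ x, ‖g x‖ ∂μ) ^ 2 := by
  have hF := T.int_K
  have h1 : ∀ᵐ y ∂μ, Integrable (fun x => u x * ⟪g y, P.K x y⟫) μ := hF.prod_left_ae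
  have h2 : ∀ᵐ x ∂μ, Integrable (fun y => u x * ⟪g y, P.K x y⟫) μ := hF.prod_right_ae
  have hx : ∀ᵐ x ∂μ, ∫ y, u x * ⟪g y, P.K x y⟫ ∂μ =
      4 * π * u x ^ 2 + u x * ∫ θ, ∫ ρ, u (P.pt x ρ θ) * P.C' x ρ θ ∂nu1 ∂nu2 := by
    filter_upwards [h2, hμ] with x hx hxS
    by_cases hu : u x = 0
    · simp [hu]
    · have : Integrable (fun y => ⟪g y, P.K x y⟫) μ := by
        refine (hx.const_mul (u x)⁻¹).congr ?_
        filter_upwards with y
        field_simp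
      rw [integral_const_mul, (target_eq P T hxS this).1]
      ring
  have hI := hF.integral_prod_left
  have hI2 : Integrable (fun x => 4 * π * u x ^ 2 +
      u x * ∫ θ, ∫ ρ, u (P.pt x ρ θ) * P.C' x ρ θ ∂nu1 ∂nu2) μ := hI.congr hx
  have hI3 : Integrable (fun x => u x * ∫ θ, ∫ ρ, u (P.pt x ρ θ) * P.C' x ρ θ ∂nu1 ∂nu2) μ := by
    refine (hI2.sub (T.int_u2.const_mul (4 * π))).congr ?_
    filter_upwards with x
    simp
  refine ⟨hI3, ?_⟩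
  have e1 : ∫ p : X × X, u p.1 * ⟪g p.2, P.K p.1 p.2⟫ ∂(μ.prod μ) =
      4 * π * ∫ x, u x ^ 2 ∂μ +
      ∫ x, u x * (∫ θ, ∫ ρ, u (P.pt x ρ θ) * P.C' x ρ θ ∂nu1 ∂nu2) ∂μ := by
    rw [integral_prod _ hF, integral_congr_ae hx, integral_add (T.int_u2.const_mul _) hI3,
      integral_const_mul]
  rw [← e1, integral_prod_symm _ hF, sq, ← integral_mul_const]
  apply integral_mono_ae hF.integral_prod_right (T.int_g.mul_const _)
  filter_upwards [h1, hμ] with y hy hyS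
  exact source_le P T hyS hy

end Crest.Agent.R241.LA
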