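import Mathlib

/-!
R241, block L: one-dimensional comparison lemmas for the scalar Jacobi equation.
-/

set_option autoImplicit false

open Set Filter Topology

noncomputable section

namespace Crest.Agent.R241.LB1

/-- The Wronskian of two solutions of `y'' = q y` is constant. -/
theorem wronskian_const {a b : ℝ} {f fd g gd q : ℝ → ℝ}
    (hf : ∀ t ∈ Ioo a b, HasDerivAt f (fd t) t)
    (hfd : ∀ t ∈ Ioo a b, HasDerivAt fd (q t * f t) t)
    (hg : ∀ t ∈ Ioo a b, HasDerivAt g (gd t) t)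
    (hgd : ∀ t ∈ Ioo a b, HasDerivAt gd (q t * g t) t) :
    ∀ s ∈ Ioo a b, ∀ t ∈ Ioo a b, f s * gd s - fd s * g s = f t * gd t - fd t * g t := by
  have hd : ∀ t ∈ Ioo a b, HasDerivAt (fun t => f t * gd t - fd t * g t) 0 t := by
    intro t ht
    refine (((hf t ht).mul (hgd t ht)).sub ((hfd t ht).mul (hg t ht))).congr_deriv ?_
    ring
  intro s hs t ht
  exact isOpen_Ioo.is_const_of_deriv_eq_zero isPreconnected_Ioo
    (fun t ht => (hd t ht).differentiableAt.differentiableWithinAt)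
    (fun t ht => (hd t ht).deriv) hs ht

/-- a function on `(0,∞)` with nonnegative derivative and limit `L` at `0` is `≥ L`. -/
theorem ge_of_deriv_nonneg {f fd : ℝ → ℝ} {L : ℝ} (hf : ∀ t, 0 < t → HasDerivAt f (fd t) t)
    (hfd : ∀ t, 0 < t → 0 ≤ fd t) (h0 : Tendsto f (𝓝[>] 0) (𝓝 L)) {t : ℝ} (ht : 0 < t) :
    L ≤ f t := by
  have hmono : MonotoneOn f (Ioi 0) := by
    apply monotoneOn_of_deriv_nonneg (convex_Ioi 0)
    · intro s hs; exact (hf s hs).continuousAt.continuousWithinAt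
    · intro s hs
      rw [interior_Ioi] at hs
      exact (hf s hs).differentiableAt.differentiableWithinAt
    · intro s hs
      rw [interior_Ioi] at hs
      rw [(hf s hs).deriv]
      exact hfd s hs
  refine le_of_tendsto h0 ?_
  filter_upwards [Ioo_mem_nhdsGT ht] with s hs
  exact hmono hs.1 ht hs.2.le

/-- a continuous function on `(0,∞)` without zeros, positive near `0`, is positive. -/
theorem pos_of_ne_zero {f : ℝ → ℝ} (hc : ContinuousOn f (Ioi 0)) (hne : ∀ t, 0 < t → f t ≠ 0)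
    (h0 : ∀ᶠ t in 𝓝[>] (0 : ℝ), 0 < f t) {t : ℝ} (ht : 0 < t) : 0 < f t := by
  by_contra hneg
  have h1 : f t < 0 := lt_of_le_of_ne (not_lt.1 hneg) (hne t ht)
  obtain ⟨s, hs, hs0⟩ := (h0.and (Ioo_mem_nhdsGT ht)).exists
  have : (0 : ℝ) ∈ f '' Icc s t :=
    intermediate_value_Icc' hs0.2.le (hc.mono fun x hx => lt_of_lt_of_le hs0.1 hx.1) ⟨h1.le, hs.le⟩
  obtain ⟨x, hx, hx0⟩ := this
  exact hne x (lt_of_lt_of_le hs0.1 hx.1) hx0

/-- Comparison for the cosine solution: `C' ≥ k² j`. -/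
theorem cosine_deriv_ge {k : ℝ} (hk : 0 ≤ k) {C Cd j jd q : ℝ → ℝ}
    (hq : ∀ t, 0 < t → k ^ 2 ≤ q t)
    (hC : ∀ t, 0 < t → HasDerivAt C (Cd t) t) (hCd : ∀ t, 0 < t → HasDerivAt Cd (q t * C t) t)
    (hj : ∀ t, 0 < t → HasDerivAt j (jd t) t) (hjd : ∀ t, 0 < t → HasDerivAt jd (q t * j t) t)
    (C0 : Tendsto C (𝓝[>] 0) (𝓝 1)) (Cd0 : Tendsto Cd (𝓝[>] 0) (𝓝 0))
    (j0 : Tendsto j (𝓝[>] 0) (𝓝 0)) (jd0 : Tendsto jd (𝓝[>] 0) (𝓝 1)) {t : ℝ} (ht : 0 < t) :
    k ^ 2 * j t ≤ Cd t := by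
  -- φ = C - k j, m = φ' + k φ
  set φ : ℝ → ℝ := fun t => C t - k * j t with hφ
  set ψ : ℝ → ℝ := fun t => C t + k * j t with hψ
  set m : ℝ → ℝ := fun t => Cd t - k * jd t + k * (C t - k * j t) with hm
  set n : ℝ → ℝ := fun t => Cd t + k * jd t - k * (C t + k * j t) with hn
  have hφd : ∀ t, 0 < t → HasDerivAt φ (m t - k * φ t) t := by
    intro t ht
    refine ((hC t ht).sub ((hj t ht).const_mul k)).congr_deriv ?_
    simp only [hm, hφ]; ring
  have hψd : ∀ t, 0 < t → HasDerivAt ψ (n t + k * ψ t) t := by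
    intro t ht
    refine ((hC t ht).add ((hj t ht).const_mul k)).congr_deriv ?_
    simp only [hn, hψ]; ring
  have hmd : ∀ t, 0 < t → HasDerivAt m (k * m t + (q t - k ^ 2) * φ t) t := by
    intro t ht
    refine (((hCd t ht).sub ((hjd t ht).const_mul k)).add
      (((hC t ht).sub ((hj t ht).const_mul k)).const_mul k)).congr_deriv ?_
    simp only [hm, hφ]; ring
  have hnd : ∀ t, 0 < t → HasDerivAt n (-(k * n t) + (q t - k ^ 2) * ψ t) t := by
    intro t ht
    refine (((hCd t ht).add ((hjd t ht).const_mul k)).sub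
      (((hC t ht).add ((hj t ht).const_mul k)).const_mul k)).congr_deriv ?_
    simp only [hn, hψ]; ring
  have φ0 : Tendsto φ (𝓝[>] 0) (𝓝 1) := by
    simpa using C0.sub (j0.const_mul k)
  have ψ0 : Tendsto ψ (𝓝[>] 0) (𝓝 1) := by
    simpa using C0.add (j0.const_mul k)
  have m0 : Tendsto m (𝓝[>] 0) (𝓝 0) := by
    simpa using (Cd0.sub (jd0.const_mul k)).add ((C0.sub (j0.const_mul k)).const_mul k)
  have n0 : Tendsto n (𝓝[>] 0) (𝓝 0) := by
    simpa using (Cd0.add (jd0.const_mul k)).sub ((C0.add (j0.const_mul k)).const_mul k)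
  have hmφ : ∀ t, 0 < t → 0 ≤ m t * φ t := by
    intro t ht
    refine ge_of_deriv_nonneg (f := fun t => m t * φ t)
      (fd := fun t => (q t - k ^ 2) * φ t ^ 2 + m t ^ 2)
      (fun t ht => ((hmd t ht).mul (hφd t ht)).congr_deriv (by ring)) ?_ ?_ ht
    · intro t ht
      have := hq t ht
      have h1 : 0 ≤ q t - k ^ 2 := by linarith
      positivity
    · simpa using m0.mul φ0
  have hnψ : ∀ t, 0 < t → 0 ≤ n t * ψ t := by
    intro t ht
    refine ge_of_deriv_nonneg (f := fun t => n t * ψ t)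
      (fd := fun t => (q t - k ^ 2) * ψ t ^ 2 + n t ^ 2)
      (fun t ht => ((hnd t ht).mul (hψd t ht)).congr_deriv (by ring)) ?_ ?_ ht
    · intro t ht
      have := hq t ht
      have h1 : 0 ≤ q t - k ^ 2 := by linarith
      positivity
    · simpa using n0.mul ψ0
  have hE : ∀ t : ℝ, HasDerivAt (fun t => Real.exp (2 * k * t)) (Real.exp (2 * k * t) * (2 * k)) t := by
    intro t
    simpa using ((hasDerivAt_id t).const_mul (2 * k)).exp
  have hφ2 : ∀ t, 0 < t → 1 ≤ φ t ^ 2 * Real.exp (2 * k * t) := by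
    intro t ht
    refine ge_of_deriv_nonneg (f := fun t => φ t ^ 2 * Real.exp (2 * k * t))
      (fd := fun t => 2 * Real.exp (2 * k * t) * (m t * φ t)) (fun t ht => ?_) ?_ ?_ ht
    · refine (((hφd t ht).pow 2).mul (hE t)).congr_deriv ?_
      simp only [Nat.cast_ofNat, Pi.pow_apply]; ring
    · intro t ht
      have := hmφ t ht
      positivity
    · have h1 : Tendsto (fun t : ℝ => Real.exp (2 * k * t)) (𝓝[>] 0) (𝓝 1) := by
        have : ContinuousAt (fun t : ℝ => Real.exp (2 * k * t)) 0 := by fun_prop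
        have h := this.tendsto
        simp only [mul_zero, Real.exp_zero] at h
        exact h.mono_left nhdsWithin_le_nhds
      simpa using (φ0.pow 2).mul h1
  have hψ2 : ∀ t, 0 < t → 1 ≤ ψ t ^ 2 := by
    intro t ht
    refine ge_of_deriv_nonneg (f := fun t => ψ t ^ 2)
      (fd := fun t => 2 * (n t * ψ t) + 2 * k * ψ t ^ 2) (fun t ht => ?_) ?_ ?_ ht
    · refine ((hψd t ht).pow 2).congr_deriv ?_
      simp only [Nat.cast_ofNat, Pi.pow_apply]; ring
    · intro t ht
      have := hnψ t ht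
      positivity
    · simpa using ψ0.pow 2
  have hφpos : 0 < φ t := by
    refine pos_of_ne_zero (f := φ) (fun s hs => (hφd s hs).continuousAt.continuousWithinAt) ?_
      (φ0.eventually (lt_mem_nhds one_pos)) ht
    intro s hs h0
    have := hφ2 s hs
    rw [h0] at this
    norm_num at this
  have hψpos : 0 < ψ t := by
    refine pos_of_ne_zero (f := ψ) (fun s hs => (hψd s hs).continuousAt.continuousWithinAt) ?_
      (ψ0.eventually (lt_mem_nhds one_pos)) ht
    intro s hs h0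
    have := hψ2 s hs
    rw [h0] at this
    norm_num at this
  have h1 : 0 ≤ m t := nonneg_of_mul_nonneg_left (hmφ t ht) hφpos
  have h2 : 0 ≤ n t := nonneg_of_mul_nonneg_left (hnψ t ht) hψpos
  have h3 : m t + n t = 2 * (Cd t - k ^ 2 * j t) := by simp only [hm, hn]; ring
  linarith

end Crest.Agent.R241.LB1
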