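import Crest.Agent.R241.D3d
import Crest.Agent.R241.LB1

/-!
R241, block L: the scalar Jacobi equation along the geodesics of a surface `S ⊆ ℝ^N`
(`Geo 2 N κ S`).
-/

set_option autoImplicit false

open Set Filter Topology
open scoped ContDiff RealInnerProductSpace
open Crest.GeometryTopology.Submanifold
open Crest.Agent.R241.DDefs
open Crest.Agent.R241.D2
open Crest.Agent.R241.D3b

noncomputable section

namespace Crest.Agent.R241.LB2

variable {N : ℕ} {κ : ℝ} {S : Set (Euc N)} (G : Geo 2 N κ S)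

/-- `(e, n)` is an orthonormal pair in `T x`. -/
structure On (x e n : Euc N) : Prop where
  hx : x ∈ S
  he : e ∈ G.T x
  hn : n ∈ G.T x
  ne : ‖e‖ = 1
  nn : ‖n‖ = 1
  en : ⟪e, n⟫ = 0

variable {G}

/-- expansion of a tangent vector in an orthonormal pair -/
theorem On.expand {x e n : Euc N} (h : On G x e n) {u : Euc N} (hu : u ∈ G.T x) :
    u = ⟪u, e⟫ • e + ⟪u, n⟫ • n := by
  have hon : Orthonormal ℝ (![⟨e, h.he⟩, ⟨n, h.hn⟩] : Fin 2 → G.T x) := by
    rw [orthonormal_iff_ite]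
    intro i j
    fin_cases i <;> fin_cases j <;>
      simp [h.en, h.ne, h.nn, real_inner_comm e n ▸ h.en]
  have hcard : Fintype.card (Fin 2) = Module.finrank ℝ (G.T x) := by
    rw [G.finrank_T x h.hx]; rfl
  have hfr : Module.finrank ℝ (G.T x) = 2 := G.finrank_T x h.hx
  have : FiniteDimensional ℝ (G.T x) := FiniteDimensional.of_finrank_pos (by omega)
  let b := basisOfOrthonormalOfCardEqFinrank hon hcard
  let B : OrthonormalBasis (Fin 2) ℝ (G.T x) := b.toOrthonormalBasis (by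
    rw [coe_basisOfOrthonormalOfCardEqFinrank]; exact hon)
  have h1 := B.sum_repr (⟨u, hu⟩ : G.T x)
  have hB0 : B 0 = ⟨e, h.he⟩ := by simp [B, b]
  have hB1 : B 1 = ⟨n, h.hn⟩ := by simp [B, b]
  rw [Fin.sum_univ_two, B.repr_apply_apply, B.repr_apply_apply, hB0, hB1] at h1
  have h2 := congrArg (Subtype.val) h1
  simp only [Submodule.coe_inner, Submodule.coe_add, Submodule.coe_smul] at h2
  rw [real_inner_comm, real_inner_comm n u]
  exact h2.symm

theorem On.norm_sq {x e n : Euc N} (h : On G x e n) {u : Euc N} (hu : u ∈ G.T x) :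
    ‖u‖ ^ 2 = ⟪u, e⟫ ^ 2 + ⟪u, n⟫ ^ 2 := by
  conv_lhs => rw [h.expand hu]
  rw [norm_add_sq_real, norm_smul, norm_smul, inner_smul_left, inner_smul_right, h.en, h.ne, h.nn]
  simp

/-- two unit normals to `e` in `T x` agree up to sign -/
theorem On.unique {x e n n' : Euc N} (h : On G x e n) (h' : On G x e n') : n' = n ∨ n' = -n := by
  have h1 := h.expand h'.hn
  have h2 : ⟪n', e⟫ = 0 := by rw [real_inner_comm]; exact h'.en
  rw [h2, zero_smul, zero_add] at h1
  have h3 := h.norm_sq h'.hn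
  rw [h'.nn, h2] at h3
  have h4 : ⟪n', n⟫ ^ 2 = 1 := by linarith
  have h4' : ⟪n', n⟫ * ⟪n', n⟫ = 1 := by rw [← sq]; exact h4
  rcases mul_self_eq_one_iff.1 h4' with h5 | h5
  · left; rw [h1, h5, one_smul]
  · right; rw [h1, h5, neg_one_smul]

theorem On.neg_left {x e n : Euc N} (h : On G x e n) : On G x (-e) n :=
  ⟨h.hx, (G.T x).neg_mem h.he, h.hn, by rw [norm_neg]; exact h.ne, h.nn, by
    rw [inner_neg_left, h.en, neg_zero]⟩

theorem On.neg_right {x e n : Euc N} (h : On G x e n) : On G x e (-n) :=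
  ⟨h.hx, h.he, (G.T x).neg_mem h.hn, h.ne, by rw [norm_neg]; exact h.nn, by
    rw [inner_neg_right, h.en, neg_zero]⟩

theorem exists_On {x e : Euc N} (hx : x ∈ S) (he : e ∈ G.T x) (ne : ‖e‖ = 1) :
    ∃ n, On G x e n := by
  obtain ⟨v, hv⟩ := D3d.exists_frm G (p := ⟨x, hx⟩) he
  have hv1 : ‖v‖ = 1 := by rw [← D3d.norm_frm G ⟨x, hx⟩ v, hv, ne]
  have hv2 : v 0 ^ 2 + v 1 ^ 2 = 1 := by
    have := EuclideanSpace.real_norm_sq_eq v
    rw [hv1, Fin.sum_univ_two] at this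
    linarith
  refine ⟨D3d.frm G ⟨x, hx⟩ (!₂[-(v 1), v 0] : Euc 2), hx, he, D3d.frm_mem G ⟨x, hx⟩ _, ne, ?_, ?_⟩
  · rw [D3d.norm_frm, ← sq_eq_sq₀ (norm_nonneg _) zero_le_one, EuclideanSpace.real_norm_sq_eq,
      Fin.sum_univ_two]
    simp only [PiLp.toLp_apply, Matrix.cons_val_zero, Matrix.cons_val_one, Matrix.cons_val_fin_one]
    linarith
  · rw [← hv, D3d.inner_frm]
    simp [PiLp.inner_apply, Fin.sum_univ_two]
    ring

variable (G)

/-- Gauss curvature of the tangent plane at `x` computed in the orthonormal pair `(e, n)` -/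
def Kc (x e n : Euc N) : ℝ := ⟪II G x e e, II G x n n⟫ - ‖II G x e n‖ ^ 2

theorem Kc_neg_left (x e n : Euc N) : Kc G x (-e) n = Kc G x e n := by
  simp [Kc, II]

theorem Kc_neg_right (x e n : Euc N) : Kc G x e (-n) = Kc G x e n := by
  simp [Kc, II]

open Classical in
/-- Gauss curvature at `x` (through the direction `e`) -/
def Kv (x e : Euc N) : ℝ := if h : ∃ n, On G x e n then Kc G x e h.choose else 0

variable {G}

theorem On.Kv_eq {x e n : Euc N} (h : On G x e n) : Kv G x e = Kc G x e n := by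
  have hex : ∃ n, On G x e n := ⟨n, h⟩
  rw [Kv, dif_pos hex]
  rcases h.unique hex.choose_spec with h1 | h1
  · rw [h1]
  · rw [h1, Kc_neg_right]

theorem Kv_neg {x e : Euc N} (hx : x ∈ S) (he : e ∈ G.T x) (ne : ‖e‖ = 1) :
    Kv G x (-e) = Kv G x e := by
  obtain ⟨n, h⟩ := exists_On hx he ne
  rw [h.Kv_eq, h.neg_left.Kv_eq, Kc_neg_left]

theorem Kv_le {x e : Euc N} (hx : x ∈ S) (he : e ∈ G.T x) (ne : ‖e‖ = 1) : Kv G x e ≤ κ := by
  obtain ⟨n, h⟩ := exists_On hx he ne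
  rw [h.Kv_eq]
  have := G.curv x hx e he n h.hn
  rw [h.ne, h.nn, h.en] at this
  simpa [Kc, II] using this

variable (G)

/-- scalar Jacobian -/
def jj (p v w : Euc N) (t : ℝ) : ℝ := ‖J G p v w t‖

/-- its derivative for `t > 0` -/
def jd (p v w : Euc N) (t : ℝ) : ℝ := ⟪J' G p v w t, J G p v w t⟫ / ‖J G p v w t‖

variable {G} {p v w : Euc N}

theorem F_eq (hp : p ∈ S) (hv : v ∈ G.T p) (hw : w ∈ G.T p) (t : ℝ) :
    ‖J' G p v w t‖ ^ 2 - ⟪fderiv ℝ (fderiv ℝ (al G p v w)) (0, t) (0, 1) (0, 1),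
        fderiv ℝ (fderiv ℝ (al G p v w)) (0, t) (1, 0) (1, 0)⟫ =
      ‖G.P (al G p v w (0, t)) (J' G p v w t)‖ ^ 2 +
        ‖II G (al G p v w (0, t)) (ta G p v w (0, t)) (J G p v w t)‖ ^ 2 -
        ⟪II G (al G p v w (0, t)) (ta G p v w (0, t)) (ta G p v w (0, t)),
          II G (al G p v w (0, t)) (J G p v w t) (J G p v w t)⟫ := by
  have hsm := contDiff_al G hp hv hw
  set q : ℝ × ℝ := (0, t) with hq
  have hx := al_mem G hp hv hw q
  have hS : ∀ᶠ q' in 𝓝 q, al G p v w q' ∈ S := Eventually.of_forall fun q => al_mem G hp hv hw q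
  have hT : ta G p v w q ∈ G.T (al G p v w q) := ta_mem G hp hv hw q
  have hJ : J G p v w t ∈ G.T (al G p v w q) := J_mem G hp hv hw t
  have h1 := snd_deriv G (hsm.contDiffAt.of_le two_le) hS (0, 1) (1, 0)
  have h2 := snd_deriv G (hsm.contDiffAt.of_le two_le) hS (1, 0) (1, 0)
  rw [fderiv_al_t G hp hv hw] at h1
  have e1 : fderiv ℝ (fderiv ℝ (al G p v w)) q (0, 1) (1, 0) = J' G p v w t := rfl
  have e2 : fderiv ℝ (al G p v w) q (1, 0) = J G p v w t := rfl
  rw [e1, e2] at h1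
  rw [e2] at h2
  rw [snd_al_tt G hp hv hw, h2]
  have h3 : ⟪II G (al G p v w q) (ta G p v w q) (ta G p v w q),
      G.P (al G p v w q) (fderiv ℝ (fderiv ℝ (al G p v w)) q (1, 0) (1, 0))⟫ = 0 :=
    inner_II G hx hT hT (P_mem G hx)
  rw [inner_add_right, h3, zero_add]
  have h4 : ‖J' G p v w t‖ ^ 2 = ‖G.P (al G p v w q) (J' G p v w t)‖ ^ 2 +
      ‖II G (al G p v w q) (ta G p v w q) (J G p v w t)‖ ^ 2 := by
    have h5 : ⟪G.P (al G p v w q) (J' G p v w t),
        II G (al G p v w q) (ta G p v w q) (J G p v w t)⟫ = 0 := by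
      rw [real_inner_comm]
      exact inner_II G hx hT hJ (P_mem G hx)
    conv_lhs => rw [h1]
    rw [norm_add_sq_real, h5]
    ring
  rw [h4]

/-- flow line -/
theorem al_zero_left (t : ℝ) : al G p v w (0, t) = (fl G ((p, v), t)).1 := by simp [al]

theorem ta_zero_left (t : ℝ) : ta G p v w (0, t) = (fl G ((p, v), t)).2 := by simp [ta]

section

variable (h : On G p v w)
include h

theorem inner_J_T (t : ℝ) : ⟪J G p v w t, (fl G ((p, v), t)).2⟫ = 0 := by
  rw [← ta_zero_left (w := w), inner_J_ta G h.hx h.he h.hn, h.en, mul_zero]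

theorem inner_J'_T (t : ℝ) : ⟪J' G p v w t, (fl G ((p, v), t)).2⟫ = 0 := by
  rw [← ta_zero_left (w := w), inner_J'_ta G h.hx h.he h.hn, h.en]

theorem norm_T (t : ℝ) : ‖(fl G ((p, v), t)).2‖ = 1 := by
  rw [norm_fl G ⟨h.hx, h.he⟩, h.ne]

/-- the unit normal field along the geodesic given by the Jacobi field -/
theorem on_J {t : ℝ} (ht : J G p v w t ≠ 0) :
    On G (fl G ((p, v), t)).1 (fl G ((p, v), t)).2 (‖J G p v w t‖⁻¹ • J G p v w t) := by
  have hm := fl_mem G (q := (p, v)) ⟨h.hx, h.he⟩ t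
  have hJ := J_mem G h.hx h.he h.hn t
  rw [al_zero_left] at hJ
  refine ⟨hm.1, hm.2, (G.T _).smul_mem _ hJ, norm_T h t, ?_, ?_⟩
  · rw [norm_smul, norm_inv, norm_norm, inv_mul_cancel₀ (norm_ne_zero_iff.2 ht)]
  · rw [inner_smul_right, real_inner_comm, inner_J_T h, mul_zero]

theorem hasDerivAt_jj {t : ℝ} (ht : J G p v w t ≠ 0) :
    HasDerivAt (jj G p v w) (jd G p v w t) t := by
  have h1 := (hasDerivAt_J G h.hx h.he h.hn t).norm_sq
  have h2 := h1.sqrt (pow_ne_zero 2 (norm_ne_zero_iff.2 ht))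
  have h3 : (fun y => √(‖J G p v w y‖ ^ 2)) = jj G p v w := by
    ext y; exact Real.sqrt_sq (norm_nonneg _)
  rw [h3] at h2
  refine h2.congr_deriv ?_
  rw [Real.sqrt_sq (norm_nonneg _), jd, real_inner_comm]
  have : ‖J G p v w t‖ ≠ 0 := norm_ne_zero_iff.2 ht
  field_simp

/-- the scalar Jacobi equation -/
theorem hasDerivAt_jd {t : ℝ} (ht : J G p v w t ≠ 0) :
    HasDerivAt (jd G p v w)
      (-Kv G (fl G ((p, v), t)).1 (fl G ((p, v), t)).2 * jj G p v w t) t := by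
  have hon := on_J h ht
  have h1 := hasDerivAt_inner G h.hx h.he h.hn t
  rw [F_eq h.hx h.he h.hn, al_zero_left, ta_zero_left] at h1
  have hnz : ‖J G p v w t‖ ≠ 0 := norm_ne_zero_iff.2 ht
  have h2 := h1.div (hasDerivAt_jj h ht) hnz
  refine h2.congr_deriv ?_
  set x := (fl G ((p, v), t)).1 with hx
  set T := (fl G ((p, v), t)).2 with hT
  set n := ‖J G p v w t‖⁻¹ • J G p v w t with hn
  have hJn : J G p v w t = ‖J G p v w t‖ • n := by
    rw [hn, smul_smul, mul_inv_cancel₀ hnz, one_smul]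
  have e1 : II G x T (J G p v w t) = ‖J G p v w t‖ • II G x T n := by
    conv_lhs => rw [hJn]
    simp [II]
  have e2 : II G x (J G p v w t) (J G p v w t) = ‖J G p v w t‖ ^ 2 • II G x n n := by
    conv_lhs => rw [hJn]
    simp [II, smul_smul, sq]
  have hPJ : G.P x (J' G p v w t) ∈ G.T x := P_mem G hon.hx
  have e3 : ‖G.P x (J' G p v w t)‖ ^ 2 = jd G p v w t ^ 2 := by
    rw [hon.norm_sq hPJ, inner_P_left G hon.hx, inner_P_left G hon.hx,
      (P_eq_self G hon.hx).1 hon.he, (P_eq_self G hon.hx).1 hon.hn, inner_J'_T h, hn,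
      inner_smul_right, jd]
    ring
  rw [e1, e2, e3, hon.Kv_eq, Kc, norm_smul, inner_smul_right, norm_norm]
  show ((jd G p v w t ^ 2 + _ - _) * jj G p v w t - _ * jd G p v w t) / jj G p v w t ^ 2 = _
  have hjd : ⟪J' G p v w t, J G p v w t⟫ = jd G p v w t * ‖J G p v w t‖ := by
    rw [jd, div_mul_cancel₀ _ hnz]
  rw [hjd]
  simp only [jj]
  field_simp
  ring

end

end Crest.Agent.R241.LB2
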