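import Crest.Agent.R241.LB2

/-!
R241, block L: symmetry of the scalar Jacobian and the cosine solution (`Geo 2 N (-(k²)) S`).
-/

set_option autoImplicit false
set_option linter.unusedSectionVars false

open Set Filter Topology
open scoped ContDiff RealInnerProductSpace
open Crest.GeometryTopology.Submanifold
open Crest.Agent.R241.DDefs
open Crest.Agent.R241.D2
open Crest.Agent.R241.D3b
open Crest.Agent.R241.D3a
open Crest.Agent.R241.LB1
open Crest.Agent.R241.LB2

noncomputable section

namespace Crest.Agent.R241.LB3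

variable {N : ℕ} {S : Set (Euc N)}

section general

variable {κ : ℝ} (G : Geo 2 N κ S) {p v w : Euc N}

theorem J_eq (hp : p ∈ S) (hv : v ∈ G.T p) (hw : w ∈ G.T p) (t : ℝ) :
    J G p v w t = (fderiv ℝ (fl G) ((p, v), t) ((0, w), 0)).1 ∧
    J' G p v w t = (fderiv ℝ (fl G) ((p, v), t) ((0, w), 0)).2 := by
  have hd : HasFDerivAt (fl G) (fderiv ℝ (fl G) ((p, v), t)) ((p, v + (0 : ℝ) • w), t) := by
    have := ((contDiffAt_fl' G (q := (p, v)) ⟨hp, hv⟩ t).differentiableAt (by simp)).hasFDerivAt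
    simpa using this
  have h1 : HasDerivAt (fun s : ℝ => (((p, v + s • w), t) : (Euc N × Euc N) × ℝ)) ((0, w), 0) 0 := by
    have h2 : HasDerivAt (fun s : ℝ => v + s • w) w 0 := by
      simpa using ((hasDerivAt_id (0 : ℝ)).smul_const w).const_add v
    exact ((hasDerivAt_const (0 : ℝ) p).prodMk h2).prodMk (hasDerivAt_const (0 : ℝ) t)
  have h2 : HasDerivAt (fun s : ℝ => fl G ((p, v + s • w), t))
      (fderiv ℝ (fl G) ((p, v), t) ((0, w), 0)) 0 := hd.comp_hasDerivAt (0 : ℝ) h1
  constructor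
  · have h3 := hasDerivAt_s (q := ((0 : ℝ), t))
      ((contDiff_al G hp hv hw).differentiable (by simp) ((0 : ℝ), t))
    exact h3.unique (hda_fst h2)
  · rw [J'_eq G hp hv hw]
    have h3 := hasDerivAt_s (q := ((0 : ℝ), t))
      ((contDiff_ta G hp hv hw).differentiable (by simp) ((0 : ℝ), t))
    exact h3.unique (hda_snd h2)

theorem J_neg (hp : p ∈ S) (hv : v ∈ G.T p) (hw : w ∈ G.T p) (t : ℝ) :
    J G p v (-w) t = -J G p v w t ∧ J' G p v (-w) t = -J' G p v w t := by
  have h1 := J_eq G hp hv hw t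
  have h2 := J_eq G hp hv ((G.T p).neg_mem hw) t
  have h3 : (((0 : Euc N), -w), (0 : ℝ)) = -(((0 : Euc N), w), (0 : ℝ)) := by simp
  rw [h1.1, h1.2, h2.1, h2.2, h3, map_neg]
  simp

theorem jj_unique {w' : Euc N} (h : On G p v w) (h' : On G p v w') (t : ℝ) :
    jj G p v w' t = jj G p v w t ∧ jd G p v w' t = jd G p v w t := by
  rcases h.unique h' with h1 | h1
  · rw [h1]; exact ⟨rfl, rfl⟩
  · have h2 := J_neg G h.hx h.he h.hn t
    rw [h1]
    simp only [jj, jd, h2.1, h2.2, norm_neg, inner_neg_left, inner_neg_right, neg_neg, and_self]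

/-- reversal of the flow line -/
theorem fl_reverse (hp : p ∈ S) (hv : v ∈ G.T p) (r s : ℝ) :
    fl G (((fl G ((p, v), r)).1, -(fl G ((p, v), r)).2), s) =
      ((fl G ((p, v), r - s)).1, -(fl G ((p, v), r - s)).2) := by
  have hq : (p, v) ∈ TS G := ⟨hp, hv⟩
  have hr := fl_mem G hq r
  have h1 := (fl_rev G (complete G hr (-s))).2
  rw [neg_neg, ← fl_add' G hq] at h1
  exact h1

theorem fl_shift (hp : p ∈ S) (hv : v ∈ G.T p) (r s : ℝ) :
    fl G (((fl G ((p, v), r)).1, (fl G ((p, v), r)).2), s) = fl G ((p, v), r + s) :=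
  (fl_add' G ⟨hp, hv⟩ r s).symm

end general

variable {k : ℝ} (hk : 0 ≤ k) (G : Geo 2 N (-(k ^ 2)) S) {p v w : Euc N}
include hk

theorem le_jj (h : On G p v w) {t : ℝ} (ht : 0 < t) : t ≤ jj G p v w t := by
  have h1 := (jdata hk G h.hx h.he h.hn).le_norm (by
    simp only [J'_zero G h.hx h.he h.hn, ta_zero, zero_smul, add_zero]
    exact real_inner_comm _ _) ht
  rwa [J'_zero G h.hx h.he h.hn, h.nn, mul_one] at h1

theorem J_ne_zero (h : On G p v w) {t : ℝ} (ht : 0 < t) : J G p v w t ≠ 0 := by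
  have := le_jj hk G h ht
  intro h0
  rw [jj, h0, norm_zero] at this
  linarith

omit hk in
theorem jj_zero (h : On G p v w) : jj G p v w 0 = 0 := by
  rw [jj, J_zero G h.hx h.he h.hn, norm_zero]

omit hk in
theorem continuous_jj (h : On G p v w) : Continuous (jj G p v w) :=
  (continuous_iff_continuousAt.2 fun t =>
    (hasDerivAt_J G h.hx h.he h.hn t).continuousAt).norm

omit hk in
theorem tendsto_jj (h : On G p v w) : Tendsto (jj G p v w) (𝓝[>] 0) (𝓝 0) := by
  have := (continuous_jj G h).tendsto 0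
  rw [jj_zero G h] at this
  exact this.mono_left nhdsWithin_le_nhds

theorem tendsto_jd (h : On G p v w) : Tendsto (jd G p v w) (𝓝[>] 0) (𝓝 1) := by
  have h1 := (hasDerivAt_J G h.hx h.he h.hn 0).tendsto_slope_zero_right
  simp only [zero_add, J_zero G h.hx h.he h.hn, sub_zero, J'_zero G h.hx h.he h.hn] at h1
  have hc : Continuous (J' G p v w) := by
    have h2 : J' G p v w = fun t => fderiv ℝ (ta G p v w) (0, t) (1, 0) :=
      funext fun t => J'_eq G h.hx h.he h.hn t
    rw [h2]
    have h3 : Continuous (fderiv ℝ (ta G p v w)) :=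
      (contDiff_ta G h.hx h.he h.hn).continuous_fderiv (by simp)
    exact (h3.comp (by fun_prop)).clm_apply continuous_const
  have h2 : Tendsto (J' G p v w) (𝓝[>] 0) (𝓝 w) := by
    have := hc.tendsto 0
    rw [J'_zero G h.hx h.he h.hn] at this
    exact this.mono_left nhdsWithin_le_nhds
  have h3 := (h2.inner h1).div h1.norm (by rw [h.nn]; norm_num)
  rw [real_inner_self_eq_norm_sq, h.nn] at h3
  norm_num at h3
  refine h3.congr' ?_
  filter_upwards [self_mem_nhdsWithin] with t ht
  have ht' : (0 : ℝ) < t := ht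
  have hJ := J_ne_zero hk G h ht'
  have hn : ‖J G p v w t‖ ≠ 0 := norm_ne_zero_iff.2 hJ
  rw [jd, Pi.div_apply, inner_smul_right, norm_smul, norm_inv, Real.norm_eq_abs, abs_of_pos ht']
  field_simp

/-- symmetry of the scalar Jacobian -/
theorem jj_symm (h : On G p v w) {r : ℝ} (hr : 0 < r) {w' : Euc N}
    (h' : On G (fl G ((p, v), r)).1 (-(fl G ((p, v), r)).2) w') :
    jj G (fl G ((p, v), r)).1 (-(fl G ((p, v), r)).2) w' r = jj G p v w r := by
  set y := (fl G ((p, v), r)).1 with hy
  set V := (fl G ((p, v), r)).2 with hV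
  set q : ℝ → ℝ := fun t => -Kv G (fl G ((p, v), t)).1 (fl G ((p, v), t)).2 with hq
  have hW := wronskian_const (a := 0) (b := r) (f := fun t => jj G y (-V) w' (r - t))
    (fd := fun t => -jd G y (-V) w' (r - t)) (g := jj G p v w) (gd := jd G p v w) (q := q)
    ?_ ?_ (fun t ht => hasDerivAt_jj h (J_ne_zero hk G h ht.1))
    (fun t ht => hasDerivAt_jd h (J_ne_zero hk G h ht.1))
  · -- limits at both ends
    set W : ℝ → ℝ := fun t => jj G y (-V) w' (r - t) * jd G p v w t -
      -jd G y (-V) w' (r - t) * jj G p v w t with hWdef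
    have hsub0 : Tendsto (fun t : ℝ => r - t) (𝓝[>] 0) (𝓝 r) := by
      have : Tendsto (fun t : ℝ => r - t) (𝓝 0) (𝓝 (r - 0)) :=
        (continuous_const.sub continuous_id).tendsto 0
      rw [sub_zero] at this
      exact this.mono_left nhdsWithin_le_nhds
    have hsubr : Tendsto (fun t : ℝ => r - t) (𝓝[<] r) (𝓝[>] 0) := by
      apply tendsto_nhdsWithin_of_tendsto_nhds_of_eventually_within
      · have : Tendsto (fun t : ℝ => r - t) (𝓝 r) (𝓝 (r - r)) :=
          (continuous_const.sub continuous_id).tendsto r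
        rw [sub_self] at this
        exact this.mono_left nhdsWithin_le_nhds
      · filter_upwards [self_mem_nhdsWithin] with t ht
        have ht' : t < r := ht
        exact sub_pos.2 ht'
    have hJr : J G y (-V) w' r ≠ 0 := J_ne_zero hk G h' hr
    have hl0 : Tendsto W (𝓝[>] 0) (𝓝 (jj G y (-V) w' r)) := by
      have h1 := ((continuous_jj G h').tendsto r).comp hsub0
      have h2 := ((hasDerivAt_jd h' hJr).continuousAt.tendsto).comp hsub0
      have h3 := (h1.mul (tendsto_jd hk G h)).sub (h2.neg.mul (tendsto_jj G h))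
      rw [mul_one, mul_zero, sub_zero] at h3
      exact h3
    have hlr : Tendsto W (𝓝[<] r) (𝓝 (jj G p v w r)) := by
      have h1 := (tendsto_jj G h').comp hsubr
      have h2 := (tendsto_jd hk G h').comp hsubr
      have h4 : Tendsto (jj G p v w) (𝓝[<] r) (𝓝 (jj G p v w r)) :=
        ((continuous_jj G h).tendsto r).mono_left nhdsWithin_le_nhds
      have h5 : Tendsto (jd G p v w) (𝓝[<] r) (𝓝 (jd G p v w r)) :=
        ((hasDerivAt_jd h (J_ne_zero hk G h hr)).continuousAt.tendsto).mono_left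
          nhdsWithin_le_nhds
      have h3 := (h1.mul h5).sub (h2.neg.mul h4)
      have e : (0 : ℝ) * jd G p v w r - -1 * jj G p v w r = jj G p v w r := by ring
      rw [e] at h3
      exact h3
    have hmid : r / 2 ∈ Ioo (0 : ℝ) r := ⟨by linarith, by linarith⟩
    have c1 : Tendsto W (𝓝[>] 0) (𝓝 (W (r / 2))) := by
      refine tendsto_const_nhds.congr' ?_
      filter_upwards [Ioo_mem_nhdsGT hr] with t ht
      exact hW _ hmid _ ht
    have c2 : Tendsto W (𝓝[<] r) (𝓝 (W (r / 2))) := by
      refine tendsto_const_nhds.congr' ?_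
      filter_upwards [Ioo_mem_nhdsLT hr] with t ht
      exact hW _ hmid _ ht
    exact (tendsto_nhds_unique hl0 c1).trans (tendsto_nhds_unique hlr c2).symm
  · intro t ht
    have h1 := hasDerivAt_jj h' (J_ne_zero hk G h' (sub_pos.2 ht.2))
    have h2 : HasDerivAt (fun t : ℝ => r - t) (-1) t := by
      simpa using (hasDerivAt_id t).const_sub r
    have h3 := h1.comp t h2
    refine h3.congr_deriv (by ring)
  · intro t ht
    have h1 := hasDerivAt_jd h' (J_ne_zero hk G h' (sub_pos.2 ht.2))
    have h2 : HasDerivAt (fun t : ℝ => r - t) (-1) t := by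
      simpa using (hasDerivAt_id t).const_sub r
    have h3 := (h1.comp t h2).neg
    refine h3.congr_deriv ?_
    rw [hy, hV, fl_reverse G h.hx h.he, sub_sub_cancel]
    have hm := fl_mem G (q := (p, v)) ⟨h.hx, h.he⟩ t
    rw [Kv_neg hm.1 hm.2 (norm_T h t)]
    simp only [hq]
    ring

theorem one_le_jd (h : On G p v w) {t : ℝ} (ht : 0 < t) : 1 ≤ jd G p v w t := by
  refine ge_of_deriv_nonneg (fun s hs => hasDerivAt_jd h (J_ne_zero hk G h hs)) ?_
    (tendsto_jd hk G h) ht
  intro s hs
  have hm := fl_mem G (q := (p, v)) ⟨h.hx, h.he⟩ s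
  have h1 := Kv_le hm.1 hm.2 (norm_T h s)
  have h2 : 0 ≤ jj G p v w s := norm_nonneg _
  have h3 : 0 ≤ -Kv G (fl G ((p, v), s)).1 (fl G ((p, v), s)).2 := by nlinarith [sq_nonneg k]
  positivity

/-- `C` solution: value and derivative, computed from the point at distance one behind. -/
def _root_.Crest.Agent.R241.LB3.CC {κ : ℝ} (G : Geo 2 N κ S) (p v w z u wz : Euc N) (t : ℝ) : ℝ :=
  (jj G z u wz (t + 1) - jj G p v w t * jd G z u wz 1) / jj G z u wz 1

def _root_.Crest.Agent.R241.LB3.CD {κ : ℝ} (G : Geo 2 N κ S) (p v w z u wz : Euc N) (t : ℝ) : ℝ :=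
  (jd G z u wz (t + 1) - jd G p v w t * jd G z u wz 1) / jj G z u wz 1

section behind

variable {z u wz : Euc N} (h : On G p v w) (hz : On G z u wz) (hzp : fl G ((z, u), 1) = (p, v))
include h hz hzp

omit hk h in
theorem fl_behind (t : ℝ) : fl G ((z, u), t + 1) = fl G ((p, v), t) := by
  have h1 := fl_add' G (q := (z, u)) ⟨hz.hx, hz.he⟩ 1 t
  rw [hzp] at h1
  rw [add_comm, h1]

theorem CC_zero : CC G p v w z u wz 0 = 1 := by
  have h1 : jj G z u wz 1 ≠ 0 := norm_ne_zero_iff.2 (J_ne_zero hk G hz one_pos)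
  rw [CC, jj_zero G h, zero_add, zero_mul, sub_zero, div_self h1]

omit hk hzp in
theorem continuous_CC : Continuous (CC G p v w z u wz) := by
  have h1 := continuous_jj G h
  have h2 := continuous_jj G hz
  unfold CC
  exact ((h2.comp (continuous_id.add continuous_const)).sub (h1.mul continuous_const)).div_const _

theorem hasDerivAt_CC {t : ℝ} (ht : 0 < t) :
    HasDerivAt (CC G p v w z u wz) (CD G p v w z u wz t) t := by
  have h1 : HasDerivAt (fun t => jj G z u wz (t + 1)) (jd G z u wz (t + 1)) t := by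
    exact (hasDerivAt_jj hz (J_ne_zero hk G hz (show 0 < t + 1 by linarith))).comp_add_const t 1
  exact (h1.sub ((hasDerivAt_jj h (J_ne_zero hk G h ht)).mul_const _)).div_const _

theorem hasDerivAt_CD {t : ℝ} (ht : 0 < t) :
    HasDerivAt (CD G p v w z u wz)
      (-Kv G (fl G ((p, v), t)).1 (fl G ((p, v), t)).2 * CC G p v w z u wz t) t := by
  have h1 : HasDerivAt (fun t => jd G z u wz (t + 1))
      (-Kv G (fl G ((p, v), t)).1 (fl G ((p, v), t)).2 * jj G z u wz (t + 1)) t := by
    have h3 := (hasDerivAt_jd hz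
      (J_ne_zero hk G hz (show 0 < t + 1 by linarith))).comp_add_const t 1
    rwa [fl_behind G hz hzp] at h3
  refine ((h1.sub ((hasDerivAt_jd h (J_ne_zero hk G h ht)).mul_const _)).div_const _).congr_deriv ?_
  rw [CC]
  ring

theorem tendsto_CD : Tendsto (CD G p v w z u wz) (𝓝[>] 0) (𝓝 0) := by
  have h1 : Tendsto (fun t => jd G z u wz (t + 1)) (𝓝[>] 0) (𝓝 (jd G z u wz 1)) := by
    have h2 := (hasDerivAt_jd hz (J_ne_zero hk G hz one_pos)).continuousAt.tendsto
    have h3 : Tendsto (fun t : ℝ => t + 1) (𝓝[>] 0) (𝓝 1) := by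
      have : Tendsto (fun t : ℝ => t + 1) (𝓝 0) (𝓝 (0 + 1)) :=
        (continuous_id.add continuous_const).tendsto 0
      rw [zero_add] at this
      exact this.mono_left nhdsWithin_le_nhds
    exact h2.comp h3
  have h4 := (h1.sub ((tendsto_jd hk G h).mul_const (jd G z u wz 1))).div_const (jj G z u wz 1)
  rw [one_mul, sub_self, zero_div] at h4
  exact h4

theorem CD_ge {t : ℝ} (ht : 0 < t) : k ^ 2 * jj G p v w t ≤ CD G p v w z u wz t := by
  refine cosine_deriv_ge hk (q := fun t => -Kv G (fl G ((p, v), t)).1 (fl G ((p, v), t)).2)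
    (fun s hs => ?_) (fun s hs => hasDerivAt_CC hk G h hz hzp hs)
    (fun s hs => hasDerivAt_CD hk G h hz hzp hs)
    (fun s hs => hasDerivAt_jj h (J_ne_zero hk G h hs))
    (fun s hs => hasDerivAt_jd h (J_ne_zero hk G h hs)) ?_ (tendsto_CD hk G h hz hzp)
    (tendsto_jj G h) (tendsto_jd hk G h) ht
  · have hm := fl_mem G (q := (p, v)) ⟨h.hx, h.he⟩ s
    have h1 := Kv_le hm.1 hm.2 (norm_T h s)
    linarith
  · have := (continuous_CC G h hz).tendsto 0
    rw [CC_zero hk G h hz hzp] at this
    exact this.mono_left nhdsWithin_le_nhds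

/-- the derivative of the Jacobian seen from the other end point is the cosine solution -/
theorem jd_back {r : ℝ} (hr : 0 < r) {w' : Euc N}
    (h' : On G (fl G ((p, v), r)).1 (-(fl G ((p, v), r)).2) w') :
    jd G (fl G ((p, v), r)).1 (-(fl G ((p, v), r)).2) w' r = CC G p v w z u wz r := by
  have hsym := jj_symm hk G h hr h'
  set y := (fl G ((p, v), r)).1 with hy
  set V := (fl G ((p, v), r)).2 with hV
  set q : ℝ → ℝ := fun t => -Kv G (fl G ((p, v), t)).1 (fl G ((p, v), t)).2 with hq
  have hW := wronskian_const (a := -1) (b := r) (f := fun t => jj G y (-V) w' (r - t))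
    (fd := fun t => -jd G y (-V) w' (r - t)) (g := fun t => jj G z u wz (t + 1))
    (gd := fun t => jd G z u wz (t + 1)) (q := q) ?_ ?_ ?_ ?_
  · set W : ℝ → ℝ := fun t => jj G y (-V) w' (r - t) * jd G z u wz (t + 1) -
      -jd G y (-V) w' (r - t) * jj G z u wz (t + 1) with hWdef
    have hsubr : Tendsto (fun t : ℝ => r - t) (𝓝[<] r) (𝓝[>] 0) := by
      apply tendsto_nhdsWithin_of_tendsto_nhds_of_eventually_within
      · have : Tendsto (fun t : ℝ => r - t) (𝓝 r) (𝓝 (r - r)) :=
          (continuous_const.sub continuous_id).tendsto r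
        rw [sub_self] at this
        exact this.mono_left nhdsWithin_le_nhds
      · filter_upwards [self_mem_nhdsWithin] with t ht
        have ht' : t < r := ht
        exact sub_pos.2 ht'
    have haddr : Tendsto (fun t : ℝ => t + 1) (𝓝[<] r) (𝓝 (r + 1)) :=
      ((continuous_id.add continuous_const).tendsto r).mono_left nhdsWithin_le_nhds
    have hlr : Tendsto W (𝓝[<] r) (𝓝 (jj G z u wz (r + 1))) := by
      have h1 := (tendsto_jj G h').comp hsubr
      have h2 := (tendsto_jd hk G h').comp hsubr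
      have h4 := ((continuous_jj G hz).tendsto (r + 1)).comp haddr
      have h5 := ((hasDerivAt_jd hz (J_ne_zero hk G hz
        (show 0 < r + 1 by linarith))).continuousAt.tendsto).comp haddr
      have h3 := (h1.mul h5).sub (h2.neg.mul h4)
      have e : (0 : ℝ) * jd G z u wz (r + 1) - -1 * jj G z u wz (r + 1) = jj G z u wz (r + 1) := by
        ring
      rw [e] at h3
      exact h3
    have h0 : (0 : ℝ) ∈ Ioo (-1 : ℝ) r := ⟨by linarith, hr⟩
    have c2 : Tendsto W (𝓝[<] r) (𝓝 (W 0)) := by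
      refine tendsto_const_nhds.congr' ?_
      filter_upwards [Ioo_mem_nhdsLT (show (-1 : ℝ) < r by linarith)] with t ht
      exact hW _ h0 _ ht
    have h6 := tendsto_nhds_unique hlr c2
    simp only [hWdef, sub_zero, zero_add, hsym] at h6
    have h1 : jj G z u wz 1 ≠ 0 := norm_ne_zero_iff.2 (J_ne_zero hk G hz one_pos)
    rw [CC, h6]
    field_simp
    ring
  · intro t ht
    have h1 := hasDerivAt_jj h' (J_ne_zero hk G h' (sub_pos.2 ht.2))
    have h2 : HasDerivAt (fun t : ℝ => r - t) (-1) t := by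
      simpa using (hasDerivAt_id t).const_sub r
    have h3 := h1.comp t h2
    refine h3.congr_deriv (by ring)
  · intro t ht
    have h1 := hasDerivAt_jd h' (J_ne_zero hk G h' (sub_pos.2 ht.2))
    have h2 : HasDerivAt (fun t : ℝ => r - t) (-1) t := by
      simpa using (hasDerivAt_id t).const_sub r
    have h3 := (h1.comp t h2).neg
    refine h3.congr_deriv ?_
    rw [hy, hV, fl_reverse G h.hx h.he, sub_sub_cancel]
    have hm := fl_mem G (q := (p, v)) ⟨h.hx, h.he⟩ t
    rw [Kv_neg hm.1 hm.2 (norm_T h t)]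
    simp only [hq]
    ring
  · intro t ht
    exact (hasDerivAt_jj hz
      (J_ne_zero hk G hz (show 0 < t + 1 by linarith [ht.1]))).comp_add_const t 1
  · intro t ht
    have h3 := (hasDerivAt_jd hz
      (J_ne_zero hk G hz (show 0 < t + 1 by linarith [ht.1]))).comp_add_const t 1
    rwa [fl_behind G hz hzp] at h3

end behind

end Crest.Agent.R241.LB3
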