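import Crest.Agent.R241.LB3
import Crest.Agent.R241.D4Arc

/-!
R241, block L: the logarithm as a continuous map into the tangent bundle, frame free formulas for
the scalar Jacobian, and the kernel `K`.
-/

set_option autoImplicit false
set_option linter.unusedSectionVars false

open Set Filter Topology
open scoped ContDiff RealInnerProductSpace
open Crest.GeometryTopology.Submanifold
open Crest.Agent.R241.DDefs
open Crest.Agent.R241.D2
open Crest.Agent.R241.D3b
open Crest.Agent.R241.D3a
open Crest.Agent.R241.D4Met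
open Crest.Agent.R241.LB1
open Crest.Agent.R241.LB2
open Crest.Agent.R241.LB3

noncomputable section

namespace Crest.Agent.R241.LB4

variable {N : ℕ} {S : Set (Euc N)}

/-! ### Hilbert–Schmidt formulas -/

section HS

variable {κ : ℝ} {G : Geo 2 N κ S} {p e n : Euc N}

/-- the trace of `⟪A1 P ·, A2 P ·⟫` -/
theorem trace_eq (h : On G p e n) (A1 A2 : Euc N →L[ℝ] Euc N) :
    ∑ i, ⟪A1 (G.P p (EuclideanSpace.single i 1)), A2 (G.P p (EuclideanSpace.single i 1))⟫ =
      ⟪A1 e, A2 e⟫ + ⟪A1 n, A2 n⟫ := by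
  have hP : ∀ i : Fin N, G.P p (EuclideanSpace.single i 1) = (e i) • e + (n i) • n := by
    intro i
    have h1 := h.expand (P_mem G h.hx (v := EuclideanSpace.single i 1))
    rw [inner_P_left G h.hx, inner_P_left G h.hx, (P_eq_self G h.hx).1 h.he,
      (P_eq_self G h.hx).1 h.hn, EuclideanSpace.inner_single_left,
      EuclideanSpace.inner_single_left] at h1
    simpa using h1
  have hee : ∑ i, e i * e i = 1 := by
    have := EuclideanSpace.real_norm_sq_eq e
    rw [h.ne] at this
    simp only [sq] at this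
    linarith
  have hnn : ∑ i, n i * n i = 1 := by
    have := EuclideanSpace.real_norm_sq_eq n
    rw [h.nn] at this
    simp only [sq] at this
    linarith
  have hen : ∑ i, e i * n i = 0 := by
    have := h.en
    rw [PiLp.inner_apply] at this
    simp only [RCLike.inner_apply, conj_trivial] at this
    rw [← this]
    exact Finset.sum_congr rfl fun i _ => by ring
  have h2 : ∀ i : Fin N, ⟪A1 (G.P p (EuclideanSpace.single i 1)),
      A2 (G.P p (EuclideanSpace.single i 1))⟫ =
        (e i * e i) * ⟪A1 e, A2 e⟫ + (e i * n i) * (⟪A1 e, A2 n⟫ + ⟪A1 n, A2 e⟫) +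
          (n i * n i) * ⟪A1 n, A2 n⟫ := by
    intro i
    rw [hP i]
    simp only [map_add, map_smul, inner_add_left, inner_add_right, inner_smul_left,
      inner_smul_right, RCLike.conj_to_real]
    ring
  simp only [h2, Finset.sum_add_distrib, ← Finset.sum_mul, hee, hnn, hen]
  ring

variable (G)

/-- first component of the derivative of the flow in the direction of the velocity -/
def A1 (p v : Euc N) (t : ℝ) : Euc N →L[ℝ] Euc N :=
  (ContinuousLinearMap.fst ℝ (Euc N) (Euc N)).comp ((fderiv ℝ (fl G) ((p, v), t)).comp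
    ((ContinuousLinearMap.inl ℝ (Euc N × Euc N) ℝ).comp (ContinuousLinearMap.inr ℝ (Euc N) (Euc N))))

/-- second component -/
def A2 (p v : Euc N) (t : ℝ) : Euc N →L[ℝ] Euc N :=
  (ContinuousLinearMap.snd ℝ (Euc N) (Euc N)).comp ((fderiv ℝ (fl G) ((p, v), t)).comp
    ((ContinuousLinearMap.inl ℝ (Euc N × Euc N) ℝ).comp (ContinuousLinearMap.inr ℝ (Euc N) (Euc N))))

theorem A1_apply {v w : Euc N} (hp : p ∈ S) (hv : v ∈ G.T p) (hw : w ∈ G.T p) (t : ℝ) :
    A1 G p v t w = J G p v w t := (J_eq G hp hv hw t).1.symm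

theorem A2_apply {v w : Euc N} (hp : p ∈ S) (hv : v ∈ G.T p) (hw : w ∈ G.T p) (t : ℝ) :
    A2 G p v t w = J' G p v w t := (J_eq G hp hv hw t).2.symm

/-- square of the scalar Jacobian, frame free -/
def hs1 (q : (Euc N × Euc N) × ℝ) : ℝ :=
  (∑ i, ⟪A1 G q.1.1 q.1.2 q.2 (G.P q.1.1 (EuclideanSpace.single i 1)),
    A1 G q.1.1 q.1.2 q.2 (G.P q.1.1 (EuclideanSpace.single i 1))⟫) - q.2 ^ 2

/-- product of the scalar Jacobian with its derivative, frame free -/
def hs2 (q : (Euc N × Euc N) × ℝ) : ℝ :=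
  (∑ i, ⟪A2 G q.1.1 q.1.2 q.2 (G.P q.1.1 (EuclideanSpace.single i 1)),
    A1 G q.1.1 q.1.2 q.2 (G.P q.1.1 (EuclideanSpace.single i 1))⟫) - q.2

/-- the Jacobi field in the direction of the geodesic -/
theorem J_self (hp : p ∈ S) {v : Euc N} (hv : v ∈ G.T p) (t : ℝ) :
    J G p v v t = t • (fl G ((p, v), t)).2 ∧
    J' G p v v t = (fl G ((p, v), t)).2 +
      t • fderiv ℝ G.P (fl G ((p, v), t)).1 (fl G ((p, v), t)).2 (fl G ((p, v), t)).2 := by
  have hq : (p, v) ∈ TS G := ⟨hp, hv⟩
  have hs : ∀ s : ℝ, fl G ((p, v + s • v), t) =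
      ((fl G ((p, v), (1 + s) * t)).1, (1 + s) • (fl G ((p, v), (1 + s) * t)).2) := by
    intro s
    have := fl_scale G hq (1 + s) t
    rw [add_smul, one_smul] at this
    exact this
  have hm : HasDerivAt (fun s : ℝ => (1 + s) * t) t 0 := by
    simpa using ((hasDerivAt_id (0 : ℝ)).const_add 1).mul_const t
  have h1 := (hasDerivAt_fl G (complete G hq ((1 + 0) * t))).scomp (0 : ℝ) hm
  rw [add_zero, one_mul] at h1
  have h1a : HasDerivAt (fun s : ℝ => (fl G ((p, v), (1 + s) * t)).1)
      (t • (fl G ((p, v), t)).2) 0 := hda_fst h1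
  have h1b : HasDerivAt (fun s : ℝ => (fl G ((p, v), (1 + s) * t)).2)
      (t • fderiv ℝ G.P (fl G ((p, v), t)).1 (fl G ((p, v), t)).2 (fl G ((p, v), t)).2) 0 :=
    hda_snd h1
  constructor
  · have h3 := hasDerivAt_s (q := ((0 : ℝ), t))
      ((contDiff_al G hp hv hv).differentiable (by simp) ((0 : ℝ), t))
    refine h3.unique ?_
    refine h1a.congr_of_eventuallyEq (Eventually.of_forall fun s => ?_)
    show (fl G ((p, v + s • v), t)).1 = _
    rw [hs s]
  · rw [J'_eq G hp hv hv]
    have h3 := hasDerivAt_s (q := ((0 : ℝ), t))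
      ((contDiff_ta G hp hv hv).differentiable (by simp) ((0 : ℝ), t))
    refine h3.unique ?_
    have h4 : HasDerivAt (fun s : ℝ => (1 + s) • (fl G ((p, v), (1 + s) * t)).2)
        ((1 + (0 : ℝ)) • (t • fderiv ℝ G.P (fl G ((p, v), t)).1 (fl G ((p, v), t)).2
          (fl G ((p, v), t)).2) + (1 : ℝ) • (fl G ((p, v), (1 + 0) * t)).2) 0 :=
      ((hasDerivAt_id (0 : ℝ)).const_add 1).smul h1b
    rw [add_zero, one_smul, one_mul, one_smul, add_comm] at h4
    refine h4.congr_of_eventuallyEq (Eventually.of_forall fun s => ?_)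
    show (fl G ((p, v + s • v), t)).2 = _
    rw [hs s]

theorem hs1_eq {v w : Euc N} (h : On G p v w) (t : ℝ) :
    hs1 G ((p, v), t) = jj G p v w t ^ 2 := by
  have h1 := J_self G h.hx h.he t
  have h2 := norm_T h t
  simp only [hs1]
  rw [trace_eq h, A1_apply G h.hx h.he h.he, A1_apply G h.hx h.he h.hn, h1.1,
    real_inner_self_eq_norm_sq, real_inner_self_eq_norm_sq, norm_smul, h2, jj, mul_one,
    Real.norm_eq_abs, sq_abs]
  ring

theorem hs2_eq {v w : Euc N} (h : On G p v w) (t : ℝ) :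
    hs2 G ((p, v), t) = ⟪J' G p v w t, J G p v w t⟫ := by
  have h1 := J_self G h.hx h.he t
  have h2 := norm_T h t
  have hm := fl_mem G (q := (p, v)) ⟨h.hx, h.he⟩ t
  have h3 := inner_II G hm.1 hm.2 hm.2 hm.2
  unfold II at h3
  simp only [hs2]
  rw [trace_eq h, A1_apply G h.hx h.he h.he, A1_apply G h.hx h.he h.hn,
    A2_apply G h.hx h.he h.he, A2_apply G h.hx h.he h.hn, h1.1, h1.2, inner_add_left,
    inner_smul_right, inner_smul_right, inner_smul_left, h3, real_inner_self_eq_norm_sq, h2]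
  simp

theorem continuousAt_hs {p v : Euc N} (hp : p ∈ S) (hv : v ∈ G.T p) (t : ℝ) :
    ContinuousAt (hs1 G) ((p, v), t) ∧ ContinuousAt (hs2 G) ((p, v), t) := by
  have h1 : ContinuousAt (fderiv ℝ (fl G)) ((p, v), t) :=
    (contDiffAt_fl' G (q := (p, v)) ⟨hp, hv⟩ t).fderiv_right (m := 0) (by simp) |>.continuousAt
  have h2 : ContinuousAt (fun q : (Euc N × Euc N) × ℝ => A1 G q.1.1 q.1.2 q.2) ((p, v), t) := by
    unfold A1
    exact continuousAt_const.clm_comp (h1.clm_comp continuousAt_const)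
  have h3 : ContinuousAt (fun q : (Euc N × Euc N) × ℝ => A2 G q.1.1 q.1.2 q.2) ((p, v), t) := by
    unfold A2
    exact continuousAt_const.clm_comp (h1.clm_comp continuousAt_const)
  have h4 : ∀ i : Fin N, ContinuousAt (fun q : (Euc N × Euc N) × ℝ =>
      G.P q.1.1 (EuclideanSpace.single i 1)) ((p, v), t) := by
    intro i
    exact (((G.contDiff_P.continuous.comp (continuous_fst.comp continuous_fst)).clm_apply
      continuous_const)).continuousAt
  constructor
  · unfold hs1
    refine ContinuousAt.sub (tendsto_finsetSum _ fun i _ => ?_) ?_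
    · exact (h2.clm_apply (h4 i)).inner (h2.clm_apply (h4 i))
    · exact (continuous_snd.pow 2).continuousAt
  · unfold hs2
    refine ContinuousAt.sub (tendsto_finsetSum _ fun i _ => ?_) ?_
    · exact (h3.clm_apply (h4 i)).inner (h2.clm_apply (h4 i))
    · exact continuous_snd.continuousAt

end HS

/-! ### the logarithm -/

section log

variable {k : ℝ} (hk : 0 ≤ k) (G : Geo 2 N (-(k ^ 2)) S) (sub : IsSubmanifold 2 N S)
  (sc : SimplyConnectedSpace S)

/-- exponential data -/
abbrev DD : ExpData 2 N S := D3d.expData hk G sub sc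

theorem coe_homeo (p : S) (v : Euc 2) :
    ((DD hk G sub sc).homeo p v : Euc N) = Exp G p (D3d.frm G p v) :=
  (DD hk G sub sc).homeo_coe p v

/-- initial velocity of the geodesic from `y` to `x` (reached at time one) -/
def logv (y x : S) : Euc N := D3d.frm G y ((DD hk G sub sc).log y x)

theorem logv_mem (y x : S) : logv hk G sub sc y x ∈ G.T y := D3d.frm_mem G y _

theorem Exp_logv (y x : S) : Exp G y (logv hk G sub sc y x) = x := by
  have := coe_homeo hk G sub sc y ((DD hk G sub sc).log y x)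
  rw [(DD hk G sub sc).homeo_log] at this
  exact this.symm

theorem logv_unique {y x : S} {v : Euc N} (hv : v ∈ G.T y) (h : Exp G y v = x) :
    v = logv hk G sub sc y x := by
  obtain ⟨u, rfl⟩ := D3d.exists_frm G (p := y) hv
  have h1 : (DD hk G sub sc).homeo y u = x := Subtype.ext (by rw [coe_homeo]; exact h)
  rw [logv, ← h1, (DD hk G sub sc).log_homeo]

theorem norm_logv (y x : S) : ‖logv hk G sub sc y x‖ = ‖(DD hk G sub sc).log y x‖ :=
  D3d.norm_frm G y _

theorem norm_logv_comm (y x : S) : ‖logv hk G sub sc y x‖ = ‖logv hk G sub sc x y‖ := by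
  rw [norm_logv, norm_logv, (DD hk G sub sc).norm_log_comm]

theorem logv_ne_zero {y x : S} (h : y ≠ x) : logv hk G sub sc y x ≠ 0 := by
  intro h0
  apply h
  apply (DD hk G sub sc).eq_of_norm_log_eq_zero
  rw [← norm_logv, h0, norm_zero]

theorem continuous_norm_logv :
    Continuous fun q : S × S => ‖logv hk G sub sc q.1 q.2‖ := by
  have h1 : (fun q : S × S => ‖logv hk G sub sc q.1 q.2‖) =
      fun q : S × S => dist (XS.of (DD hk G sub sc) q.1) (XS.of (DD hk G sub sc) q.2) := by
    funext q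
    rw [norm_logv, XS.dist_of]
  rw [h1]
  exact ((XS.continuous_of _).comp continuous_fst).dist ((XS.continuous_of _).comp continuous_snd)

theorem continuous_logv : Continuous fun q : S × S => logv hk G sub sc q.1 q.2 := by
  rw [continuous_iff_continuousAt]
  intro q
  rw [ContinuousAt, tendsto_iff_ultrafilter]
  intro U hU
  -- boundedness
  have hn := (continuous_norm_logv hk G sub sc).tendsto q
  have hb : ∀ᶠ q' in (U : Filter (S × S)), logv hk G sub sc q'.1 q'.2 ∈
      Metric.closedBall (0 : Euc N) (‖logv hk G sub sc q.1 q.2‖ + 1) := by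
    have : ∀ᶠ q' in 𝓝 q, ‖logv hk G sub sc q'.1 q'.2‖ < ‖logv hk G sub sc q.1 q.2‖ + 1 :=
      hn.eventually (gt_mem_nhds (by linarith))
    filter_upwards [hU this] with q' hq'
    rw [mem_closedBall_zero_iff]
    exact hq'.le
  obtain ⟨v, -, hv⟩ := (isCompact_closedBall (0 : Euc N) (‖logv hk G sub sc q.1 q.2‖ + 1)
    ).ultrafilter_le_nhds (U.map fun q' : S × S => logv hk G sub sc q'.1 q'.2)
    (by rw [Filter.le_principal_iff, Ultrafilter.coe_map]; exact hb)
  have hv' : Tendsto (fun q' : S × S => logv hk G sub sc q'.1 q'.2) (U : Filter (S × S))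
    (𝓝 v) := hv
  have h1 : Tendsto (fun q' : S × S => (q'.1 : Euc N)) U (𝓝 (q.1 : Euc N)) :=
    ((continuous_subtype_val.comp continuous_fst).tendsto q).mono_left hU
  have h2 : Tendsto (fun q' : S × S => (q'.2 : Euc N)) U (𝓝 (q.2 : Euc N)) :=
    ((continuous_subtype_val.comp continuous_snd).tendsto q).mono_left hU
  have h3 : Tendsto (fun q' : S × S => ((q'.1 : Euc N), logv hk G sub sc q'.1 q'.2)) U
      (𝓝 ((q.1 : Euc N), v)) := h1.prodMk_nhds hv'
  have hmem : ((q.1 : Euc N), v) ∈ TS G :=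
    (isClosed_TS G).mem_of_tendsto h3 (Eventually.of_forall fun q' =>
      ⟨q'.1.2, logv_mem hk G sub sc q'.1 q'.2⟩)
  have hExp : ContinuousAt (fun q : Euc N × Euc N => Exp G q.1 q.2) ((q.1 : Euc N), v) :=
    (contDiffAt_Exp G hmem.1 hmem.2).continuousAt
  have h4 : Tendsto (fun q' : S × S => Exp G q'.1 (logv hk G sub sc q'.1 q'.2)) U
      (𝓝 (Exp G q.1 v)) := Tendsto.comp (g := fun q : Euc N × Euc N => Exp G q.1 q.2)
        (f := fun q' : S × S => ((q'.1 : Euc N), logv hk G sub sc q'.1 q'.2)) hExp h3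
  have h5 : (fun q' : S × S => Exp G q'.1 (logv hk G sub sc q'.1 q'.2)) =
      fun q' : S × S => (q'.2 : Euc N) := funext fun q' => Exp_logv hk G sub sc q'.1 q'.2
  rw [h5] at h4
  have h6 : Exp G q.1 v = q.2 := tendsto_nhds_unique h4 h2
  have h7 := logv_unique hk G sub sc hmem.2 h6
  rw [← h7]
  exact hv'

end log

end Crest.Agent.R241.LB4
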