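import Crest.Agent.R241.LB4a

/-!
R241, block L: the kernel `K` and its values in polar coordinates at both ends.
-/

set_option autoImplicit false
set_option linter.unusedSectionVars false

open Set Filter Topology
open scoped ContDiff RealInnerProductSpace
open Crest.GeometryTopology.Submanifold
open Crest.Agent.R241.DDefs
open Crest.Agent.R241.D2
open Crest.Agent.R241.D3b
open Crest.Agent.R241.D3a
open Crest.Agent.R241.D4Met
open Crest.Agent.R241.LB1
open Crest.Agent.R241.LB2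
open Crest.Agent.R241.LB3

noncomputable section

namespace Crest.Agent.R241.LB4

variable {N : ℕ} {S : Set (Euc N)}

/-- unit vector -/
def Eθ (θ : ℝ) : Euc 2 := !₂[Real.cos θ, Real.sin θ]

/-- rotated unit vector -/
def Rθ (θ : ℝ) : Euc 2 := !₂[-Real.sin θ, Real.cos θ]

theorem norm_Eθ (θ : ℝ) : ‖Eθ θ‖ = 1 := by
  rw [← sq_eq_sq₀ (norm_nonneg _) zero_le_one, EuclideanSpace.real_norm_sq_eq, Fin.sum_univ_two]
  simp [Eθ]

theorem norm_Rθ (θ : ℝ) : ‖Rθ θ‖ = 1 := by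
  rw [← sq_eq_sq₀ (norm_nonneg _) zero_le_one, EuclideanSpace.real_norm_sq_eq, Fin.sum_univ_two]
  simp [Rθ]

theorem inner_Eθ_Rθ (θ : ℝ) : ⟪Eθ θ, Rθ θ⟫ = 0 := by
  simp [Eθ, Rθ, PiLp.inner_apply, Fin.sum_univ_two]
  ring

theorem Eθ_eq : Eθ = fun θ => Real.cos θ • (EuclideanSpace.single 0 1 : Euc 2) +
    Real.sin θ • (EuclideanSpace.single 1 1 : Euc 2) := by
  funext θ
  ext i
  fin_cases i <;> simp [Eθ]

theorem Rθ_eq : Rθ = fun θ => (-Real.sin θ) • (EuclideanSpace.single 0 1 : Euc 2) +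
    Real.cos θ • (EuclideanSpace.single 1 1 : Euc 2) := by
  funext θ
  ext i
  fin_cases i <;> simp [Rθ]

theorem hasDerivAt_Eθ (θ : ℝ) : HasDerivAt Eθ (Rθ θ) θ := by
  rw [Eθ_eq, Rθ_eq]
  exact ((Real.hasDerivAt_cos θ).smul_const _).add ((Real.hasDerivAt_sin θ).smul_const _)

theorem continuous_Eθ : Continuous Eθ :=
  continuous_iff_continuousAt.2 fun θ => (hasDerivAt_Eθ θ).continuousAt

theorem hasDerivAt_Rθ (θ : ℝ) : HasDerivAt Rθ (-Eθ θ) θ := by
  rw [Eθ_eq, Rθ_eq]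
  refine (((Real.hasDerivAt_sin θ).neg.smul_const _).add
    ((Real.hasDerivAt_cos θ).smul_const _)).congr_deriv ?_
  simp only [neg_smul]
  abel

theorem continuous_Rθ : Continuous Rθ :=
  continuous_iff_continuousAt.2 fun θ => (hasDerivAt_Rθ θ).continuousAt

section frames

variable {κ : ℝ} (G : Geo 2 N κ S)

/-- frame -/
def ev (x : S) (θ : ℝ) : Euc N := D3d.frm G x (Eθ θ)

/-- frame -/
def nv (x : S) (θ : ℝ) : Euc N := D3d.frm G x (Rθ θ)

theorem on_ev (x : S) (θ : ℝ) : On G (x : Euc N) (ev G x θ) (nv G x θ) :=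
  ⟨x.2, D3d.frm_mem G x _, D3d.frm_mem G x _, by rw [ev, D3d.norm_frm, norm_Eθ],
    by rw [nv, D3d.norm_frm, norm_Rθ], by rw [ev, nv, D3d.inner_frm, inner_Eθ_Rθ]⟩

theorem ev_eq (x : S) (θ : ℝ) :
    ev G x θ = Real.cos θ • ev G x 0 + Real.sin θ • nv G x 0 := by
  rw [ev, ev, nv, ← map_smul, ← map_smul, ← map_add]
  congr 1
  ext i
  fin_cases i <;> simp [Eθ, Rθ]

theorem hasDerivAt_ev (x : S) (θ : ℝ) : HasDerivAt (ev G x) (nv G x θ) θ :=
  (D3d.frm G x).hasFDerivAt.comp_hasDerivAt θ (hasDerivAt_Eθ θ)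

theorem continuous_ev (x : S) : Continuous (ev G x) := (D3d.frm G x).continuous.comp continuous_Eθ

theorem continuous_nv (x : S) : Continuous (nv G x) := (D3d.frm G x).continuous.comp continuous_Rθ

/-- the polar velocity -/
def vel (x : S) (ρ θ : ℝ) : Euc N := (fl G (((x : Euc N), ev G x θ), ρ)).2

/-- the scalar Jacobian in polar coordinates -/
def Jc (x : S) (ρ θ : ℝ) : ℝ := jj G x (ev G x θ) (nv G x θ) ρ

/-- its radial derivative -/
def Jd (x : S) (ρ θ : ℝ) : ℝ := jd G x (ev G x θ) (nv G x θ) ρ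

/-- the angular unit vector -/
def nrm (x : S) (ρ θ : ℝ) : Euc N :=
  (Jc G x ρ θ)⁻¹ • J G x (ev G x θ) (nv G x θ) ρ

/-- point at distance one behind -/
def zb (x : S) (θ : ℝ) : Euc N := (fl G (((x : Euc N), ev G x θ), -1)).1

/-- velocity at distance one behind -/
def ub (x : S) (θ : ℝ) : Euc N := (fl G (((x : Euc N), ev G x θ), -1)).2

theorem exists_wb (x : S) (θ : ℝ) : ∃ w, On G (zb G x θ) (ub G x θ) w := by
  have h := on_ev G x θ
  have hm := fl_mem G (q := ((x : Euc N), ev G x θ)) ⟨h.hx, h.he⟩ (-1)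
  exact exists_On hm.1 hm.2 (norm_T h (-1))

/-- normal at distance one behind -/
def wb (x : S) (θ : ℝ) : Euc N := (exists_wb G x θ).choose

theorem on_wb (x : S) (θ : ℝ) : On G (zb G x θ) (ub G x θ) (wb G x θ) :=
  (exists_wb G x θ).choose_spec

theorem fl_zb (x : S) (θ : ℝ) :
    fl G ((zb G x θ, ub G x θ), 1) = ((x : Euc N), ev G x θ) := by
  have h := on_ev G x θ
  have h1 := fl_add' G (q := ((x : Euc N), ev G x θ)) ⟨h.hx, h.he⟩ (-1) 1
  rw [neg_add_cancel, fl_zero] at h1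
  exact h1.symm

/-- cosine solution -/
def Cc (x : S) (ρ θ : ℝ) : ℝ :=
  CC G x (ev G x θ) (nv G x θ) (zb G x θ) (ub G x θ) (wb G x θ) ρ

/-- its derivative -/
def Cd (x : S) (ρ θ : ℝ) : ℝ :=
  CD G x (ev G x θ) (nv G x θ) (zb G x θ) (ub G x θ) (wb G x θ) ρ

end frames

variable {k : ℝ} (hk : 0 ≤ k) (G : Geo 2 N (-(k ^ 2)) S) (sub : IsSubmanifold 2 N S)
  (sc : SimplyConnectedSpace S)

/-- polar point map -/
def pt (x : S) (ρ θ : ℝ) : S := (DD hk G sub sc).homeo x (ρ • Eθ θ)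

theorem coe_pt (x : S) (ρ θ : ℝ) :
    (pt hk G sub sc x ρ θ : Euc N) = (fl G (((x : Euc N), ev G x θ), ρ)).1 := by
  rw [pt, coe_homeo, map_smul, Exp_smul G x.2 (D3d.frm_mem G x _)]
  rfl

/-- base point, direction and distance -/
def dat (y x : S) : (Euc N × Euc N) × ℝ :=
  (((y : Euc N), ‖logv hk G sub sc y x‖⁻¹ • logv hk G sub sc y x), ‖logv hk G sub sc y x‖)

/-- the kernel -/
def KK (x y : S) : Euc N :=
  ((hs2 G (dat hk G sub sc y x) + √(hs1 G (dat hk G sub sc y x))) / hs1 G (dat hk G sub sc y x)) •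
    (‖logv hk G sub sc y x‖⁻¹ • logv hk G sub sc y x)

theorem dat_eq {y x : S} {e : Euc N} (he : e ∈ G.T y) (ne : ‖e‖ = 1) {ρ : ℝ} (hρ : 0 < ρ)
    (h : (fl G (((y : Euc N), e), ρ)).1 = x) :
    logv hk G sub sc y x = ρ • e ∧ dat hk G sub sc y x = (((y : Euc N), e), ρ) := by
  have h1 : logv hk G sub sc y x = ρ • e := by
    symm
    apply logv_unique hk G sub sc ((G.T y).smul_mem ρ he)
    rw [Exp_smul G y.2 he, h]
  have h2 : ‖ρ • e‖ = ρ := by rw [norm_smul, ne, mul_one, Real.norm_eq_abs, abs_of_pos hρ]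
  refine ⟨h1, ?_⟩
  rw [dat, h1, h2, smul_smul, inv_mul_cancel₀ hρ.ne', one_smul]

theorem KK_eq {y x : S} {e n : Euc N} (ho : On G (y : Euc N) e n) {ρ : ℝ} (hρ : 0 < ρ)
    (h : (fl G (((y : Euc N), e), ρ)).1 = x) :
    jj G y e n ρ • KK hk G sub sc x y = (jd G y e n ρ + 1) • e := by
  obtain ⟨h1, h2⟩ := dat_eq hk G sub sc ho.he ho.ne hρ h
  have hn : ‖ρ • e‖ = ρ := by rw [norm_smul, ho.ne, mul_one, Real.norm_eq_abs, abs_of_pos hρ]
  have hj : 0 < jj G y e n ρ := hρ.trans_le (le_jj hk G ho hρ)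
  rw [KK, h2, h1, hn, hs1_eq G ho, hs2_eq G ho, Real.sqrt_sq hj.le, smul_smul, smul_smul,
    smul_smul]
  congr 1
  have : jd G y e n ρ = ⟪J' G y e n ρ, J G y e n ρ⟫ / jj G y e n ρ := rfl
  rw [this]
  field_simp

theorem K_src (y : S) {ρ : ℝ} (hρ : 0 < ρ) (θ : ℝ) :
    Jc G y ρ θ • KK hk G sub sc (pt hk G sub sc y ρ θ) y =
      (Jd G y ρ θ + 1) • (Real.cos θ • ev G y 0 + Real.sin θ • nv G y 0) := by
  rw [← ev_eq]
  exact KK_eq hk G sub sc (on_ev G y θ) hρ (coe_pt hk G sub sc y ρ θ).symm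

theorem K_tgt (x : S) {ρ : ℝ} (hρ : 0 < ρ) (θ : ℝ) :
    Jc G x ρ θ • KK hk G sub sc x (pt hk G sub sc x ρ θ) =
      -((Cc G x ρ θ + 1) • vel G x ρ θ) := by
  have h := on_ev G x θ
  set y := pt hk G sub sc x ρ θ with hy
  have hyc : (y : Euc N) = (fl G (((x : Euc N), ev G x θ), ρ)).1 := coe_pt hk G sub sc x ρ θ
  have hm := fl_mem G (q := ((x : Euc N), ev G x θ)) ⟨h.hx, h.he⟩ ρ
  obtain ⟨n', hn'⟩ := exists_On (G := G) hm.1 ((G.T _).neg_mem hm.2)
    (by rw [norm_neg]; exact norm_T h ρ)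
  have hrev := fl_reverse G h.hx h.he ρ ρ
  rw [sub_self, fl_zero] at hrev
  have hn'' : On G (y : Euc N) (-(fl G (((x : Euc N), ev G x θ), ρ)).2) n' := by
    rw [hyc]; exact hn'
  have h1 := KK_eq hk G sub sc (y := y) (x := x) hn'' hρ (by rw [hyc, hrev])
  rw [hyc, jj_symm hk G h hρ hn',
    jd_back hk G h (on_wb G x θ) (fl_zb G x θ) hρ hn', smul_neg] at h1
  exact h1

theorem continuousOn_dat :
    ContinuousOn (fun q : S × S => dat hk G sub sc q.2 q.1) {q | q.1 ≠ q.2} := by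
  have h1 : Continuous fun q : S × S => logv hk G sub sc q.2 q.1 := by
    have h0 := continuous_logv hk G sub sc
    have h0' : Continuous (fun q : S × S => (q.2, q.1)) := continuous_snd.prodMk continuous_fst
    have h := h0.comp h0'
    simp only [Function.comp_def] at h
    exact h
  have h2 : ContinuousOn (fun q : S × S => ‖logv hk G sub sc q.2 q.1‖⁻¹) {q | q.1 ≠ q.2} :=
    h1.norm.continuousOn.inv₀ fun q hq =>
      norm_ne_zero_iff.2 (logv_ne_zero hk G sub sc (Ne.symm hq))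
  have h3 : ContinuousOn (fun q : S × S =>
      ‖logv hk G sub sc q.2 q.1‖⁻¹ • logv hk G sub sc q.2 q.1) {q | q.1 ≠ q.2} :=
    h2.smul h1.continuousOn
  have h4 : ContinuousOn (fun q : S × S => (q.2 : Euc N)) {q | q.1 ≠ q.2} :=
    (continuous_subtype_val.comp continuous_snd).continuousOn
  exact (h4.prodMk h3).prodMk h1.norm.continuousOn

theorem exists_dat {y x : S} (h : x ≠ y) : ∃ e n ρ, On G (y : Euc N) e n ∧ 0 < ρ ∧
    (fl G (((y : Euc N), e), ρ)).1 = x ∧ logv hk G sub sc y x = ρ • e := by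
  have h0 := logv_ne_zero hk G sub sc (Ne.symm h)
  have h0' : ‖logv hk G sub sc y x‖ ≠ 0 := norm_ne_zero_iff.2 h0
  set e := ‖logv hk G sub sc y x‖⁻¹ • logv hk G sub sc y x with he
  have heT : e ∈ G.T y := (G.T y).smul_mem _ (logv_mem hk G sub sc y x)
  have ne : ‖e‖ = 1 := by
    rw [he, norm_smul, norm_inv, norm_norm, inv_mul_cancel₀ h0']
  obtain ⟨n, hn⟩ := exists_On (G := G) y.2 heT ne
  have h3 : logv hk G sub sc y x = ‖logv hk G sub sc y x‖ • e := by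
    rw [he, smul_smul, mul_inv_cancel₀ h0', one_smul]
  refine ⟨e, n, ‖logv hk G sub sc y x‖, hn, norm_pos_iff.2 h0, ?_, h3⟩
  rw [← Exp_smul G y.2 heT, ← h3, Exp_logv]

theorem continuousOn_KK :
    ContinuousOn (fun q : S × S => KK hk G sub sc q.1 q.2) {q | q.1 ≠ q.2} := by
  intro q hq
  have hq' : q.1 ≠ q.2 := hq
  obtain ⟨e, n, ρ, ho, hρ, hfl, -⟩ := exists_dat hk G sub sc hq'
  have hd := (continuousOn_dat hk G sub sc) q hq
  have hde := (dat_eq hk G sub sc ho.he ho.ne hρ hfl).2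
  obtain ⟨c1, c2⟩ := continuousAt_hs G (p := (q.2 : Euc N)) (v := e) ho.hx ho.he ρ
  rw [← hde] at c1 c2
  have d1 : ContinuousWithinAt (fun q : S × S => hs1 G (dat hk G sub sc q.2 q.1)) {q | q.1 ≠ q.2} q :=
    ContinuousAt.comp_continuousWithinAt (f := fun q : S × S => dat hk G sub sc q.2 q.1) c1 hd
  have d2 : ContinuousWithinAt (fun q : S × S => hs2 G (dat hk G sub sc q.2 q.1)) {q | q.1 ≠ q.2} q :=
    ContinuousAt.comp_continuousWithinAt (f := fun q : S × S => dat hk G sub sc q.2 q.1) c2 hd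
  have hj : 0 < jj G q.2 e n ρ := hρ.trans_le (le_jj hk G ho hρ)
  have h0 : hs1 G (dat hk G sub sc q.2 q.1) ≠ 0 := by
    rw [hde, hs1_eq G ho]
    exact (pow_pos hj 2).ne'
  have d3 : ContinuousWithinAt (fun q : S × S =>
      ‖logv hk G sub sc q.2 q.1‖⁻¹ • logv hk G sub sc q.2 q.1) {q | q.1 ≠ q.2} q :=
    hd.fst.snd
  exact (((d2.add d1.sqrt).div d1 h0).smul d3)

theorem KK_self (x : S) : KK hk G sub sc x x = 0 := by
  have : logv hk G sub sc x x = 0 := by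
    rw [← norm_eq_zero, norm_logv, (DD hk G sub sc).log_self, norm_zero]
  rw [KK, this, smul_zero, smul_zero]

end Crest.Agent.R241.LB4
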