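import Crest.Agent.R241.LB4b
import Crest.Agent.R241.AF3
import Crest.Agent.R241.LA

/-!
R241, block L: the area measure of a surface and its polar coordinates.
-/

set_option autoImplicit false
set_option linter.unusedSectionVars false

open Set Filter Topology MeasureTheory
open scoped ContDiff RealInnerProductSpace ENNReal
open Crest.GeometryTopology.Submanifold
open Crest.Agent.R241.DDefs
open Crest.Agent.R241.D2
open Crest.Agent.R241.D3b
open Crest.Agent.R241.D3a
open Crest.Agent.R241.D4Met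
open Crest.Agent.R241.LB1
open Crest.Agent.R241.LB2
open Crest.Agent.R241.LB3
open Crest.Agent.R241.LA (nu1 nu2)
open Crest.Agent.R241.AF (jac)

noncomputable section

namespace Crest.Agent.R241.LB4

variable {N : ℕ} {S : Set (Euc N)}

/-- area measure of a surface, on the subtype -/
def μS (S : Set (Euc N)) : Measure S := (μHE[2] : Measure (Euc N)).comap Subtype.val

theorem map_homeo (hS : IsClosed S) (D : ExpData 2 N S) (p : S) :
    Measure.map (D.homeo p) ((volume : Measure (Euc 2)).withDensity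
      fun v => ENNReal.ofReal (jac (fderiv ℝ (D.Φ p) v))) = μS S := by
  have hemb : MeasurableEmbedding (Subtype.val : S → Euc N) :=
    MeasurableEmbedding.subtype_coe hS.measurableSet
  set ν := (volume : Measure (Euc 2)).withDensity
      fun v => ENNReal.ofReal (jac (fderiv ℝ (D.Φ p) v)) with hν
  have hval : (fun v => (D.homeo p v : Euc N)) = D.Φ p := funext fun v => D.homeo_coe p v
  have himg : D.Φ p '' univ = S := by
    rw [image_univ, ← hval]
    ext x
    constructor
    · rintro ⟨v, rfl⟩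
      exact (D.homeo p v).2
    · intro hx
      exact ⟨D.log p ⟨x, hx⟩, by simp⟩
  have h1 := AF.map_withDensity_jac (s := univ) (f := D.Φ p) (f' := fderiv ℝ (D.Φ p))
    MeasurableSet.univ
    (fun x _ => ((D.contDiff p).differentiable (by simp) x).hasFDerivAt.hasFDerivWithinAt) (by
      rw [← hval]
      exact (Subtype.val_injective.comp (D.homeo p).injective).injOn)
  rw [Measure.restrict_univ, AF.finrank_Euc, himg] at h1
  have h2 : Measure.map (Subtype.val : S → Euc N) (Measure.map (D.homeo p) ν) =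
      (μHE[2] : Measure (Euc N)).restrict S := by
    rw [Measure.map_map measurable_subtype_coe (D.homeo p).continuous.measurable, ← h1]
    congr 1
  have h3 : Measure.map (Subtype.val : S → Euc N) (μS S) =
      (μHE[2] : Measure (Euc N)).restrict S := by
    rw [μS, map_comap_subtype_coe hS.measurableSet]
  rw [← hemb.comap_map (Measure.map (D.homeo p) ν), h2, ← h3, hemb.comap_map]

theorem continuous_jac (D : ExpData 2 N S) (p : S) :
    Continuous fun v => jac (fderiv ℝ (D.Φ p) v) :=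
  AF.continuous_jac.comp ((D.contDiff p).continuous_fderiv (by simp))

theorem lintegral_μS (hS : IsClosed S) (D : ExpData 2 N S) (p : S) {F : S → ℝ≥0∞}
    (hF : Measurable F) :
    ∫⁻ x, F x ∂(μS S) = ∫⁻ v, ENNReal.ofReal (jac (fderiv ℝ (D.Φ p) v)) * F (D.homeo p v) := by
  rw [← map_homeo hS D p, lintegral_map hF (D.homeo p).continuous.measurable]
  exact lintegral_withDensity_eq_lintegral_mul _
      (continuous_jac D p).measurable.ennreal_ofReal
      (hF.comp (D.homeo p).continuous.measurable)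

theorem sfinite_μS (hS : IsClosed S) (D : ExpData 2 N S) (p : S) : SFinite (μS S) := by
  rw [← map_homeo hS D p]
  infer_instance

/-- polar coordinates of the Euclidean plane -/
theorem lintegral_polar (f : Euc 2 → ℝ≥0∞) :
    ∫⁻ v, f v = ∫⁻ p : ℝ × ℝ, ENNReal.ofReal p.1 * f (p.1 • Eθ p.2) ∂(nu1.prod nu2) := by
  have e1 : MeasurePreserving ((MeasurableEquiv.toLp 2 (Fin 2 → ℝ)).symm.trans
      (MeasurableEquiv.finTwoArrow (α := ℝ))) :=
    (volume_preserving_finTwoArrow ℝ).comp
      (EuclideanSpace.volume_preserving_symm_measurableEquiv_toLp (ι := Fin 2))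
  have e2 := (MeasurePreserving.symm _ e1).lintegral_comp_emb
    (((MeasurableEquiv.toLp 2 (Fin 2 → ℝ)).symm.trans
      (MeasurableEquiv.finTwoArrow (α := ℝ))).symm.measurableEmbedding) f
  rw [← e2, ← lintegral_comp_polarCoord_symm]
  have e3 : (volume : Measure (ℝ × ℝ)).restrict polarCoord.target = nu1.prod nu2 := by
    rw [polarCoord_target, Measure.volume_eq_prod, Measure.prod_restrict]
  rw [e3]
  refine lintegral_congr fun p => ?_
  rw [smul_eq_mul]
  congr 2
  ext i
  fin_cases i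
  · simp [polarCoord, Eθ, MeasurableEquiv.finTwoArrow, MeasurableEquiv.toLp]
    try rfl
  · simp [polarCoord, Eθ, MeasurableEquiv.finTwoArrow, MeasurableEquiv.toLp]
    try rfl

section

variable {k : ℝ} (hk : 0 ≤ k) (G : Geo 2 N (-(k ^ 2)) S) (sub : IsSubmanifold 2 N S)
  (sc : SimplyConnectedSpace S)

/-- values of the derivative of the exponential map in the polar frame -/
theorem fderiv_polar (x : S) {ρ : ℝ} (hρ : 0 < ρ) (θ : ℝ) :
    fderiv ℝ (D3d.Ph G x) (ρ • Eθ θ) (Eθ θ) = vel G x ρ θ ∧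
    fderiv ℝ (D3d.Ph G x) (ρ • Eθ θ) (Rθ θ) = ρ⁻¹ • J G x (ev G x θ) (nv G x θ) ρ := by
  have h := on_ev G x θ
  have hmem : ρ • ev G x θ ∈ G.T x := (G.T x).smul_mem ρ h.he
  constructor
  · rw [D3d.fderiv_Ph, map_smul]
    have h1 := D3c.fderiv_Exp_self G x.2 hmem
    have h2 : D3d.frm G x (Eθ θ) = ev G x θ := rfl
    rw [h2]
    rw [map_smul, Vel_smul G x.2 h.he] at h1
    exact smul_right_injective _ hρ.ne' h1
  · rw [D3d.fderiv_Ph, map_smul]
    have h2 : D3d.frm G x (Eθ θ) = ev G x θ := rfl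
    have h3 : D3d.frm G x (Rθ θ) = nv G x θ := rfl
    rw [h2, h3]
    -- derivative of `s ↦ Exp (ρ e + s n)`
    have hd := ((D3c.contDiffAt_Exp' G x.2 hmem).differentiableAt (by simp)).hasFDerivAt
    have h4 : HasDerivAt (fun s : ℝ => ρ • (ev G x θ + (ρ⁻¹ * s) • nv G x θ)) (nv G x θ) 0 := by
      have : HasDerivAt (fun s : ℝ => (ρ⁻¹ * s) • nv G x θ) (ρ⁻¹ • nv G x θ) 0 := by
        simpa using ((hasDerivAt_id (0 : ℝ)).const_mul ρ⁻¹).smul_const (nv G x θ)
      refine ((this.const_add (ev G x θ)).const_smul ρ).congr_deriv ?_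
      rw [smul_smul, mul_inv_cancel₀ hρ.ne', one_smul]
    have hd' : HasFDerivAt (Exp G x) (fderiv ℝ (Exp G x) (ρ • ev G x θ))
        (ρ • (ev G x θ + (ρ⁻¹ * (0 : ℝ)) • nv G x θ)) := by
      simpa using hd
    have h5 := hd'.comp_hasDerivAt (0 : ℝ) h4
    have h6 := hasDerivAt_s (q := ((0 : ℝ), ρ))
      ((contDiff_al G h.hx h.he h.hn).differentiable (by simp) ((0 : ℝ), ρ))
    have h7 : HasDerivAt (fun s : ℝ => ρ⁻¹ * s) ρ⁻¹ 0 := by
      simpa using (hasDerivAt_id (0 : ℝ)).const_mul ρ⁻¹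
    have h6' : HasDerivAt (fun s => al G x (ev G x θ) (nv G x θ) (s, ρ))
      (J G x (ev G x θ) (nv G x θ) ρ) (ρ⁻¹ * (0 : ℝ)) := by simpa [J] using h6
    have h8 := h6'.scomp (0 : ℝ) h7
    refine h5.unique (h8.congr_of_eventuallyEq (Eventually.of_forall fun s => ?_))
    have hm : ev G x θ + (ρ⁻¹ * s) • nv G x θ ∈ G.T x :=
      (G.T x).add_mem h.he ((G.T x).smul_mem _ h.hn)
    show Exp G x (ρ • (ev G x θ + (ρ⁻¹ * s) • nv G x θ)) =
      (fl G ((↑x, ev G x θ + (ρ⁻¹ * s) • nv G x θ), ρ)).1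
    rw [Exp_smul G x.2 hm]

theorem jac_polar (x : S) {ρ : ℝ} (hρ : 0 < ρ) (θ : ℝ) :
    ρ * jac (fderiv ℝ (D3d.Ph G x) (ρ • Eθ θ)) = Jc G x ρ θ := by
  have h := on_ev G x θ
  obtain ⟨h1, h2⟩ := fderiv_polar G x hρ θ
  have hon : Orthonormal ℝ (![Eθ θ, Rθ θ] : Fin 2 → Euc 2) := by
    rw [orthonormal_iff_ite]
    intro i j
    fin_cases i <;> fin_cases j <;>
      simp [norm_Eθ, norm_Rθ, inner_Eθ_Rθ, real_inner_comm (Eθ θ) (Rθ θ) ▸ inner_Eθ_Rθ θ]
  have hcard : Fintype.card (Fin 2) = Module.finrank ℝ (Euc 2) := by simp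
  let b := basisOfOrthonormalOfCardEqFinrank hon hcard
  let B : OrthonormalBasis (Fin 2) ℝ (Euc 2) := b.toOrthonormalBasis (by
    rw [coe_basisOfOrthonormalOfCardEqFinrank]; exact hon)
  have hB0 : B 0 = Eθ θ := by simp [B, b]
  have hB1 : B 1 = Rθ θ := by simp [B, b]
  have h3 := AF.jac_sq_gram (fderiv ℝ (D3d.Ph G x) (ρ • Eθ θ)) B
  rw [Matrix.det_fin_two] at h3
  simp only [Matrix.of_apply, hB0, hB1, h1, h2] at h3
  have h4 : ⟪vel G x ρ θ, J G x (ev G x θ) (nv G x θ) ρ⟫ = 0 := by
    rw [real_inner_comm]; exact inner_J_T h ρ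
  have h5 : ‖vel G x ρ θ‖ = 1 := norm_T h ρ
  rw [inner_smul_right, inner_smul_right, inner_smul_left, real_inner_self_eq_norm_sq, h5, h4,
    real_inner_self_eq_norm_sq] at h3
  have h6 : (ρ * jac (fderiv ℝ (D3d.Ph G x) (ρ • Eθ θ))) ^ 2 = Jc G x ρ θ ^ 2 := by
    rw [mul_pow, h3, Jc, jj]
    simp only [RCLike.conj_to_real]
    field_simp
    ring
  have h7 : 0 ≤ ρ * jac (fderiv ℝ (D3d.Ph G x) (ρ • Eθ θ)) :=
    mul_nonneg hρ.le (AF.jac_nonneg _)
  exact (sq_eq_sq₀ h7 (norm_nonneg _)).1 h6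

theorem continuous_flow_polar (x : S) :
    Continuous fun p : ℝ × ℝ => fl G (((x : Euc N), ev G x p.2), p.1) := by
  rw [continuous_iff_continuousAt]
  intro p
  have h := on_ev G x p.2
  have h1 := (contDiffAt_fl' G (q := ((x : Euc N), ev G x p.2)) ⟨h.hx, h.he⟩ p.1).continuousAt
  have h2 : ContinuousAt (fun p : ℝ × ℝ => (((x : Euc N), ev G x p.2), p.1)) p :=
    ((continuous_const.prodMk ((continuous_ev G x).comp continuous_snd)).prodMk
      continuous_fst).continuousAt
  exact ContinuousAt.comp (f := fun p : ℝ × ℝ => (((x : Euc N), ev G x p.2), p.1)) h1 h2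

theorem continuous_vel (x : S) : Continuous fun p : ℝ × ℝ => vel G x p.1 p.2 :=
  continuous_snd.comp (continuous_flow_polar G x)

theorem continuous_Jv (x : S) :
    Continuous fun p : ℝ × ℝ => J G x (ev G x p.2) (nv G x p.2) p.1 := by
  have h0 : (fun p : ℝ × ℝ => J G x (ev G x p.2) (nv G x p.2) p.1) =
      fun p : ℝ × ℝ => A1 G x (ev G x p.2) p.1 (nv G x p.2) := by
    funext p
    have h := on_ev G x p.2
    rw [A1_apply G h.hx h.he h.hn]
  rw [h0, continuous_iff_continuousAt]
  intro p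
  have h := on_ev G x p.2
  have h1 : ContinuousAt (fderiv ℝ (fl G)) (((x : Euc N), ev G x p.2), p.1) :=
    (contDiffAt_fl' G (q := ((x : Euc N), ev G x p.2)) ⟨h.hx, h.he⟩ p.1).fderiv_right
      (m := 0) (by simp) |>.continuousAt
  have h2 : ContinuousAt (fun p : ℝ × ℝ => (((x : Euc N), ev G x p.2), p.1)) p :=
    ((continuous_const.prodMk ((continuous_ev G x).comp continuous_snd)).prodMk
      continuous_fst).continuousAt
  have h3 := ContinuousAt.comp (f := fun p : ℝ × ℝ => (((x : Euc N), ev G x p.2), p.1)) h1 h2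
  have h4 : ContinuousAt (fun p : ℝ × ℝ => A1 G x (ev G x p.2) p.1) p := by
    unfold A1
    exact continuousAt_const.clm_comp (h3.clm_comp continuousAt_const)
  exact h4.clm_apply ((continuous_nv G x).comp continuous_snd).continuousAt

theorem continuous_Jc (x : S) : Continuous fun p : ℝ × ℝ => Jc G x p.1 p.2 :=
  (continuous_Jv G x).norm

theorem continuous_pt (x : S) : Continuous fun p : ℝ × ℝ => pt hk G sub sc x p.1 p.2 :=
  ((DD hk G sub sc).homeo x).continuous.comp
    (continuous_fst.smul (continuous_Eθ.comp continuous_snd))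

theorem ae_pos : ∀ᵐ p : ℝ × ℝ ∂(nu1.prod nu2), 0 < p.1 := LA.ae_strip_pos

theorem lintegral_polar_S (x : S) {F : S → ℝ≥0∞} (hF : Measurable F) :
    ∫⁻ y, F y ∂(μS S) = ∫⁻ p : ℝ × ℝ, ENNReal.ofReal (Jc G x p.1 p.2) *
      F (pt hk G sub sc x p.1 p.2) ∂(nu1.prod nu2) := by
  rw [lintegral_μS G.isClosed (DD hk G sub sc) x hF, lintegral_polar]
  apply lintegral_congr_ae
  filter_upwards [ae_pos] with p hp
  rw [← mul_assoc, ← ENNReal.ofReal_mul hp.le]
  have := jac_polar G x hp p.2
  have h2 : (DD hk G sub sc).Φ x = D3d.Ph G x := rfl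
  rw [h2, this]
  rfl

theorem μS_eq_map (x : S) :
    Measure.map (fun p : ℝ × ℝ => pt hk G sub sc x p.1 p.2)
      ((nu1.prod nu2).withDensity fun p => ENNReal.ofReal (Jc G x p.1 p.2)) = μS S := by
  apply Measure.ext_of_lintegral
  intro F hF
  rw [lintegral_map hF (continuous_pt hk G sub sc x).measurable,
    lintegral_polar_S hk G sub sc x hF]
  exact lintegral_withDensity_eq_lintegral_mul _ (continuous_Jc G x).measurable.ennreal_ofReal
    (hF.comp (continuous_pt hk G sub sc x).measurable)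

theorem polar_S (x : S) {F : S → ℝ} (hF : Integrable F (μS S)) :
    Integrable (fun p : ℝ × ℝ => Jc G x p.1 p.2 * F (pt hk G sub sc x p.1 p.2)) (nu1.prod nu2) ∧
    ∫ p, Jc G x p.1 p.2 * F (pt hk G sub sc x p.1 p.2) ∂(nu1.prod nu2) = ∫ z, F z ∂(μS S) := by
  have hm := (continuous_pt hk G sub sc x).measurable
  have hd : Measurable fun p : ℝ × ℝ => (Jc G x p.1 p.2).toNNReal :=
    (continuous_Jc G x).measurable.real_toNNReal
  have h0 : ∀ p : ℝ × ℝ, 0 ≤ Jc G x p.1 p.2 := fun p => norm_nonneg _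
  have hmap := μS_eq_map hk G sub sc x
  have hF' := hF
  rw [← hmap] at hF'
  have h1 := (integrable_map_measure hF'.aestronglyMeasurable hm.aemeasurable).1 hF'
  have h2 : ((nu1.prod nu2).withDensity fun p => ENNReal.ofReal (Jc G x p.1 p.2)) =
      (nu1.prod nu2).withDensity fun p => ((Jc G x p.1 p.2).toNNReal : ℝ≥0∞) := rfl
  constructor
  · rw [h2, integrable_withDensity_iff_integrable_smul hd] at h1
    refine h1.congr (Eventually.of_forall fun p => ?_)
    simp only [Function.comp, NNReal.smul_def, Real.coe_toNNReal _ (h0 p), smul_eq_mul]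
  · rw [← hmap, integral_map hm.aemeasurable hF'.aestronglyMeasurable, h2,
      integral_withDensity_eq_integral_smul hd]
    refine integral_congr_ae (Eventually.of_forall fun p => ?_)
    simp only [NNReal.smul_def, Real.coe_toNNReal _ (h0 p), smul_eq_mul]

end

end Crest.Agent.R241.LB4
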