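import Crest.Agent.R241.LB4c

/-!
R241, block L: the polar data (`LA.Polar`) of a surface.
-/

set_option autoImplicit false
set_option linter.unusedSectionVars false

open Set Filter Topology MeasureTheory
open scoped ContDiff RealInnerProductSpace ENNReal
open Crest.GeometryTopology.Submanifold
open Crest.Agent.R241.DDefs
open Crest.Agent.R241.D2
open Crest.Agent.R241.D3b
open Crest.Agent.R241.D3a
open Crest.Agent.R241.D4Met
open Crest.Agent.R241.LB1
open Crest.Agent.R241.LB2
open Crest.Agent.R241.LB3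
open Crest.Agent.R241.LA (nu1 nu2)
open Crest.Agent.R241.AF (jac)

noncomputable section

namespace Crest.Agent.R241.LB4

variable {N : ℕ} {S : Set (Euc N)} {k : ℝ} (hk : 0 ≤ k) (G : Geo 2 N (-(k ^ 2)) S)
  (sub : IsSubmanifold 2 N S) (sc : SimplyConnectedSpace S)

/-- polar data of the surface -/
def PP : LA.Polar (μS S) (univ : Set S) (Euc N) where
  pt := pt hk G sub sc
  vel := vel G
  nrm := nrm G
  b1 x := ev G x 0
  b2 x := nv G x 0
  J := Jc G
  J' := Jd G
  C := Cc G
  C' := Cd G
  K := KK hk G sub sc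
  pt_mem _ _ _ _ := mem_univ _
  pt_zero x _ θ := by rw [pt, zero_smul, (DD hk G sub sc).homeo_zero]
  pt_per x _ ρ := by
    rw [pt, pt]
    congr 2
    ext i
    fin_cases i <;> simp [Eθ]
  base_orth x _ := by
    have h := on_ev G x 0
    exact ⟨h.ne, h.nn, h.en⟩
  frame_orth x _ ρ hρ θ := by
    have h := on_ev G x θ
    have h1 := on_J h (J_ne_zero hk G h hρ)
    exact ⟨h1.ne, h1.nn, h1.en⟩
  J_pos _ _ _ _ _ := norm_nonneg _
  J_zero x _ θ := jj_zero G (on_ev G x θ)
  J_cont x _ θ := (continuous_jj G (on_ev G x θ)).continuousOn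
  J_deriv x _ θ ρ hρ := hasDerivAt_jj (on_ev G x θ) (J_ne_zero hk G (on_ev G x θ) hρ)
  J'_int x _ θ R hR := by
    have h := on_ev G x θ
    apply intervalIntegral.intervalIntegrable_deriv_of_nonneg (g := jj G x (ev G x θ) (nv G x θ))
      (continuous_jj G h).continuousOn
    · intro ρ hρ
      rw [min_eq_left hR.le, max_eq_right hR.le] at hρ
      exact hasDerivAt_jj h (J_ne_zero hk G h hρ.1)
    · intro ρ hρ
      rw [min_eq_left hR.le, max_eq_right hR.le] at hρ
      exact zero_le_one.trans (one_le_jd hk G h hρ.1)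
  C_zero x _ θ := CC_zero hk G (on_ev G x θ) (on_wb G x θ) (fl_zb G x θ)
  C_cont x _ θ := (continuous_CC G (on_ev G x θ) (on_wb G x θ)).continuousOn
  C_deriv x _ θ ρ hρ := hasDerivAt_CC hk G (on_ev G x θ) (on_wb G x θ) (fl_zb G x θ) hρ
  C'_int x _ θ R hR := by
    have h := on_ev G x θ
    apply intervalIntegral.intervalIntegrable_deriv_of_nonneg
      (g := CC G x (ev G x θ) (nv G x θ) (zb G x θ) (ub G x θ) (wb G x θ))
      (continuous_CC G h (on_wb G x θ)).continuousOn
    · intro ρ hρ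
      rw [min_eq_left hR.le, max_eq_right hR.le] at hρ
      exact hasDerivAt_CC hk G h (on_wb G x θ) (fl_zb G x θ) hρ.1
    · intro ρ hρ
      rw [min_eq_left hR.le, max_eq_right hR.le] at hρ
      exact (mul_nonneg (sq_nonneg k) (norm_nonneg _)).trans
        (CD_ge hk G h (on_wb G x θ) (fl_zb G x θ) hρ.1)
  K_src y _ ρ hρ θ := K_src hk G sub sc y hρ θ
  K_tgt x _ ρ hρ θ := K_tgt hk G sub sc x hρ θ
  polar x _ F hF := polar_S hk G sub sc x hF

end Crest.Agent.R241.LB4
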