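import Crest.Agent.R241.LB5c

/-!
R241, block L: the joint kernel `W x y = C'(x → y) / J(x → y)`.
-/

set_option autoImplicit false
set_option linter.unusedSectionVars false

open Set Filter Topology MeasureTheory
open scoped ContDiff RealInnerProductSpace ENNReal
open Crest.GeometryTopology.Submanifold
open Crest.Agent.R241.DDefs
open Crest.Agent.R241.D4Met
open Crest.Agent.R241.D2
open Crest.Agent.R241.D3b
open Crest.Agent.R241.D3a
open Crest.Agent.R241.LB1
open Crest.Agent.R241.LB2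
open Crest.Agent.R241.LB3
open Crest.Agent.R241.LA (nu1 nu2)
open Crest.Agent.R241.AF (jac)

noncomputable section

namespace Crest.Agent.R241.LB4

variable {N : ℕ} {S : Set (Euc N)}

section wq

variable {κ : ℝ} (G : Geo 2 N κ S)

/-- frame free Jacobian -/
def j1 (q : (Euc N × Euc N) × ℝ) : ℝ := √(hs1 G q)

/-- frame free derivative -/
def j2 (q : (Euc N × Euc N) × ℝ) : ℝ := hs2 G q / √(hs1 G q)

/-- frame free kernel -/
def wq (q : (Euc N × Euc N) × ℝ) : ℝ :=
  ((j2 G (fl G (q.1, -1), q.2 + 1) - j2 G q * j2 G (fl G (q.1, -1), 1)) /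
    j1 G (fl G (q.1, -1), 1)) / j1 G q

variable {G} {p v w : Euc N}

theorem j1_eq (h : On G p v w) (t : ℝ) : j1 G ((p, v), t) = jj G p v w t := by
  rw [j1, hs1_eq G h, Real.sqrt_sq (show 0 ≤ jj G p v w t from norm_nonneg _)]

theorem j2_eq (h : On G p v w) (t : ℝ) : j2 G ((p, v), t) = jd G p v w t := by
  rw [j2, hs1_eq G h, Real.sqrt_sq (show 0 ≤ jj G p v w t from norm_nonneg _), hs2_eq G h]
  rfl

theorem wq_eq (h : On G p v w) {wz : Euc N}
    (hz : On G (fl G ((p, v), -1)).1 (fl G ((p, v), -1)).2 wz) (t : ℝ) :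
    wq G ((p, v), t) = CD G p v w (fl G ((p, v), -1)).1 (fl G ((p, v), -1)).2 wz t /
      jj G p v w t := by
  rw [wq, CD, j1_eq h, j2_eq h]
  have h1 := j1_eq hz
  have h2 := j2_eq hz
  rw [Prod.mk.eta] at h1 h2
  rw [h1, h2, h2]

theorem fl_back (hp : p ∈ S) (hv : v ∈ G.T p) :
    fl G (((fl G ((p, v), -1)).1, (fl G ((p, v), -1)).2), 1) = (p, v) := by
  have h1 := fl_add' G (q := (p, v)) ⟨hp, hv⟩ (-1) 1
  rw [neg_add_cancel, fl_zero] at h1
  rw [Prod.mk.eta]
  exact h1.symm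

end wq

variable {k : ℝ} (hk : 0 ≤ k) (G : Geo 2 N (-(k ^ 2)) S) (sub : IsSubmanifold 2 N S)
  (sc : SimplyConnectedSpace S)

include hk in
theorem continuousAt_wq {p v w : Euc N} (h : On G p v w) {t : ℝ} (ht : 0 < t) :
    ContinuousAt (wq G) ((p, v), t) := by
  have hq : (p, v) ∈ TS G := ⟨h.hx, h.he⟩
  have hm := fl_mem G hq (-1)
  obtain ⟨wz, hz⟩ := exists_On (G := G) hm.1 hm.2 (norm_T h (-1))
  -- base quantities
  have hs : ∀ {p v w : Euc N} (_ : On G p v w) {t : ℝ} (_ : 0 < t),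
      ContinuousAt (j1 G) ((p, v), t) ∧ ContinuousAt (j2 G) ((p, v), t) ∧
        j1 G ((p, v), t) ≠ 0 := by
    intro p v w h t ht
    obtain ⟨c1, c2⟩ := continuousAt_hs G h.hx h.he t
    have hj : 0 < jj G p v w t := ht.trans_le (le_jj hk G h ht)
    have h0 : j1 G ((p, v), t) ≠ 0 := by rw [j1_eq h]; exact hj.ne'
    have c3 : ContinuousAt (j1 G) ((p, v), t) := c1.sqrt
    exact ⟨c3, c2.div c3 h0, h0⟩
  have hfl : ContinuousAt (fun q : (Euc N × Euc N) × ℝ => fl G (q.1, -1)) ((p, v), t) := by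
    have h1 := (contDiffAt_fl' G hq (-1)).continuousAt
    have h2 : ContinuousAt (fun q : (Euc N × Euc N) × ℝ => (q.1, (-1 : ℝ))) ((p, v), t) :=
      (continuous_fst.prodMk continuous_const).continuousAt
    exact ContinuousAt.comp (f := fun q : (Euc N × Euc N) × ℝ => (q.1, (-1 : ℝ))) h1 h2
  obtain ⟨a1, a2, a3⟩ := hs h ht
  obtain ⟨b1, b2, b3⟩ := hs hz one_pos
  obtain ⟨c1, c2, c3⟩ := hs hz (show 0 < t + 1 by linarith)
  rw [Prod.mk.eta] at b1 b2 b3 c1 c2 c3
  have d1 : ContinuousAt (fun q : (Euc N × Euc N) × ℝ => (fl G (q.1, -1), (1 : ℝ))) ((p, v), t) :=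
    hfl.prodMk continuousAt_const
  have d2 : ContinuousAt (fun q : (Euc N × Euc N) × ℝ => (fl G (q.1, -1), q.2 + 1)) ((p, v), t) :=
    hfl.prodMk (continuous_snd.add continuous_const).continuousAt
  have e1 := ContinuousAt.comp (f := fun q : (Euc N × Euc N) × ℝ => (fl G (q.1, -1), (1 : ℝ)))
    (x := ((p, v), t)) b1 d1
  have e2 := ContinuousAt.comp (f := fun q : (Euc N × Euc N) × ℝ => (fl G (q.1, -1), (1 : ℝ)))
    (x := ((p, v), t)) b2 d1
  have e3 := ContinuousAt.comp (f := fun q : (Euc N × Euc N) × ℝ => (fl G (q.1, -1), q.2 + 1))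
    (x := ((p, v), t)) c2 d2
  exact (((e3.sub (a2.mul e2)).div e1 b3).div a1 a3)

open Classical in
/-- the joint kernel -/
def WW (x y : S) : ℝ := if x = y then k ^ 2 else wq G (dat hk G sub sc x y)

theorem WW_of_ne {x y : S} (h : x ≠ y) : WW hk G sub sc x y = wq G (dat hk G sub sc x y) := by
  rw [WW, if_neg h]

theorem WW_dir {x y : S} {e n wz : Euc N} (h : On G (x : Euc N) e n) {ρ : ℝ} (hρ : 0 < ρ)
    (hfl : (fl G (((x : Euc N), e), ρ)).1 = y)
    (hz : On G (fl G (((x : Euc N), e), -1)).1 (fl G (((x : Euc N), e), -1)).2 wz) :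
    x ≠ y ∧ WW hk G sub sc x y = CD G x e n (fl G (((x : Euc N), e), -1)).1
      (fl G (((x : Euc N), e), -1)).2 wz ρ / jj G x e n ρ := by
  obtain ⟨h1, h2⟩ := dat_eq hk G sub sc h.he h.ne hρ hfl
  have hne : x ≠ y := by
    rintro rfl
    have h3 : logv hk G sub sc x x = 0 := by
      rw [← norm_eq_zero, norm_logv, (DD hk G sub sc).log_self, norm_zero]
    rw [h3] at h1
    have h4 : ‖ρ • e‖ = ρ := by rw [norm_smul, h.ne, mul_one, Real.norm_eq_abs, abs_of_pos hρ]
    rw [← h1, norm_zero] at h4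
    linarith
  refine ⟨hne, ?_⟩
  rw [WW_of_ne hk G sub sc hne, h2, wq_eq h hz]

theorem WW_pt (x : S) {ρ : ℝ} (hρ : 0 < ρ) (θ : ℝ) :
    Jc G x ρ θ * WW hk G sub sc x (pt hk G sub sc x ρ θ) = Cd G x ρ θ := by
  have h := on_ev G x θ
  have hj : 0 < Jc G x ρ θ := hρ.trans_le (le_jj hk G h hρ)
  have h1 := (WW_dir hk G sub sc (y := pt hk G sub sc x ρ θ) h hρ
    (coe_pt hk G sub sc x ρ θ).symm (on_wb G x θ)).2
  rw [h1]
  show Jc G x ρ θ * (Cd G x ρ θ / Jc G x ρ θ) = Cd G x ρ θ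
  field_simp

theorem WW_ge {x y : S} (h : x ≠ y) : k ^ 2 ≤ WW hk G sub sc x y := by
  obtain ⟨e, n, ρ, ho, hρ, hfl, -⟩ := exists_dat hk G sub sc (x := y) (y := x) h.symm
  have hm := fl_mem G (q := ((x : Euc N), e)) ⟨ho.hx, ho.he⟩ (-1)
  obtain ⟨wz, hz⟩ := exists_On (G := G) hm.1 hm.2 (norm_T ho (-1))
  have hj : 0 < jj G x e n ρ := hρ.trans_le (le_jj hk G ho hρ)
  rw [(WW_dir hk G sub sc ho hρ hfl hz).2, le_div_iff₀ hj]
  exact CD_ge hk G ho hz (fl_back ho.hx ho.he) hρ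

theorem WW_ge' (x y : S) : k ^ 2 ≤ WW hk G sub sc x y := by
  by_cases h : x = y
  · rw [WW, if_pos h]
  · exact WW_ge hk G sub sc h

theorem continuousOn_WW :
    ContinuousOn (fun q : S × S => WW hk G sub sc q.1 q.2) {q | q.1 ≠ q.2} := by
  have h1 : ContinuousOn (fun q : S × S => wq G (dat hk G sub sc q.1 q.2)) {q | q.1 ≠ q.2} := by
    intro q hq
    have hq' : q.1 ≠ q.2 := hq
    obtain ⟨e, n, ρ, ho, hρ, hfl, -⟩ := exists_dat hk G sub sc (x := q.2) (y := q.1) hq'.symm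
    have hd : ContinuousWithinAt (fun q : S × S => dat hk G sub sc q.1 q.2) {q | q.1 ≠ q.2} q := by
      have hd0 := continuousOn_dat hk G sub sc
      have hsw : ContinuousOn (fun q : S × S => (q.2, q.1)) {q | q.1 ≠ q.2} :=
        (continuous_snd.prodMk continuous_fst).continuousOn
      have hmaps : MapsTo (fun q : S × S => (q.2, q.1)) {q | q.1 ≠ q.2} {q | q.1 ≠ q.2} :=
        fun q hq => Ne.symm hq
      have h0 := hd0.comp hsw hmaps
      simp only [Function.comp_def] at h0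
      exact h0 q hq
    have hde := (dat_eq hk G sub sc ho.he ho.ne hρ hfl).2
    have hc := continuousAt_wq hk G ho hρ
    rw [← hde] at hc
    exact ContinuousAt.comp_continuousWithinAt (f := fun q : S × S => dat hk G sub sc q.1 q.2) hc hd
  refine h1.congr fun q hq => ?_
  exact WW_of_ne hk G sub sc hq

theorem measurable_WW : Measurable fun q : S × S => WW hk G sub sc q.1 q.2 := by
  classical
  have hopen : IsOpen {q : S × S | q.1 ≠ q.2} := isClosed_diagonal.isOpen_compl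
  have h1 := ContinuousOn.measurable_piecewise (f := fun q : S × S => WW hk G sub sc q.1 q.2)
    (g := fun _ => k ^ 2) (s := {q : S × S | q.1 ≠ q.2})
    (continuousOn_WW hk G sub sc) continuous_const.continuousOn hopen.measurableSet
  have h2 : (fun q : S × S => WW hk G sub sc q.1 q.2) =
      Set.piecewise {q : S × S | q.1 ≠ q.2} (fun q : S × S => WW hk G sub sc q.1 q.2)
        (fun _ => k ^ 2) := by
    funext q
    by_cases h : q.1 = q.2
    · rw [piecewise_eq_of_notMem _ _ _ (by simpa using h), WW, if_pos h]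
    · rw [piecewise_eq_of_mem _ _ _ h]
  rw [h2]
  exact h1

end Crest.Agent.R241.LB4
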