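import Crest.Agent.R241.LB4d

/-!
R241, block L: Riemannian gradients of functions in an exponential chart.
-/

set_option autoImplicit false
set_option linter.unusedSectionVars false

open Set Filter Topology MeasureTheory
open scoped ContDiff RealInnerProductSpace ENNReal
open Crest.GeometryTopology.Submanifold
open Crest.Agent.R241.DDefs
open Crest.Agent.R241.D4Met

noncomputable section

namespace Crest.Agent.R241.LB5

/-! ### gradient with respect to an immersion -/

section grad

variable {n N : ℕ} (Φ : Euc n → Euc N) (u : Euc n → ℝ)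

/-- metric operator -/
def Mop (z : Euc n) : Euc n →L[ℝ] Euc n := (fderiv ℝ Φ z).adjoint ∘L (fderiv ℝ Φ z)

/-- coordinates of the gradient -/
def gcoord (z : Euc n) : Euc n := Ring.inverse (Mop Φ z) (gradient u z)

/-- the gradient of `u` for the metric induced by `Φ`, as a vector of the ambient space -/
def gr (z : Euc n) : Euc N := fderiv ℝ Φ z (gcoord Φ u z)

variable {Φ u}

theorem isUnit_Mop {z : Euc n} (h : ∀ w, ‖w‖ ≤ ‖fderiv ℝ Φ z w‖) : IsUnit (Mop Φ z) := by
  rw [ContinuousLinearMap.isUnit_iff_bijective]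
  have hinj : Function.Injective (Mop Φ z) := by
    rw [injective_iff_map_eq_zero]
    intro w hw
    have h1 : ⟪Mop Φ z w, w⟫ = ‖fderiv ℝ Φ z w‖ ^ 2 := by
      rw [Mop, ContinuousLinearMap.comp_apply, ContinuousLinearMap.adjoint_inner_left,
        real_inner_self_eq_norm_sq]
    rw [hw, inner_zero_left] at h1
    have h2 : ‖fderiv ℝ Φ z w‖ = 0 := by
      have := h1.symm
      exact pow_eq_zero_iff (two_ne_zero) |>.1 this
    have h3 := h w
    rw [h2] at h3
    exact norm_le_zero_iff.1 h3
  exact ⟨hinj, LinearMap.surjective_of_injective (f := (Mop Φ z).toLinearMap) hinj⟩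

theorem inner_gr {z : Euc n} (h : ∀ w, ‖w‖ ≤ ‖fderiv ℝ Φ z w‖) (w : Euc n) :
    ⟪gr Φ u z, fderiv ℝ Φ z w⟫ = fderiv ℝ u z w := by
  rw [gr, ← ContinuousLinearMap.adjoint_inner_left]
  have h1 : (ContinuousLinearMap.adjoint (fderiv ℝ Φ z)) ((fderiv ℝ Φ z) (gcoord Φ u z)) =
      gradient u z := by
    have h2 : (Mop Φ z) (gcoord Φ u z) = gradient u z := by
      have h3 := Ring.mul_inverse_cancel (Mop Φ z) (isUnit_Mop h)
      have h4 := congrArg (fun L : Euc n →L[ℝ] Euc n => L (gradient u z)) h3
      exact h4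
    exact h2
  rw [h1, gradient, InnerProductSpace.toDual_symm_apply]

theorem norm_gr_le (hn : ∃ w : Euc n, w ≠ 0) {z : Euc n} (h : ∀ w, ‖w‖ ≤ ‖fderiv ℝ Φ z w‖) {c : ℝ}
    (hc : ∀ w, |fderiv ℝ u z w| ≤ c * ‖fderiv ℝ Φ z w‖) : ‖gr Φ u z‖ ≤ c := by
  have h1 := inner_gr (u := u) h (gcoord Φ u z)
  have h2 : ‖gr Φ u z‖ ^ 2 = fderiv ℝ u z (gcoord Φ u z) := by
    rw [← real_inner_self_eq_norm_sq, ← h1]
    rfl
  have h3 := hc (gcoord Φ u z)
  have h4 : ‖gr Φ u z‖ ^ 2 ≤ c * ‖gr Φ u z‖ := by
    rw [h2]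
    exact (le_abs_self _).trans h3
  rcases eq_or_lt_of_le (norm_nonneg (gr Φ u z)) with h0 | h0
  · rw [← h0]
    obtain ⟨w, hw⟩ := hn
    have h5 := hc w
    have h6 : 0 < ‖fderiv ℝ Φ z w‖ := (norm_pos_iff.2 hw).trans_le (h w)
    have h7 : 0 ≤ c * ‖fderiv ℝ Φ z w‖ := (abs_nonneg _).trans h5
    exact nonneg_of_mul_nonneg_left h7 h6
  · rw [sq] at h4
    exact le_of_mul_le_mul_right h4 h0

theorem gr_eq_zero {z : Euc n} (h : fderiv ℝ u z = 0) : gr Φ u z = 0 := by
  rw [gr, gcoord, gradient, h, map_zero, map_zero, map_zero]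

theorem continuous_gr (hΦ : ContDiff ℝ ∞ Φ) (hu : ContDiff ℝ 1 u)
    (h : ∀ z w, ‖w‖ ≤ ‖fderiv ℝ Φ z w‖) : Continuous (gr Φ u) := by
  have h1 : Continuous (fderiv ℝ Φ) := hΦ.continuous_fderiv (by simp)
  have h2 : Continuous (Mop Φ) := by
    unfold Mop
    exact (ContinuousLinearMap.adjoint.continuous.comp h1).clm_comp h1
  have h3 : Continuous (gradient u) := by
    unfold gradient
    exact ((InnerProductSpace.toDual ℝ (Euc n)).symm.continuous).comp
      (hu.continuous_fderiv (by simp))
  have h4 : Continuous fun z => Ring.inverse (Mop Φ z) := by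
    rw [continuous_iff_continuousAt]
    intro z
    obtain ⟨U, hU⟩ := isUnit_Mop (h z)
    have := NormedRing.inverse_continuousAt U
    rw [hU] at this
    exact ContinuousAt.comp this h2.continuousAt
  exact h1.clm_apply (h4.clm_apply h3)

end grad

open Crest.Agent.R241.D2
open Crest.Agent.R241.D3b
open Crest.Agent.R241.D3a
open Crest.Agent.R241.LB1
open Crest.Agent.R241.LB2
open Crest.Agent.R241.LB3
open Crest.Agent.R241.LB4
open Crest.Agent.R241.LA (nu1 nu2)
open Crest.Agent.R241.AF (jac)

variable {N : ℕ} {S : Set (Euc N)}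

/-! ### integration over `S` in an arbitrary exponential chart -/

theorem integrable_μS_iff (hS : IsClosed S) (D : ExpData 2 N S) (p : S) {F : S → ℝ}
    (hF : AEStronglyMeasurable F (μS S)) :
    Integrable F (μS S) ↔
      Integrable (fun v => jac (fderiv ℝ (D.Φ p) v) * F (D.homeo p v)) := by
  have hm := (D.homeo p).continuous.measurable
  have hd : Measurable fun v => (jac (fderiv ℝ (D.Φ p) v)).toNNReal :=
    (continuous_jac D p).measurable.real_toNNReal
  have hmap := map_homeo hS D p
  rw [← hmap] at hF ⊢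
  rw [integrable_map_measure hF hm.aemeasurable]
  have h2 : ((volume : Measure (Euc 2)).withDensity fun v =>
      ENNReal.ofReal (jac (fderiv ℝ (D.Φ p) v))) =
      (volume : Measure (Euc 2)).withDensity fun v =>
        ((jac (fderiv ℝ (D.Φ p) v)).toNNReal : ℝ≥0∞) := rfl
  rw [h2, integrable_withDensity_iff_integrable_smul hd]
  refine integrable_congr (Eventually.of_forall fun v => ?_)
  simp only [Function.comp, NNReal.smul_def, Real.coe_toNNReal _ (AF.jac_nonneg _), smul_eq_mul]

theorem integral_μS (hS : IsClosed S) (D : ExpData 2 N S) (p : S) {F : S → ℝ}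
    (hF : AEStronglyMeasurable F (μS S)) :
    ∫ x, F x ∂(μS S) = ∫ v, jac (fderiv ℝ (D.Φ p) v) * F (D.homeo p v) := by
  have hm := (D.homeo p).continuous.measurable
  have hd : Measurable fun v => (jac (fderiv ℝ (D.Φ p) v)).toNNReal :=
    (continuous_jac D p).measurable.real_toNNReal
  have hmap := map_homeo hS D p
  rw [← hmap] at hF ⊢
  rw [integral_map hm.aemeasurable hF]
  have h2 : ((volume : Measure (Euc 2)).withDensity fun v =>
      ENNReal.ofReal (jac (fderiv ℝ (D.Φ p) v))) =
      (volume : Measure (Euc 2)).withDensity fun v =>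
        ((jac (fderiv ℝ (D.Φ p) v)).toNNReal : ℝ≥0∞) := rfl
  rw [h2, integral_withDensity_eq_integral_smul hd]
  refine integral_congr_ae (Eventually.of_forall fun v => ?_)
  simp only [NNReal.smul_def, Real.coe_toNNReal _ (AF.jac_nonneg _), smul_eq_mul]

/-- continuous functions with compact support are integrable -/
theorem integrable_of_chart (hS : IsClosed S) (D : ExpData 2 N S) (p : S) {F : S → ℝ}
    (hF : Continuous F) (hc : HasCompactSupport fun v => F (D.homeo p v)) :
    Integrable F (μS S) := by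
  rw [integrable_μS_iff hS D p hF.aestronglyMeasurable]
  apply Continuous.integrable_of_hasCompactSupport
  · exact (continuous_jac D p).mul (hF.comp (D.homeo p).continuous)
  · exact hc.mul_left

end Crest.Agent.R241.LB5
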