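import Crest.Agent.R241.LB5a

/-!
R241, block L: test functions (`LA.Polar.Test`) from smooth functions in an exponential chart.
-/

set_option autoImplicit false
set_option linter.unusedSectionVars false

open Set Filter Topology MeasureTheory
open scoped ContDiff RealInnerProductSpace ENNReal
open Crest.GeometryTopology.Submanifold
open Crest.Agent.R241.DDefs
open Crest.Agent.R241.D4Met
open Crest.Agent.R241.D2
open Crest.Agent.R241.D3b
open Crest.Agent.R241.D3a
open Crest.Agent.R241.LB1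
open Crest.Agent.R241.LB2
open Crest.Agent.R241.LB3
open Crest.Agent.R241.LB4
open Crest.Agent.R241.LA (nu1 nu2)
open Crest.Agent.R241.AF (jac)

noncomputable section

namespace Crest.Agent.R241.LB5

variable {N : ℕ} {S : Set (Euc N)}

/-- a function in the chart at `p`, as a function on `S` -/
def uu (D : ExpData 2 N S) (p : S) (u : Euc 2 → ℝ) (x : S) : ℝ := u (D.log p x)

/-- its gradient -/
def gg (D : ExpData 2 N S) (p : S) (u : Euc 2 → ℝ) (x : S) : Euc N := gr (D.Φ p) u (D.log p x)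

theorem uu_homeo (D : ExpData 2 N S) (p : S) (u : Euc 2 → ℝ) (v : Euc 2) :
    uu D p u (D.homeo p v) = u v := by rw [uu, D.log_homeo]

theorem gg_homeo (D : ExpData 2 N S) (p : S) (u : Euc 2 → ℝ) (v : Euc 2) :
    gg D p u (D.homeo p v) = gr (D.Φ p) u v := by rw [gg, D.log_homeo]

variable {D : ExpData 2 N S} {p : S} {u : Euc 2 → ℝ} (hu : ContDiff ℝ ∞ u)
include hu

theorem continuous_uu : Continuous (uu D p u) := hu.continuous.comp (D.homeo p).symm.continuous

theorem continuous_gg : Continuous (gg D p u) :=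
  (continuous_gr (D.contDiff p) (hu.of_le (by simp)) (D.expand p)).comp
    (D.homeo p).symm.continuous

omit hu in
theorem gg_eq_zero {x : S} (hx : D.log p x ∉ tsupport u) : gg D p u x = 0 := by
  apply gr_eq_zero
  exact image_eq_zero_of_notMem_tsupport (fun h => hx (tsupport_fderiv_subset ℝ h))

omit hu in
theorem uu_eq_zero {x : S} (hx : D.log p x ∉ tsupport u) : uu D p u x = 0 :=
  image_eq_zero_of_notMem_tsupport (f := u) hx

variable {k : ℝ} (hk : 0 ≤ k) (G : Geo 2 N (-(k ^ 2)) S)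
  (sub : IsSubmanifold 2 N S) (sc : SimplyConnectedSpace S)

theorem hasFDerivAt_uu (x : S) (v : Euc 2) :
    HasFDerivAt (fun v => uu D p u ((DD hk G sub sc).homeo x v))
      ((innerSL ℝ (gg D p u ((DD hk G sub sc).homeo x v))).comp (fderiv ℝ (D3d.Ph G x) v)) v := by
  have hZ : ContDiff ℝ ∞ fun v => D.log p ((DD hk G sub sc).homeo x v) :=
    D.contDiff_log_comp p (α := fun v => (DD hk G sub sc).homeo x v) (by
      have : (fun v => ((DD hk G sub sc).homeo x v : Euc N)) = D3d.Ph G x :=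
        funext fun v => (DD hk G sub sc).homeo_coe x v
      rw [this]
      exact D3d.contDiff_Ph G x)
  have hZd := (hZ.differentiable (by simp) v).hasFDerivAt
  set Z := fun v => D.log p ((DD hk G sub sc).homeo x v) with hZdef
  have hΦ : (fun v => D.Φ p (Z v)) = D3d.Ph G x := by
    funext v
    rw [← D.homeo_coe, hZdef]
    simp only [D.homeo_log]
    exact (DD hk G sub sc).homeo_coe x v
  have h1 := (((D.contDiff p).differentiable (by simp) (Z v)).hasFDerivAt).comp v hZd
  have h2 : fderiv ℝ (D3d.Ph G x) v = (fderiv ℝ (D.Φ p) (Z v)).comp (fderiv ℝ Z v) := by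
    rw [← hΦ]
    exact h1.fderiv
  have h3 := ((hu.differentiable (by simp) (Z v)).hasFDerivAt).comp v hZd
  refine h3.congr_fderiv ?_
  ext w
  rw [h2]
  simp only [ContinuousLinearMap.comp_apply, innerSL_apply_apply]
  exact (inner_gr (D.expand p (Z v)) _).symm

theorem hasDerivAt_rad (x : S) {ρ : ℝ} (hρ : 0 < ρ) (θ : ℝ) :
    HasDerivAt (fun ρ => uu D p u (pt hk G sub sc x ρ θ))
      ⟪gg D p u (pt hk G sub sc x ρ θ), vel G x ρ θ⟫ ρ := by
  have h1 : HasDerivAt (fun ρ : ℝ => ρ • Eθ θ) (Eθ θ) ρ := by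
    simpa using (hasDerivAt_id ρ).smul_const (Eθ θ)
  have h2 := (hasFDerivAt_uu hu hk G sub sc (D := D) (p := p) x (ρ • Eθ θ)).comp_hasDerivAt ρ h1
  refine h2.congr_deriv ?_
  rw [ContinuousLinearMap.comp_apply, innerSL_apply_apply, (fderiv_polar G x hρ θ).1]
  rfl

theorem hasDerivAt_ang (x : S) {ρ : ℝ} (hρ : 0 < ρ) (θ : ℝ) :
    HasDerivAt (fun θ => uu D p u (pt hk G sub sc x ρ θ))
      ⟪gg D p u (pt hk G sub sc x ρ θ), J G x (ev G x θ) (nv G x θ) ρ⟫ θ := by
  have h1 : HasDerivAt (fun θ : ℝ => ρ • Eθ θ) (ρ • Rθ θ) θ := (hasDerivAt_Eθ θ).const_smul ρ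
  have h2 := (hasFDerivAt_uu hu hk G sub sc (D := D) (p := p) x (ρ • Eθ θ)).comp_hasDerivAt θ h1
  refine h2.congr_deriv ?_
  have h3 : fderiv ℝ (D3d.Ph G x) (ρ • Eθ θ) (ρ • Rθ θ) = J G x (ev G x θ) (nv G x θ) ρ := by
    rw [map_smul, (fderiv_polar G x hρ θ).2, smul_smul, mul_inv_cancel₀ hρ.ne', one_smul]
  rw [ContinuousLinearMap.comp_apply, innerSL_apply_apply, h3]
  rfl

omit hu in
include hk in
theorem Jc_smul_nrm (x : S) {ρ : ℝ} (hρ : 0 < ρ) (θ : ℝ) :
    Jc G x ρ θ • nrm G x ρ θ = J G x (ev G x θ) (nv G x θ) ρ := by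
  have h : Jc G x ρ θ ≠ 0 := (hρ.trans_le (le_jj hk G (on_ev G x θ) hρ)).ne'
  rw [nrm, smul_smul, mul_inv_cancel₀ h, one_smul]

omit hu in
theorem norm_log_pt (x : S) {ρ : ℝ} (hρ : 0 ≤ ρ) (θ : ℝ) :
    ‖logv hk G sub sc x (pt hk G sub sc x ρ θ)‖ = ρ := by
  rw [norm_logv, pt, (DD hk G sub sc).log_homeo, norm_smul, norm_Eθ, mul_one, Real.norm_eq_abs,
    abs_of_nonneg hρ]

omit hu in
theorem measurable_KK :
    Measurable fun q : S × S => KK hk G sub sc q.1 q.2 := by
  classical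
  have hopen : IsOpen {q : S × S | q.1 ≠ q.2} := isClosed_diagonal.isOpen_compl
  have h1 := ContinuousOn.measurable_piecewise (f := fun q : S × S => KK hk G sub sc q.1 q.2)
    (g := fun _ => (0 : Euc N)) (s := {q : S × S | q.1 ≠ q.2})
    (continuousOn_KK hk G sub sc) continuous_const.continuousOn hopen.measurableSet
  have h2 : (fun q : S × S => KK hk G sub sc q.1 q.2) =
      Set.piecewise {q : S × S | q.1 ≠ q.2} (fun q : S × S => KK hk G sub sc q.1 q.2)
        (fun _ => (0 : Euc N)) := by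
    funext q
    by_cases h : q.1 = q.2
    · rw [piecewise_eq_of_notMem _ _ _ (by simpa using h), h, KK_self]
    · rw [piecewise_eq_of_mem _ _ _ h]
  rw [h2]
  exact h1

end Crest.Agent.R241.LB5
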