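import Crest.Agent.R241.LB5b

/-!
R241, block L: the test function structure and the integrability of the kernel.
-/

set_option autoImplicit false
set_option linter.unusedSectionVars false

open Set Filter Topology MeasureTheory
open scoped ContDiff RealInnerProductSpace ENNReal
open Crest.GeometryTopology.Submanifold
open Crest.Agent.R241.DDefs
open Crest.Agent.R241.D4Met
open Crest.Agent.R241.D2
open Crest.Agent.R241.D3b
open Crest.Agent.R241.D3a
open Crest.Agent.R241.LB1
open Crest.Agent.R241.LB2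
open Crest.Agent.R241.LB3
open Crest.Agent.R241.LB4
open Crest.Agent.R241.LA (nu1 nu2)
open Crest.Agent.R241.AF (jac)

noncomputable section

namespace Crest.Agent.R241.LB5

variable {N : ℕ} {S : Set (Euc N)}

variable {k : ℝ} (hk : 0 ≤ k) (G : Geo 2 N (-(k ^ 2)) S)
  (sub : IsSubmanifold 2 N S) (sc : SimplyConnectedSpace S)

theorem exists_Jc_bound {K' : Set S} (hK : IsCompact K') (R : ℝ) :
    ∃ B, 0 ≤ B ∧ ∀ y ∈ K', ∀ θ, Jc G y R θ ≤ B := by
  set T : Set (Euc N × Euc N) :=
    ((Subtype.val '' K') ×ˢ Metric.closedBall (0 : Euc N) 1) ∩ TS G with hT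
  have hTc : IsCompact T :=
    ((hK.image continuous_subtype_val).prod (isCompact_closedBall _ _)).inter_right (isClosed_TS G)
  have hcont : ContinuousOn (fun q : Euc N × Euc N => hs1 G (q, R)) T := by
    intro q hq
    have h1 := (continuousAt_hs G (p := q.1) (v := q.2) hq.2.1 hq.2.2 R).1
    have h2 : ContinuousAt (fun q : Euc N × Euc N => (q, R)) q :=
      (continuous_id.prodMk continuous_const).continuousAt
    exact (ContinuousAt.comp (f := fun q : Euc N × Euc N => (q, R)) h1 h2).continuousWithinAt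
  obtain ⟨B, hB⟩ := hTc.bddAbove_image hcont
  refine ⟨√B, Real.sqrt_nonneg _, fun y hy θ => ?_⟩
  have h := on_ev G y θ
  have hmem : ((y : Euc N), ev G y θ) ∈ T :=
    ⟨⟨⟨y, hy, rfl⟩, by rw [mem_closedBall_zero_iff]; exact h.ne.le⟩, h.hx, h.he⟩
  have h1 := hB (mem_image_of_mem _ hmem)
  rw [hs1_eq G h] at h1
  exact (Real.le_sqrt (norm_nonneg _) ((sq_nonneg _).trans h1)).2 h1

include hk in
theorem integral_Jd (y : S) (θ : ℝ) {R : ℝ} (hR : 0 < R) :
    IntervalIntegrable (fun ρ => Jd G y ρ θ + 1) volume 0 R ∧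
    ∫ ρ in (0 : ℝ)..R, (Jd G y ρ θ + 1) = Jc G y R θ + R := by
  have h := on_ev G y θ
  have hd : ∀ ρ ∈ Ioo 0 R, HasDerivAt (fun ρ => jj G y (ev G y θ) (nv G y θ) ρ + ρ)
      (Jd G y ρ θ + 1) ρ := fun ρ hρ =>
    (hasDerivAt_jj h (J_ne_zero hk G h hρ.1)).add (hasDerivAt_id ρ)
  have hc : Continuous (fun ρ => jj G y (ev G y θ) (nv G y θ) ρ + ρ) :=
    (continuous_jj G h).add continuous_id
  have hi : IntervalIntegrable (fun ρ => Jd G y ρ θ + 1) volume 0 R := by
    apply intervalIntegral.intervalIntegrable_deriv_of_nonneg hc.continuousOn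
    · rw [min_eq_left hR.le, max_eq_right hR.le]; exact hd
    · intro ρ hρ
      rw [min_eq_left hR.le, max_eq_right hR.le] at hρ
      have h2 : 1 ≤ Jd G y ρ θ := one_le_jd hk G h hρ.1
      linarith
  refine ⟨hi, ?_⟩
  rw [intervalIntegral.integral_eq_sub_of_hasDerivAt_of_le hR.le hc.continuousOn hd hi,
    jj_zero G h]
  simp [Jc]

theorem measurable_kint {w : S → ℝ} (hw : Continuous w) (y : S) :
    Measurable fun x => ‖w x‖ₑ * ‖KK hk G sub sc x y‖ₑ := by
  have h1 : Measurable fun x => KK hk G sub sc x y := by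
    have h0 : Measurable fun x : S => (x, y) := measurable_id.prodMk measurable_const
    have h2 := (measurable_KK hk G sub sc).comp h0
    simp only [Function.comp_def] at h2
    exact h2
  exact hw.measurable.enorm.mul h1.enorm

/-- uniform bound for the kernel integral -/
theorem kint_le {w : S → ℝ} (hw : Continuous w) {K' : Set S} (hK : IsCompact K') {M : ℝ}
    (hM : ∀ x, |w x| ≤ M) (hsupp : ∀ x, x ∉ K' → w x = 0) :
    ∃ C : ℝ≥0∞, C < ⊤ ∧ ∀ y ∈ K', ∫⁻ x, ‖w x‖ₑ * ‖KK hk G sub sc x y‖ₑ ∂(μS S) ≤ C := by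
  -- diameter
  have hcn : Continuous fun q : S × S => ‖logv hk G sub sc q.1 q.2‖ :=
    continuous_norm_logv hk G sub sc
  obtain ⟨R0, hR0⟩ := (hK.prod hK).bddAbove_image hcn.continuousOn
  set R : ℝ := max R0 0 + 1 with hRdef
  have hR : 0 < R := by positivity
  obtain ⟨B, hB0, hB⟩ := exists_Jc_bound G hK R
  refine ⟨∫⁻ θ, ENNReal.ofReal M * ENNReal.ofReal (B + R) ∂nu2, ?_, fun y hy => ?_⟩
  · rw [lintegral_const]
    refine ENNReal.mul_lt_top (ENNReal.mul_lt_top ENNReal.ofReal_lt_top ENNReal.ofReal_lt_top) ?_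
    simp
  have hmeas := measurable_kint hk G sub sc hw y
  rw [lintegral_polar_S hk G sub sc y hmeas]
  have hmeas2 : Measurable fun p : ℝ × ℝ => ENNReal.ofReal (Jc G y p.1 p.2) *
      (‖w (pt hk G sub sc y p.1 p.2)‖ₑ * ‖KK hk G sub sc (pt hk G sub sc y p.1 p.2) y‖ₑ) :=
    ((continuous_Jc G y).measurable.ennreal_ofReal).mul
      (hmeas.comp (continuous_pt hk G sub sc y).measurable)
  rw [lintegral_prod_symm _ hmeas2.aemeasurable]
  refine lintegral_mono fun θ => ?_
  -- pointwise bound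
  have hpt : ∀ᵐ ρ ∂nu1, ENNReal.ofReal (Jc G y ρ θ) *
      (‖w (pt hk G sub sc y ρ θ)‖ₑ * ‖KK hk G sub sc (pt hk G sub sc y ρ θ) y‖ₑ) ≤
      (Ioc 0 R).indicator (fun ρ => ENNReal.ofReal M * ENNReal.ofReal (Jd G y ρ θ + 1)) ρ := by
    filter_upwards [ae_restrict_mem measurableSet_Ioi] with ρ hρ
    have hρ' : 0 < ρ := hρ
    by_cases hle : ρ ≤ R
    · rw [indicator_of_mem (show ρ ∈ Ioc 0 R from ⟨hρ', hle⟩)]
      have h1 : ENNReal.ofReal (Jc G y ρ θ) * ‖KK hk G sub sc (pt hk G sub sc y ρ θ) y‖ₑ =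
          ENNReal.ofReal (Jd G y ρ θ + 1) := by
        have h2 := congrArg (fun v : Euc N => ‖v‖ₑ) (K_src hk G sub sc y hρ' θ)
        simp only [enorm_smul] at h2
        have h20 : 0 ≤ Jc G y ρ θ := norm_nonneg _
        rw [Real.enorm_of_nonneg h20] at h2
        have h3 : 0 ≤ Jd G y ρ θ + 1 := by
          have : 1 ≤ Jd G y ρ θ := one_le_jd hk G (on_ev G y θ) hρ'
          linarith
        rw [h2, Real.enorm_of_nonneg h3, ← ev_eq]
        have h4 : ‖ev G y θ‖ₑ = 1 := by
          rw [← ofReal_norm, (on_ev G y θ).ne, ENNReal.ofReal_one]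
        rw [h4, mul_one]
      have h5 : ‖w (pt hk G sub sc y ρ θ)‖ₑ ≤ ENNReal.ofReal M := by
        rw [← ofReal_norm]
        exact ENNReal.ofReal_le_ofReal (hM _)
      calc _ = ‖w (pt hk G sub sc y ρ θ)‖ₑ * (ENNReal.ofReal (Jc G y ρ θ) *
            ‖KK hk G sub sc (pt hk G sub sc y ρ θ) y‖ₑ) := by ring
        _ ≤ _ := by rw [h1]; gcongr
    · have h6 : w (pt hk G sub sc y ρ θ) = 0 := by
        apply hsupp
        intro hmem
        have h7 := hR0 (mem_image_of_mem (fun q : S × S => ‖logv hk G sub sc q.1 q.2‖)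
          (show (y, pt hk G sub sc y ρ θ) ∈ K' ×ˢ K' from ⟨hy, hmem⟩))
        simp only [] at h7
        rw [norm_log_pt hk G sub sc y hρ'.le] at h7
        have : R0 < R := by
          rw [hRdef]
          linarith [le_max_left R0 0]
        linarith
      rw [h6]
      simp
  refine (lintegral_mono_ae hpt).trans ?_
  rw [lintegral_indicator measurableSet_Ioc, lintegral_const_mul' _ _ ENNReal.ofReal_ne_top]
  gcongr
  obtain ⟨hi, hint⟩ := integral_Jd hk G y θ hR
  have hset : nu1.restrict (Ioc 0 R) = volume.restrict (Ioc 0 R) := by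
    rw [Measure.restrict_restrict measurableSet_Ioc,
      inter_eq_self_of_subset_left Ioc_subset_Ioi_self]
  rw [hset, ← ofReal_integral_eq_lintegral_ofReal]
  · rw [← intervalIntegral.integral_of_le hR.le, hint]
    exact ENNReal.ofReal_le_ofReal (by linarith [hB y hy θ])
  · exact (intervalIntegrable_iff_integrableOn_Ioc_of_le hR.le).1 hi
  · filter_upwards [ae_restrict_mem measurableSet_Ioc] with ρ hρ
    have : 1 ≤ Jd G y ρ θ := one_le_jd hk G (on_ev G y θ) hρ.1
    show (0 : ℝ) ≤ Jd G y ρ θ + 1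
    linarith

/-- integrability of the double kernel integral -/
theorem int_K [SFinite (μS S)] {w : S → ℝ} (hw : Continuous w) {g : S → Euc N}
    (hg : Continuous g) {K' : Set S} (hK : IsCompact K') {M : ℝ}
    (hM : ∀ x, |w x| ≤ M) (hsupp : ∀ x, x ∉ K' → w x = 0 ∧ g x = 0)
    (hgi : Integrable (fun x => ‖g x‖) (μS S)) :
    Integrable (fun q : S × S => w q.1 * ⟪g q.2, KK hk G sub sc q.1 q.2⟫)
      ((μS S).prod (μS S)) := by
  have hKm := measurable_KK hk G sub sc
  have hgm : Measurable fun q : S × S => g q.2 := hg.measurable.comp measurable_snd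
  have hwm : Measurable fun q : S × S => w q.1 := hw.measurable.comp measurable_fst
  have hmeas : Measurable fun q : S × S => w q.1 * ⟪g q.2, KK hk G sub sc q.1 q.2⟫ :=
    hwm.mul (hgm.inner hKm)
  refine ⟨hmeas.aestronglyMeasurable, ?_⟩
  obtain ⟨C, hC, hC'⟩ := kint_le hk G sub sc hw hK hM (fun x hx => (hsupp x hx).1)
  rw [hasFiniteIntegral_iff_enorm]
  have hmeas2 : Measurable fun q : S × S =>
      ‖g q.2‖ₑ * (‖w q.1‖ₑ * ‖KK hk G sub sc q.1 q.2‖ₑ) :=
    hgm.enorm.mul (hwm.enorm.mul hKm.enorm)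
  calc ∫⁻ q : S × S, ‖w q.1 * ⟪g q.2, KK hk G sub sc q.1 q.2⟫‖ₑ ∂((μS S).prod (μS S))
      ≤ ∫⁻ q : S × S, ‖g q.2‖ₑ * (‖w q.1‖ₑ * ‖KK hk G sub sc q.1 q.2‖ₑ)
          ∂((μS S).prod (μS S)) := by
        refine lintegral_mono fun q => ?_
        rw [enorm_mul]
        calc ‖w q.1‖ₑ * ‖⟪g q.2, KK hk G sub sc q.1 q.2⟫‖ₑ
            ≤ ‖w q.1‖ₑ * (‖g q.2‖ₑ * ‖KK hk G sub sc q.1 q.2‖ₑ) := by
              gcongr
              rw [← ofReal_norm, ← ofReal_norm, ← ofReal_norm,
                ← ENNReal.ofReal_mul (norm_nonneg _)]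
              exact ENNReal.ofReal_le_ofReal (norm_inner_le_norm _ _)
          _ = _ := by ring
    _ = ∫⁻ y, ∫⁻ x, ‖g y‖ₑ * (‖w x‖ₑ * ‖KK hk G sub sc x y‖ₑ) ∂(μS S) ∂(μS S) :=
        lintegral_prod_symm _ hmeas2.aemeasurable
    _ ≤ ∫⁻ y, ‖g y‖ₑ * C ∂(μS S) := by
        refine lintegral_mono fun y => ?_
        rw [lintegral_const_mul _ (measurable_kint hk G sub sc hw y)]
        by_cases hy : y ∈ K'
        · exact mul_le_mul_right (hC' y hy) _
        · rw [(hsupp y hy).2]
          simp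
    _ = (∫⁻ y, ‖g y‖ₑ ∂(μS S)) * C := lintegral_mul_const _ hg.measurable.enorm
    _ < ⊤ := by
        refine ENNReal.mul_lt_top ?_ hC
        have := hgi.hasFiniteIntegral
        rw [hasFiniteIntegral_iff_enorm] at this
        simpa using this

/-- smooth functions in a chart are test functions -/
theorem test {D : ExpData 2 N S} {p : S} {u : Euc 2 → ℝ} (hu : ContDiff ℝ ∞ u)
    (hc : HasCompactSupport u) : (PP hk G sub sc).Test (uu D p u) (gg D p u) := by
  have hS := G.isClosed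
  have hcu := continuous_uu (D := D) (p := p) hu
  have hcg := continuous_gg (D := D) (p := p) hu
  have hSF : SFinite (μS S) := sfinite_μS hS D p
  set K' : Set S := D.homeo p '' tsupport u with hK'
  have hK : IsCompact K' := hc.isCompact.image (D.homeo p).continuous
  have hsupp : ∀ x, x ∉ K' → uu D p u x = 0 ∧ gg D p u x = 0 := by
    intro x hx
    have h1 : D.log p x ∉ tsupport u := fun h => hx ⟨D.log p x, h, D.homeo_log p x⟩
    exact ⟨uu_eq_zero h1, gg_eq_zero h1⟩
  obtain ⟨M, hM⟩ := hc.exists_bound_of_continuous hu.continuous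
  have hM' : ∀ x, |uu D p u x| ≤ M := fun x => hM _
  have hcs1 : HasCompactSupport fun v => gg D p u (D.homeo p v) := by
    refine HasCompactSupport.intro hc.isCompact fun v hv => ?_
    apply gg_eq_zero
    rwa [D.log_homeo]
  have hgi : Integrable (fun x => ‖gg D p u x‖) (μS S) := by
    apply integrable_of_chart hS D p hcg.norm
    exact hcs1.norm
  have hptc : ∀ x, Continuous fun q : ℝ × ℝ => pt hk G sub sc x q.1 q.2 :=
    fun x => continuous_pt hk G sub sc x
  have hc1 : ∀ x, Continuous fun q : ℝ × ℝ => uu D p u (pt hk G sub sc x q.1 q.2) :=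
    fun x => hcu.comp (hptc x)
  have hc2 : ∀ x, Continuous fun q : ℝ × ℝ => gg D p u (pt hk G sub sc x q.1 q.2) :=
    fun x => hcg.comp (hptc x)
  have hc3 : ∀ x, Continuous fun q : ℝ × ℝ =>
      ⟪gg D p u (pt hk G sub sc x q.1 q.2), vel G x q.1 q.2⟫ :=
    fun x => (hc2 x).inner (continuous_vel G x)
  have hc4 : ∀ x, Continuous fun q : ℝ × ℝ =>
      ⟪gg D p u (pt hk G sub sc x q.1 q.2), J G x (ev G x q.2) (nv G x q.2) q.1⟫ :=
    fun x => (hc2 x).inner (continuous_Jv G x)
  have hJn : ∀ (x : S) (ρ : ℝ), 0 < ρ → ∀ θ,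
      Jc G x ρ θ * ⟪gg D p u (pt hk G sub sc x ρ θ), nrm G x ρ θ⟫ =
        ⟪gg D p u (pt hk G sub sc x ρ θ), J G x (ev G x θ) (nv G x θ) ρ⟫ := by
    intro x ρ hρ θ
    rw [← Jc_smul_nrm hk G x hρ θ, inner_smul_right]
  refine ⟨?_, ?_, ?_, ?_, ?_, ?_, ?_, ?_, ?_, ?_, ?_, ?_, ?_, ?_⟩
  · intro x _ θ ρ hρ
    exact hasDerivAt_rad hu hk G sub sc x hρ θ
  · intro x _ θ
    exact ((hc1 x).comp (continuous_id.prodMk continuous_const)).continuousOn
  · intro x _ θ R _
    have h1 : Continuous fun ρ : ℝ => (ρ, θ) := continuous_id.prodMk continuous_const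
    exact ((hc3 x).comp h1).intervalIntegrable 0 R
  · intro x _ ρ hρ θ
    have h1 := hasDerivAt_ang (D := D) (p := p) hu hk G sub sc x hρ θ
    rw [← hJn x ρ hρ θ] at h1
    exact h1
  · intro x _ ρ hρ
    have h1 : Continuous fun θ : ℝ => (ρ, θ) := continuous_const.prodMk continuous_id
    have h2 := (hc4 x).comp h1
    refine h2.congr fun θ => ?_
    exact (hJn x ρ hρ θ).symm
  · intro x _
    have hcn : Continuous fun y : S => ‖logv hk G sub sc x y‖ := by
      have h00 : Continuous fun y : S => (x, y) := continuous_const.prodMk continuous_id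
      have h0 := (continuous_norm_logv hk G sub sc).comp h00
      simp only [Function.comp_def] at h0
      exact h0
    obtain ⟨R0, hR0⟩ := hK.bddAbove_image hcn.continuousOn
    refine ⟨max R0 0 + 1, by positivity, fun ρ hρ θ => ?_⟩
    have hρ0 : 0 ≤ ρ := le_trans (by positivity) hρ
    apply hsupp
    intro hmem
    have h7 := hR0 (mem_image_of_mem (fun y : S => ‖logv hk G sub sc x y‖) hmem)
    have h8 : ‖logv hk G sub sc x (pt hk G sub sc x ρ θ)‖ ≤ R0 := h7
    rw [norm_log_pt hk G sub sc x hρ0] at h8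
    linarith [le_max_left R0 0]
  · exact ⟨M, fun x _ => hM' x⟩
  · exact hgi
  · apply integrable_of_chart hS D p (hcu.pow 2)
    refine HasCompactSupport.intro hc.isCompact fun v hv => ?_
    have : uu D p u (D.homeo p v) = 0 := uu_eq_zero (by rwa [D.log_homeo])
    rw [Pi.pow_apply, this]
    norm_num
  · intro x _
    exact (hc1 x).aestronglyMeasurable
  · intro x _
    exact (hc3 x).aestronglyMeasurable
  · intro x _
    have h1 : Measurable fun q : ℝ × ℝ => nrm G x q.1 q.2 :=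
      ((continuous_Jc G x).measurable.inv).smul (continuous_Jv G x).measurable
    exact ((hc2 x).measurable.inner h1).aestronglyMeasurable
  · intro x _
    exact (continuous_Jc G x).aestronglyMeasurable
  · exact int_K hk G sub sc hcu hcg hK hM' hsupp hgi

end Crest.Agent.R241.LB5
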