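import Crest.Agent.R241.LB4e

/-!
R241, block L: rigidity of the Jacobi fields when the kernel vanishes (`k = 0`).
-/

set_option autoImplicit false
set_option linter.unusedSectionVars false

open Set Filter Topology MeasureTheory
open scoped ContDiff RealInnerProductSpace ENNReal
open Crest.GeometryTopology.Submanifold
open Crest.Agent.R241.DDefs
open Crest.Agent.R241.D4Met
open Crest.Agent.R241.D2
open Crest.Agent.R241.D3b
open Crest.Agent.R241.D3a
open Crest.Agent.R241.LB1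
open Crest.Agent.R241.LB2
open Crest.Agent.R241.LB3
open Crest.Agent.R241.LB4

noncomputable section

namespace Crest.Agent.R241.LB6

variable {N : ℕ} {S : Set (Euc N)} {k : ℝ} (hk : 0 ≤ k) (G : Geo 2 N (-(k ^ 2)) S)
include hk

variable {p v w z u wz : Euc N} (h : On G p v w) (hz : On G z u wz)
  (hzp : fl G ((z, u), 1) = (p, v))
include h hz hzp

theorem one_le_CC {t : ℝ} (ht : 0 < t) : 1 ≤ CC G p v w z u wz t := by
  refine ge_of_deriv_nonneg (fun s hs => hasDerivAt_CC hk G h hz hzp hs) ?_ ?_ ht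
  · intro s hs
    exact (mul_nonneg (sq_nonneg k) (norm_nonneg _)).trans (CD_ge hk G h hz hzp hs)
  · have := (continuous_CC G h hz).tendsto 0
    rw [CC_zero hk G h hz hzp] at this
    exact this.mono_left nhdsWithin_le_nhds

theorem CD_deriv_nonneg {s : ℝ} (hs : 0 < s) :
    0 ≤ -Kv G (fl G ((p, v), s)).1 (fl G ((p, v), s)).2 * CC G p v w z u wz s := by
  have hm := fl_mem G (q := (p, v)) ⟨h.hx, h.he⟩ s
  have h1 := Kv_le hm.1 hm.2 (norm_T h s)
  have h3 : 0 ≤ -Kv G (fl G ((p, v), s)).1 (fl G ((p, v), s)).2 := by nlinarith [sq_nonneg k]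
  exact mul_nonneg h3 (zero_le_one.trans (one_le_CC hk G h hz hzp hs))

/-- if `CD` vanishes at `r`, the curvature vanishes along the geodesic on `(0, r)` -/
theorem Kv_eq_zero {r : ℝ} (h0 : CD G p v w z u wz r = 0) {s : ℝ} (hs : s ∈ Ioo 0 r) :
    Kv G (fl G ((p, v), s)).1 (fl G ((p, v), s)).2 = 0 := by
  -- `CD` is monotone, with limit zero at zero
  have hmono : MonotoneOn (CD G p v w z u wz) (Ioi 0) := by
    apply monotoneOn_of_deriv_nonneg (convex_Ioi 0)
    · intro t ht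
      exact (hasDerivAt_CD hk G h hz hzp ht).continuousAt.continuousWithinAt
    · rw [interior_Ioi]
      intro t ht
      exact (hasDerivAt_CD hk G h hz hzp ht).differentiableAt.differentiableWithinAt
    · rw [interior_Ioi]
      intro t ht
      rw [(hasDerivAt_CD hk G h hz hzp ht).deriv]
      exact CD_deriv_nonneg hk G h hz hzp ht
  have hr : 0 < r := hs.1.trans hs.2
  have hzero : ∀ t ∈ Ioo 0 r, CD G p v w z u wz t = 0 := by
    intro t ht
    apply le_antisymm
    · rw [← h0]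
      exact hmono ht.1 hr ht.2.le
    · exact (mul_nonneg (sq_nonneg k) (norm_nonneg _)).trans (CD_ge hk G h hz hzp ht.1)
  have hd : HasDerivAt (CD G p v w z u wz) 0 s := by
    refine (hasDerivAt_const s (0 : ℝ)).congr_of_eventuallyEq ?_
    filter_upwards [isOpen_Ioo.mem_nhds hs] with t ht
    exact hzero t ht
  have h1 := hd.unique (hasDerivAt_CD hk G h hz hzp hs.1)
  have h2 := one_le_CC hk G h hz hzp hs.1
  have h3 : CC G p v w z u wz s ≠ 0 := by linarith
  have h4 : -Kv G (fl G ((p, v), s)).1 (fl G ((p, v), s)).2 = 0 := by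
    rcases mul_eq_zero.1 h1.symm with h5 | h5
    · exact h5
    · exact absurd h5 h3
  linarith

/-- hence the scalar Jacobian is the identity on `(0, r]` -/
theorem jj_eq_self {r : ℝ} (h0 : CD G p v w z u wz r = 0) {t : ℝ} (ht : t ∈ Ioc 0 r) :
    jj G p v w t = t := by
  have hd : ∀ s ∈ Ioo 0 r, HasDerivAt (jd G p v w) 0 s := by
    intro s hs
    have h1 := hasDerivAt_jd h (J_ne_zero hk G h hs.1)
    rw [Kv_eq_zero hk G h hz hzp h0 hs, neg_zero, zero_mul] at h1
    exact h1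
  -- `jd` is constant on `(0, r)`
  have hconst : ∀ s ∈ Ioo 0 r, jd G p v w s = 1 := by
    intro s hs
    have h2 : Tendsto (jd G p v w) (𝓝[>] 0) (𝓝 (jd G p v w s)) := by
      refine tendsto_const_nhds.congr' ?_
      filter_upwards [Ioo_mem_nhdsGT hs.1] with s' hs'
      have hconv : Convex ℝ (Icc s' s) := convex_Icc _ _
      have hsub : Icc s' s ⊆ Ioo 0 r := fun a ha => ⟨hs'.1.trans_le ha.1, ha.2.trans_lt hs.2⟩
      have h3 := hconv.norm_image_sub_le_of_norm_hasDerivWithin_le (f := jd G p v w)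
        (f' := fun _ => 0) (C := 0) (fun a ha => (hd a (hsub ha)).hasDerivWithinAt) (by simp)
        (x := s') (y := s) ⟨le_rfl, hs'.2.le⟩ ⟨hs'.2.le, le_rfl⟩
      rw [zero_mul, norm_le_zero_iff, sub_eq_zero] at h3
      exact h3
    exact tendsto_nhds_unique h2 (tendsto_jd hk G h)
  -- `jj - id` has zero derivative
  have key : ∀ a ∈ Ioo 0 t, ‖(jj G p v w t - t) - (jj G p v w a - a)‖ ≤ 0 := by
    intro a ha
    have hsub : Icc a t ⊆ Ioc 0 r := fun b hb => ⟨ha.1.trans_le hb.1, hb.2.trans ht.2⟩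
    have h6 : ∀ b ∈ Ico a t, HasDerivWithinAt (fun s => jj G p v w s - s) 0 (Ici b) b := by
      intro b hb
      have hb' : b ∈ Ioo 0 r := ⟨ha.1.trans_le hb.1, hb.2.trans_le ht.2⟩
      have h7 := (hasDerivAt_jj h (J_ne_zero hk G h hb'.1)).sub (hasDerivAt_id b)
      rw [hconst b hb', sub_self] at h7
      exact h7.hasDerivWithinAt
    have h8 := constant_of_has_deriv_right_zero
      (((continuous_jj G h).sub continuous_id).continuousOn (s := Icc a t)) h6 t ⟨ha.2.le, le_rfl⟩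
    rw [norm_le_zero_iff, sub_eq_zero]
    exact h8
  have hlim : Tendsto (fun a => (jj G p v w t - t) - (jj G p v w a - a)) (𝓝[>] 0)
      (𝓝 ((jj G p v w t - t) - (0 - 0))) := by
    refine tendsto_const_nhds.sub ((tendsto_jj G h).sub ?_)
    exact (tendsto_id (α := ℝ)).mono_left nhdsWithin_le_nhds
  have hev : ∀ᶠ a in 𝓝[>] (0 : ℝ), (jj G p v w t - t) - (jj G p v w a - a) = 0 := by
    filter_upwards [Ioo_mem_nhdsGT ht.1] with a ha
    exact norm_le_zero_iff.1 (key a ha)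
  have h9 := tendsto_nhds_unique (hlim.congr' hev) (tendsto_const_nhds (x := (0 : ℝ)))
  linarith

omit hk h hz hzp in
theorem fderiv_Exp_polar {G : Geo 2 N (-(k ^ 2)) S} {x e n : Euc N} (h : On G x e n) {ρ : ℝ}
    (hρ : 0 < ρ) :
    fderiv ℝ (Exp G x) (ρ • e) e = (fl G ((x, e), ρ)).2 ∧
    fderiv ℝ (Exp G x) (ρ • e) n = ρ⁻¹ • J G x e n ρ := by
  have hmem : ρ • e ∈ G.T x := (G.T x).smul_mem ρ h.he
  constructor
  · have h1 := D3c.fderiv_Exp_self G h.hx hmem
    rw [map_smul, Vel_smul G h.hx h.he] at h1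
    exact smul_right_injective _ hρ.ne' h1
  · have hd := ((D3c.contDiffAt_Exp' G h.hx hmem).differentiableAt (by simp)).hasFDerivAt
    have h4 : HasDerivAt (fun s : ℝ => ρ • (e + (ρ⁻¹ * s) • n)) n 0 := by
      have : HasDerivAt (fun s : ℝ => (ρ⁻¹ * s) • n) (ρ⁻¹ • n) 0 := by
        simpa using ((hasDerivAt_id (0 : ℝ)).const_mul ρ⁻¹).smul_const n
      refine ((this.const_add e).const_smul ρ).congr_deriv ?_
      rw [smul_smul, mul_inv_cancel₀ hρ.ne', one_smul]
    have hd' : HasFDerivAt (Exp G x) (fderiv ℝ (Exp G x) (ρ • e))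
        (ρ • (e + (ρ⁻¹ * (0 : ℝ)) • n)) := by
      simpa using hd
    have h5 := hd'.comp_hasDerivAt (0 : ℝ) h4
    have h6 := hasDerivAt_s (q := ((0 : ℝ), ρ))
      ((contDiff_al G h.hx h.he h.hn).differentiable (by simp) ((0 : ℝ), ρ))
    have h7 : HasDerivAt (fun s : ℝ => ρ⁻¹ * s) ρ⁻¹ 0 := by
      simpa using (hasDerivAt_id (0 : ℝ)).const_mul ρ⁻¹
    have h6' : HasDerivAt (fun s => al G x e n (s, ρ))
      (J G x e n ρ) (ρ⁻¹ * (0 : ℝ)) := by simpa [J] using h6
    have h8 := h6'.scomp (0 : ℝ) h7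
    refine h5.unique (h8.congr_of_eventuallyEq (Eventually.of_forall fun s => ?_))
    have hm : e + (ρ⁻¹ * s) • n ∈ G.T x :=
      (G.T x).add_mem h.he ((G.T x).smul_mem _ h.hn)
    show Exp G x (ρ • (e + (ρ⁻¹ * s) • n)) = (fl G ((x, e + (ρ⁻¹ * s) • n), ρ)).1
    rw [Exp_smul G h.hx hm]

omit hk h hz hzp in
theorem jac_Exp_comp {G : Geo 2 N (-(k ^ 2)) S} {x : Euc N} (L : Euc 2 →L[ℝ] Euc N) {a b : Euc 2}
    (ha : ‖a‖ = 1) (hb : ‖b‖ = 1) (hab : ⟪a, b⟫ = 0) (h : On G x (L a) (L b)) {ρ : ℝ}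
    (hρ : 0 < ρ) :
    ρ * AF.jac (fderiv ℝ (fun v => Exp G x (L v)) (ρ • a)) = jj G x (L a) (L b) ρ := by
  have hmem : ρ • L a ∈ G.T x := (G.T x).smul_mem ρ h.he
  have hfd : ∀ w, fderiv ℝ (fun v => Exp G x (L v)) (ρ • a) w =
      fderiv ℝ (Exp G x) (ρ • L a) (L w) := by
    intro w
    have hd := ((D3c.contDiffAt_Exp' G h.hx hmem).differentiableAt (by simp)).hasFDerivAt
    rw [← map_smul] at hd
    have h2 := hd.comp (ρ • a) L.hasFDerivAt
    have h3 : fderiv ℝ (fun v => Exp G x (L v)) (ρ • a) = _ := h2.fderiv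
    rw [h3, ← map_smul]; rfl
  obtain ⟨h1, h2⟩ := fderiv_Exp_polar h hρ
  rw [← hfd] at h1 h2
  have hon : Orthonormal ℝ (![a, b] : Fin 2 → Euc 2) := by
    rw [orthonormal_iff_ite]
    intro i j
    fin_cases i <;> fin_cases j <;>
      simp [ha, hb, hab, real_inner_comm a b ▸ hab]
  have hcard : Fintype.card (Fin 2) = Module.finrank ℝ (Euc 2) := by simp
  let b' := basisOfOrthonormalOfCardEqFinrank hon hcard
  let B : OrthonormalBasis (Fin 2) ℝ (Euc 2) := b'.toOrthonormalBasis (by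
    rw [coe_basisOfOrthonormalOfCardEqFinrank]; exact hon)
  have hB0 : B 0 = a := by simp [B, b']
  have hB1 : B 1 = b := by simp [B, b']
  have h3 := AF.jac_sq_gram (fderiv ℝ (fun v => Exp G x (L v)) (ρ • a)) B
  rw [Matrix.det_fin_two] at h3
  simp only [Matrix.of_apply, hB0, hB1, h1, h2] at h3
  have h4 : ⟪(fl G ((x, L a), ρ)).2, J G x (L a) (L b) ρ⟫ = 0 := by
    rw [real_inner_comm]; exact inner_J_T h ρ
  have h5 : ‖(fl G ((x, L a), ρ)).2‖ = 1 := norm_T h ρ
  rw [inner_smul_right, inner_smul_right, inner_smul_left, real_inner_self_eq_norm_sq, h5, h4,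
    real_inner_self_eq_norm_sq] at h3
  have h6 : (ρ * AF.jac (fderiv ℝ (fun v => Exp G x (L v)) (ρ • a))) ^ 2 =
      jj G x (L a) (L b) ρ ^ 2 := by
    rw [mul_pow, h3, jj]
    simp only [RCLike.conj_to_real]
    field_simp
    ring
  have h7 : 0 ≤ ρ * AF.jac (fderiv ℝ (fun v => Exp G x (L v)) (ρ • a)) :=
    mul_nonneg hρ.le (AF.jac_nonneg _)
  exact (sq_eq_sq₀ h7 (norm_nonneg _)).1 h6

end Crest.Agent.R241.LB6
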