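import Crest.Agent.R241.Targets

/-!
# R241, surfaces: contract between the Sobolev inequality (helper631, LA/LB) and the final steps
L-C (`S0372`, `n = 2`) and L-D (`S0373`, `n = 2`).   Owner of this file: helper882.

`W z w` is `C'(x → y) / J(x → y)` for `x = e p z`, `y = e p w`.
-/

set_option autoImplicit false

open MeasureTheory Filter Topology Set
open scoped ENNReal NNReal RealInnerProductSpace

namespace Crest.Agent.R241.LSob

open Crest.GeometryTopology.Submanifold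

variable {N : ℕ} {k : ℝ} {S : Set (Euc N)} {X : Type} [MetricSpace X]

/-- the chart `ι ∘ e p` -/
noncomputable def psi (M : CHModel 2 N k S X) (p : X) (v : Euc 2) : Euc N := M.ι (M.e p v)

/-- the Riemannian density of the chart -/
noncomputable def dn (M : CHModel 2 N k S X) (p : X) (z : Euc 2) : ℝ :=
  √(metricMat (psi M p) z).det

/-- Sharp Sobolev inequality with remainder kernel, in the chart `e p`. -/
structure Kernel (M : CHModel 2 N k S X) (p : X) (W : Euc 2 → Euc 2 → ℝ) : Prop where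
  meas : Measurable (fun q : Euc 2 × Euc 2 => W q.1 q.2)
  ge : ∀ z w, z ≠ w → k ^ 2 ≤ W z w
  sob : ∀ u c : Euc 2 → ℝ, ContDiff ℝ (⊤ : ℕ∞) u → HasCompactSupport u → (∀ z, 0 ≤ u z) →
    Measurable c → (∀ z w, |fderiv ℝ u z w| ≤ c z * ‖fderiv ℝ (psi M p) z w‖) →
    Integrable (fun z => c z * dn M p z) →
    Integrable (fun q : Euc 2 × Euc 2 => W q.1 q.2 * (u q.1 * dn M p q.1) * (u q.2 * dn M p q.2))
      (volume.prod volume) ∧
    4 * Real.pi * (∫ z, u z ^ 2 * dn M p z) +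
      (∫ q : Euc 2 × Euc 2, W q.1 q.2 * (u q.1 * dn M p q.1) * (u q.2 * dn M p q.2)
        ∂(volume.prod volume)) ≤ (∫ z, c z * dn M p z) ^ 2
  rigid : k = 0 → ∀ A : Set (Euc 2), IsOpen A →
    (∀ᵐ z ∂(volume.restrict A), ∀ᵐ w ∂(volume.restrict A), W z w = 0) →
    ∀ z₀ ∈ A, ∀ w₀ ∈ A, ∀ v : Euc 2, M.e (M.e p z₀) v = M.e p w₀ → ∀ s ∈ Icc (0 : ℝ) 1,
      metricMat (psi M (M.e p z₀)) (s • v) = 1

/-- The surface Sobolev target (LB4 + LB5, helper631). -/
def SobTarget : Prop :=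
  ∀ (N : ℕ) (k : ℝ) (_ : 0 ≤ k) (S : Set (Euc N)), IsSubmanifold 2 N S →
    IsClosed S → IsConnected S → SimplyConnectedSpace S →
    (∀ p ∈ S, ∀ (f : Euc 2 → Euc N) (V : Set (Euc 2)), IsLocalParam 2 N S p f V →
      ∀ u v : Euc 2, secNum f 0 u v ≤ -k ^ 2 * gramDet f 0 u v) →
    ∃ (X : Type) (_ : MetricSpace X) (_ : ProperSpace X) (_ : Nonempty X)
      (M : CHModel 2 N k S X), ∀ p : X, ∃ W : Euc 2 → Euc 2 → ℝ, Kernel M p W

end Crest.Agent.R241.LSob
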