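import Crest.Agent.R241.LB6a
import Crest.Agent.R241.LSob882
import Crest.Agent.R241.D5e
import Crest.Agent.R241.E5b

/-!
R241, block L: `LSob.SobTarget`.
-/

set_option autoImplicit false
set_option linter.unusedSectionVars false

open Set Filter Topology MeasureTheory
open scoped ContDiff RealInnerProductSpace ENNReal
open Crest.GeometryTopology.Submanifold
open Crest.Agent.R241.DDefs
open Crest.Agent.R241.D4Met
open Crest.Agent.R241.D2
open Crest.Agent.R241.D3b
open Crest.Agent.R241.D3a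
open Crest.Agent.R241.LB1
open Crest.Agent.R241.LB2
open Crest.Agent.R241.LB3
open Crest.Agent.R241.LB4
open Crest.Agent.R241.LB5
open Crest.Agent.R241.LA (nu1 nu2)
open Crest.Agent.R241.AF (jac)

noncomputable section

namespace Crest.Agent.R241.LB6

variable {N : ℕ} {S : Set (Euc N)} {k : ℝ} (hk : 0 ≤ k) (G : Geo 2 N (-(k ^ 2)) S)
  (sub : IsSubmanifold 2 N S) (sc : SimplyConnectedSpace S)

/-- the kernel in a chart -/
def WC (D : ExpData 2 N S) (p : S) (z w : Euc 2) : ℝ :=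
  WW hk G sub sc (D.homeo p z) (D.homeo p w)

theorem measurable_WC (D : ExpData 2 N S) (p : S) :
    Measurable fun q : Euc 2 × Euc 2 => WC hk G sub sc D p q.1 q.2 := by
  have h0 : Measurable fun q : Euc 2 × Euc 2 => (D.homeo p q.1, D.homeo p q.2) :=
    ((D.homeo p).continuous.measurable.comp measurable_fst).prodMk
      ((D.homeo p).continuous.measurable.comp measurable_snd)
  have h1 := (measurable_WW hk G sub sc).comp h0
  simp only [Function.comp_def] at h1
  exact h1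

theorem WC_ge (D : ExpData 2 N S) (p : S) {z w : Euc 2} (h : z ≠ w) :
    k ^ 2 ≤ WC hk G sub sc D p z w :=
  WW_ge hk G sub sc fun h' => h ((D.homeo p).injective h')

/-- inner integral against the kernel -/
theorem inner_int {u : S → ℝ} {g : S → Euc N} (T : (PP hk G sub sc).Test u g)
    (hu : Continuous u) (hu0 : ∀ x, 0 ≤ u x)
    (x : S) (hF : Integrable (fun y => ⟪g y, KK hk G sub sc x y⟫) (μS S)) :
    ∫⁻ y, ENNReal.ofReal (WW hk G sub sc x y * u y) ∂(μS S) =
      ENNReal.ofReal (∫ θ, ∫ ρ, u (pt hk G sub sc x ρ θ) * Cd G x ρ θ ∂nu1 ∂nu2) := by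
  obtain ⟨-, hi2⟩ := LA.target_eq (PP hk G sub sc) T (mem_univ x) hF
  have hWm : Measurable fun y => WW hk G sub sc x y := by
    have h0 : Measurable fun y : S => (x, y) := measurable_const.prodMk measurable_id
    have h2 := (measurable_WW hk G sub sc).comp h0
    simp only [Function.comp_def] at h2
    exact h2
  have hm : Measurable fun y => ENNReal.ofReal (WW hk G sub sc x y * u y) :=
    (hWm.mul hu.measurable).ennreal_ofReal
  rw [lintegral_polar_S hk G sub sc x hm]
  have hptm := (continuous_pt hk G sub sc x).measurable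
  -- the integrand in polar coordinates
  set f : ℝ × ℝ → ℝ := fun q => u (pt hk G sub sc x q.1 q.2) * Cd G x q.1 q.2 with hf
  have hae : ∀ᵐ q : ℝ × ℝ ∂(nu1.prod nu2), ENNReal.ofReal (Jc G x q.1 q.2) *
      ENNReal.ofReal (WW hk G sub sc x (pt hk G sub sc x q.1 q.2) *
        u (pt hk G sub sc x q.1 q.2)) = ENNReal.ofReal (f q) := by
    filter_upwards [ae_pos] with q hq
    have h20 : 0 ≤ Jc G x q.1 q.2 := norm_nonneg _
    rw [← ENNReal.ofReal_mul h20, ← mul_assoc, WW_pt hk G sub sc x hq, hf]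
    congr 1
    ring
  rw [lintegral_congr_ae hae]
  have hfm : AEStronglyMeasurable f (nu1.prod nu2) := by
    have h1 : Measurable fun q : ℝ × ℝ => Jc G x q.1 q.2 *
        (WW hk G sub sc x (pt hk G sub sc x q.1 q.2) * u (pt hk G sub sc x q.1 q.2)) :=
      (continuous_Jc G x).measurable.mul ((hWm.comp hptm).mul (hu.measurable.comp hptm))
    refine h1.aestronglyMeasurable.congr ?_
    filter_upwards [ae_pos] with q hq
    rw [← mul_assoc, WW_pt hk G sub sc x hq, hf]
    ring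
  have hf0 : ∀ᵐ q ∂(nu1.prod nu2), 0 ≤ f q := by
    filter_upwards [ae_pos] with q hq
    exact mul_nonneg (hu0 _) ((mul_nonneg (sq_nonneg k) (norm_nonneg _)).trans
      (CD_ge hk G (on_ev G x q.2) (on_wb G x q.2) (fl_zb G x q.2) hq))
  obtain ⟨R, hR, hsupp⟩ := T.supp x (mem_univ x)
  have hsec : ∀ θ, Integrable (fun ρ => f (ρ, θ)) nu1 := by
    intro θ
    apply LA.integrable_half_of_supp hR
    · have h1 : ContinuousOn (fun ρ => u (pt hk G sub sc x ρ θ)) (uIcc 0 R) := by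
        have h2 : Continuous fun ρ : ℝ => (ρ, θ) := continuous_id.prodMk continuous_const
        exact (hu.comp ((continuous_pt hk G sub sc x).comp h2)).continuousOn
      exact ((PP hk G sub sc).C'_int x (mem_univ x) θ R hR).continuousOn_mul h1
    · intro ρ hρ
      have h1 : u (pt hk G sub sc x ρ θ) = 0 := (hsupp ρ hρ θ).1
      simp only [hf, h1, zero_mul]
  have hfi : Integrable f (nu1.prod nu2) := by
    rw [integrable_prod_iff' hfm]
    refine ⟨Eventually.of_forall hsec, ?_⟩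
    refine hi2.congr ?_
    have h3 : ∀ θ, ∀ᵐ ρ ∂nu1, 0 ≤ f (ρ, θ) := by
      intro θ
      filter_upwards [ae_restrict_mem measurableSet_Ioi] with ρ hρ
      exact mul_nonneg (hu0 _) ((mul_nonneg (sq_nonneg k) (norm_nonneg _)).trans
        (CD_ge hk G (on_ev G x θ) (on_wb G x θ) (fl_zb G x θ) hρ))
    filter_upwards with θ
    have hθ := h3 θ
    apply integral_congr_ae
    filter_upwards [hθ] with ρ hρ
    rw [Real.norm_of_nonneg hρ]
    rfl
  rw [← ofReal_integral_eq_lintegral_ofReal hfi hf0, integral_prod_symm _ hfi]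

/-- the double integral of the kernel -/
theorem double_int [SFinite (μS S)] {u : S → ℝ} {g : S → Euc N}
    (T : (PP hk G sub sc).Test u g) (hu : Continuous u) (hu0 : ∀ x, 0 ≤ u x) :
    ∫⁻ x, ENNReal.ofReal (u x) * ∫⁻ y, ENNReal.ofReal (WW hk G sub sc x y * u y) ∂(μS S) ∂(μS S) ≠ ⊤ ∧
    4 * Real.pi * (∫ x, u x ^ 2 ∂(μS S)) +
      (∫⁻ x, ENNReal.ofReal (u x) *
        ∫⁻ y, ENNReal.ofReal (WW hk G sub sc x y * u y) ∂(μS S) ∂(μS S)).toReal ≤
        (∫ x, ‖g x‖ ∂(μS S)) ^ 2 := by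
  obtain ⟨hI, hineq⟩ := LA.sobolev (PP hk G sub sc) (Eventually.of_forall fun x => mem_univ x) T
  set H : S → ℝ := fun x => ∫ θ, ∫ ρ, u (pt hk G sub sc x ρ θ) * Cd G x ρ θ ∂nu1 ∂nu2 with hH
  have h2 : ∀ᵐ x ∂(μS S), Integrable (fun y => u x * ⟪g y, KK hk G sub sc x y⟫) (μS S) :=
    T.int_K.prod_right_ae
  have hH0 : ∀ x, 0 ≤ H x := by
    intro x
    apply integral_nonneg
    intro θ
    apply setIntegral_nonneg measurableSet_Ioi
    intro ρ hρ
    exact mul_nonneg (hu0 _) ((mul_nonneg (sq_nonneg k) (norm_nonneg _)).trans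
      (CD_ge hk G (on_ev G x θ) (on_wb G x θ) (fl_zb G x θ) hρ))
  have hae : ∀ᵐ x ∂(μS S), ENNReal.ofReal (u x) *
      ∫⁻ y, ENNReal.ofReal (WW hk G sub sc x y * u y) ∂(μS S) = ENNReal.ofReal (u x * H x) := by
    filter_upwards [h2] with x hx
    by_cases h0 : u x = 0
    · simp [h0]
    · have hF : Integrable (fun y => ⟪g y, KK hk G sub sc x y⟫) (μS S) := by
        refine (hx.const_mul (u x)⁻¹).congr ?_
        filter_upwards with y
        field_simp
      rw [inner_int hk G sub sc T hu hu0 x hF, ENNReal.ofReal_mul (hu0 x)]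
  rw [lintegral_congr_ae hae]
  have hI' : Integrable (fun x => u x * H x) (μS S) := hI
  have h0 : 0 ≤ᵐ[μS S] fun x => u x * H x :=
    Eventually.of_forall fun x => mul_nonneg (hu0 x) (hH0 x)
  rw [← ofReal_integral_eq_lintegral_ofReal hI' h0]
  refine ⟨ENNReal.ofReal_ne_top, ?_⟩
  rw [ENNReal.toReal_ofReal (integral_nonneg_of_ae h0)]
  exact hineq

/-- translation to the chart -/
theorem sob_chart (D : ExpData 2 N S) (p : S) (u c : Euc 2 → ℝ)
    (hu : ContDiff ℝ (⊤ : ℕ∞) u) (hcs : HasCompactSupport u) (hu0 : ∀ z, 0 ≤ u z)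
    (hc : ∀ z w, |fderiv ℝ u z w| ≤ c z * ‖fderiv ℝ (D.Φ p) z w‖)
    (hci : Integrable (fun z => c z * jac (fderiv ℝ (D.Φ p) z))) :
    Integrable (fun q : Euc 2 × Euc 2 => WC hk G sub sc D p q.1 q.2 *
      (u q.1 * jac (fderiv ℝ (D.Φ p) q.1)) * (u q.2 * jac (fderiv ℝ (D.Φ p) q.2)))
      (volume.prod volume) ∧
    4 * Real.pi * (∫ z, u z ^ 2 * jac (fderiv ℝ (D.Φ p) z)) +
      (∫ q : Euc 2 × Euc 2, WC hk G sub sc D p q.1 q.2 *
      (u q.1 * jac (fderiv ℝ (D.Φ p) q.1)) * (u q.2 * jac (fderiv ℝ (D.Φ p) q.2))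
        ∂(volume.prod volume)) ≤ (∫ z, c z * jac (fderiv ℝ (D.Φ p) z)) ^ 2 := by
  have hS := G.isClosed
  have hSF : SFinite (μS S) := sfinite_μS hS D p
  have T := test hk G sub sc (D := D) (p := p) hu hcs
  have hcu := continuous_uu (D := D) (p := p) hu
  have hcg := continuous_gg (D := D) (p := p) hu
  have hU0 : ∀ x, 0 ≤ uu D p u x := fun x => hu0 _
  obtain ⟨hfin, hineq⟩ := double_int hk G sub sc T hcu hU0
  set jc : Euc 2 → ℝ := fun z => jac (fderiv ℝ (D.Φ p) z) with hjc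
  have hjc0 : ∀ z, 0 ≤ jc z := fun z => AF.jac_nonneg _
  have hjcc : Continuous jc := continuous_jac D p
  have hWm := measurable_WC hk G sub sc D p
  have hW0 : ∀ z w, 0 ≤ WC hk G sub sc D p z w := fun z w =>
    (sq_nonneg k).trans (WW_ge' hk G sub sc _ _)
  set Q : Euc 2 × Euc 2 → ℝ := fun q => WC hk G sub sc D p q.1 q.2 *
      (u q.1 * jc q.1) * (u q.2 * jc q.2) with hQ
  have hQm : Measurable Q := by
    refine (hWm.mul ?_).mul ?_
    · exact (hu.continuous.measurable.comp measurable_fst).mul (hjcc.measurable.comp measurable_fst)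
    · exact (hu.continuous.measurable.comp measurable_snd).mul (hjcc.measurable.comp measurable_snd)
  have hQ0 : ∀ q, 0 ≤ Q q := fun q =>
    mul_nonneg (mul_nonneg (hW0 _ _) (mul_nonneg (hu0 _) (hjc0 _))) (mul_nonneg (hu0 _) (hjc0 _))
  -- the double lintegral
  have hL : ∫⁻ q, ENNReal.ofReal (Q q) ∂((volume : Measure (Euc 2)).prod volume) =
      ∫⁻ x, ENNReal.ofReal (uu D p u x) * ∫⁻ y, ENNReal.ofReal
        (WW hk G sub sc x y * uu D p u y) ∂(μS S) ∂(μS S) := by
    rw [lintegral_prod _ hQm.ennreal_ofReal.aemeasurable]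
    have hWWm : Measurable fun q : S × S => ENNReal.ofReal
        (WW hk G sub sc q.1 q.2 * uu D p u q.2) :=
      ((measurable_WW hk G sub sc).mul (hcu.measurable.comp measurable_snd)).ennreal_ofReal
    have hin : Measurable fun x : S => ENNReal.ofReal (uu D p u x) *
        ∫⁻ y, ENNReal.ofReal (WW hk G sub sc x y * uu D p u y) ∂(μS S) :=
      hcu.measurable.ennreal_ofReal.mul hWWm.lintegral_prod_right'
    rw [lintegral_μS hS D p hin]
    refine lintegral_congr fun z => ?_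
    have hWz : Measurable fun y : S => ENNReal.ofReal
        (WW hk G sub sc (D.homeo p z) y * uu D p u y) := by
      have h0 : Measurable fun y : S => (D.homeo p z, y) := measurable_const.prodMk measurable_id
      have h2 := hWWm.comp h0
      simp only [Function.comp_def] at h2
      exact h2
    rw [lintegral_μS hS D p hWz, ← lintegral_const_mul' _ _ ENNReal.ofReal_ne_top,
      ← lintegral_const_mul' _ _ ENNReal.ofReal_ne_top]
    refine lintegral_congr fun w => ?_
    rw [uu_homeo, uu_homeo, ← ENNReal.ofReal_mul (AF.jac_nonneg _), ← ENNReal.ofReal_mul (hu0 _),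
      ← ENNReal.ofReal_mul (AF.jac_nonneg _)]
    congr 1
    simp only [hQ, hjc, WC]
    ring
  have hQi : Integrable Q ((volume : Measure (Euc 2)).prod volume) := by
    refine ⟨hQm.aestronglyMeasurable, ?_⟩
    rw [hasFiniteIntegral_iff_ofReal (Eventually.of_forall hQ0), hL]
    exact hfin.lt_top
  refine ⟨hQi, ?_⟩
  have hQe : ∫ q, Q q ∂((volume : Measure (Euc 2)).prod volume) =
      (∫⁻ x, ENNReal.ofReal (uu D p u x) * ∫⁻ y, ENNReal.ofReal
        (WW hk G sub sc x y * uu D p u y) ∂(μS S) ∂(μS S)).toReal := by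
    rw [integral_eq_lintegral_of_nonneg_ae (Eventually.of_forall hQ0) hQm.aestronglyMeasurable, hL]
  rw [← hQe, integral_μS hS D p (F := fun x => uu D p u x ^ 2) (hcu.pow 2).aestronglyMeasurable,
    integral_μS hS D p (F := fun x => ‖gg D p u x‖) hcg.norm.aestronglyMeasurable] at hineq
  have e1 : ∫ v, jac (fderiv ℝ (D.Φ p) v) * uu D p u (D.homeo p v) ^ 2 =
      ∫ z, u z ^ 2 * jc z := by
    refine integral_congr_ae (Eventually.of_forall fun z => ?_)
    simp only [uu_homeo, hjc]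
    ring
  have e2 : ∫ v, jac (fderiv ℝ (D.Φ p) v) * ‖gg D p u (D.homeo p v)‖ ≤ ∫ z, c z * jc z := by
    have hgi := (integrable_μS_iff hS D p hcg.norm.aestronglyMeasurable).1 T.int_g
    refine integral_mono hgi hci fun v => ?_
    have h1 : ‖gg D p u (D.homeo p v)‖ ≤ c v := by
      rw [gg_homeo]
      exact norm_gr_le ⟨EuclideanSpace.single 0 1, by simp⟩ (D.expand p v) (hc v)
    calc jac (fderiv ℝ (D.Φ p) v) * ‖gg D p u (D.homeo p v)‖
        ≤ jac (fderiv ℝ (D.Φ p) v) * c v := mul_le_mul_of_nonneg_left h1 (AF.jac_nonneg _)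
      _ = _ := by simp only [hjc]; ring
  rw [e1] at hineq
  refine hineq.trans ?_
  have e3 : 0 ≤ ∫ v, jac (fderiv ℝ (D.Φ p) v) * ‖gg D p u (D.homeo p v)‖ :=
    integral_nonneg fun v => mul_nonneg (AF.jac_nonneg _) (norm_nonneg _)
  exact pow_le_pow_left₀ e3 e2 2

/-! ### rigidity -/

theorem hasFDerivAt_Phi (x : S) (v w : Euc 2) :
    fderiv ℝ (D5b.Phi G x) v w = fderiv ℝ (Exp G x) (D5b.frame G x v) (D5b.frame G x w) := by
  have h1 := ((D3c.contDiffAt_Exp' G x.2 (D5b.frame_mem G x v)).differentiableAt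
    (by simp)).hasFDerivAt
  have h2 := h1.comp v (D5b.frame G x).toContinuousLinearMap.hasFDerivAt
  have h3 : fderiv ℝ (D5b.Phi G x) v = _ := h2.fderiv
  rw [h3]; rfl

theorem metricMat_zero (x : S) : metricMat (D5b.Phi G x) 0 = 1 := by
  ext i j
  rw [metricMat, Matrix.of_apply, pd, pd, hasFDerivAt_Phi, hasFDerivAt_Phi, map_zero,
    D3c.fderiv_Exp_zero G x.2 (D5b.frame_mem G x _), D3c.fderiv_Exp_zero G x.2
      (D5b.frame_mem G x _), D5b.inner_frame, stdVec, stdVec, EuclideanSpace.inner_single_left]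
  simp [Matrix.one_apply]

theorem metric_one (x : S) (v : Euc 2)
    (hW : v ≠ 0 → WW hk G sub sc x ((D5b.expData hk G sub sc).homeo x v) = 0) {s : ℝ}
    (hs : s ∈ Icc (0 : ℝ) 1) : metricMat (D5b.Phi G x) (s • v) = 1 := by
  by_cases h0 : s • v = 0
  · rw [h0]; exact metricMat_zero G x
  have hs0 : 0 < s := lt_of_le_of_ne hs.1 fun h => h0 (by rw [← h, zero_smul])
  have hv0 : v ≠ 0 := fun h => h0 (by rw [h, smul_zero])
  have hρ : 0 < ‖v‖ := norm_pos_iff.2 hv0
  set ρ := ‖v‖ with hρdef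
  set a : Euc 2 := ρ⁻¹ • v with ha
  have hva : v = ρ • a := by rw [ha, smul_smul, mul_inv_cancel₀ hρ.ne', one_smul]
  have hna : ‖a‖ = 1 := by rw [ha, norm_smul, norm_inv, ← hρdef, Real.norm_eq_abs,
    abs_of_pos hρ, inv_mul_cancel₀ hρ.ne']
  have ha2 : a 0 ^ 2 + a 1 ^ 2 = 1 := by
    have := EuclideanSpace.real_norm_sq_eq a
    rw [hna, Fin.sum_univ_two] at this
    linarith
  set b : Euc 2 := !₂[-(a 1), a 0] with hb
  have hnb : ‖b‖ = 1 := by
    rw [← sq_eq_sq₀ (norm_nonneg _) zero_le_one, EuclideanSpace.real_norm_sq_eq,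
      Fin.sum_univ_two]
    simp [hb]
    linarith
  have hab : ⟪a, b⟫ = 0 := by
    simp [hb, PiLp.inner_apply, Fin.sum_univ_two]
    ring
  have h : On G (x : Euc N) (D5b.frame G x a) (D5b.frame G x b) :=
    ⟨x.2, D5b.frame_mem G x a, D5b.frame_mem G x b, by rw [LinearIsometry.norm_map, hna],
      by rw [LinearIsometry.norm_map, hnb], by rw [D5b.inner_frame, hab]⟩
  have hm := fl_mem G (q := ((x : Euc N), D5b.frame G x a)) ⟨h.hx, h.he⟩ (-1)
  obtain ⟨wz, hz⟩ := exists_On (G := G) hm.1 hm.2 (norm_T h (-1))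
  have hend : (fl G (((x : Euc N), D5b.frame G x a), ρ)).1 =
      (D5b.expData hk G sub sc).homeo x v := by
    rw [← Exp_smul G x.2 h.he, ← map_smul, ← hva]
    exact ((D5b.expData hk G sub sc).homeo_coe x v).symm
  have h1 := (WW_dir hk G sub sc h hρ hend hz).2
  rw [hW hv0] at h1
  have hj : jj G x (D5b.frame G x a) (D5b.frame G x b) ρ ≠ 0 :=
    (hρ.trans_le (le_jj hk G h hρ)).ne'
  have h2 : CD G x (D5b.frame G x a) (D5b.frame G x b) (fl G (((x : Euc N),
      D5b.frame G x a), -1)).1 (fl G (((x : Euc N), D5b.frame G x a), -1)).2 wz ρ = 0 := by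
    rcases div_eq_zero_iff.1 h1.symm with h3 | h3
    · exact h3
    · exact absurd h3 hj
  have hsρ : s * ρ ∈ Ioc 0 ρ := ⟨mul_pos hs0 hρ, by nlinarith [hs.2]⟩
  have h4 := jj_eq_self hk G h hz (fl_back h.hx h.he) h2 hsρ
  have h5 := jac_Exp_comp (G := G) (x := (x : Euc N)) (D5b.frame G x).toContinuousLinearMap
    hna hnb hab h hsρ.1
  have h5' : s * ρ * AF.jac (fderiv ℝ (D5b.Phi G x) ((s * ρ) • a)) =
      jj G x (D5b.frame G x a) (D5b.frame G x b) (s * ρ) := h5
  rw [h4] at h5'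
  have h6 : AF.jac (fderiv ℝ (D5b.Phi G x) ((s * ρ) • a)) = 1 := by
    have := mul_left_cancel₀ hsρ.1.ne' (h5'.trans (mul_one _).symm)
    exact this
  have h7 : (s * ρ) • a = s • v := by rw [mul_smul, ← hva]
  rw [h7] at h6
  apply E5b.eq_one_of_det_le ((D5b.expData hk G sub sc).expand x (s • v))
  have h8 : (metricMat (D5b.Phi G x) (s • v)).det = 1 := by
    rw [← AF.jac_sq_metricMat, h6, one_pow]
  exact h8.le

/-- an a.e. vanishing kernel vanishes off the diagonal -/
theorem W_eq_zero (D : ExpData 2 N S) (p : S) {A : Set (Euc 2)} (hA : IsOpen A)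
    (hae : ∀ᵐ z ∂(volume.restrict A), ∀ᵐ w ∂(volume.restrict A), WC hk G sub sc D p z w = 0)
    {z₀ w₀ : Euc 2} (hz : z₀ ∈ A) (hw : w₀ ∈ A) (hne : z₀ ≠ w₀) :
    WC hk G sub sc D p z₀ w₀ = 0 := by
  by_contra hW
  have hne' : D.homeo p z₀ ≠ D.homeo p w₀ := fun h => hne ((D.homeo p).injective h)
  have hcont : ContinuousAt (fun q : Euc 2 × Euc 2 => WC hk G sub sc D p q.1 q.2) (z₀, w₀) := by
    have h1 : ContinuousAt (fun q : S × S => WW hk G sub sc q.1 q.2)
        (D.homeo p z₀, D.homeo p w₀) :=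
      (continuousOn_WW hk G sub sc).continuousAt
        ((isClosed_diagonal.isOpen_compl : IsOpen {q : S × S | q.1 ≠ q.2}).mem_nhds hne')
    have h2 : Continuous fun q : Euc 2 × Euc 2 => (D.homeo p q.1, D.homeo p q.2) :=
      ((D.homeo p).continuous.comp continuous_fst).prodMk
        ((D.homeo p).continuous.comp continuous_snd)
    have h3 := ContinuousAt.comp (f := fun q : Euc 2 × Euc 2 => (D.homeo p q.1, D.homeo p q.2))
      (x := (z₀, w₀)) h1 h2.continuousAt
    simp only [Function.comp_def] at h3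
    exact h3
  have hev : ∀ᶠ q in 𝓝 (z₀, w₀), WC hk G sub sc D p q.1 q.2 ≠ 0 := hcont.eventually_ne hW
  rw [nhds_prod_eq, Filter.eventually_prod_iff] at hev
  obtain ⟨P1, hP1, P2, hP2, hP⟩ := hev
  -- a point of `P1 ∩ A` in the full measure set
  have hex : ∀ {P : Euc 2 → Prop} {Q : Euc 2 → Prop} {a : Euc 2}, a ∈ A → (∀ᶠ z in 𝓝 a, P z) →
      (∀ᵐ z ∂(volume.restrict A), Q z) → ∃ z, P z ∧ Q z := by
    intro P Q a ha hPa hQ
    obtain ⟨U, hU, hUo, haU⟩ := eventually_nhds_iff.1 hPa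
    by_contra hcon
    push Not at hcon
    have h1 : (U ∩ A) ⊆ {z | ¬(z ∈ A → Q z)} := by
      rintro z ⟨hz1, hz2⟩ hz3
      exact hcon z (hU z hz1) (hz3 hz2)
    have h2 : volume {z | ¬(z ∈ A → Q z)} = 0 := (ae_restrict_iff' hA.measurableSet).1 hQ
    have h3 : volume (U ∩ A) = 0 := measure_mono_null h1 h2
    have h4 : 0 < volume (U ∩ A) := (hUo.inter hA).measure_pos volume ⟨a, haU, ha⟩
    exact h4.ne' h3
  obtain ⟨z, hz1, hz2⟩ := hex hz hP1 hae
  obtain ⟨w, hw1, hw2⟩ := hex hw hP2 hz2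
  exact hP hz1 hw1 hw2

/-! ### the target -/

theorem kernel (h0 : D5.HessIneq (D5c.xdata hk G sub sc) 0)
    (h1 : D5.HessIneq (D5c.xdata hk G sub sc) k) (p : D5c.XX hk G sub sc) :
    LSob.Kernel (D5c.chModel hk G sub sc h0 h1) p
      (WC hk G sub sc (D5b.expData hk G sub sc) (XS.pt _ p)) := by
  have hpsi : ∀ q : D5c.XX hk G sub sc, LSob.psi (D5c.chModel hk G sub sc h0 h1) q =
      (D5b.expData hk G sub sc).Φ (XS.pt _ q) := fun q => funext (D5c.inc_ee hk G sub sc q)
  have hdn : ∀ q : D5c.XX hk G sub sc, LSob.dn (D5c.chModel hk G sub sc h0 h1) q =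
      fun z => jac (fderiv ℝ ((D5b.expData hk G sub sc).Φ (XS.pt _ q)) z) := by
    intro q
    funext z
    rw [LSob.dn, hpsi, AF.jac_eq_sqrt]
  refine ⟨measurable_WC hk G sub sc _ _, fun z w h => WC_ge hk G sub sc _ _ h, ?_, ?_⟩
  · intro u c hu hcs hu0 _ hc hci
    rw [hdn] at hci ⊢
    rw [hpsi] at hc
    exact sob_chart hk G sub sc _ _ u c hu hcs hu0 hc hci
  · intro hk0 A hA hae z₀ hz w₀ hw v hv s hs
    rw [hpsi]
    have hv' : (D5b.expData hk G sub sc).homeo ((D5b.expData hk G sub sc).homeo (XS.pt _ p) z₀) v =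
        (D5b.expData hk G sub sc).homeo (XS.pt _ p) w₀ := hv
    refine metric_one hk G sub sc _ v ?_ hs
    intro hv0
    have hne : z₀ ≠ w₀ := by
      rintro rfl
      apply hv0
      have h3 : (D5b.expData hk G sub sc).homeo ((D5b.expData hk G sub sc).homeo (XS.pt _ p) z₀) v =
        (D5b.expData hk G sub sc).homeo ((D5b.expData hk G sub sc).homeo (XS.pt _ p) z₀) 0 := by
        rw [ExpData.homeo_zero]; exact hv'
      exact ((D5b.expData hk G sub sc).homeo _).injective h3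
    have h4 := W_eq_zero hk G sub sc _ _ hA hae hz hw hne
    have h5 : WW hk G sub sc ((D5b.expData hk G sub sc).homeo (XS.pt _ p) z₀)
        ((D5b.expData hk G sub sc).homeo ((D5b.expData hk G sub sc).homeo (XS.pt _ p) z₀) v) = 0 := by
      rw [hv']
      exact h4
    exact h5

/-- **The sharp Sobolev target for surfaces.** -/
theorem sobTarget : LSob.SobTarget := by
  intro N k hk S hS hcl hconn hsc hsec
  obtain ⟨G, -⟩ := D.d1 2 N (-(k ^ 2)) S hS hcl hsec
  obtain ⟨h0, h1⟩ := D5e.hessTarget 2 N S k hk G hS hsc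
  obtain ⟨p, hp⟩ := hconn.nonempty
  exact ⟨D5c.XX hk G hS hsc, inferInstance, inferInstance, ⟨XS.of _ ⟨p, hp⟩⟩,
    D5c.chModel hk G hS hsc h0 h1, fun q => ⟨_, kernel hk G hS hsc h0 h1 q⟩⟩

end Crest.Agent.R241.LB6
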