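import Mathlib
import Crest.Agent.R241.E1c

/-! Row 241, block L-P (helper685), part 1: the measure theoretic normal of an open set with
boundary of finite `μHE[n]` measure: `∫_A ∂_v η = ∫ η ⟪v, g⟫ dν`, `ν = μHE[n]⌊∂A`, `‖g‖ ≤ 1`. -/

set_option autoImplicit false
set_option linter.unusedSectionVars false
open MeasureTheory MeasureTheory.Measure Metric Filter Set Module TopologicalSpace
open scoped NNReal ENNReal Topology RealInnerProductSpace ContDiff

noncomputable section

namespace Crest.Agent.R241.LP685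

/-- Riesz representation of a functional dominated by a seminorm coming from a Hilbert space. -/
theorem riesz_ext {W H : Type*} [AddCommGroup W] [Module ℝ W] [NormedAddCommGroup H]
    [InnerProductSpace ℝ H] [CompleteSpace H] (j : W →ₗ[ℝ] H) (Λ : W →ₗ[ℝ] ℝ) (C : ℝ)
    (hΛ : ∀ w, |Λ w| ≤ C * ‖j w‖) : ∃ h : H, ∀ w, Λ w = ⟪h, j w⟫ := by
  classical
  -- the functional on the range of `j`
  let r : LinearMap.range j → W := fun y => (y.2).choose
  have hr : ∀ y : LinearMap.range j, j (r y) = y := fun y => (y.2).choose_spec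
  have hker : ∀ w w' : W, j w = j w' → Λ w = Λ w' := by
    intro w w' h
    have h1 := hΛ (w - w')
    rw [map_sub, map_sub, h, sub_self, norm_zero, mul_zero] at h1
    have := abs_nonpos_iff.1 h1
    linarith
  let f0 : LinearMap.range j →ₗ[ℝ] ℝ :=
    { toFun := fun y => Λ (r y)
      map_add' := by
        intro x y
        rw [← map_add]
        apply hker
        rw [hr, map_add, hr, hr]; rfl
      map_smul' := by
        intro c x
        rw [RingHom.id_apply, ← map_smul]
        apply hker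
        rw [hr, map_smul, hr]; rfl }
  let f : StrongDual ℝ (LinearMap.range j) := f0.mkContinuous C (by
    intro y
    have := hΛ (r y)
    rw [hr] at this
    simpa [f0] using this)
  obtain ⟨g, hg, -⟩ := _root_.exists_extension_norm_eq (LinearMap.range j) f
  refine ⟨(InnerProductSpace.toDual ℝ H).symm g, fun w => ?_⟩
  rw [InnerProductSpace.toDual_symm_apply]
  have h1 := hg ⟨j w, LinearMap.mem_range_self j w⟩
  rw [h1]
  change Λ w = Λ (r ⟨j w, _⟩)
  apply hker
  rw [hr]

variable {V : Type*} [NormedAddCommGroup V] [InnerProductSpace ℝ V] [FiniteDimensional ℝ V]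
  [MeasurableSpace V] [BorelSpace V]

/-- test functions -/
def tst (V : Type*) [NormedAddCommGroup V] [InnerProductSpace ℝ V] : Submodule ℝ (V → ℝ) where
  carrier := {η | ContDiff ℝ 1 η ∧ HasCompactSupport η}
  zero_mem' := ⟨contDiff_const, HasCompactSupport.zero⟩
  add_mem' := fun {_ _} ha hb => ⟨ha.1.add hb.1, ha.2.add hb.2⟩
  smul_mem' := fun c {_} ha => ⟨contDiff_const.smul ha.1, ha.2.smul_left (f := fun _ => c)⟩

theorem integrable_fderiv {η : V → ℝ} (hη : ContDiff ℝ 1 η) (hc : HasCompactSupport η) (v : V)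
    (A : Set V) : IntegrableOn (fun x => fderiv ℝ η x v) A := by
  have hcd : Continuous fun x => fderiv ℝ η x v :=
    (hη.continuous_fderiv one_ne_zero).clm_apply continuous_const
  have hcs : HasCompactSupport fun x => fderiv ℝ η x v :=
    (hc.fderiv (𝕜 := ℝ)).comp_left (g := fun A : V →L[ℝ] ℝ => A v) (by simp)
  exact (hcd.integrable_of_hasCompactSupport hcs).integrableOn

/-- the directional derivative functional -/
def dirF (A : Set V) (v : V) : tst V →ₗ[ℝ] ℝ where
  toFun η := ∫ x in A, fderiv ℝ (η : V → ℝ) x v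
  map_add' := by
    intro η ζ
    rw [← integral_add (integrable_fderiv η.2.1 η.2.2 v A) (integrable_fderiv ζ.2.1 ζ.2.2 v A)]
    congr 1
    ext x
    have h1 : DifferentiableAt ℝ (η : V → ℝ) x := η.2.1.differentiable one_ne_zero x
    have h2 : DifferentiableAt ℝ (ζ : V → ℝ) x := ζ.2.1.differentiable one_ne_zero x
    have : ((η + ζ : tst V) : V → ℝ) = (η : V → ℝ) + (ζ : V → ℝ) := rfl
    rw [this, fderiv_add h1 h2]; rfl
  map_smul' := by
    intro c η
    rw [RingHom.id_apply, smul_eq_mul, ← integral_const_mul]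
    congr 1
    ext x
    have h1 : DifferentiableAt ℝ (η : V → ℝ) x := η.2.1.differentiable one_ne_zero x
    have : ((c • η : tst V) : V → ℝ) = c • (η : V → ℝ) := rfl
    rw [this, fderiv_const_smul h1]; rfl

section
variable (ν : Measure V) [IsFiniteMeasure ν]

theorem memLp_tst (η : tst V) : MemLp (η : V → ℝ) 2 ν :=
  η.2.1.continuous.memLp_of_hasCompactSupport η.2.2

/-- inclusion of the test functions in `L²(ν)`. -/
def toL : tst V →ₗ[ℝ] Lp ℝ 2 ν where
  toFun η := (memLp_tst ν η).toLp _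
  map_add' := fun η ζ => MemLp.toLp_add (memLp_tst ν η) (memLp_tst ν ζ)
  map_smul' := fun c η => MemLp.toLp_const_smul c (memLp_tst ν η)

theorem coeFn_toL (η : tst V) : toL ν η =ᵐ[ν] (η : V → ℝ) := (memLp_tst ν η).coeFn_toLp

theorem integral_abs_le_norm (f : Lp ℝ 2 ν) :
    ∫ x, |f x| ∂ν ≤ ((ν univ) ^ (1 / 2 : ℝ)).toReal * ‖f‖ := by
  have h1 : ∫ x, |f x| ∂ν = (eLpNorm f 1 ν).toReal := by
    rw [eLpNorm_one_eq_lintegral_enorm, ← integral_norm_eq_lintegral_enorm
      (Lp.aestronglyMeasurable f)]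
    rfl
  have h2 : eLpNorm f 1 ν ≤ eLpNorm f 2 ν * ν univ ^ (1 / (1 : ℝ≥0∞).toReal - 1 / (2 : ℝ≥0∞).toReal) :=
    eLpNorm_le_eLpNorm_mul_rpow_measure_univ (by norm_num) (Lp.aestronglyMeasurable f)
  have h3 : (1 / (1 : ℝ≥0∞).toReal - 1 / (2 : ℝ≥0∞).toReal) = (1 / 2 : ℝ) := by
    norm_num
  rw [h3] at h2
  have h4 : ν univ ^ (1 / 2 : ℝ) ≠ ⊤ := ENNReal.rpow_ne_top_of_nonneg (by norm_num)
    (measure_ne_top ν univ)
  rw [h1, Lp.norm_def, ← ENNReal.toReal_mul, mul_comm]
  exact ENNReal.toReal_mono (ENNReal.mul_ne_top (Lp.eLpNorm_ne_top f) h4) h2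

/-- the representing function of the directional derivative of the indicator of `A` -/
theorem exists_dir {A : Set V} {v : V}
    (hdir : ∀ η : V → ℝ, ContDiff ℝ 1 η → HasCompactSupport η →
      |∫ x in A, fderiv ℝ η x v| ≤ ∫ x, |η x| ∂ν) :
    ∃ h : V → ℝ, Measurable h ∧ Integrable h ν ∧ (∀ᵐ x ∂ν, |h x| ≤ 1) ∧
      ∀ η : V → ℝ, ContDiff ℝ 1 η → HasCompactSupport η →
        ∫ x in A, fderiv ℝ η x v = ∫ x, η x * h x ∂ν := by
  obtain ⟨h0, hh0⟩ := riesz_ext (toL ν) (dirF A v) ((ν univ) ^ (1 / 2 : ℝ)).toReal (by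
    intro η
    refine (hdir η η.2.1 η.2.2).trans ?_
    refine le_trans (le_of_eq ?_) (integral_abs_le_norm ν (toL ν η))
    refine integral_congr_ae ?_
    filter_upwards [coeFn_toL ν η] with x hx
    rw [hx])
  set h : V → ℝ := (Lp.aestronglyMeasurable h0).mk h0 with hdef
  have hm : Measurable h := (Lp.aestronglyMeasurable h0).stronglyMeasurable_mk.measurable
  have hae : h0 =ᵐ[ν] h := (Lp.aestronglyMeasurable h0).ae_eq_mk
  have hL2 : MemLp h 2 ν := (Lp.memLp h0).ae_eq hae
  have hi : Integrable h ν := hL2.integrable (by norm_num)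
  have hrep : ∀ η : V → ℝ, ContDiff ℝ 1 η → HasCompactSupport η →
        ∫ x in A, fderiv ℝ η x v = ∫ x, η x * h x ∂ν := by
    intro η hη hc
    have h1 := hh0 ⟨η, hη, hc⟩
    rw [L2.inner_def] at h1
    refine h1.trans (integral_congr_ae ?_)
    filter_upwards [coeFn_toL ν ⟨η, hη, hc⟩, hae] with x hx hx2
    rw [hx, hx2]
    simp
  refine ⟨h, hm, hi, ?_, hrep⟩
  -- extension of the bound to `L²` functions
  have hext : ∀ f : V → ℝ, MemLp f 2 ν → |∫ x, f x * h x ∂ν| ≤ ∫ x, |f x| ∂ν := by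
    intro f hf
    refine le_of_forall_pos_le_add fun ε hε => ?_
    obtain ⟨C, hC⟩ : ∃ C : ℝ, C = ((ν univ) ^ (1 / 2 : ℝ)).toReal + ‖hL2.toLp h‖ := ⟨_, rfl⟩
    have hC0 : 0 ≤ C := by rw [hC]; positivity
    have hε' : 0 < ε / (C + 1) := by positivity
    obtain ⟨g, hg1, hg2, hg3⟩ := hf.exist_eLpNorm_sub_le (by norm_num) (by norm_num) hε'
    have hg1' : ContDiff ℝ 1 g := hg2.of_le (by exact_mod_cast le_top)
    have hgL : MemLp g 2 ν := hg2.continuous.memLp_of_hasCompactSupport hg1
    have hfgL : MemLp (f - g) 2 ν := hf.sub hgL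
    have hn : ‖hfgL.toLp (f - g)‖ ≤ ε / (C + 1) := by
      rw [Lp.norm_toLp]
      exact ENNReal.toReal_le_of_le_ofReal hε'.le hg3
    have e1 : ∫ x, |f x - g x| ∂ν ≤ ((ν univ) ^ (1 / 2 : ℝ)).toReal * (ε / (C + 1)) := by
      have h5 := integral_abs_le_norm ν (hfgL.toLp (f - g))
      have h6 : ∫ x, |(hfgL.toLp (f - g)) x| ∂ν = ∫ x, |f x - g x| ∂ν := by
        refine integral_congr_ae ?_
        filter_upwards [hfgL.coeFn_toLp] with x hx
        rw [hx]; rfl
      rw [h6] at h5
      exact h5.trans (by gcongr)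
    have e2 : |∫ x, (f x - g x) * h x ∂ν| ≤ (ε / (C + 1)) * ‖hL2.toLp h‖ := by
      have h5 := abs_real_inner_le_norm (hfgL.toLp (f - g)) (hL2.toLp h)
      have h6 : ⟪hfgL.toLp (f - g), hL2.toLp h⟫ = ∫ x, (f x - g x) * h x ∂ν := by
        rw [L2.inner_def]
        refine integral_congr_ae ?_
        filter_upwards [hfgL.coeFn_toLp, hL2.coeFn_toLp] with x hx hx2
        rw [hx, hx2]
        simp [mul_comm]
      rw [h6] at h5
      exact h5.trans (by gcongr)
    have hfi : Integrable f ν := hf.integrable (by norm_num)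
    have hgi : Integrable g ν := hgL.integrable (by norm_num)
    have hghi : Integrable (fun x => g x * h x) ν := hgL.integrable_mul hL2
    have hfghi : Integrable (fun x => (f x - g x) * h x) ν := hfgL.integrable_mul hL2
    have e3 : ∫ x, f x * h x ∂ν = ∫ x, g x * h x ∂ν + ∫ x, (f x - g x) * h x ∂ν := by
      rw [← integral_add hghi hfghi]
      congr 1; ext x; ring
    have e4 : |∫ x, g x * h x ∂ν| ≤ ∫ x, |g x| ∂ν := by
      rw [← hrep g hg1' hg1]; exact hdir g hg1' hg1
    have e5 : ∫ x, |g x| ∂ν ≤ ∫ x, |f x| ∂ν + ∫ x, |f x - g x| ∂ν := by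
      have hfgi : Integrable (fun x => |f x - g x|) ν := (hfi.sub hgi).abs
      rw [← integral_add hfi.abs hfgi]
      refine integral_mono hgi.abs (hfi.abs.add hfgi) fun x => ?_
      have := abs_sub_abs_le_abs_sub (g x) (f x)
      rw [abs_sub_comm (g x)] at this
      linarith
    have e6 : (ε / (C + 1)) * C ≤ ε := by
      rw [div_mul_eq_mul_div, div_le_iff₀ (by positivity)]
      nlinarith
    calc |∫ x, f x * h x ∂ν| ≤ |∫ x, g x * h x ∂ν| + |∫ x, (f x - g x) * h x ∂ν| := by
          rw [e3]; exact abs_add_le _ _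
      _ ≤ (∫ x, |f x| ∂ν + ((ν univ) ^ (1 / 2 : ℝ)).toReal * (ε / (C + 1))) +
          (ε / (C + 1)) * ‖hL2.toLp h‖ := by linarith
      _ = ∫ x, |f x| ∂ν + (ε / (C + 1)) * C := by rw [hC]; ring
      _ ≤ _ := by linarith
  set S : Set V := {x | 1 < |h x|} with hS
  have hSm : MeasurableSet S := measurableSet_lt measurable_const hm.abs
  have hsm : Measurable (fun x => if 0 < h x then (1 : ℝ) else -1) :=
    Measurable.ite (measurableSet_lt measurable_const hm) measurable_const measurable_const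
  have hfm : Measurable (S.indicator fun x => if 0 < h x then (1 : ℝ) else -1) :=
    hsm.indicator hSm
  have hfb : ∀ x, ‖S.indicator (fun x => if 0 < h x then (1 : ℝ) else -1) x‖ ≤ 1 := by
    intro x
    rw [indicator_apply]
    split_ifs <;> simp
  have hfL : MemLp (S.indicator fun x => if 0 < h x then (1 : ℝ) else -1) 2 ν :=
    MemLp.of_bound hfm.aestronglyMeasurable 1 (Eventually.of_forall hfb)
  have hkey := hext _ hfL
  have e1 : (fun x => S.indicator (fun x => if 0 < h x then (1 : ℝ) else -1) x * h x) =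
      S.indicator (fun x => |h x|) := by
    ext x
    rw [indicator_apply, indicator_apply]
    split_ifs with h1 h2
    · rw [abs_of_pos h2, one_mul]
    · rw [abs_of_nonpos (not_lt.1 h2)]; ring
    · simp
  have e2 : (fun x => |S.indicator (fun x => if 0 < h x then (1 : ℝ) else -1) x|) =
      S.indicator (fun _ => (1 : ℝ)) := by
    ext x
    rw [indicator_apply, indicator_apply]
    split_ifs <;> simp
  rw [e1, e2] at hkey
  have i1 : Integrable (S.indicator fun x => |h x|) ν := hi.abs.indicator hSm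
  have i2 : Integrable (S.indicator fun _ => (1 : ℝ)) ν := (integrable_const 1).indicator hSm
  have e3 : ∫ x, (S.indicator (fun x => |h x|) x - S.indicator (fun _ => (1 : ℝ)) x) ∂ν ≤ 0 := by
    rw [integral_sub i1 i2]
    have := (le_abs_self _).trans hkey
    linarith
  have hnn : ∀ x, 0 ≤ S.indicator (fun x => |h x|) x - S.indicator (fun _ => (1 : ℝ)) x := by
    intro x
    rw [indicator_apply, indicator_apply]
    split_ifs with h1
    · have : 1 < |h x| := h1
      linarith
    · simp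
  have e4 := (integral_eq_zero_iff_of_nonneg (fun x => hnn x) (i1.sub i2)).1
    (le_antisymm e3 (integral_nonneg hnn))
  filter_upwards [e4] with x hx
  by_contra hne
  push Not at hne
  have h1 : x ∈ S := hne
  simp only [indicator_of_mem h1, Pi.zero_apply] at hx
  linarith

end

/-- the vector valued normal -/
theorem exists_normal_aux {k : ℕ} (ν : Measure (EuclideanSpace ℝ (Fin k))) [IsFiniteMeasure ν]
    {A : Set (EuclideanSpace ℝ (Fin k))}
    (hdir : ∀ v : EuclideanSpace ℝ (Fin k), ‖v‖ = 1 →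
      ∀ η : EuclideanSpace ℝ (Fin k) → ℝ, ContDiff ℝ 1 η → HasCompactSupport η →
      |∫ x in A, fderiv ℝ η x v| ≤ ∫ x, |η x| ∂ν) :
    ∃ g : EuclideanSpace ℝ (Fin k) → EuclideanSpace ℝ (Fin k), Measurable g ∧
      (∀ x, ‖g x‖ ≤ 1) ∧
      ∀ (η : EuclideanSpace ℝ (Fin k) → ℝ) (v : EuclideanSpace ℝ (Fin k)), ContDiff ℝ 1 η →
        HasCompactSupport η → ∫ x in A, fderiv ℝ η x v = ∫ x, η x * ⟪v, g x⟫ ∂ν := by
  classical
  have hh : ∀ v : EuclideanSpace ℝ (Fin k), ‖v‖ = 1 → ∃ h : EuclideanSpace ℝ (Fin k) → ℝ,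
      Measurable h ∧ Integrable h ν ∧ (∀ᵐ x ∂ν, |h x| ≤ 1) ∧
      ∀ η : EuclideanSpace ℝ (Fin k) → ℝ, ContDiff ℝ 1 η → HasCompactSupport η →
        ∫ x in A, fderiv ℝ η x v = ∫ x, η x * h x ∂ν := fun v hv => exists_dir ν (hdir v hv)
  have hs : ∀ i : Fin k, ‖(EuclideanSpace.single i (1 : ℝ) : EuclideanSpace ℝ (Fin k))‖ = 1 := by
    intro i; simp
  choose h hm hi hb hrep using fun i : Fin k => hh (EuclideanSpace.single i (1 : ℝ)) (hs i)
  set g : EuclideanSpace ℝ (Fin k) → EuclideanSpace ℝ (Fin k) :=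
    fun x => WithLp.toLp 2 (fun i => h i x) with hg
  have hgm : Measurable g :=
    (WithLp.measurable_toLp 2 _).comp (measurable_pi_lambda _ fun i => hm i)
  have hvs : ∀ v : EuclideanSpace ℝ (Fin k), v = ∑ i, v i • EuclideanSpace.single i (1 : ℝ) := by
    intro v
    have h := (EuclideanSpace.basisFun (Fin k) ℝ).sum_repr v
    conv_lhs => rw [← h]
    simp
  have hin : ∀ v x, ⟪v, g x⟫ = ∑ i, v i * h i x := by
    intro v x
    rw [PiLp.inner_apply]
    refine Finset.sum_congr rfl fun i _ => ?_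
    simp [hg, mul_comm]
  have hgrep : ∀ (η : EuclideanSpace ℝ (Fin k) → ℝ) (v : EuclideanSpace ℝ (Fin k)),
      ContDiff ℝ 1 η → HasCompactSupport η →
        ∫ x in A, fderiv ℝ η x v = ∫ x, η x * ⟪v, g x⟫ ∂ν := by
    intro η v hη hc
    obtain ⟨M, hM⟩ := hc.exists_bound_of_continuous hη.continuous
    have i1 : ∀ i, Integrable (fun x => η x * h i x) ν := fun i =>
      (hi i).bdd_mul (c := M) hη.continuous.aestronglyMeasurable (Eventually.of_forall hM)
    have e1 : ∫ x, η x * ⟪v, g x⟫ ∂ν = ∑ i, v i * ∫ x, η x * h i x ∂ν := by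
      simp_rw [hin, ← integral_const_mul]
      rw [← integral_finsetSum _ fun i _ => (i1 i).const_mul _]
      congr 1
      ext x
      rw [Finset.mul_sum]
      refine Finset.sum_congr rfl fun i _ => ?_
      ring
    have e2 : ∫ x in A, fderiv ℝ η x v =
        ∑ i, v i * ∫ x in A, fderiv ℝ η x (EuclideanSpace.single i (1 : ℝ)) := by
      simp_rw [← integral_const_mul]
      rw [← integral_finsetSum _ fun i _ => (integrable_fderiv hη hc _ A).const_mul _]
      congr 1
      ext x
      conv_lhs => rw [hvs v, _root_.map_sum]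
      refine Finset.sum_congr rfl fun i _ => ?_
      rw [map_smul, smul_eq_mul]
    rw [e1, e2]
    refine Finset.sum_congr rfl fun i _ => ?_
    rw [hrep i η hη hc]
  -- the norm bound
  have hginner : ∀ v, Integrable (fun x => ⟪v, g x⟫) ν := by
    intro v
    simp_rw [hin]
    exact integrable_finsetSum _ fun i _ => (hi i).const_mul _
  have hunit : ∀ v : EuclideanSpace ℝ (Fin k), ‖v‖ = 1 → ∀ᵐ x ∂ν, |⟪v, g x⟫| ≤ 1 := by
    intro v hv
    obtain ⟨w, hwm, hwi, hwb, hwrep⟩ := hh v hv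
    have := ae_eq_of_integral_contDiff_smul_eq hwi.locallyIntegrable
      (hginner v).locallyIntegrable (by
        intro η hη hc
        have hη1 : ContDiff ℝ 1 η := hη.of_le (by exact_mod_cast le_top)
        simp only [smul_eq_mul]
        rw [← hwrep η hη1 hc, hgrep η v hη1 hc])
    filter_upwards [this, hwb] with x hx hx2
    rw [← hx]; exact hx2
  have hall : ∀ᵐ x ∂ν, ∀ n, |⟪denseSeq (EuclideanSpace ℝ (Fin k)) n, g x⟫| ≤
      ‖denseSeq (EuclideanSpace ℝ (Fin k)) n‖ := by
    rw [ae_all_iff]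
    intro n
    set v := denseSeq (EuclideanSpace ℝ (Fin k)) n
    rcases eq_or_ne v 0 with h0 | h0
    · rw [h0]; simp
    · have hv : ‖‖v‖⁻¹ • v‖ = 1 := by
        rw [norm_smul, norm_inv, norm_norm, inv_mul_cancel₀ (norm_ne_zero_iff.2 h0)]
      filter_upwards [hunit _ hv] with x hx
      rw [real_inner_smul_left, abs_mul, abs_of_nonneg (inv_nonneg.2 (norm_nonneg v))] at hx
      rwa [inv_mul_le_iff₀ (norm_pos_iff.2 h0), mul_one] at hx
  have hnorm : ∀ᵐ x ∂ν, ‖g x‖ ≤ 1 := by
    filter_upwards [hall] with x hx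
    have hcl : IsClosed {v : EuclideanSpace ℝ (Fin k) | |⟪v, g x⟫| ≤ ‖v‖} :=
      isClosed_le (by fun_prop) (by fun_prop)
    have hd : Dense {v : EuclideanSpace ℝ (Fin k) | |⟪v, g x⟫| ≤ ‖v‖} := by
      refine (denseRange_denseSeq (EuclideanSpace ℝ (Fin k))).mono ?_
      rintro _ ⟨n, rfl⟩
      exact hx n
    have h1 : g x ∈ {v : EuclideanSpace ℝ (Fin k) | |⟪v, g x⟫| ≤ ‖v‖} := by
      rw [← hcl.closure_eq]; exact hd (g x)
    have h2 : |⟪g x, g x⟫| ≤ ‖g x‖ := h1
    rw [real_inner_self_eq_norm_sq, abs_of_nonneg (sq_nonneg _)] at h2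
    by_contra hne
    push Not at hne
    nlinarith
  refine ⟨fun x => if ‖g x‖ ≤ 1 then g x else 0, ?_, ?_, ?_⟩
  · exact Measurable.ite (measurableSet_le hgm.norm measurable_const) hgm measurable_const
  · intro x
    simp only
    split_ifs with h1
    · exact h1
    · simp
  · intro η v hη hc
    rw [hgrep η v hη hc]
    refine integral_congr_ae ?_
    filter_upwards [hnorm] with x hx
    rw [if_pos hx]

/-- the normal of an open set with boundary of finite measure -/
theorem exists_normal {n : ℕ} {A : Set (EuclideanSpace ℝ (Fin (n + 1)))} (hA : IsOpen A)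
    (hfin : μHE[n] (frontier A) ≠ ⊤) :
    ∃ g : EuclideanSpace ℝ (Fin (n + 1)) → EuclideanSpace ℝ (Fin (n + 1)), Measurable g ∧
      (∀ x, ‖g x‖ ≤ 1) ∧
      ∀ (η : EuclideanSpace ℝ (Fin (n + 1)) → ℝ) (v : EuclideanSpace ℝ (Fin (n + 1))),
        ContDiff ℝ 1 η → HasCompactSupport η →
        ∫ x in A, fderiv ℝ η x v = ∫ x in frontier A, η x * ⟪v, g x⟫ ∂μHE[n] := by
  have hf : IsFiniteMeasure ((μHE[n] : Measure (EuclideanSpace ℝ (Fin (n + 1)))).restrict
      (frontier A)) := ⟨by rw [restrict_apply_univ]; exact hfin.lt_top⟩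
  refine exists_normal_aux (μHE[n].restrict (frontier A)) fun v hv η hη hc => ?_
  have h1 := E1.directional (n := n) (by simp) hv hA
    (fun R => ne_top_of_le_ne_top hfin (measure_mono inter_subset_left)) hη hc
  have h2 : Integrable (fun x => |η x|)
      ((μHE[n] : Measure (EuclideanSpace ℝ (Fin (n + 1)))).restrict (frontier A)) :=
    (hη.continuous.integrable_of_hasCompactSupport hc).abs
  rw [← ofReal_integral_eq_lintegral_ofReal h2 (Eventually.of_forall fun x => abs_nonneg _)] at h1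
  exact (ENNReal.ofReal_le_ofReal_iff (integral_nonneg fun x => abs_nonneg _)).1 h1

/-- the same without the support condition, for bounded sets -/
theorem normal_of_bounded {k : ℕ} (ν : Measure (EuclideanSpace ℝ (Fin k)))
    {A : Set (EuclideanSpace ℝ (Fin k))} (hA : IsOpen A) (hb : Bornology.IsBounded A)
    {g : EuclideanSpace ℝ (Fin k) → EuclideanSpace ℝ (Fin k)}
    (hg : ∀ (η : EuclideanSpace ℝ (Fin k) → ℝ) (v : EuclideanSpace ℝ (Fin k)), ContDiff ℝ 1 η →
        HasCompactSupport η → ∫ x in A, fderiv ℝ η x v = ∫ x in frontier A, η x * ⟪v, g x⟫ ∂ν)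
    {η : EuclideanSpace ℝ (Fin k) → ℝ} (hη : ContDiff ℝ 1 η) (v : EuclideanSpace ℝ (Fin k)) :
    ∫ x in A, fderiv ℝ η x v = ∫ x in frontier A, η x * ⟪v, g x⟫ ∂ν := by
  obtain ⟨R, hR0, hR⟩ := hb.subset_closedBall_lt 0 0
  let θ : ContDiffBump (0 : EuclideanSpace ℝ (Fin k)) := ⟨R + 1, R + 2, by linarith, by linarith⟩
  have h1 := hg (fun x => θ x * η x) v (θ.contDiff.mul hη) θ.hasCompactSupport.mul_right
  have hcl : closure A ⊆ closedBall 0 R := closure_minimal hR isClosed_closedBall
  have e1 : ∀ x ∈ closure A, (fun x => θ x * η x) =ᶠ[𝓝 x] η := by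
    intro x hx
    have hx' := hcl hx
    rw [mem_closedBall_zero_iff] at hx'
    have : ball (0 : EuclideanSpace ℝ (Fin k)) (R + 1) ∈ 𝓝 x :=
      isOpen_ball.mem_nhds (by rw [mem_ball_zero_iff]; linarith)
    filter_upwards [this] with y hy
    rw [θ.one_of_mem_closedBall (ball_subset_closedBall hy), one_mul]
  rw [setIntegral_congr_fun (g := fun x => fderiv ℝ η x v) hA.measurableSet,
    setIntegral_congr_fun (g := fun x => η x * ⟪v, g x⟫) isClosed_frontier.measurableSet] at h1
  · exact h1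
  · intro x hx
    simp only
    rw [(e1 x (frontier_subset_closure hx)).eq_of_nhds]
  · intro x hx
    simp only
    rw [(e1 x (subset_closure hx)).fderiv_eq]

end Crest.Agent.R241.LP685
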