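import Mathlib
import Crest.Agent.R241.LP1

/-! Row 241, block L-P (helper685), part 2: the double integral formula
`∫∫ ⟪K(x-y) g(y), g(x)⟫ dν dν = 4π |A|`, `K(z) w = w - 2⟪w,z⟫ z / |z|²`. -/

set_option autoImplicit false
set_option linter.unusedSectionVars false
open MeasureTheory MeasureTheory.Measure Metric Filter Set Module TopologicalSpace
open scoped NNReal ENNReal Topology RealInnerProductSpace ContDiff

noncomputable section

namespace Crest.Agent.R241.LP685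

/-- the plane -/
abbrev E2 := EuclideanSpace ℝ (Fin 2)

/-- regularised reflection -/
def kap (s : ℝ) (z w : E2) : E2 := w - (2 * ⟪w, z⟫ / (‖z‖ ^ 2 + s ^ 2)) • z

/-- regularised divergence of the reflection -/
def qf (s : ℝ) (z : E2) : E2 := (1 / (‖z‖ ^ 2 + s ^ 2) + 2 * s ^ 2 / (‖z‖ ^ 2 + s ^ 2) ^ 2) • z

/-- minus the divergence of `qf` as a function of the norm -/
def rhoN (s : ℝ) (t : ℝ) : ℝ := -2 * s ^ 2 / (t ^ 2 + s ^ 2) ^ 2 + 8 * s ^ 4 / (t ^ 2 + s ^ 2) ^ 3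

theorem nsq (z : E2) : ‖z‖ ^ 2 = z 0 ^ 2 + z 1 ^ 2 := by
  rw [EuclideanSpace.norm_sq_eq]; simp

theorem inn (z w : E2) : ⟪z, w⟫ = z 0 * w 0 + z 1 * w 1 := by
  rw [PiLp.inner_apply]; simp [mul_comm]

theorem pos_den {s : ℝ} (hs : 0 < s) (z : E2) : 0 < ‖z‖ ^ 2 + s ^ 2 := by positivity

theorem contDiff_kap {s : ℝ} (hs : 0 < s) (y w : E2) (i : Fin 2) :
    ContDiff ℝ 1 fun x => (kap s (x - y) w) i := by
  have h1 : ∀ x : E2, ‖x - y‖ ^ 2 + s ^ 2 ≠ 0 := fun x => (pos_den hs _).ne'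
  simp only [kap]
  have h2 : ContDiff ℝ 1 fun x : E2 => 2 * ⟪w, x - y⟫ / (‖x - y‖ ^ 2 + s ^ 2) := by
    refine ContDiff.div ?_ ?_ h1
    · exact contDiff_const.mul (contDiff_const.inner ℝ (contDiff_id.sub contDiff_const))
    · exact ((contDiff_id.sub contDiff_const).norm_sq ℝ).add contDiff_const
  have h3 : ContDiff ℝ 1 fun x : E2 => w - (2 * ⟪w, x - y⟫ / (‖x - y‖ ^ 2 + s ^ 2)) • (x - y) :=
    contDiff_const.sub (h2.smul (contDiff_id.sub contDiff_const))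
  exact (contDiff_euclidean.1 h3) i

theorem contDiff_qf {s : ℝ} (hs : 0 < s) (x : E2) (i : Fin 2) :
    ContDiff ℝ 1 fun y => (qf s (x - y)) i := by
  have h1 : ∀ y : E2, ‖x - y‖ ^ 2 + s ^ 2 ≠ 0 := fun x => (pos_den hs _).ne'
  have h0 : ContDiff ℝ 1 fun y : E2 => ‖x - y‖ ^ 2 + s ^ 2 :=
    ((contDiff_const.sub contDiff_id).norm_sq ℝ).add contDiff_const
  have h2 : ContDiff ℝ 1 fun y : E2 => 1 / (‖x - y‖ ^ 2 + s ^ 2) +
      2 * s ^ 2 / (‖x - y‖ ^ 2 + s ^ 2) ^ 2 :=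
    (contDiff_const.div h0 h1).add (contDiff_const.div (h0.pow 2) fun y => pow_ne_zero 2 (h1 y))
  have h3 : ContDiff ℝ 1 fun y : E2 => qf s (x - y) :=
    h2.smul (contDiff_const.sub contDiff_id)
  exact (contDiff_euclidean.1 h3) i

/-- the standard basis -/
abbrev ee (i : Fin 2) : E2 := EuclideanSpace.single i (1 : ℝ)

theorem d1 {a b p q s : ℝ} (h : a ^ 2 + b ^ 2 + s ^ 2 ≠ 0) :
    HasDerivAt (fun t : ℝ => p - (2 * (p * (a + t) + q * b)) / ((a + t) ^ 2 + b ^ 2 + s ^ 2) *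
      (a + t))
      (-((2 * p * a + 2 * (p * a + q * b)) / (a ^ 2 + b ^ 2 + s ^ 2) -
        4 * (p * a + q * b) * a ^ 2 / (a ^ 2 + b ^ 2 + s ^ 2) ^ 2)) 0 := by
  have e1 : HasDerivAt (fun t : ℝ => a + t) 1 0 := (hasDerivAt_id (0 : ℝ)).const_add a
  have e2 : HasDerivAt (fun t : ℝ => 2 * (p * (a + t) + q * b)) (2 * (p * 1)) 0 :=
    ((e1.const_mul p).add_const (q * b)).const_mul 2
  have e3 : HasDerivAt (fun t : ℝ => (a + t) ^ 2 + b ^ 2 + s ^ 2)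
      (((2 : ℕ) : ℝ) * (a + 0) ^ (2 - 1) * 1) 0 := ((e1.pow 2).add_const (b ^ 2)).add_const (s ^ 2)
  have e4 := ((e2.div e3 (by simpa using h)).mul e1).const_sub p
  refine e4.congr_deriv ?_
  simp only [add_zero, Pi.div_apply]
  field_simp
  ring

theorem d2 {a b s : ℝ} (h : a ^ 2 + b ^ 2 + s ^ 2 ≠ 0) :
    HasDerivAt (fun t : ℝ => (1 / ((a - t) ^ 2 + b ^ 2 + s ^ 2) +
      2 * s ^ 2 / ((a - t) ^ 2 + b ^ 2 + s ^ 2) ^ 2) * (a - t))
      (-(1 / (a ^ 2 + b ^ 2 + s ^ 2) + 2 * s ^ 2 / (a ^ 2 + b ^ 2 + s ^ 2) ^ 2) +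
        (2 * a ^ 2 / (a ^ 2 + b ^ 2 + s ^ 2) ^ 2 +
        8 * s ^ 2 * a ^ 2 / (a ^ 2 + b ^ 2 + s ^ 2) ^ 3)) 0 := by
  have e1 : HasDerivAt (fun t : ℝ => a - t) (-1) 0 := (hasDerivAt_id (0 : ℝ)).const_sub a
  have e3 : HasDerivAt (fun t : ℝ => (a - t) ^ 2 + b ^ 2 + s ^ 2)
      (((2 : ℕ) : ℝ) * (a - 0) ^ (2 - 1) * (-1)) 0 :=
    ((e1.pow 2).add_const (b ^ 2)).add_const (s ^ 2)
  have h' : (a - 0) ^ 2 + b ^ 2 + s ^ 2 ≠ 0 := by simpa using h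
  have e4 : HasDerivAt (fun _ : ℝ => (1 : ℝ)) 0 0 := hasDerivAt_const _ _
  have e5 : HasDerivAt (fun _ : ℝ => 2 * s ^ 2) 0 0 := hasDerivAt_const _ _
  have e6 := ((e4.div e3 h').add (e5.div (e3.pow 2) (pow_ne_zero 2 h'))).mul e1
  refine e6.congr_deriv ?_
  simp only [sub_zero, Pi.pow_apply, Pi.add_apply, Pi.div_apply]
  field_simp
  ring

theorem fderiv_eq_of_line {f : E2 → ℝ} (hf : ContDiff ℝ 1 f) (x v : E2) {d : ℝ}
    (h : HasDerivAt (fun t : ℝ => f (x + t • v)) d 0) : fderiv ℝ f x v = d := by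
  rw [← DifferentiableAt.lineDeriv_eq_fderiv (hf.differentiable one_ne_zero x)]
  exact h.deriv

theorem div_kap {s : ℝ} (hs : 0 < s) (y w x : E2) :
    ∑ i, fderiv ℝ (fun x => (kap s (x - y) w) i) x (ee i) = -2 * ⟪qf s (x - y), w⟫ := by
  have hP : (x 0 - y 0) ^ 2 + (x 1 - y 1) ^ 2 + s ^ 2 ≠ 0 := by positivity
  have hP' : (x 1 - y 1) ^ 2 + (x 0 - y 0) ^ 2 + s ^ 2 ≠ 0 := by positivity
  have h0 := fderiv_eq_of_line (contDiff_kap hs y w 0) x (ee 0)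
    ((d1 (p := w 0) (q := w 1) hP).congr_of_eventuallyEq (Eventually.of_forall fun t => by
      simp [kap, nsq, inn]
      ring_nf))
  have h1 := fderiv_eq_of_line (contDiff_kap hs y w 1) x (ee 1)
    ((d1 (p := w 1) (q := w 0) hP').congr_of_eventuallyEq (Eventually.of_forall fun t => by
      simp [kap, nsq, inn]
      ring_nf))
  rw [Fin.sum_univ_two, h0, h1]
  simp [qf, nsq, inn]
  field_simp
  ring

theorem div_qf {s : ℝ} (hs : 0 < s) (x y : E2) :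
    ∑ i, fderiv ℝ (fun y => (qf s (x - y)) i) y (ee i) = - rhoN s ‖x - y‖ := by
  have hP : (x 0 - y 0) ^ 2 + (x 1 - y 1) ^ 2 + s ^ 2 ≠ 0 := by positivity
  have hP' : (x 1 - y 1) ^ 2 + (x 0 - y 0) ^ 2 + s ^ 2 ≠ 0 := by positivity
  have h0 := fderiv_eq_of_line (contDiff_qf hs x 0) y (ee 0)
    ((d2 hP).congr_of_eventuallyEq (Eventually.of_forall fun t => by
      simp [qf, nsq]
      ring_nf))
  have h1 := fderiv_eq_of_line (contDiff_qf hs x 1) y (ee 1)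
    ((d2 hP').congr_of_eventuallyEq (Eventually.of_forall fun t => by
      simp [qf, nsq]
      ring_nf))
  rw [Fin.sum_univ_two, h0, h1]
  simp [rhoN, nsq]
  field_simp
  ring

end Crest.Agent.R241.LP685
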