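import Mathlib
import Crest.Agent.R241.LP2

/-! Row 241, block L-P (helper685), part 3: the double integral formula
`∫∫ ⟪K(x-y) g(y), g(x)⟫ dν dν = 4π |A|`, `K(z) w = w - 2⟪w,z⟫ z / |z|²`. -/

set_option autoImplicit false
set_option linter.unusedSectionVars false
open MeasureTheory MeasureTheory.Measure Metric Filter Set Module TopologicalSpace
open scoped NNReal ENNReal Topology RealInnerProductSpace ContDiff

noncomputable section

namespace Crest.Agent.R241.LP685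

theorem norm_kap_le (s : ℝ) (z w : E2) : ‖kap s z w‖ ≤ ‖w‖ := by
  have h : ‖kap s z w‖ ^ 2 ≤ ‖w‖ ^ 2 := by
    rw [kap, norm_sub_sq_real, norm_smul, real_inner_smul_right, mul_pow, Real.norm_eq_abs, sq_abs]
    rcases eq_or_ne (‖z‖ ^ 2 + s ^ 2) 0 with h0 | h0
    · rw [h0]; simp
    · have h1 : 0 < ‖z‖ ^ 2 + s ^ 2 := lt_of_le_of_ne (by positivity) (Ne.symm h0)
      have h2 : ‖w‖ ^ 2 - 2 * (2 * ⟪w, z⟫ / (‖z‖ ^ 2 + s ^ 2) * ⟪w, z⟫) +
          (2 * ⟪w, z⟫ / (‖z‖ ^ 2 + s ^ 2)) ^ 2 * ‖z‖ ^ 2 =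
          ‖w‖ ^ 2 - 4 * ⟪w, z⟫ ^ 2 * s ^ 2 / (‖z‖ ^ 2 + s ^ 2) ^ 2 := by
        field_simp
        ring
      rw [h2]
      have : 0 ≤ 4 * ⟪w, z⟫ ^ 2 * s ^ 2 / (‖z‖ ^ 2 + s ^ 2) ^ 2 := by positivity
      linarith
  exact abs_le_of_sq_le_sq' h (norm_nonneg w) |>.2

theorem norm_qf_le {s : ℝ} (hs : 0 < s) (z : E2) : ‖qf s z‖ ≤ 3 / (2 * s) := by
  have h1 : 0 < ‖z‖ ^ 2 + s ^ 2 := pos_den hs z
  rw [qf, norm_smul, Real.norm_of_nonneg (by positivity)]
  have h2 : 1 / (‖z‖ ^ 2 + s ^ 2) + 2 * s ^ 2 / (‖z‖ ^ 2 + s ^ 2) ^ 2 ≤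
      3 / (‖z‖ ^ 2 + s ^ 2) := by
    rw [div_add_div _ _ h1.ne' (by positivity), div_le_div_iff₀ (by positivity) h1]
    nlinarith [sq_nonneg ‖z‖, mul_pos h1 h1, mul_nonneg (sq_nonneg ‖z‖) (mul_pos h1 h1).le]
  calc (1 / (‖z‖ ^ 2 + s ^ 2) + 2 * s ^ 2 / (‖z‖ ^ 2 + s ^ 2) ^ 2) * ‖z‖
      ≤ 3 / (‖z‖ ^ 2 + s ^ 2) * ‖z‖ := by gcongr
    _ ≤ 3 / (2 * s) := by
        rw [div_mul_eq_mul_div, div_le_div_iff₀ h1 (by positivity)]
        nlinarith [sq_nonneg (‖z‖ - s)]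

theorem measurable_kap (s : ℝ) : Measurable fun p : E2 × E2 => kap s p.1 p.2 := by
  unfold kap
  fun_prop

theorem measurable_qf (s : ℝ) : Measurable (qf s) := by
  unfold qf
  fun_prop

theorem sum_inner (u w : E2) : ∑ i, u i * ⟪ee i, w⟫ = ⟪u, w⟫ := by
  rw [Fin.sum_univ_two, inn, inn, inn]
  simp

section
variable (ν : Measure E2) [IsFiniteMeasure ν] {A : Set E2} {g : E2 → E2}

theorem integrable_of_bdd {u : E2 → ℝ} (hu : Measurable u) {C : ℝ} (hC : ∀ x, |u x| ≤ C) :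
    Integrable u ν :=
  Integrable.of_bound hu.aestronglyMeasurable C (Eventually.of_forall hC)

theorem gauss_kap (hgm : Measurable g) (hg1 : ∀ x, ‖g x‖ ≤ 1) (hb : Bornology.IsBounded A)
    (hrep : ∀ (η : E2 → ℝ) (v : E2), ContDiff ℝ 1 η →
      ∫ x in A, fderiv ℝ η x v = ∫ x, η x * ⟪v, g x⟫ ∂ν) {s : ℝ} (hs : 0 < s) (y w : E2) :
    ∫ x, ⟪kap s (x - y) w, g x⟫ ∂ν = ∫ x in A, -2 * ⟪qf s (x - y), w⟫ := by
  have hk : ∀ i, ∀ x, |(kap s (x - y) w) i| ≤ ‖w‖ := fun i x =>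
    (PiLp.norm_apply_le (kap s (x - y) w) i).trans (norm_kap_le s _ _)
  have hi : ∀ i, Integrable (fun x => (kap s (x - y) w) i * ⟪ee i, g x⟫) ν := by
    intro i
    refine integrable_of_bdd ν ?_ (C := ‖w‖) fun x => ?_
    · exact (contDiff_kap hs y w i).continuous.measurable.mul (measurable_const.inner hgm)
    · rw [abs_mul]
      have h1 : |⟪ee i, g x⟫| ≤ 1 := (abs_real_inner_le_norm _ _).trans (by simpa using hg1 x)
      calc |(kap s (x - y) w) i| * |⟪ee i, g x⟫| ≤ ‖w‖ * 1 := by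
            gcongr; exact hk i x
        _ = ‖w‖ := mul_one _
  have hfi : ∀ i, IntegrableOn (fun x => fderiv ℝ (fun x => (kap s (x - y) w) i) x (ee i)) A := by
    intro i
    have hc : Continuous fun x => fderiv ℝ (fun x => (kap s (x - y) w) i) x (ee i) :=
      ((contDiff_kap hs y w i).continuous_fderiv one_ne_zero).clm_apply continuous_const
    obtain ⟨R, hR⟩ := hb.subset_closedBall 0
    exact (hc.continuousOn.integrableOn_compact (isCompact_closedBall _ _)).mono_set hR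
  calc ∫ x, ⟪kap s (x - y) w, g x⟫ ∂ν
      = ∫ x, ∑ i, (kap s (x - y) w) i * ⟪ee i, g x⟫ ∂ν := by
        simp_rw [sum_inner]
    _ = ∑ i, ∫ x, (kap s (x - y) w) i * ⟪ee i, g x⟫ ∂ν := integral_finsetSum _ fun i _ => hi i
    _ = ∑ i, ∫ x in A, fderiv ℝ (fun x => (kap s (x - y) w) i) x (ee i) := by
        refine Finset.sum_congr rfl fun i _ => (hrep _ _ (contDiff_kap hs y w i)).symm
    _ = ∫ x in A, ∑ i, fderiv ℝ (fun x => (kap s (x - y) w) i) x (ee i) :=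
        (integral_finsetSum _ fun i _ => hfi i).symm
    _ = _ := by simp_rw [div_kap hs y w]

theorem gauss_qf (hgm : Measurable g) (hg1 : ∀ x, ‖g x‖ ≤ 1) (hb : Bornology.IsBounded A)
    (hrep : ∀ (η : E2 → ℝ) (v : E2), ContDiff ℝ 1 η →
      ∫ x in A, fderiv ℝ η x v = ∫ x, η x * ⟪v, g x⟫ ∂ν) {s : ℝ} (hs : 0 < s) (x : E2) :
    ∫ y, ⟪qf s (x - y), g y⟫ ∂ν = - ∫ y in A, rhoN s ‖x - y‖ := by
  have hk : ∀ i, ∀ y, |(qf s (x - y)) i| ≤ 3 / (2 * s) := fun i y =>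
    (PiLp.norm_apply_le (qf s (x - y)) i).trans (norm_qf_le hs _)
  have hi : ∀ i, Integrable (fun y => (qf s (x - y)) i * ⟪ee i, g y⟫) ν := by
    intro i
    refine integrable_of_bdd ν ?_ (C := 3 / (2 * s)) fun y => ?_
    · exact (contDiff_qf hs x i).continuous.measurable.mul (measurable_const.inner hgm)
    · rw [abs_mul]
      have h1 : |⟪ee i, g y⟫| ≤ 1 := (abs_real_inner_le_norm _ _).trans (by simpa using hg1 y)
      calc |(qf s (x - y)) i| * |⟪ee i, g y⟫| ≤ 3 / (2 * s) * 1 := by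
            gcongr; exact hk i y
        _ = _ := mul_one _
  have hfi : ∀ i, IntegrableOn (fun y => fderiv ℝ (fun y => (qf s (x - y)) i) y (ee i)) A := by
    intro i
    have hc : Continuous fun y => fderiv ℝ (fun y => (qf s (x - y)) i) y (ee i) :=
      ((contDiff_qf hs x i).continuous_fderiv one_ne_zero).clm_apply continuous_const
    obtain ⟨R, hR⟩ := hb.subset_closedBall 0
    exact (hc.continuousOn.integrableOn_compact (isCompact_closedBall _ _)).mono_set hR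
  calc ∫ y, ⟪qf s (x - y), g y⟫ ∂ν
      = ∫ y, ∑ i, (qf s (x - y)) i * ⟪ee i, g y⟫ ∂ν := by
        simp_rw [sum_inner]
    _ = ∑ i, ∫ y, (qf s (x - y)) i * ⟪ee i, g y⟫ ∂ν := integral_finsetSum _ fun i _ => hi i
    _ = ∑ i, ∫ y in A, fderiv ℝ (fun y => (qf s (x - y)) i) y (ee i) := by
        refine Finset.sum_congr rfl fun i _ => (hrep _ _ (contDiff_qf hs x i)).symm
    _ = ∫ y in A, ∑ i, fderiv ℝ (fun y => (qf s (x - y)) i) y (ee i) :=
        (integral_finsetSum _ fun i _ => hfi i).symm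
    _ = _ := by simp_rw [div_qf hs x]; rw [integral_neg]

theorem double_formula (hgm : Measurable g) (hg1 : ∀ x, ‖g x‖ ≤ 1) (hb : Bornology.IsBounded A)
    (hrep : ∀ (η : E2 → ℝ) (v : E2), ContDiff ℝ 1 η →
      ∫ x in A, fderiv ℝ η x v = ∫ x, η x * ⟪v, g x⟫ ∂ν) {s : ℝ} (hs : 0 < s) :
    ∫ y, ∫ x, ⟪kap s (x - y) (g y), g x⟫ ∂ν ∂ν = 2 * ∫ x in A, ∫ y in A, rhoN s ‖x - y‖ := by
  have hfm : IsFiniteMeasure (volume.restrict A) :=
    ⟨by rw [restrict_apply_univ]; exact hb.measure_lt_top⟩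
  have h1 : ∫ y, ∫ x, ⟪kap s (x - y) (g y), g x⟫ ∂ν ∂ν =
      ∫ y, ∫ x in A, -2 * ⟪qf s (x - y), g y⟫ ∂volume ∂ν := by
    congr 1
    ext y
    exact gauss_kap ν hgm hg1 hb hrep hs y (g y)
  rw [h1, integral_integral_swap]
  · have h2 : ∀ x, ∫ y, -2 * ⟪qf s (x - y), g y⟫ ∂ν = 2 * ∫ y in A, rhoN s ‖x - y‖ := by
      intro x
      rw [integral_const_mul, gauss_qf ν hgm hg1 hb hrep hs x]
      ring
    simp_rw [h2]
    rw [integral_const_mul]
  · refine Integrable.of_bound ?_ (3 / s) (Eventually.of_forall fun p => ?_)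
    · refine Measurable.aestronglyMeasurable ?_
      refine Measurable.const_mul ?_ _
      exact ((measurable_qf s).comp (measurable_snd.sub measurable_fst)).inner
        (hgm.comp measurable_fst)
    · simp only [Function.uncurry]
      rw [Real.norm_eq_abs, abs_mul]
      have h3 : |⟪qf s (p.2 - p.1), g p.1⟫| ≤ 3 / (2 * s) * 1 :=
        (abs_real_inner_le_norm _ _).trans (mul_le_mul (norm_qf_le hs _) (hg1 _)
          (norm_nonneg _) (by positivity))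
      have h4 : 3 / (2 * s) * 1 = (3 / s) / 2 := by field_simp
      rw [h4] at h3
      norm_num
      linarith

end

end Crest.Agent.R241.LP685
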