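import Mathlib
import Crest.Agent.R241.LP3

/-! Row 241, block L-P (helper685), part 4: passage to the limit in the double integral formula. -/

set_option autoImplicit false
set_option linter.unusedSectionVars false
open MeasureTheory MeasureTheory.Measure Metric Filter Set Module TopologicalSpace
open scoped NNReal ENNReal Topology RealInnerProductSpace ContDiff

noncomputable section

namespace Crest.Agent.R241.LP685

theorem hasDerivAt_radial (y : ℝ) :
    HasDerivAt (fun y : ℝ => 1 / (1 + y ^ 2) - 2 / (1 + y ^ 2) ^ 2) (y * rhoN 1 y) y := by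
  have h : (1 : ℝ) + y ^ 2 ≠ 0 := by positivity
  have e3 : HasDerivAt (fun y : ℝ => 1 + y ^ 2) (((2 : ℕ) : ℝ) * y ^ (2 - 1) * 1) y :=
    ((hasDerivAt_id y).pow 2).const_add 1
  have e4 : HasDerivAt (fun _ : ℝ => (1 : ℝ)) 0 y := hasDerivAt_const _ _
  have e5 : HasDerivAt (fun _ : ℝ => (2 : ℝ)) 0 y := hasDerivAt_const _ _
  have e6 := (e4.div e3 h).sub (e5.div (e3.pow 2) (pow_ne_zero 2 h))
  refine e6.congr_deriv ?_
  have h' : y ^ 2 + 1 ^ 2 ≠ (0 : ℝ) := by positivity
  simp only [Pi.pow_apply, rhoN]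
  have h'' : y ^ 2 + 1 ≠ (0 : ℝ) := by positivity
  field_simp
  ring

theorem abs_rhoN_one_le (t : ℝ) : |rhoN 1 t| ≤ 10 * (1 + t ^ 2) ^ (-(4 : ℝ) / 2) := by
  have h : (0 : ℝ) < 1 + t ^ 2 := by positivity
  have e : (-(4 : ℝ) / 2) = ((-2 : ℤ) : ℝ) := by norm_num
  rw [e, Real.rpow_intCast, zpow_neg]
  have e2 : (1 + t ^ 2) ^ (2 : ℤ) = (1 + t ^ 2) ^ 2 := by norm_cast
  rw [e2]
  have h1 : rhoN 1 t = (-2 + 8 / (1 + t ^ 2)) * ((1 + t ^ 2) ^ 2)⁻¹ := by
    unfold rhoN
    have h' : t ^ 2 + 1 ^ 2 = 1 + t ^ 2 := by ring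
    rw [h']
    field_simp
  rw [h1, abs_mul, abs_of_pos (show 0 < ((1 + t ^ 2) ^ 2)⁻¹ by positivity)]
  gcongr
  have h2 : 0 < 8 / (1 + t ^ 2) := by positivity
  have h3 : 8 / (1 + t ^ 2) ≤ 8 := by
    rw [div_le_iff₀ h]; nlinarith [sq_nonneg t]
  rw [abs_le]
  constructor <;> linarith

theorem integrable_rho : Integrable (fun u : E2 => rhoN 1 ‖u‖) := by
  have h1 := (integrable_rpow_neg_one_add_norm_sq (E := E2) (μ := volume) (r := 4)
    (by simp; norm_num)).const_mul 10
  refine h1.mono' ?_ (Eventually.of_forall fun u => abs_rhoN_one_le ‖u‖)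
  refine Measurable.aestronglyMeasurable ?_
  unfold rhoN
  fun_prop

theorem integrableOn_radial : IntegrableOn (fun y : ℝ => y * rhoN 1 y) (Ioi 0) := by
  have h := integrable_rho
  have h2 := (integrable_fun_norm_addHaar (volume : Measure E2) (f := rhoN 1)).1 h
  simpa using h2

theorem integral_radial : ∫ y in Ioi (0 : ℝ), y * rhoN 1 y = 1 := by
  have h1 := integral_Ioi_of_hasDerivAt_of_tendsto' (a := 0) (m := 0)
    (f := fun y : ℝ => 1 / (1 + y ^ 2) - 2 / (1 + y ^ 2) ^ 2) (f' := fun y => y * rhoN 1 y)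
    (fun y _ => hasDerivAt_radial y) integrableOn_radial (by
      have t1 : Tendsto (fun y : ℝ => 1 + y ^ 2) atTop atTop :=
        tendsto_atTop_add_const_left _ _ (tendsto_pow_atTop two_ne_zero)
      have t2 : Tendsto (fun y : ℝ => (1 + y ^ 2)⁻¹) atTop (𝓝 0) := t1.inv_tendsto_atTop
      have t3 := t2.sub ((t2.pow 2).const_mul 2)
      simp only [ne_eq, OfNat.ofNat_ne_zero, not_false_eq_true, zero_pow, mul_zero, sub_zero] at t3
      refine t3.congr fun y => ?_
      rw [one_div, inv_pow, div_eq_mul_inv])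
  rw [h1]
  norm_num

theorem integral_rho : ∫ u : E2, rhoN 1 ‖u‖ = 2 * Real.pi := by
  rw [integral_fun_norm_addHaar (volume : Measure E2) (rhoN 1)]
  have h1 : (volume : Measure E2).real (ball 0 1) = Real.pi := by
    rw [Measure.real, EuclideanSpace.volume_ball_fin_two]
    simp [Real.pi_pos.le]
  simp only [finrank_euclideanSpace, Fintype.card_fin, h1, smul_eq_mul, nsmul_eq_mul]
  have : ∫ y in Ioi (0 : ℝ), y ^ (2 - 1) * rhoN 1 y = 1 := by
    simpa using integral_radial
  rw [this]; push_cast; ring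

theorem rhoN_scale {s : ℝ} (hs : 0 < s) (t : ℝ) : s ^ 2 * rhoN s (s * t) = rhoN 1 t := by
  unfold rhoN
  have h1 : t ^ 2 + 1 ^ 2 ≠ (0 : ℝ) := by positivity
  have h2 : (s * t) ^ 2 + s ^ 2 = s ^ 2 * (t ^ 2 + 1 ^ 2) := by ring
  rw [h2]
  field_simp

theorem integral_rho_scale {s : ℝ} (hs : 0 < s) {A : Set E2} (hA : MeasurableSet A) (x : E2) :
    ∫ y in A, rhoN s ‖x - y‖ = ∫ u : E2, A.indicator (fun _ => (1 : ℝ)) (x - s • u) * rhoN 1 ‖u‖ := by
  have h1 : ∫ y in A, rhoN s ‖x - y‖ =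
      ∫ z : E2, A.indicator (fun _ => (1 : ℝ)) (x - z) * rhoN s ‖z‖ := by
    rw [← integral_indicator hA]
    rw [← integral_sub_left_eq_self (fun z : E2 => A.indicator (fun _ => (1 : ℝ)) (x - z) *
      rhoN s ‖z‖) volume x]
    congr 1
    ext y
    by_cases hy : y ∈ A
    · simp [hy]
    · simp [hy]
  have h2 := integral_comp_smul (volume : Measure E2)
    (fun z : E2 => s ^ 2 * (A.indicator (fun _ => (1 : ℝ)) (x - z) * rhoN s ‖z‖)) s
  have h3 : (fun u : E2 => s ^ 2 * (A.indicator (fun _ => (1 : ℝ)) (x - s • u) * rhoN s ‖s • u‖)) =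
      fun u : E2 => A.indicator (fun _ => (1 : ℝ)) (x - s • u) * rhoN 1 ‖u‖ := by
    ext u
    rw [norm_smul, Real.norm_of_nonneg hs.le, ← rhoN_scale hs]
    ring
  rw [h3] at h2
  rw [h1, h2, integral_const_mul, smul_eq_mul]
  simp only [finrank_euclideanSpace, Fintype.card_fin]
  rw [abs_of_pos (by positivity), ← mul_assoc, inv_mul_cancel₀ (by positivity), one_mul]

/-- the sequence of scales -/
def sc (n : ℕ) : ℝ := 1 / ((n : ℝ) + 1)

theorem sc_pos (n : ℕ) : 0 < sc n := by unfold sc; positivity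

theorem tendsto_sc : Tendsto sc atTop (𝓝 0) := tendsto_one_div_add_atTop_nhds_zero_nat

theorem tendsto_inner_rho {A : Set E2} (hA : IsOpen A) {x : E2} (hx : x ∈ A) :
    Tendsto (fun n => ∫ y in A, rhoN (sc n) ‖x - y‖) atTop (𝓝 (2 * Real.pi)) := by
  simp_rw [fun n => integral_rho_scale (sc_pos n) hA.measurableSet x]
  rw [← integral_rho]
  refine tendsto_integral_of_dominated_convergence (fun u : E2 => |rhoN 1 ‖u‖|) ?_
    integrable_rho.abs ?_ ?_
  · intro n
    refine AEStronglyMeasurable.mul ?_ integrable_rho.aestronglyMeasurable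
    refine Measurable.aestronglyMeasurable ?_
    exact (measurable_const.indicator hA.measurableSet).comp (by fun_prop)
  · intro n
    refine Eventually.of_forall fun u => ?_
    rw [Real.norm_eq_abs, abs_mul]
    have : |A.indicator (fun _ => (1 : ℝ)) (x - sc n • u)| ≤ 1 := by
      by_cases hu : x - sc n • u ∈ A <;> simp [hu]
    exact mul_le_of_le_one_left (abs_nonneg _) this
  · refine Eventually.of_forall fun u => ?_
    have h1 : Tendsto (fun n => x - sc n • u) atTop (𝓝 (x - (0 : ℝ) • u)) :=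
      tendsto_const_nhds.sub (tendsto_sc.smul_const u)
    rw [zero_smul, sub_zero] at h1
    have h2 : ∀ᶠ n in atTop, x - sc n • u ∈ A := h1.eventually (hA.mem_nhds hx)
    refine tendsto_const_nhds.congr' ?_
    filter_upwards [h2] with n hn
    rw [indicator_of_mem hn, one_mul]

theorem abs_inner_rho_le {A : Set E2} (hA : IsOpen A) (x : E2) (n : ℕ) :
    |∫ y in A, rhoN (sc n) ‖x - y‖| ≤ ∫ u : E2, |rhoN 1 ‖u‖| := by
  rw [integral_rho_scale (sc_pos n) hA.measurableSet x]
  refine (abs_integral_le_integral_abs).trans ?_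
  refine integral_mono_of_nonneg (Eventually.of_forall fun u => abs_nonneg _)
    integrable_rho.abs (Eventually.of_forall fun u => ?_)
  simp only
  rw [abs_mul]
  have : |A.indicator (fun _ => (1 : ℝ)) (x - sc n • u)| ≤ 1 := by
    by_cases hu : x - sc n • u ∈ A <;> simp [hu]
  exact mul_le_of_le_one_left (abs_nonneg _) this

theorem continuous_rho_comp {s : ℝ} (hs : 0 < s) : Continuous fun p : E2 × E2 => rhoN s ‖p.1 - p.2‖ := by
  unfold rhoN
  have h1 : ∀ p : E2 × E2, ‖p.1 - p.2‖ ^ 2 + s ^ 2 ≠ 0 := fun p => by positivity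
  refine Continuous.add ?_ ?_
  · exact continuous_const.div (by fun_prop) fun p => pow_ne_zero 2 (h1 p)
  · exact continuous_const.div (by fun_prop) fun p => pow_ne_zero 3 (h1 p)

theorem tendsto_double_rho {A : Set E2} (hA : IsOpen A) (hb : Bornology.IsBounded A) :
    Tendsto (fun n => ∫ x in A, ∫ y in A, rhoN (sc n) ‖x - y‖) atTop
      (𝓝 (2 * Real.pi * volume.real A)) := by
  have hfm : IsFiniteMeasure ((volume : Measure E2).restrict A) :=
    ⟨by rw [restrict_apply_univ]; exact hb.measure_lt_top⟩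
  have h1 : 2 * Real.pi * volume.real A = ∫ x in A, 2 * Real.pi := by
    rw [setIntegral_const, smul_eq_mul]; ring
  rw [h1]
  refine tendsto_integral_of_dominated_convergence (fun _ : E2 => ∫ u : E2, |rhoN 1 ‖u‖|) ?_
    (integrable_const _) ?_ ?_
  · intro n
    exact ((continuous_rho_comp (sc_pos n)).stronglyMeasurable.integral_prod_right').aestronglyMeasurable
  · intro n
    exact Eventually.of_forall fun x => abs_inner_rho_le hA x n
  · filter_upwards [ae_restrict_mem hA.measurableSet] with x hx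
    exact tendsto_inner_rho hA hx

theorem tendsto_kap (z w : E2) : Tendsto (fun n => kap (sc n) z w) atTop (𝓝 (kap 0 z w)) := by
  unfold kap
  rcases eq_or_ne z 0 with rfl | hz
  · simp
  · have h1 : Tendsto (fun n => ‖z‖ ^ 2 + sc n ^ 2) atTop (𝓝 (‖z‖ ^ 2 + 0 ^ 2)) :=
      tendsto_const_nhds.add (tendsto_sc.pow 2)
    have h2 : ‖z‖ ^ 2 + (0 : ℝ) ^ 2 ≠ 0 := by
      have := norm_pos_iff.2 hz
      positivity
    exact tendsto_const_nhds.sub ((tendsto_const_nhds.div h1 h2).smul_const z)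

section
variable (ν : Measure E2) [IsFiniteMeasure ν] {A : Set E2} {g : E2 → E2}

theorem measurable_integrand (hgm : Measurable g) (s : ℝ) :
    Measurable fun p : E2 × E2 => ⟪kap s (p.2 - p.1) (g p.1), g p.2⟫ :=
  ((measurable_kap s).comp ((measurable_snd.sub measurable_fst).prodMk
    (hgm.comp measurable_fst))).inner (hgm.comp measurable_snd)

theorem abs_integrand_le (hg1 : ∀ x, ‖g x‖ ≤ 1) (s : ℝ) (x y : E2) :
    |⟪kap s (x - y) (g y), g x⟫| ≤ 1 :=
  (abs_real_inner_le_norm _ _).trans (mul_le_one₀ ((norm_kap_le _ _ _).trans (hg1 _))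
    (norm_nonneg _) (hg1 _))

/-- **the double integral formula** -/
theorem double_formula_zero (hgm : Measurable g) (hg1 : ∀ x, ‖g x‖ ≤ 1) (hA : IsOpen A)
    (hb : Bornology.IsBounded A)
    (hrep : ∀ (η : E2 → ℝ) (v : E2), ContDiff ℝ 1 η →
      ∫ x in A, fderiv ℝ η x v = ∫ x, η x * ⟪v, g x⟫ ∂ν) :
    ∫ p, ⟪kap 0 (p.2 - p.1) (g p.1), g p.2⟫ ∂(ν.prod ν) = 4 * Real.pi * volume.real A := by
  have h1 : Tendsto (fun n => ∫ p, ⟪kap (sc n) (p.2 - p.1) (g p.1), g p.2⟫ ∂(ν.prod ν)) atTop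
      (𝓝 (∫ p, ⟪kap 0 (p.2 - p.1) (g p.1), g p.2⟫ ∂(ν.prod ν))) := by
    refine tendsto_integral_of_dominated_convergence (fun _ => 1) ?_ (integrable_const _) ?_ ?_
    · intro n
      exact (measurable_integrand hgm (sc n)).aestronglyMeasurable
    · intro n
      exact Eventually.of_forall fun p => abs_integrand_le hg1 _ _ _
    · refine Eventually.of_forall fun p => ?_
      exact (tendsto_kap _ _).inner tendsto_const_nhds
  have h2 : ∀ n, ∫ p, ⟪kap (sc n) (p.2 - p.1) (g p.1), g p.2⟫ ∂(ν.prod ν) =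
      2 * ∫ x in A, ∫ y in A, rhoN (sc n) ‖x - y‖ := by
    intro n
    rw [← double_formula ν hgm hg1 hb hrep (sc_pos n), integral_prod]
    exact Integrable.of_bound (measurable_integrand hgm (sc n)).aestronglyMeasurable 1
      (Eventually.of_forall fun p => abs_integrand_le hg1 _ _ _)
  simp_rw [h2] at h1
  have h3 := (tendsto_double_rho hA hb).const_mul 2
  rw [tendsto_nhds_unique h1 h3]
  ring

end

end Crest.Agent.R241.LP685
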