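import Mathlib
import Crest.Agent.R241.LP4

/-! Row 241, block L-P (helper685), part 5: an open set whose frontier is `μHE[1]`-null in a
connected open set of the plane is null or conull there. -/

set_option autoImplicit false
set_option linter.unusedSectionVars false
open MeasureTheory MeasureTheory.Measure Metric Filter Set Module TopologicalSpace
open scoped NNReal ENNReal Topology RealInnerProductSpace ContDiff

noncomputable section

namespace Crest.Agent.R241.LP685

theorem volume_coord_null {N : Set ℝ} (hN : volume N = 0) (i : Fin 2) :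
    volume {y : E2 | y i ∈ N} = 0 := by
  have h1 : QuasiMeasurePreserving (Function.eval i : (Fin 2 → ℝ) → ℝ) volume volume :=
    quasiMeasurePreserving_eval (fun _ => (volume : Measure ℝ)) i
  have h2 := (PiLp.volume_preserving_ofLp (Fin 2)).quasiMeasurePreserving
  exact (h1.comp h2).preimage_null hN

theorem volume_proj_null {F : Set E2} (hF : μHE[1] F = 0) (i : Fin 2) :
    volume ((fun y : E2 => y i) '' F) = 0 := by
  have hL : LipschitzOnWith 1 (fun y : E2 => y i) F := by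
    refine LipschitzOnWith.of_dist_le_mul fun x _ y _ => ?_
    rw [Real.dist_eq, dist_eq_norm, NNReal.coe_one, one_mul]
    exact PiLp.norm_apply_le (x - y) i
  have h := AF.muHE_image_le hL 1
  rw [hF, mul_zero] at h
  have h2 : (μHE[1] : Measure ℝ) = volume := by
    have := InnerProductSpace.euclideanHausdorffMeasure_eq_volume (V := ℝ)
    rwa [Module.finrank_self] at this
  rw [← h2]
  exact nonpos_iff_eq_zero.1 h

/-- point with given coordinates -/
def pt (a b : ℝ) : E2 := WithLp.toLp 2 ![a, b]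

@[simp] theorem pt_zero (a b : ℝ) : (pt a b) 0 = a := rfl
@[simp] theorem pt_one (a b : ℝ) : (pt a b) 1 = b := rfl

theorem pt_eta (y : E2) : pt (y 0) (y 1) = y := by
  ext i; fin_cases i <;> rfl

theorem continuous_pt : Continuous fun p : ℝ × ℝ => pt p.1 p.2 := by
  refine (PiLp.continuous_toLp 2 _).comp ?_
  refine continuous_pi fun i => ?_
  fin_cases i
  · exact continuous_fst
  · exact continuous_snd

/-- the open square -/
def sq (x : E2) (δ : ℝ) : Set E2 := {y | |y 0 - x 0| < δ ∧ |y 1 - x 1| < δ}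

theorem isOpen_sq (x : E2) (δ : ℝ) : IsOpen (sq x δ) := by
  have h0 : Continuous fun y : E2 => |y 0 - x 0| := by fun_prop
  have h1 : Continuous fun y : E2 => |y 1 - x 1| := by fun_prop
  exact (isOpen_lt h0 continuous_const).inter (isOpen_lt h1 continuous_const)

theorem mem_sq_self (x : E2) {δ : ℝ} (hδ : 0 < δ) : x ∈ sq x δ := by
  simp [sq, hδ]

theorem sq_subset_ball (x : E2) {δ : ℝ} : sq x δ ⊆ ball x (2 * δ) := by
  rintro y ⟨h0, h1⟩
  have hδ : 0 < δ := (abs_nonneg _).trans_lt h0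
  rw [mem_ball, dist_eq_norm]
  have h2 : ‖y - x‖ ^ 2 < (2 * δ) ^ 2 := by
    rw [nsq]
    simp only [PiLp.sub_apply]
    rw [← sq_abs (y 0 - x 0), ← sq_abs (y 1 - x 1)]
    have a0 := abs_nonneg (y 0 - x 0)
    have a1 := abs_nonneg (y 1 - x 1)
    nlinarith
  exact lt_of_pow_lt_pow_left₀ 2 (by positivity) h2

/-- sides along a segment -/
theorem side_line {A : Set E2} (hA : IsOpen A) {c : ℝ → E2} (hc : Continuous c) {a b : ℝ}
    (h : ∀ t ∈ uIcc a b, c t ∉ frontier A) : c a ∈ A ↔ c b ∈ A := by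
  have hG : IsOpen (c ⁻¹' A) := hA.preimage hc
  rcases le_total a b with hab | hab
  · exact E1.side_eq hG hab fun t ht hf => h t (by rwa [uIcc_of_le hab])
      (hc.frontier_preimage_subset A hf)
  · exact (E1.side_eq hG hab fun t ht hf => h t (by rwa [uIcc_of_ge hab])
      (hc.frontier_preimage_subset A hf)).symm

theorem sep_local {A : Set E2} (hA : IsOpen A) {x : E2} {δ : ℝ} (hδ : 0 < δ)
    (h0 : μHE[1] (frontier A ∩ sq x δ) = 0) :
    volume (A ∩ sq x δ) = 0 ∨ volume (sq x δ \ A) = 0 := by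
  set F := frontier A ∩ sq x δ with hF
  have hN0 := volume_proj_null h0 0
  have hN1 := volume_proj_null h0 1
  -- a good horizontal line
  obtain ⟨s, hs1, hs2⟩ : ∃ s, s ∈ Ioo (x 1 - δ) (x 1 + δ) ∧ s ∉ (fun y : E2 => y 1) '' F := by
    by_contra hcon
    push Not at hcon
    have h1 : volume (Ioo (x 1 - δ) (x 1 + δ)) ≤ 0 := by
      rw [← hN1]; exact measure_mono fun s hs => hcon s hs
    rw [Real.volume_Ioo, nonpos_iff_eq_zero, ENNReal.ofReal_eq_zero] at h1
    linarith
  have key : ∀ y ∈ sq x δ, y 0 ∉ (fun y : E2 => y 0) '' F → (y ∈ A ↔ pt (x 0) s ∈ A) := by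
    rintro y ⟨hy0, hy1⟩ hyN
    rw [abs_lt] at hy0 hy1
    have e1 : pt (y 0) (y 1) ∈ A ↔ pt (y 0) s ∈ A := by
      refine side_line hA (c := fun t => pt (y 0) t)
        (continuous_pt.comp (continuous_const.prodMk continuous_id)) fun t ht hf => hyN ?_
      refine ⟨pt (y 0) t, ⟨hf, ?_, ?_⟩, rfl⟩
      · rw [pt_zero, abs_lt]; exact hy0
      · rw [pt_one, abs_lt]
        have h3 : t ∈ Ioo (x 1 - δ) (x 1 + δ) :=
          (Set.ordConnected_Ioo).uIcc_subset ⟨by linarith, by linarith⟩ hs1 ht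
        constructor <;> linarith [h3.1, h3.2]
    have e2 : pt (y 0) s ∈ A ↔ pt (x 0) s ∈ A := by
      refine side_line hA (c := fun t => pt t s)
        (continuous_pt.comp (continuous_id.prodMk continuous_const)) fun t ht hf => hs2 ?_
      refine ⟨pt t s, ⟨hf, ?_, ?_⟩, rfl⟩
      · rw [pt_zero, abs_lt]
        have h3 : t ∈ Ioo (x 0 - δ) (x 0 + δ) :=
          (Set.ordConnected_Ioo).uIcc_subset ⟨by linarith, by linarith⟩
            ⟨by linarith, by linarith⟩ ht
        constructor <;> linarith [h3.1, h3.2]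
      · rw [pt_one, abs_lt]
        constructor <;> linarith [hs1.1, hs1.2]
    rw [pt_eta] at e1
    exact e1.trans e2
  by_cases hx : pt (x 0) s ∈ A
  · right
    refine measure_mono_null (fun y hy => ?_) (volume_coord_null hN0 0)
    by_contra hyN
    exact hy.2 ((key y hy.1 hyN).2 hx)
  · left
    refine measure_mono_null (fun y hy => ?_) (volume_coord_null hN0 0)
    by_contra hyN
    exact hx ((key y hy.2 hyN).1 hy.1)

theorem sep {A Ω : Set E2} (hA : IsOpen A) (hΩ : IsOpen Ω) (hc : IsPreconnected Ω)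
    (h0 : μHE[1] (frontier A ∩ Ω) = 0) : volume (A ∩ Ω) = 0 ∨ volume (Ω \ A) = 0 := by
  set U1 : Set E2 := {x | ∃ δ > 0, volume (A ∩ sq x δ) = 0} with hU1
  set U2 : Set E2 := {x | ∃ δ > 0, volume (sq x δ \ A) = 0} with hU2
  have hsub : ∀ {x y : E2} {δ : ℝ}, y ∈ sq x (δ / 2) → sq y (δ / 2) ⊆ sq x δ := by
    rintro x y δ ⟨h1, h2⟩ z ⟨h3, h4⟩
    rw [abs_lt] at h1 h2 h3 h4
    refine ⟨?_, ?_⟩ <;> rw [abs_lt] <;> constructor <;> linarith
  have o1 : IsOpen U1 := by
    rw [isOpen_iff_mem_nhds]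
    rintro x ⟨δ, hδ, hx⟩
    filter_upwards [(isOpen_sq x (δ / 2)).mem_nhds (mem_sq_self x (half_pos hδ))] with y hy
    exact ⟨δ / 2, half_pos hδ, measure_mono_null (inter_subset_inter_right _ (hsub hy)) hx⟩
  have o2 : IsOpen U2 := by
    rw [isOpen_iff_mem_nhds]
    rintro x ⟨δ, hδ, hx⟩
    filter_upwards [(isOpen_sq x (δ / 2)).mem_nhds (mem_sq_self x (half_pos hδ))] with y hy
    exact ⟨δ / 2, half_pos hδ, measure_mono_null (sdiff_subset_sdiff_left (hsub hy)) hx⟩
  have hcov : Ω ⊆ U1 ∪ U2 := by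
    intro x hx
    obtain ⟨δ, hδ, hball⟩ := Metric.isOpen_iff.1 hΩ x hx
    have h1 : sq x (δ / 2) ⊆ Ω := (sq_subset_ball x).trans (by
      rw [mul_div_cancel₀ _ (two_ne_zero' ℝ)]; exact hball)
    have h2 : μHE[1] (frontier A ∩ sq x (δ / 2)) = 0 :=
      measure_mono_null (inter_subset_inter_right _ h1) h0
    rcases sep_local hA (half_pos hδ) h2 with h | h
    · exact Or.inl ⟨_, half_pos hδ, h⟩
    · exact Or.inr ⟨_, half_pos hδ, h⟩
  have hdis : ∀ x, x ∈ U1 → x ∈ U2 → False := by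
    rintro x ⟨δ1, h1, h2⟩ ⟨δ2, h3, h4⟩
    have h5 : volume (sq x (min δ1 δ2)) = 0 := by
      have hm1 : sq x (min δ1 δ2) ⊆ sq x δ1 := fun y hy =>
        ⟨hy.1.trans_le (min_le_left _ _), hy.2.trans_le (min_le_left _ _)⟩
      have hm2 : sq x (min δ1 δ2) ⊆ sq x δ2 := fun y hy =>
        ⟨hy.1.trans_le (min_le_right _ _), hy.2.trans_le (min_le_right _ _)⟩
      refine measure_mono_null (t := (A ∩ sq x δ1) ∪ (sq x δ2 \ A)) (fun y hy => ?_)
        (measure_union_null h2 h4)
      by_cases hyA : y ∈ A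
      · exact Or.inl ⟨hyA, hm1 hy⟩
      · exact Or.inr ⟨hm2 hy, hyA⟩
    have h6 := (isOpen_sq x (min δ1 δ2)).measure_pos volume
      ⟨x, mem_sq_self x (lt_min h1 h3)⟩
    exact h6.ne' h5
  by_cases hne1 : (Ω ∩ U1).Nonempty
  · by_cases hne2 : (Ω ∩ U2).Nonempty
    · obtain ⟨x, -, hx1, hx2⟩ := hc U1 U2 o1 o2 hcov hne1 hne2
      exact (hdis x hx1 hx2).elim
    · left
      refine measure_null_of_locally_null _ fun x hx => ?_
      have hx1 : x ∈ U1 := (hcov hx.2).resolve_right fun h => hne2 ⟨x, hx.2, h⟩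
      obtain ⟨δ, hδ, h⟩ := hx1
      refine ⟨A ∩ sq x δ, ?_, h⟩
      refine mem_nhdsWithin.2 ⟨sq x δ, isOpen_sq x δ, mem_sq_self x hδ, ?_⟩
      rintro y ⟨hy1, hy2⟩
      exact ⟨hy2.1, hy1⟩
  · right
    refine measure_null_of_locally_null _ fun x hx => ?_
    have hx1 : x ∈ U2 := (hcov hx.1).resolve_left fun h => hne1 ⟨x, hx.1, h⟩
    obtain ⟨δ, hδ, h⟩ := hx1
    refine ⟨sq x δ \ A, ?_, h⟩
    refine mem_nhdsWithin.2 ⟨sq x δ, isOpen_sq x δ, mem_sq_self x hδ, ?_⟩
    rintro y ⟨hy1, hy2⟩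
    exact ⟨hy1, hy2.2⟩

/-- half planes on which the boundary is null are disjoint from a bounded open set -/
theorem halfplane {A : Set E2} (hA : IsOpen A) (hb : Bornology.IsBounded A) {u c : E2}
    (hu : u ≠ 0) {ρ : ℝ} (h0 : μHE[1] (frontier A ∩ {y | ρ < ⟪u, y - c⟫}) = 0) :
    ∀ y ∈ A, ⟪u, y - c⟫ ≤ ρ := by
  intro y hy
  by_contra hlt
  push Not at hlt
  set H : Set E2 := {y | ρ < ⟪u, y - c⟫} with hH
  have hHo : IsOpen H := isOpen_lt continuous_const (by fun_prop)
  have hHc : Convex ℝ H := by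
    have h1 : H = (innerSL ℝ u : E2 →L[ℝ] ℝ) ⁻¹' (Ioi (ρ + ⟪u, c⟫)) := by
      ext z
      simp only [hH, mem_ofPred_eq, mem_preimage, mem_Ioi, innerSL_apply_apply, inner_sub_right]
      constructor <;> intro h <;> linarith
    rw [h1]
    exact (convex_Ioi _).linear_preimage (innerSL ℝ u : E2 →L[ℝ] ℝ).toLinearMap
  rcases sep hA hHo hHc.isPreconnected h0 with h | h
  · exact ((hA.inter hHo).measure_pos volume ⟨y, hy, hlt⟩).ne' h
  · obtain ⟨R, hR0, hR⟩ := hb.subset_closedBall_lt 0 c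
    have hupos : 0 < ‖u‖ := norm_pos_iff.2 hu
    set M : ℝ := (|ρ| / ‖u‖ + R) / ‖u‖ + 1 with hM
    have hMpos : 0 < M := by positivity
    have h2 : c + M • u ∈ H ∩ (closedBall c R)ᶜ := by
      have hMu : M * ‖u‖ = |ρ| / ‖u‖ + R + ‖u‖ := by
        rw [hM]; field_simp
      constructor
      · simp only [hH, mem_ofPred_eq, add_sub_cancel_left, inner_smul_right,
          real_inner_self_eq_norm_sq]
        have h5 : M * ‖u‖ ^ 2 = |ρ| + (R + ‖u‖) * ‖u‖ := by
          calc M * ‖u‖ ^ 2 = (M * ‖u‖) * ‖u‖ := by ring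
            _ = _ := by rw [hMu]; field_simp; ring
        rw [h5]
        have h6 : 0 < (R + ‖u‖) * ‖u‖ := by positivity
        have := le_abs_self ρ
        linarith
      · rw [mem_compl_iff, mem_closedBall, not_le, dist_eq_norm, add_sub_cancel_left, norm_smul,
          Real.norm_of_nonneg hMpos.le, hMu]
        have : 0 ≤ |ρ| / ‖u‖ := by positivity
        linarith
    have h3 := (hHo.inter (isClosed_closedBall (x := c) (ε := R)).isOpen_compl).measure_pos
      volume ⟨_, h2⟩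
    have h4 : H ∩ (closedBall c R)ᶜ ⊆ H \ A := fun z hz => ⟨hz.1, fun hzA => hz.2 (hR hzA)⟩
    exact h3.ne' (measure_mono_null h4 h)

end Crest.Agent.R241.LP685
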