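import Mathlib
import Crest.Prelude.Def_Submanifold

/-!
R241, block L (surface case `n = 2` of S0372 and S0373, owner helper631): independent sub-targets.
-/

set_option autoImplicit false

open MeasureTheory Set Filter Topology
open Crest.GeometryTopology.Submanifold (Euc)

namespace Crest.Agent.R241.LTargets

/-- equality case of the planar isoperimetric inequality for open sets with boundary of finite
length (OPEN for takers). -/
def PlanarEq : Prop :=
  ∀ (A : Set (Euc 2)) (r : ℝ), IsOpen A → Bornology.IsBounded A → 0 < r →
    volume A = ENNReal.ofReal (Real.pi * r ^ 2) →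
    Measure.euclideanHausdorffMeasure 1 (frontier A) ≤ ENNReal.ofReal (2 * Real.pi * r) →
    ∃ c : Euc 2, volume (symmDiff A (Metric.ball c r)) = 0

end Crest.Agent.R241.LTargets
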