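import Mathlib
import Crest.Agent.R241.LP5
import Crest.Agent.R241.LTargets

/-! Row 241, block L-P (helper685), part 6: equality case of the planar isoperimetric inequality. -/

set_option autoImplicit false
set_option linter.unusedSectionVars false
open MeasureTheory MeasureTheory.Measure Metric Filter Set Module TopologicalSpace
open scoped NNReal ENNReal Topology RealInnerProductSpace ContDiff

noncomputable section

namespace Crest.Agent.R241.LP685

theorem kap_zero_coord (z w : E2) (i : Fin 2) :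
    (kap 0 z w) i = w i - 2 * (w 0 * z 0 + w 1 * z 1) / (z 0 ^ 2 + z 1 ^ 2) * z i := by
  simp [kap, nsq, inn]

/-- the circle equation -/
theorem circle_alg {g d z : E2} (hd : d ≠ 0) (hz : z ≠ 0) (hzd : z - d ≠ 0)
    (h : kap 0 z g = kap 0 (z - d) (kap 0 d g)) : ⟪g, d⟫ * ‖z‖ ^ 2 = ‖d‖ ^ 2 * ⟪g, z⟫ := by
  have n1 : d 0 ^ 2 + d 1 ^ 2 ≠ 0 := by
    rw [← nsq]; exact pow_ne_zero 2 (norm_ne_zero_iff.2 hd)
  have n2 : z 0 ^ 2 + z 1 ^ 2 ≠ 0 := by
    rw [← nsq]; exact pow_ne_zero 2 (norm_ne_zero_iff.2 hz)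
  have n3 : (z 0 - d 0) ^ 2 + (z 1 - d 1) ^ 2 ≠ 0 := by
    have : (z 0 - d 0) ^ 2 + (z 1 - d 1) ^ 2 = ‖z - d‖ ^ 2 := by rw [nsq]; simp
    rw [this]; exact pow_ne_zero 2 (norm_ne_zero_iff.2 hzd)
  have h0 : (kap 0 z g) 0 - (kap 0 (z - d) (kap 0 d g)) 0 = 0 := by rw [h, sub_self]
  have h1 : (kap 0 z g) 1 - (kap 0 (z - d) (kap 0 d g)) 1 = 0 := by rw [h, sub_self]
  simp only [kap_zero_coord, PiLp.sub_apply] at h0 h1
  rw [nsq, nsq, inn, inn]
  generalize z 0 = a at *
  generalize z 1 = b at *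
  generalize d 0 = p at *
  generalize d 1 = q at *
  generalize g 0 = u at *
  generalize g 1 = v at *
  -- multiply by `conj z * conj (z - d) * d`
  have key : -2 * ((u * p + v * q) * (a ^ 2 + b ^ 2) - (p ^ 2 + q ^ 2) * (u * a + v * b)) =
      (u - 2 * (u * a + v * b) / (a ^ 2 + b ^ 2) * a -
        (u - 2 * (u * p + v * q) / (p ^ 2 + q ^ 2) * p -
          2 * ((u - 2 * (u * p + v * q) / (p ^ 2 + q ^ 2) * p) * (a - p) +
            (v - 2 * (u * p + v * q) / (p ^ 2 + q ^ 2) * q) * (b - q)) /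
            ((a - p) ^ 2 + (b - q) ^ 2) * (a - p))) *
        ((a * (a - p) - b * (b - q)) * p + (a * (b - q) + b * (a - p)) * q) -
      (v - 2 * (u * a + v * b) / (a ^ 2 + b ^ 2) * b -
        (v - 2 * (u * p + v * q) / (p ^ 2 + q ^ 2) * q -
          2 * ((u - 2 * (u * p + v * q) / (p ^ 2 + q ^ 2) * p) * (a - p) +
            (v - 2 * (u * p + v * q) / (p ^ 2 + q ^ 2) * q) * (b - q)) /
            ((a - p) ^ 2 + (b - q) ^ 2) * (b - q))) *
        ((a * (a - p) - b * (b - q)) * q - (a * (b - q) + b * (a - p)) * p) := by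
    field_simp
    ring
  rw [h0, h1] at key
  linarith

/-- equality in the reflection inequality -/
theorem eq_of_inner_eq_one {a b : E2} (ha : ‖a‖ ≤ 1) (hb : ‖b‖ ≤ 1) (h : ⟪a, b⟫ = 1) :
    a = b ∧ ‖b‖ = 1 := by
  have h1 : ‖a - b‖ ^ 2 ≤ 0 := by
    rw [norm_sub_sq_real, h]
    nlinarith [norm_nonneg a, norm_nonneg b]
  have h2 : a - b = 0 := by
    have : ‖a - b‖ = 0 := by
      have := sq_nonneg ‖a - b‖
      exact pow_eq_zero_iff two_ne_zero |>.1 (le_antisymm h1 this)
    exact norm_eq_zero.1 this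
  have h3 : a = b := sub_eq_zero.1 h2
  refine ⟨h3, ?_⟩
  rw [h3, real_inner_self_eq_norm_sq] at h
  nlinarith [norm_nonneg b]

theorem open_null_empty {U : Set E2} (hU : IsOpen U) (h : volume U = 0) : U = ∅ :=
  hU.measure_eq_zero_iff volume |>.1 h

theorem planarEq : LTargets.PlanarEq := by
  intro A r hA hb hr hvol hper
  have hfin : μHE[1] (frontier A) ≠ ⊤ := ne_top_of_le_ne_top ENNReal.ofReal_ne_top hper
  obtain ⟨g, hgm, hg1, hg0⟩ := exists_normal (n := 1) hA hfin
  set ν : Measure E2 := μHE[1].restrict (frontier A) with hν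
  have hνf : IsFiniteMeasure ν := ⟨by rw [hν, restrict_apply_univ]; exact hfin.lt_top⟩
  have hrep : ∀ (η : E2 → ℝ) (v : E2), ContDiff ℝ 1 η →
      ∫ x in A, fderiv ℝ η x v = ∫ x, η x * ⟪v, g x⟫ ∂ν := fun η v hη =>
    normal_of_bounded μHE[1] hA hb hg0 hη v
  have hD := double_formula_zero ν hgm hg1 hA hb hrep
  have hvolr : volume.real A = Real.pi * r ^ 2 := by
    rw [Measure.real, hvol, ENNReal.toReal_ofReal (by positivity)]
  rw [hvolr] at hD
  have hνr : ν.real univ ≤ 2 * Real.pi * r := by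
    rw [Measure.real, hν, restrict_apply_univ]
    exact ENNReal.toReal_le_of_le_ofReal (by positivity) hper
  have hν0 : 0 ≤ ν.real univ := measureReal_nonneg
  -- the integrand equals one
  set F : E2 × E2 → ℝ := fun p => ⟪kap 0 (p.2 - p.1) (g p.1), g p.2⟫ with hF
  have hFi : Integrable F (ν.prod ν) :=
    Integrable.of_bound (measurable_integrand hgm 0).aestronglyMeasurable 1
      (Eventually.of_forall fun p => abs_integrand_le hg1 _ _ _)
  have hFle : ∀ p, F p ≤ 1 := fun p => (le_abs_self _).trans (abs_integrand_le hg1 _ _ _)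
  have hint : ∫ p, (1 - F p) ∂(ν.prod ν) ≤ 0 := by
    rw [integral_sub (integrable_const _) hFi, hD, integral_const, smul_eq_mul, mul_one]
    have h1 : (ν.prod ν).real univ = ν.real univ * ν.real univ := by
      rw [← univ_prod_univ, measureReal_prod_prod]
    rw [h1]
    nlinarith [Real.pi_pos]
  have hae : ∀ᵐ p ∂(ν.prod ν), F p = 1 := by
    have h1 := (integral_eq_zero_iff_of_nonneg (fun p => sub_nonneg.2 (hFle p))
      ((integrable_const _).sub hFi)).1
      (le_antisymm hint (integral_nonneg fun p => sub_nonneg.2 (hFle p)))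
    filter_upwards [h1] with p hp
    simp only [Pi.zero_apply] at hp
    linarith
  have hae2 : ∀ᵐ y ∂ν, ∀ᵐ x ∂ν, F (y, x) = 1 := ae_ae_of_ae_prod hae
  have hνne : ν ≠ 0 := by
    intro h0
    rw [h0] at hD
    have : (∫ p, F p ∂((0 : Measure E2).prod (0 : Measure E2))) = 0 := by simp
    rw [this] at hD
    have : 0 < 4 * Real.pi * (Real.pi * r ^ 2) := by positivity
    linarith
  have hNB : NeBot (ae ν) := ae_neBot.2 hνne
  have hatom : ∀ y, ∀ᵐ x ∂ν, x ≠ y := by
    intro y
    rw [ae_iff]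
    have h1 : {x : E2 | ¬ x ≠ y} = {y} := by ext x; simp
    rw [h1]
    have h2 : μHE[1] ({y} : Set E2) = 0 := by
      rcases euclideanHausdorffMeasure_zero_or_top (d₁ := 0) (d₂ := 1) one_pos ({y} : Set E2) with
        h | h
      · exact h
      · rw [euclideanHausdorffMeasure_zero] at h
        simp only [hausdorffMeasure_zero_singleton] at h
        exact absurd h ENNReal.one_ne_top
    exact le_antisymm ((restrict_apply_le _ _).trans h2.le) (by simp)
  obtain ⟨y0, hy0⟩ := hae2.exists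
  obtain ⟨y1, hy1, hy01, hyne⟩ := (hae2.and (hy0.and (hatom y0))).exists
  have hk : ∀ y x, ‖kap 0 (x - y) (g y)‖ ≤ 1 := fun y x => (norm_kap_le _ _ _).trans (hg1 y)
  obtain ⟨hg10, hg1n⟩ := eq_of_inner_eq_one (hk y0 y1) (hg1 y1) hy01
  have hg0n : ‖g y0‖ = 1 := by
    refine le_antisymm (hg1 y0) ?_
    rw [← hg1n, ← hg10]
    exact norm_kap_le _ _ _
  set d : E2 := y1 - y0 with hd
  have hd0 : d ≠ 0 := sub_ne_zero.2 hyne
  set C : Set E2 := {x | ⟪g y0, d⟫ * ‖x - y0‖ ^ 2 = ‖d‖ ^ 2 * ⟪g y0, x - y0⟫} with hC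
  have haeC : ∀ᵐ x ∂ν, x ∈ C := by
    filter_upwards [hy0, hy1, hatom y0, hatom y1] with x hx0 hx1 hxn0 hxn1
    obtain ⟨e0, -⟩ := eq_of_inner_eq_one (hk y0 x) (hg1 x) hx0
    obtain ⟨e1, -⟩ := eq_of_inner_eq_one (hk y1 x) (hg1 x) hx1
    have hzd : x - y0 - d = x - y1 := by rw [hd]; abel
    refine circle_alg hd0 (sub_ne_zero.2 hxn0) (by rw [hzd]; exact sub_ne_zero.2 hxn1) ?_
    rw [hzd, e0, hg10, e1]
  have hCm : MeasurableSet C := by
    refine (isClosed_eq ?_ ?_).measurableSet <;> fun_prop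
  have hnull : ∀ Ω : Set E2, Disjoint Ω C → μHE[1] (frontier A ∩ Ω) = 0 := by
    intro Ω hΩ
    rw [ae_iff] at haeC
    have h1 : {a | a ∉ C} = Cᶜ := rfl
    rw [h1, hν, restrict_apply hCm.compl] at haeC
    have h2 : frontier A ∩ Ω ⊆ Cᶜ ∩ frontier A := fun x hx =>
      ⟨Set.disjoint_left.1 hΩ hx.2, hx.1⟩
    exact measure_mono_null h2 haeC
  have hvolpos : volume A ≠ 0 := by
    rw [hvol]
    have : 0 < Real.pi * r ^ 2 := by positivity
    simpa using this
  have hAne : A.Nonempty := by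
    rw [nonempty_iff_ne_empty]
    rintro rfl
    exact hvolpos measure_empty
  by_cases hcase : ⟪g y0, d⟫ = 0
  · -- the line case
    exfalso
    have hg00 : g y0 ≠ 0 := by
      intro h; rw [h, norm_zero] at hg0n; norm_num at hg0n
    have hd2 : ‖d‖ ^ 2 ≠ 0 := pow_ne_zero 2 (norm_ne_zero_iff.2 hd0)
    have hCl : ∀ x, x ∈ C → ⟪g y0, x - y0⟫ = 0 := by
      intro x hx
      have hx' : ⟪g y0, d⟫ * ‖x - y0‖ ^ 2 = ‖d‖ ^ 2 * ⟪g y0, x - y0⟫ := hx
      rw [hcase, zero_mul] at hx'
      exact (mul_eq_zero.1 hx'.symm).resolve_left hd2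
    have hle : ∀ x ∈ A, ⟪g y0, x - y0⟫ ≤ 0 := by
      refine halfplane hA hb hg00 (hnull _ ?_)
      rw [Set.disjoint_left]
      intro x hx hxC
      have h1 : (0 : ℝ) < ⟪g y0, x - y0⟫ := hx
      rw [hCl x hxC] at h1
      exact lt_irrefl _ h1
    have hge : ∀ x ∈ A, ⟪-g y0, x - y0⟫ ≤ 0 := by
      refine halfplane hA hb (neg_ne_zero.2 hg00) (hnull _ ?_)
      rw [Set.disjoint_left]
      intro x hx hxC
      have h1 : (0 : ℝ) < ⟪-g y0, x - y0⟫ := hx
      rw [inner_neg_left, hCl x hxC] at h1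
      simp at h1
    obtain ⟨x, hx⟩ := hAne
    have h1 : Tendsto (fun t : ℝ => x + t • g y0) (𝓝[>] 0) (𝓝 x) := by
      have : Continuous fun t : ℝ => x + t • g y0 := by fun_prop
      have h2 := this.tendsto 0
      rw [zero_smul, add_zero] at h2
      exact h2.mono_left nhdsWithin_le_nhds
    obtain ⟨t, ht1, ht2⟩ := ((h1.eventually (hA.mem_nhds hx)).and self_mem_nhdsWithin).exists
    have ht2' : 0 < t := ht2
    have h3 := hle _ ht1
    have h4 := hge _ hx
    have h5 : x + t • g y0 - y0 = (x - y0) + t • g y0 := by abel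
    rw [h5, inner_add_right, inner_smul_right, real_inner_self_eq_norm_sq, hg0n] at h3
    rw [inner_neg_left] at h4
    linarith
  · -- the circle case
    set lam : ℝ := ‖d‖ ^ 2 / (2 * ⟪g y0, d⟫) with hlam
    set c : E2 := y0 + lam • g y0 with hc
    set ρ : ℝ := |lam| with hρ
    have hdpos : 0 < ‖d‖ := norm_pos_iff.2 hd0
    have hlam0 : lam ≠ 0 := by rw [hlam]; positivity
    have hρpos : 0 < ρ := abs_pos.2 hlam0
    have hCs : ∀ x, x ∈ C → dist x c = ρ := by
      intro x hx
      have hx' : ⟪g y0, d⟫ * ‖x - y0‖ ^ 2 = ‖d‖ ^ 2 * ⟪g y0, x - y0⟫ := hx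
      have h1 : ‖x - c‖ ^ 2 = ρ ^ 2 := by
        have h2 : x - c = (x - y0) - lam • g y0 := by rw [hc]; abel
        rw [h2, norm_sub_sq_real, norm_smul, inner_smul_right, real_inner_comm, hg0n, hρ,
          Real.norm_eq_abs, mul_one]
        have h3 : ‖x - y0‖ ^ 2 = 2 * (lam * ⟪g y0, x - y0⟫) := by
          rw [hlam]
          field_simp
          linarith
        rw [h3]; ring
      rw [dist_eq_norm]
      exact (pow_left_inj₀ (norm_nonneg _) hρpos.le two_ne_zero).1 h1
    -- the exterior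
    have hext : A ⊆ closedBall c ρ := by
      intro x hx
      by_contra hxc
      rw [mem_closedBall, not_le] at hxc
      have hxc0 : x - c ≠ 0 := by
        intro h
        rw [dist_eq_norm, h, norm_zero] at hxc
        linarith
      have hn : 0 < ‖x - c‖ := norm_pos_iff.2 hxc0
      have h1 := halfplane (c := c) (u := x - c) (ρ := ρ * ‖x - c‖) hA hb hxc0 (hnull _ (by
        rw [Set.disjoint_left]
        intro y hy hyC
        have h1 : ρ * ‖x - c‖ < ⟪x - c, y - c⟫ := hy
        have h2 := real_inner_le_norm (x - c) (y - c)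
        have h3 := hCs y hyC
        rw [dist_eq_norm] at h3
        rw [h3] at h2
        linarith)) x hx
      rw [real_inner_self_eq_norm_sq] at h1
      rw [dist_eq_norm] at hxc
      nlinarith
    -- the interior
    have hint2 := sep hA (isOpen_ball (x := c) (ε := ρ)) (convex_ball c ρ).isPreconnected
      (hnull _ (by
        rw [Set.disjoint_left]
        intro y hy hyC
        have h3 := hCs y hyC
        rw [mem_ball, h3] at hy
        exact lt_irrefl _ hy))
    have hsph : volume (sphere c ρ) = 0 := addHaar_sphere volume c ρ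
    have hAs : A \ ball c ρ ⊆ sphere c ρ := by
      intro x hx
      have h1 := hext hx.1
      have h2 := hx.2
      rw [mem_closedBall] at h1
      rw [mem_ball, not_lt] at h2
      exact le_antisymm h1 h2
    have hAnull : volume (A \ ball c ρ) = 0 := measure_mono_null hAs hsph
    have hball : volume (ball c ρ \ A) = 0 := by
      rcases hint2 with h | h
      · exfalso
        apply hvolpos
        have : A = (A ∩ ball c ρ) ∪ (A \ ball c ρ) := (inter_union_sdiff A _).symm
        rw [this]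
        exact measure_union_null h hAnull
      · exact h
    have hsymm : volume (symmDiff A (ball c ρ)) = 0 := by
      rw [Set.symmDiff_def]
      exact measure_union_null hAnull hball
    have hrρ : r = ρ := by
      have h1 : volume A = volume (ball c ρ) :=
        measure_congr (measure_symmDiff_eq_zero_iff.1 hsymm)
      rw [hvol, EuclideanSpace.volume_ball_fin_two, ← ENNReal.ofReal_pow hρpos.le,
        ← ENNReal.ofReal_mul (by positivity),
        ENNReal.ofReal_eq_ofReal_iff (by positivity) (by positivity)] at h1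
      have h2 : r ^ 2 = ρ ^ 2 := by
        have := Real.pi_pos
        have h3 : Real.pi * (r ^ 2 - ρ ^ 2) = 0 := by linarith
        have := (mul_eq_zero.1 h3).resolve_left this.ne'
        linarith
      exact (pow_left_inj₀ hr.le hρpos.le two_ne_zero).1 h2
    exact ⟨c, by rw [hrρ]; exact hsymm⟩

end Crest.Agent.R241.LP685
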