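import Crest.Agent.R241.LTargets
import Crest.Agent.R241.E1c
import Crest.Agent.R241.G1b

/-!
R241, block L-P (helper861): equality case of the planar isoperimetric inequality.
Part a: the measure theoretic outer normal of an open set with boundary of finite length.
-/

set_option autoImplicit false

open MeasureTheory MeasureTheory.Measure Metric Filter Set Topology
open scoped NNReal ENNReal RealInnerProductSpace
open Crest.GeometryTopology.Submanifold (Euc)

noncomputable section

namespace Crest.Agent.R241.LPx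

open G1

/-- bounded Lipschitz functions as a submodule -/
def BLs : Submodule ℝ (Euc 2 → ℝ) where
  carrier := {f | BL f}
  add_mem' := fun hf hg => BL.add hf hg
  zero_mem' := BL.zero
  smul_mem' := fun c _ hf => BL.smul hf c

/-- compactly supported `C¹` functions -/
def Cs : Submodule ℝ BLs where
  carrier := {f | ContDiff ℝ 1 f.1 ∧ HasCompactSupport f.1}
  add_mem' := fun hf hg => ⟨hf.1.add hg.1, hf.2.add hg.2⟩
  zero_mem' := ⟨contDiff_const, HasCompactSupport.zero⟩
  smul_mem' := fun c f hf => ⟨contDiff_const.smul hf.1, hf.2.smul_left (f := fun _ => c)⟩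

theorem BL_of_contDiff {η : Euc 2 → ℝ} (hη : ContDiff ℝ 1 η) (hc : HasCompactSupport η) :
    BL η := by
  refine ⟨?_, ?_⟩
  · exact ⟨_, (hη.lipschitzWith_of_hasCompactSupport hc (by simp)).choose_spec⟩
  · obtain ⟨C, hC⟩ := hη.continuous.bounded_above_of_compact_support hc
    exact ⟨C, fun x => by simpa using hC x⟩

variable {A : Set (Euc 2)}

/-- length measure on the boundary -/
def tau (A : Set (Euc 2)) : Measure (Euc 2) := (μHE[1] : Measure (Euc 2)).restrict (frontier A)

theorem isFinite_tau (hfin : μHE[1] (frontier A) ≠ ∞) : IsFiniteMeasure (tau A) :=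
  ⟨by rw [tau, Measure.restrict_apply_univ]; exact hfin.lt_top⟩

theorem integrable_fderiv {η : Euc 2 → ℝ} (hη : ContDiff ℝ 1 η) (hb : Bornology.IsBounded A)
    (v : Euc 2) : IntegrableOn (fun x => fderiv ℝ η x v) A := by
  obtain ⟨R, hR⟩ := hb.subset_closedBall 0
  have hc : Continuous (fun x => fderiv ℝ η x v) :=
    (hη.continuous_fderiv (by simp)).clm_apply continuous_const
  exact (hc.continuousOn.integrableOn_compact (isCompact_closedBall _ _)).mono_set hR

theorem directional' (hA : IsOpen A) (hfin : μHE[1] (frontier A) ≠ ∞) {v : Euc 2} (hv : ‖v‖ = 1)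
    {η : Euc 2 → ℝ} (hη : ContDiff ℝ 1 η) (hc : HasCompactSupport η) :
    |∫ x in A, fderiv ℝ η x v| ≤ ∫ x, |η x| ∂(tau A) := by
  have hτ := isFinite_tau hfin
  have h1 := E1.directional (V := Euc 2) (n := 1) (by simp) hv hA
    (fun R => ne_top_of_le_ne_top hfin (measure_mono inter_subset_left)) hη hc
  have h2 : Integrable (fun x => |η x|) (tau A) := (BL_of_contDiff hη hc).abs.integrable _
  have h3 : ENNReal.ofReal (∫ x, |η x| ∂(tau A)) =
      ∫⁻ x in frontier A, ENNReal.ofReal |η x| ∂μHE[1] := by
    rw [ofReal_integral_eq_lintegral_ofReal h2 (Eventually.of_forall fun x => abs_nonneg _)]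
    rfl
  rw [← h3] at h1
  exact (ENNReal.ofReal_le_ofReal_iff (integral_nonneg fun x => abs_nonneg _)).1 h1

/-- density of the distributional derivative in a unit direction -/
theorem exists_dens (hA : IsOpen A) (hb : Bornology.IsBounded A)
    (hfin : μHE[1] (frontier A) ≠ ∞) {v : Euc 2} (hv : ‖v‖ = 1) :
    ∃ g : Euc 2 → ℝ, Measurable g ∧ (∀ x, |g x| ≤ 1) ∧
      ∀ η : Euc 2 → ℝ, ContDiff ℝ 1 η → HasCompactSupport η →
        ∫ x in A, fderiv ℝ η x v = ∫ x, η x * g x ∂(tau A) := by
  classical
  have hτ := isFinite_tau hfin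
  let Lf : BLs →ₗ.[ℝ] ℝ :=
    { domain := Cs
      toFun :=
        { toFun := fun f => ∫ x in A, fderiv ℝ f.1.1 x v
          map_add' := by
            intro f g
            rw [← integral_add (integrable_fderiv f.2.1 hb v) (integrable_fderiv g.2.1 hb v)]
            refine integral_congr_ae (Eventually.of_forall fun x => ?_)
            have h1 : DifferentiableAt ℝ f.1.1 x := (f.2.1.differentiable (by simp)) x
            have h2 : DifferentiableAt ℝ g.1.1 x := (g.2.1.differentiable (by simp)) x
            change fderiv ℝ (f.1.1 + g.1.1) x v = _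
            rw [fderiv_add h1 h2]
            rfl
          map_smul' := by
            intro c f
            rw [RingHom.id_apply, smul_eq_mul, ← integral_const_mul]
            refine integral_congr_ae (Eventually.of_forall fun x => ?_)
            have h1 : DifferentiableAt ℝ f.1.1 x := (f.2.1.differentiable (by simp)) x
            change fderiv ℝ (c • f.1.1) x v = _
            rw [fderiv_const_smul h1]
            rfl } }
  obtain ⟨g, hg1, hg2⟩ := exists_extension_of_le_sublinear Lf (fun f => ∫ x, |f.1 x| ∂(tau A))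
    (by
      intro c hc f
      rw [← integral_const_mul]
      refine integral_congr_ae (Eventually.of_forall fun x => ?_)
      change |c * f.1 x| = _
      rw [abs_mul, abs_of_pos hc])
    (by
      intro f g
      have i1 : Integrable (fun x => |f.1 x|) (tau A) := (BL.abs f.2).integrable _
      have i2 : Integrable (fun x => |g.1 x|) (tau A) := (BL.abs g.2).integrable _
      rw [← integral_add i1 i2]
      refine integral_mono ((BL.abs (BL.add f.2 g.2)).integrable _) (i1.add i2) fun x => ?_
      exact abs_add_le _ _)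
    (by
      intro f
      exact (le_abs_self _).trans (directional' hA hfin hv f.2.1 f.2.2))
  have hgabs : ∀ f : BLs, |g f| ≤ ∫ x, |f.1 x| ∂(tau A) := by
    intro f
    rw [abs_le]
    refine ⟨?_, hg2 f⟩
    have h1 := hg2 (-f)
    rw [map_neg] at h1
    have h2 : ∫ x, |(-f : BLs).1 x| ∂(tau A) = ∫ x, |f.1 x| ∂(tau A) := by
      refine integral_congr_ae (Eventually.of_forall fun x => ?_)
      change |(-f.1) x| = _
      rw [Pi.neg_apply, abs_neg]
    rw [h2] at h1
    linarith
  let L : (Euc 2 → ℝ) → ℝ := fun f => if h : BL f then g ⟨f, h⟩ else 0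
  have hL : ∀ (f) (h : BL f), L f = g ⟨f, h⟩ := fun f h => by simp only [L, h, dif_pos]
  obtain ⟨d, hd1, hd2, hd3⟩ := exists_density (tau A) L
    (by
      intro f1 f2 h1 h2
      rw [hL _ h1, hL _ h2, hL _ (h1.add h2), ← map_add]
      rfl)
    (by
      intro c f h
      rw [hL _ h, hL _ (h.smul c), ← smul_eq_mul, ← map_smul]
      rfl)
    (zero_le_one) (by
      intro f h
      rw [hL _ h, one_mul]
      exact hgabs _)
  refine ⟨d, hd1, hd2, fun η hη hc => ?_⟩
  have hBL := BL_of_contDiff hη hc
  rw [← hd3 η hBL, hL _ hBL]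
  have hmem : (⟨η, hBL⟩ : BLs) ∈ Cs := ⟨hη, hc⟩
  exact (hg1 ⟨⟨η, hBL⟩, hmem⟩).symm

/-- compactly supported test functions can be replaced by arbitrary `C¹` functions -/
theorem extend_test (hA : IsOpen A) (hb : Bornology.IsBounded A)
    {v : Euc 2} {g : Euc 2 → ℝ}
    (hg : ∀ η : Euc 2 → ℝ, ContDiff ℝ 1 η → HasCompactSupport η →
        ∫ x in A, fderiv ℝ η x v = ∫ x, η x * g x ∂(tau A))
    {η : Euc 2 → ℝ} (hη : ContDiff ℝ 1 η) :
    ∫ x in A, fderiv ℝ η x v = ∫ x, η x * g x ∂(tau A) := by
  obtain ⟨R, hR⟩ := hb.closure.subset_ball 0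
  have hR0 : 0 < R ∨ A = ∅ := by
    rcases A.eq_empty_or_nonempty with h | ⟨x, hx⟩
    · exact Or.inr h
    · left
      have := hR (subset_closure hx)
      exact lt_of_le_of_lt dist_nonneg this
  rcases hR0 with hR0 | rfl
  swap
  · simp [tau]
  let χ : ContDiffBump (0 : Euc 2) := ⟨R, R + 1, hR0, by linarith⟩
  have hχ : ContDiff ℝ 1 χ := χ.contDiff
  have h1 := hg (fun x => χ x * η x) (hχ.mul hη) χ.hasCompactSupport.mul_right
  have h2 : ∫ x in A, fderiv ℝ (fun x => χ x * η x) x v = ∫ x in A, fderiv ℝ η x v := by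
    refine setIntegral_congr_fun hA.measurableSet fun x hx => ?_
    have hev : (fun x => χ x * η x) =ᶠ[𝓝 x] η := by
      have : ball (0 : Euc 2) R ∈ 𝓝 x := isOpen_ball.mem_nhds (hR (subset_closure hx))
      filter_upwards [this] with y hy
      rw [χ.one_of_mem_closedBall (ball_subset_closedBall hy), one_mul]
    simp only [hev.fderiv_eq]
  have h3 : ∫ x, χ x * η x * g x ∂(tau A) = ∫ x, η x * g x ∂(tau A) := by
    rw [tau]
    refine setIntegral_congr_fun isClosed_frontier.measurableSet fun x hx => ?_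
    have : x ∈ ball (0 : Euc 2) R := hR (frontier_subset_closure hx)
    simp only [χ.one_of_mem_closedBall (ball_subset_closedBall this), one_mul]
  rw [← h2, h1, h3]

/-- coordinate vectors -/
def e (i : Fin 2) : Euc 2 := EuclideanSpace.single i 1

theorem norm_e (i : Fin 2) : ‖e i‖ = 1 := by simp [e]

/-- **the measure theoretic normal**. -/
theorem exists_normal (hA : IsOpen A) (hb : Bornology.IsBounded A)
    (hfin : μHE[1] (frontier A) ≠ ∞) :
    ∃ n : Fin 2 → Euc 2 → ℝ, (∀ i, Measurable (n i)) ∧ (∀ x, n 0 x ^ 2 + n 1 x ^ 2 ≤ 1) ∧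
      ∀ V : Fin 2 → Euc 2 → ℝ, (∀ i, ContDiff ℝ 1 (V i)) →
        ∫ x in A, (fderiv ℝ (V 0) x (e 0) + fderiv ℝ (V 1) x (e 1)) =
          ∫ x, (V 0 x * n 0 x + V 1 x * n 1 x) ∂(tau A) := by
  classical
  have hτ := isFinite_tau hfin
  choose! d hdm hd1 hd using fun (v : Euc 2) (hv : ‖v‖ = 1) => exists_dens hA hb hfin hv
  -- `d v = v 0 * d e₀ + v 1 * d e₁`
  have hlin : ∀ v : Euc 2, ‖v‖ = 1 →
      ∀ᵐ x ∂(tau A), d v x = v 0 * d (e 0) x + v 1 * d (e 1) x := by
    intro v hv
    have i0 : Integrable (d (e 0)) (tau A) :=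
      (BM.integrable ⟨hdm _ (norm_e 0), 1, hd1 _ (norm_e 0)⟩ _)
    have i1 : Integrable (d (e 1)) (tau A) :=
      (BM.integrable ⟨hdm _ (norm_e 1), 1, hd1 _ (norm_e 1)⟩ _)
    have iv : Integrable (d v) (tau A) := (BM.integrable ⟨hdm _ hv, 1, hd1 _ hv⟩ _)
    refine ae_eq_of_integral_contDiff_smul_eq (E := Euc 2) iv.locallyIntegrable
      ((i0.const_mul _).add (i1.const_mul _)).locallyIntegrable fun η hη hc => ?_
    have hη1 : ContDiff ℝ 1 η := hη.of_le (by simp)
    have hη2 : ContDiff ℝ 1 η := hη1
    have e1 : ∫ x, η x • d v x ∂(tau A) = ∫ x in A, fderiv ℝ η x v := (hd v hv η hη1 hc).symm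
    have hBL := BL_of_contDiff hη1 hc
    have j0 : Integrable (fun x => η x * d (e 0) x) (tau A) :=
      (hBL.bm.mul ⟨hdm _ (norm_e 0), 1, hd1 _ (norm_e 0)⟩).integrable _
    have j1 : Integrable (fun x => η x * d (e 1) x) (tau A) :=
      (hBL.bm.mul ⟨hdm _ (norm_e 1), 1, hd1 _ (norm_e 1)⟩).integrable _
    have e2 : ∫ x, η x • (v 0 * d (e 0) x + v 1 * d (e 1) x) ∂(tau A) =
        v 0 * ∫ x, η x * d (e 0) x ∂(tau A) + v 1 * ∫ x, η x * d (e 1) x ∂(tau A) := by
      rw [← integral_const_mul, ← integral_const_mul,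
        ← integral_add (j0.const_mul _) (j1.const_mul _)]
      refine integral_congr_ae (Eventually.of_forall fun x => ?_)
      simp only [smul_eq_mul]; ring
    rw [e1]
    change _ = ∫ x, η x • (v 0 * d (e 0) x + v 1 * d (e 1) x) ∂(tau A)
    rw [e2, ← hd _ (norm_e 0) η hη1 hc, ← hd _ (norm_e 1) η hη1 hc, ← integral_const_mul,
      ← integral_const_mul, ← integral_add ((integrable_fderiv hη1 hb _).const_mul _)
        ((integrable_fderiv hη1 hb _).const_mul _)]
    refine integral_congr_ae (Eventually.of_forall fun x => ?_)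
    simp only
    have hv' : v = v 0 • e 0 + v 1 • e 1 := by
      ext i; fin_cases i <;> simp [e]
    conv_lhs => rw [hv', map_add, map_smul, map_smul]
    simp
  -- the norm bound
  have hnorm : ∀ᵐ x ∂(tau A), d (e 0) x ^ 2 + d (e 1) x ^ 2 ≤ 1 := by
    -- countable dense family of angles
    have h1 : ∀ᵐ x ∂(tau A), ∀ q : ℚ,
        Real.cos q * d (e 0) x + Real.sin q * d (e 1) x ≤ 1 := by
      rw [ae_all_iff]
      intro q
      let v : Euc 2 := !₂[Real.cos q, Real.sin q]
      have hv : ‖v‖ = 1 := by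
        rw [EuclideanSpace.norm_eq]
        simp [v, Fin.sum_univ_two]
      filter_upwards [hlin v hv] with x hx
      have h2 := hd1 v hv x
      rw [hx] at h2
      have h3 := (abs_le.1 h2).2
      simpa [v] using h3
    filter_upwards [h1] with x hx
    have h2 : ∀ t : ℝ, Real.cos t * d (e 0) x + Real.sin t * d (e 1) x ≤ 1 := by
      intro t
      have hc : Continuous fun t : ℝ => Real.cos t * d (e 0) x + Real.sin t * d (e 1) x := by
        fun_prop
      have hcl : IsClosed {t : ℝ | Real.cos t * d (e 0) x + Real.sin t * d (e 1) x ≤ 1} :=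
        isClosed_le hc continuous_const
      have := (Rat.denseRange_cast (𝕜 := ℝ)).induction_on (p := fun t : ℝ =>
        Real.cos t * d (e 0) x + Real.sin t * d (e 1) x ≤ 1) t hcl hx
      exact this
    -- choose the angle of the vector
    let z : ℂ := ⟨d (e 0) x, d (e 1) x⟩
    have h3 := h2 (Complex.arg z)
    have h4 : d (e 0) x = ‖z‖ * Real.cos (Complex.arg z) := (Complex.norm_mul_cos_arg z).symm
    have h5 : d (e 1) x = ‖z‖ * Real.sin (Complex.arg z) := (Complex.norm_mul_sin_arg z).symm
    have h6 : ‖z‖ ≤ 1 := by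
      rw [h4, h5] at h3
      have := Real.sin_sq_add_cos_sq (Complex.arg z)
      nlinarith
    have h7 : d (e 0) x ^ 2 + d (e 1) x ^ 2 = ‖z‖ ^ 2 := by
      rw [Complex.sq_norm, Complex.normSq_apply]; ring
    rw [h7]
    nlinarith [norm_nonneg z]
  -- modify on a null set
  let G : Set (Euc 2) := {x | d (e 0) x ^ 2 + d (e 1) x ^ 2 ≤ 1}
  have hG : MeasurableSet G :=
    measurableSet_le (((hdm _ (norm_e 0)).pow_const 2).add ((hdm _ (norm_e 1)).pow_const 2))
      measurable_const
  refine ⟨fun i => G.indicator (d (e i)), fun i => (hdm _ (norm_e i)).indicator hG, ?_, ?_⟩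
  · intro x
    by_cases hx : x ∈ G
    · simp only [indicator_of_mem hx]; exact hx
    · simp [indicator_of_notMem hx]
  · intro V hV
    have hae : ∀ᵐ x ∂(tau A), x ∈ G := hnorm
    have e1 : ∫ x, (V 0 x * G.indicator (d (e 0)) x + V 1 x * G.indicator (d (e 1)) x) ∂(tau A) =
        ∫ x, (V 0 x * d (e 0) x + V 1 x * d (e 1) x) ∂(tau A) := by
      refine integral_congr_ae ?_
      filter_upwards [hae] with x hx
      rw [indicator_of_mem hx, indicator_of_mem hx]
    rw [e1, integral_add (integrable_fderiv (hV 0) hb _) (integrable_fderiv (hV 1) hb _),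
      extend_test hA hb (hd _ (norm_e 0)) (hV 0), extend_test hA hb (hd _ (norm_e 1)) (hV 1)]
    have hint : ∀ i, Integrable (fun x => V i x * d (e i) x) (tau A) := by
      intro i
      obtain ⟨R, hR⟩ := hb.closure.subset_closedBall 0
      have hcomp : IsCompact (frontier A) :=
        (isCompact_closedBall (0 : Euc 2) R).of_isClosed_subset isClosed_frontier
          (frontier_subset_closure.trans hR)
      obtain ⟨C, hC⟩ := hcomp.exists_bound_of_continuousOn (hV i).continuous.continuousOn
      refine Integrable.of_bound ((hV i).continuous.measurable.mul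
        (hdm _ (norm_e i))).aestronglyMeasurable C ?_
      rw [tau, ae_restrict_iff' isClosed_frontier.measurableSet]
      refine Eventually.of_forall fun x hx => ?_
      rw [norm_mul]
      have h1 := hC x hx
      have h2 := hd1 _ (norm_e i) x
      rw [← Real.norm_eq_abs] at h2
      nlinarith [norm_nonneg (V i x), norm_nonneg (d (e i) x)]
    rw [integral_add (hint 0) (hint 1)]

end Crest.Agent.R241.LPx
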