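import Crest.Agent.R241.LPa

/-!
R241, block L-P (helper861): equality case of the planar isoperimetric inequality.
Part b: kernels and the identity `∫∫ ⟨ν(z),e⟩⟨ν(w),e⟩ dτ dτ = -2π|A|`.
-/

set_option autoImplicit false

open MeasureTheory MeasureTheory.Measure Metric Filter Set Topology
open scoped NNReal ENNReal RealInnerProductSpace
open Crest.GeometryTopology.Submanifold (Euc)

noncomputable section

namespace Crest.Agent.R241.LPx

open G1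

/-- regularised squared distance -/
def s (δ : ℝ) (q : Euc 2) : ℝ := q 0 ^ 2 + q 1 ^ 2 + δ ^ 2

theorem s_pos {δ : ℝ} (hδ : δ ≠ 0) (q : Euc 2) : 0 < s δ q := by
  unfold s; positivity

/-- the vector kernel coefficient -/
def wk (δ : ℝ) (q : Euc 2) : ℝ := 1 / s δ q + 2 * δ ^ 2 / s δ q ^ 2

/-- approximate identity (of total mass `2π`) -/
def mk (δ : ℝ) (q : Euc 2) : ℝ := -2 * δ ^ 2 / s δ q ^ 2 + 8 * δ ^ 4 / s δ q ^ 3

theorem contDiff_s (δ : ℝ) : ContDiff ℝ 1 (s δ) := by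
  unfold s; fun_prop

theorem contDiff_coord (i : Fin 2) : ContDiff ℝ 1 (fun q : Euc 2 => q i) := by fun_prop

theorem continuous_s (δ : ℝ) : Continuous (s δ) := (contDiff_s δ).continuous

theorem fderiv_line {f : Euc 2 → ℝ} {x : Euc 2} (hf : ContDiff ℝ 1 f) (i : Fin 2) {d : ℝ}
    (h : HasDerivAt (fun t : ℝ => f (x + t • e i)) d 0) : fderiv ℝ f x (e i) = d := by
  have h1 : HasFDerivAt f (fderiv ℝ f x) (x + (0 : ℝ) • e i) := by
    rw [zero_smul, add_zero]; exact ((hf.differentiable (by simp)) x).hasFDerivAt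
  have h2 : HasDerivAt (fun t : ℝ => x + t • e i) (e i) 0 := by
    simpa using ((hasDerivAt_id (0 : ℝ)).smul_const (e i)).const_add x
  exact (h1.comp_hasDerivAt (0 : ℝ) h2).unique h

/-- first field: `w ↦ (a q₀ + b q₁) q_j / s`, `q = z - w` -/
def V1 (δ a b : ℝ) (z : Euc 2) (j : Fin 2) (w : Euc 2) : ℝ :=
  (a * (z 0 - w 0) + b * (z 1 - w 1)) * (z j - w j) / s δ (z - w)

theorem contDiff_V1 {δ : ℝ} (hδ : δ ≠ 0) (a b : ℝ) (z : Euc 2) (j : Fin 2) :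
    ContDiff ℝ 1 (V1 δ a b z j) := by
  unfold V1
  refine ContDiff.div ?_ ((contDiff_s δ).comp (contDiff_const.sub contDiff_id))
    fun w => (s_pos hδ _).ne'
  fun_prop

theorem div_V1 {δ : ℝ} (hδ : δ ≠ 0) (a b : ℝ) (z w : Euc 2) :
    fderiv ℝ (V1 δ a b z 0) w (e 0) + fderiv ℝ (V1 δ a b z 1) w (e 1) =
      -((a * (z 0 - w 0) + b * (z 1 - w 1)) * wk δ (z - w)) := by
  set p := z 0 - w 0 with hp
  set q := z 1 - w 1 with hq
  have hs : s δ (z - w) = p ^ 2 + q ^ 2 + δ ^ 2 := by simp [s, hp, hq]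
  have hs0 : p ^ 2 + q ^ 2 + δ ^ 2 ≠ 0 := by positivity
  have h0 : HasDerivAt (fun t : ℝ => V1 δ a b z 0 (w + t • e 0))
      ((((-a) * p + (a * p + b * q) * (-1)) * (p ^ 2 + q ^ 2 + δ ^ 2) -
        (a * p + b * q) * p * (-2 * p)) / (p ^ 2 + q ^ 2 + δ ^ 2) ^ 2) 0 := by
    have e1 : (fun t : ℝ => V1 δ a b z 0 (w + t • e 0)) =
        fun t : ℝ => (a * (p - t) + b * q) * (p - t) / ((p - t) ^ 2 + q ^ 2 + δ ^ 2) := by
      funext t
      simp [V1, s, e, hp, hq]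
      ring
    rw [e1]
    have d1 : HasDerivAt (fun t : ℝ => p - t) (-1) 0 := by
      simpa using (hasDerivAt_id (0 : ℝ)).const_sub p
    have d2 : HasDerivAt (fun t : ℝ => (a * (p - t) + b * q)) (a * (-1)) 0 :=
      (d1.const_mul a).add_const _
    have d3 := d2.mul d1
    have d4 : HasDerivAt (fun t : ℝ => (p - t) ^ 2 + q ^ 2 + δ ^ 2) (2 * (p - 0) ^ 1 * (-1)) 0 := by
      have := ((d1.pow 2).add_const (q ^ 2)).add_const (δ ^ 2)
      simpa using this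
    have d5 := d3.div d4 (by simpa using hs0)
    refine d5.congr_deriv ?_
    simp only [Pi.mul_apply, sub_zero]
    ring
  have h1 : HasDerivAt (fun t : ℝ => V1 δ a b z 1 (w + t • e 1))
      ((((-b) * q + (a * p + b * q) * (-1)) * (p ^ 2 + q ^ 2 + δ ^ 2) -
        (a * p + b * q) * q * (-2 * q)) / (p ^ 2 + q ^ 2 + δ ^ 2) ^ 2) 0 := by
    have e1 : (fun t : ℝ => V1 δ a b z 1 (w + t • e 1)) =
        fun t : ℝ => (a * p + b * (q - t)) * (q - t) / (p ^ 2 + (q - t) ^ 2 + δ ^ 2) := by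
      funext t
      simp [V1, s, e, hp, hq]
      ring
    rw [e1]
    have d1 : HasDerivAt (fun t : ℝ => q - t) (-1) 0 := by
      simpa using (hasDerivAt_id (0 : ℝ)).const_sub q
    have d2 : HasDerivAt (fun t : ℝ => (a * p + b * (q - t))) (b * (-1)) 0 :=
      (d1.const_mul b).const_add _
    have d3 := d2.mul d1
    have d4 : HasDerivAt (fun t : ℝ => p ^ 2 + (q - t) ^ 2 + δ ^ 2) (2 * (q - 0) ^ 1 * (-1)) 0 := by
      have := ((d1.pow 2).const_add (p ^ 2)).add_const (δ ^ 2)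
      simpa using this
    have d5 := d3.div d4 (by simpa using hs0)
    refine d5.congr_deriv ?_
    simp only [Pi.mul_apply, sub_zero]
    ring
  rw [fderiv_line (contDiff_V1 hδ a b z 0) 0 h0, fderiv_line (contDiff_V1 hδ a b z 1) 1 h1]
  rw [wk, hs]
  field_simp
  ring

/-- second field: `z ↦ q_i wk(q)`, `q = z - w` -/
def V2 (δ : ℝ) (w : Euc 2) (i : Fin 2) (z : Euc 2) : ℝ := (z i - w i) * wk δ (z - w)

theorem contDiff_wk {δ : ℝ} (hδ : δ ≠ 0) : ContDiff ℝ 1 (wk δ) := by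
  unfold wk
  exact (contDiff_const.div (contDiff_s δ) fun w => (s_pos hδ _).ne').add
    (contDiff_const.div ((contDiff_s δ).pow 2) fun w => (pow_pos (s_pos hδ _) 2).ne')

theorem continuous_mk {δ : ℝ} (hδ : δ ≠ 0) : Continuous (mk δ) := by
  unfold mk
  exact (continuous_const.div ((continuous_s δ).pow 2) fun w => (pow_pos (s_pos hδ _) 2).ne').add
    (continuous_const.div ((continuous_s δ).pow 3) fun w => (pow_pos (s_pos hδ _) 3).ne')

theorem contDiff_V2 {δ : ℝ} (hδ : δ ≠ 0) (w : Euc 2) (i : Fin 2) : ContDiff ℝ 1 (V2 δ w i) := by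
  unfold V2
  exact ((contDiff_coord i).sub contDiff_const).mul
    ((contDiff_wk hδ).comp (contDiff_id.sub contDiff_const))

theorem div_V2 {δ : ℝ} (hδ : δ ≠ 0) (z w : Euc 2) :
    fderiv ℝ (V2 δ w 0) z (e 0) + fderiv ℝ (V2 δ w 1) z (e 1) = mk δ (z - w) := by
  set p := z 0 - w 0 with hp
  set q := z 1 - w 1 with hq
  have hs : s δ (z - w) = p ^ 2 + q ^ 2 + δ ^ 2 := by simp [s, hp, hq]
  have hs0 : p ^ 2 + q ^ 2 + δ ^ 2 ≠ 0 := by positivity
  let D : ℝ → ℝ → ℝ := fun p q =>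
    (1 * (1 / (p ^ 2 + q ^ 2 + δ ^ 2) + 2 * δ ^ 2 / (p ^ 2 + q ^ 2 + δ ^ 2) ^ 2) +
        p * (-(2 * p) / (p ^ 2 + q ^ 2 + δ ^ 2) ^ 2 -
          2 * δ ^ 2 * (2 * (p ^ 2 + q ^ 2 + δ ^ 2) * (2 * p)) / (p ^ 2 + q ^ 2 + δ ^ 2) ^ 4))
  have key : ∀ (p q : ℝ), p ^ 2 + q ^ 2 + δ ^ 2 ≠ 0 →
      HasDerivAt (fun t : ℝ => (p + t) * (1 / ((p + t) ^ 2 + q ^ 2 + δ ^ 2) +
        2 * δ ^ 2 / ((p + t) ^ 2 + q ^ 2 + δ ^ 2) ^ 2)) (D p q) 0 := by
    intro p q h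
    have d1 : HasDerivAt (fun t : ℝ => p + t) 1 0 := by
      simpa using (hasDerivAt_id (0 : ℝ)).const_add p
    have d4 : HasDerivAt (fun t : ℝ => (p + t) ^ 2 + q ^ 2 + δ ^ 2) (2 * p) 0 := by
      have := ((d1.pow 2).add_const (q ^ 2)).add_const (δ ^ 2)
      simpa using this
    have h' : (p + 0) ^ 2 + q ^ 2 + δ ^ 2 ≠ 0 := by simpa using h
    have d5 := (hasDerivAt_const (0 : ℝ) (1 : ℝ)).div d4 h'
    have d6 := (hasDerivAt_const (0 : ℝ) (2 * δ ^ 2)).div (d4.pow 2) (pow_ne_zero 2 h')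
    have d7 := d1.mul (d5.add d6)
    refine d7.congr_deriv ?_
    simp only [Pi.pow_apply, Pi.add_apply, Pi.div_apply, add_zero, D]
    ring
  have h0 : HasDerivAt (fun t : ℝ => V2 δ w 0 (z + t • e 0)) (D p q) 0 := by
    have e1 : (fun t : ℝ => V2 δ w 0 (z + t • e 0)) =
        fun t : ℝ => (p + t) * (1 / ((p + t) ^ 2 + q ^ 2 + δ ^ 2) +
        2 * δ ^ 2 / ((p + t) ^ 2 + q ^ 2 + δ ^ 2) ^ 2) := by
      funext t
      have e2 : s δ (z + t • e 0 - w) = (p + t) ^ 2 + q ^ 2 + δ ^ 2 := by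
        simp [s, e, hp, hq]; ring
      rw [V2, wk, e2]
      simp [e, hp]; left; ring
    rw [e1]
    exact key p q hs0
  have h1 : HasDerivAt (fun t : ℝ => V2 δ w 1 (z + t • e 1)) (D q p) 0 := by
    have e1 : (fun t : ℝ => V2 δ w 1 (z + t • e 1)) =
        fun t : ℝ => (q + t) * (1 / ((q + t) ^ 2 + p ^ 2 + δ ^ 2) +
        2 * δ ^ 2 / ((q + t) ^ 2 + p ^ 2 + δ ^ 2) ^ 2) := by
      funext t
      have e2 : s δ (z + t • e 1 - w) = (q + t) ^ 2 + p ^ 2 + δ ^ 2 := by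
        simp [s, e, hp, hq]; ring
      rw [V2, wk, e2]
      simp [e, hq]; left; ring
    rw [e1]
    exact key q p (by rw [add_comm (q ^ 2)]; exact hs0)
  rw [fderiv_line (contDiff_V2 hδ w 0) 0 h0, fderiv_line (contDiff_V2 hδ w 1) 1 h1]
  have hqp : q ^ 2 + p ^ 2 + δ ^ 2 = p ^ 2 + q ^ 2 + δ ^ 2 := by ring
  simp only [D]
  rw [hqp, mk, hs]
  obtain ⟨S, hS⟩ : ∃ S, S = p ^ 2 + q ^ 2 + δ ^ 2 := ⟨_, rfl⟩
  rw [← hS]
  have hδ2 : δ ^ 2 = S - p ^ 2 - q ^ 2 := by rw [hS]; ring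
  have hδ4 : δ ^ 4 = (S - p ^ 2 - q ^ 2) ^ 2 := by rw [← hδ2]; ring
  rw [hδ4, hδ2]
  have hS0 : S ≠ 0 := by rw [hS]; exact hs0
  clear h0 h1 hδ4 hδ2 hS key D hqp hs hs0 hp hq
  clear_value p q
  field_simp
  ring

end Crest.Agent.R241.LPx
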