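import Crest.Agent.R241.LPb

/-!
R241, block L-P (helper861): equality case of the planar isoperimetric inequality.
Part c: the limit `δ → 0`.
-/

set_option autoImplicit false

open MeasureTheory MeasureTheory.Measure Metric Filter Set Topology
open scoped NNReal ENNReal RealInnerProductSpace
open Crest.GeometryTopology.Submanifold (Euc)

noncomputable section

namespace Crest.Agent.R241.LPx

open G1

/-! ### the approximate identity -/

/-- radial profile of `mk 1` -/
def rk (y : ℝ) : ℝ := -2 / (y ^ 2 + 1) ^ 2 + 8 / (y ^ 2 + 1) ^ 3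

theorem s_one (q : Euc 2) : s 1 q = ‖q‖ ^ 2 + 1 := by
  rw [EuclideanSpace.norm_sq_eq]; simp [s, Fin.sum_univ_two]

theorem mk_one (q : Euc 2) : mk 1 q = rk ‖q‖ := by
  rw [mk, rk, s_one]; norm_num

theorem abs_mk_one_le (q : Euc 2) : |mk 1 q| ≤ 10 * ((1 : ℝ) + ‖q‖ ^ 2) ^ (-(4 : ℝ) / 2) := by
  have h1 : (0 : ℝ) < 1 + ‖q‖ ^ 2 := by positivity
  have h1' : (1 : ℝ) ≤ 1 + ‖q‖ ^ 2 := by nlinarith [sq_nonneg ‖q‖]
  have h2 : ((1 : ℝ) + ‖q‖ ^ 2) ^ (-(4 : ℝ) / 2) = 1 / (1 + ‖q‖ ^ 2) ^ 2 := by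
    rw [show -(4 : ℝ) / 2 = -(2 : ℕ) by norm_num, Real.rpow_neg h1.le, Real.rpow_natCast, one_div]
  rw [h2, mk_one, rk]
  rw [show ‖q‖ ^ 2 + 1 = 1 + ‖q‖ ^ 2 by ring]
  set S := 1 + ‖q‖ ^ 2
  have h3 : 8 / S ^ 3 ≤ 8 / S ^ 2 := by
    apply div_le_div_of_nonneg_left (by norm_num) (by positivity)
    exact pow_le_pow_right₀ h1' (by norm_num)
  have h4 : |(-2 : ℝ) / S ^ 2| = 2 / S ^ 2 := by
    rw [abs_div, abs_of_pos (by positivity : (0 : ℝ) < S ^ 2)]; norm_num
  have h5 : |8 / S ^ 3| = 8 / S ^ 3 := abs_of_pos (by positivity)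
  refine (abs_add_le _ _).trans ?_
  rw [h4, h5]
  have : 10 * (1 / S ^ 2) = 2 / S ^ 2 + 8 / S ^ 2 := by ring
  rw [this]
  linarith

theorem integrable_mk_one : Integrable (mk 1) := by
  have h1 : Integrable (fun q : Euc 2 => 10 * ((1 : ℝ) + ‖q‖ ^ 2) ^ (-(4 : ℝ) / 2)) :=
    (integrable_rpow_neg_one_add_norm_sq (by simp; norm_num)).const_mul 10
  exact h1.mono' (continuous_mk one_ne_zero).aestronglyMeasurable
    (Eventually.of_forall fun q => by rw [Real.norm_eq_abs]; exact abs_mk_one_le q)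

theorem integral_mk_one : ∫ q, mk 1 q = 2 * Real.pi := by
  have hi : Integrable (fun q : Euc 2 => rk ‖q‖) :=
    integrable_mk_one.congr (Eventually.of_forall mk_one)
  have h1 : ∫ q, mk 1 q = ∫ q : Euc 2, rk ‖q‖ := integral_congr_ae (Eventually.of_forall mk_one)
  rw [h1, integral_fun_norm_addHaar volume rk]
  have hio := (integrable_fun_norm_addHaar (μ := (volume : Measure (Euc 2)))).1 hi
  have hd : Module.finrank ℝ (Euc 2) = 2 := by simp
  rw [hd] at hio ⊢
  have hF : ∀ x ∈ Ioi (0 : ℝ), HasDerivAt (fun y : ℝ => 1 / (y ^ 2 + 1) - 2 / (y ^ 2 + 1) ^ 2)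
      (x ^ (2 - 1) • rk x) x := by
    intro x _
    have hx : x ^ 2 + 1 ≠ 0 := by positivity
    have d1 : HasDerivAt (fun y : ℝ => y ^ 2 + 1) (2 * x) x := by
      simpa using (hasDerivAt_pow 2 x).add_const 1
    have d2 := ((hasDerivAt_const x (1 : ℝ)).div d1 hx).sub
      ((hasDerivAt_const x (2 : ℝ)).div (d1.pow 2) (pow_ne_zero 2 hx))
    refine d2.congr_deriv ?_
    rw [rk, smul_eq_mul]
    simp only [Pi.pow_apply]
    field_simp
    ring
  have hlim : Tendsto (fun y : ℝ => 1 / (y ^ 2 + 1) - 2 / (y ^ 2 + 1) ^ 2) atTop (𝓝 (0 - 0)) := by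
    have t1 : Tendsto (fun y : ℝ => y ^ 2 + 1) atTop atTop :=
      tendsto_atTop_add_const_right _ _ (tendsto_pow_atTop (by norm_num))
    have t2 : Tendsto (fun y : ℝ => (y ^ 2 + 1) ^ 2) atTop atTop :=
      (tendsto_pow_atTop (by norm_num)).comp t1
    exact (t1.const_div_atTop 1).sub (t2.const_div_atTop 2)
  have h2 := integral_Ioi_of_hasDerivAt_of_tendsto (a := 0)
    (f := fun y : ℝ => 1 / (y ^ 2 + 1) - 2 / (y ^ 2 + 1) ^ 2)
    (f' := fun x => x ^ (2 - 1) • rk x) (m := 0 - 0)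
    (by
      apply Continuous.continuousWithinAt
      have h3 : Continuous fun y : ℝ => y ^ 2 + 1 := by fun_prop
      exact (continuous_const.div h3 fun y => by positivity).sub
        (continuous_const.div (h3.pow 2) fun y => by positivity))
    hF hio hlim
  rw [h2]
  have hball : (volume : Measure (Euc 2)).real (ball 0 1) = Real.pi := by
    rw [Measure.real, EuclideanSpace.volume_ball_fin_two]
    simp [Real.pi_pos.le]
  rw [hball]
  simp; ring

theorem mk_smul {δ : ℝ} (hδ : δ ≠ 0) (q : Euc 2) : mk δ (δ • q) = (δ ^ 2)⁻¹ * mk 1 q := by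
  have h1 : s δ (δ • q) = δ ^ 2 * s 1 q := by
    simp [s]; ring
  have h2 := (s_pos (one_ne_zero (α := ℝ)) q).ne'
  rw [mk, mk, h1]
  field_simp

variable {A : Set (Euc 2)}

theorem inner_mk (hA : MeasurableSet A) {δ : ℝ} (hδ : 0 < δ) (w : Euc 2) :
    ∫ z in A, mk δ (z - w) = ∫ q, A.indicator (fun _ => (1 : ℝ)) (w + δ • q) * mk 1 q := by
  classical
  rw [← integral_indicator hA]
  have h1 : ∫ z, A.indicator (fun z => mk δ (z - w)) z =
      ∫ q : Euc 2, A.indicator (fun z => mk δ (z - w)) (w + q) :=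
    (integral_add_left_eq_self _ w).symm
  have h2 := integral_comp_smul (volume : Measure (Euc 2))
    (fun q => A.indicator (fun z => mk δ (z - w)) (w + q)) δ
  have hd : Module.finrank ℝ (Euc 2) = 2 := by simp
  rw [hd, abs_of_pos (by positivity), smul_eq_mul] at h2
  rw [h1]
  have h3 : ∫ q : Euc 2, A.indicator (fun z => mk δ (z - w)) (w + q) =
      δ ^ 2 * ∫ q : Euc 2, A.indicator (fun z => mk δ (z - w)) (w + δ • q) := by
    rw [h2]; field_simp
  rw [h3, ← integral_const_mul]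
  refine integral_congr_ae (Eventually.of_forall fun q => ?_)
  simp only
  by_cases hq : w + δ • q ∈ A
  · rw [indicator_of_mem hq, indicator_of_mem hq, add_sub_cancel_left, mk_smul hδ.ne']
    field_simp
  · rw [indicator_of_notMem hq, indicator_of_notMem hq]; simp

/-- the sequence of regularisation parameters -/
def dn (n : ℕ) : ℝ := 1 / ((n : ℝ) + 1)

theorem dn_pos (n : ℕ) : 0 < dn n := by unfold dn; positivity

theorem tendsto_dn : Tendsto dn atTop (𝓝 0) := tendsto_one_div_add_atTop_nhds_zero_nat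

theorem tendsto_double (hA : IsOpen A) (hfin : volume A ≠ ∞) :
    Tendsto (fun n => ∫ w in A, ∫ z in A, mk (dn n) (z - w)) atTop
      (𝓝 (2 * Real.pi * (volume A).toReal)) := by
  have hbound : ∀ (n : ℕ) (w q : Euc 2),
      ‖A.indicator (fun _ => (1 : ℝ)) (w + dn n • q) * mk 1 q‖ ≤ |mk 1 q| := by
    intro n w q
    rw [norm_mul, Real.norm_eq_abs, Real.norm_eq_abs]
    have : |A.indicator (fun _ => (1 : ℝ)) (w + dn n • q)| ≤ 1 := by
      by_cases h : w + dn n • q ∈ A
      · simp [indicator_of_mem h]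
      · simp [indicator_of_notMem h]
    nlinarith [abs_nonneg (mk 1 q)]
  have hmeas : ∀ n : ℕ, Measurable (fun p : Euc 2 × Euc 2 =>
      A.indicator (fun _ => (1 : ℝ)) (p.1 + dn n • p.2) * mk 1 p.2) := by
    intro n
    refine Measurable.mul ?_ ((continuous_mk one_ne_zero).measurable.comp measurable_snd)
    exact (measurable_const.indicator hA.measurableSet).comp
      (measurable_fst.add (measurable_snd.const_smul (dn n)))
  -- inner limit
  have hinner : ∀ w ∈ A, Tendsto (fun n => ∫ z in A, mk (dn n) (z - w)) atTop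
      (𝓝 (2 * Real.pi)) := by
    intro w hw
    rw [← integral_mk_one]
    simp only [inner_mk hA.measurableSet (dn_pos _)]
    refine tendsto_integral_of_dominated_convergence (fun q => |mk 1 q|) (fun n => ?_)
      integrable_mk_one.abs (fun n => Eventually.of_forall fun q => hbound n w q)
      (Eventually.of_forall fun q => ?_)
    · exact ((hmeas n).comp (measurable_const.prodMk measurable_id)).aestronglyMeasurable
    · have h1 : Tendsto (fun n => w + dn n • q) atTop (𝓝 w) := by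
        have := (tendsto_dn.smul_const q).const_add w
        simpa using this
      have h2 : ∀ᶠ n in atTop, w + dn n • q ∈ A := h1.eventually (hA.mem_nhds hw)
      refine tendsto_const_nhds.congr' ?_
      filter_upwards [h2] with n hn
      rw [indicator_of_mem hn, one_mul]
  have hfinA : IsFiniteMeasure (volume.restrict A) :=
    ⟨by rw [Measure.restrict_apply_univ]; exact hfin.lt_top⟩
  have h3 : ∫ _ in A, 2 * Real.pi = 2 * Real.pi * (volume A).toReal := by
    rw [integral_const, smul_eq_mul, mul_comm]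
    simp [Measure.real]
  rw [← h3]
  refine tendsto_integral_of_dominated_convergence (fun _ => ∫ q, |mk 1 q|) (fun n => ?_)
    (integrable_const _) (fun n => Eventually.of_forall fun w => ?_) ?_
  · have h4 : (fun w => ∫ z in A, mk (dn n) (z - w)) =
        fun w => ∫ q, A.indicator (fun _ => (1 : ℝ)) (w + dn n • q) * mk 1 q := by
      funext w; exact inner_mk hA.measurableSet (dn_pos n) w
    rw [h4]
    exact (StronglyMeasurable.integral_prod_right (ν := volume)
      (f := fun (w q : Euc 2) => A.indicator (fun _ => (1 : ℝ)) (w + dn n • q) * mk 1 q)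
      (hmeas n).stronglyMeasurable).aestronglyMeasurable
  · rw [inner_mk hA.measurableSet (dn_pos n)]
    exact norm_integral_le_of_norm_le integrable_mk_one.abs
      (Eventually.of_forall fun q => hbound n w q)
  · rw [ae_restrict_iff' hA.measurableSet]
    exact Eventually.of_forall hinner

/-! ### the normal kernel -/

/-- `⟨n(z),q⟩⟨n(w),q⟩/s`, `q = z - w` -/
def Qd (δ : ℝ) (n : Fin 2 → Euc 2 → ℝ) (z w : Euc 2) : ℝ :=
  (n 0 z * (z 0 - w 0) + n 1 z * (z 1 - w 1)) * (n 0 w * (z 0 - w 0) + n 1 w * (z 1 - w 1)) /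
    s δ (z - w)

theorem measurable_Qd (δ : ℝ) {n : Fin 2 → Euc 2 → ℝ} (hn : ∀ i, Measurable (n i)) :
    Measurable (fun p : Euc 2 × Euc 2 => Qd δ n p.1 p.2) := by
  have c : ∀ i : Fin 2, Measurable (fun p : Euc 2 × Euc 2 => p.1 i - p.2 i) := by
    intro i; fun_prop
  have n1 : ∀ i, Measurable (fun p : Euc 2 × Euc 2 => n i p.1) := fun i =>
    (hn i).comp measurable_fst
  have n2 : ∀ i, Measurable (fun p : Euc 2 × Euc 2 => n i p.2) := fun i =>
    (hn i).comp measurable_snd
  have hs : Measurable (fun p : Euc 2 × Euc 2 => s δ (p.1 - p.2)) :=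
    (continuous_s δ).measurable.comp (measurable_fst.sub measurable_snd)
  exact ((((n1 0).mul (c 0)).add ((n1 1).mul (c 1))).mul
    (((n2 0).mul (c 0)).add ((n2 1).mul (c 1)))).div hs

theorem cs2 {a b p q : ℝ} (h : a ^ 2 + b ^ 2 ≤ 1) : (a * p + b * q) ^ 2 ≤ p ^ 2 + q ^ 2 := by
  nlinarith [sq_nonneg (a * q - b * p), sq_nonneg p, sq_nonneg q, sq_nonneg (p ^ 2 + q ^ 2)]

theorem abs_Qd_le (δ : ℝ) {n : Fin 2 → Euc 2 → ℝ} (hn : ∀ x, n 0 x ^ 2 + n 1 x ^ 2 ≤ 1)
    (z w : Euc 2) : |Qd δ n z w| ≤ 1 := by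
  rw [Qd, abs_div]
  set p := z 0 - w 0
  set q := z 1 - w 1
  have hs : s δ (z - w) = p ^ 2 + q ^ 2 + δ ^ 2 := by simp [s, p, q]
  have h1 := cs2 (p := p) (q := q) (hn z)
  have h2 := cs2 (p := p) (q := q) (hn w)
  rw [hs]
  have h0 : 0 ≤ p ^ 2 + q ^ 2 + δ ^ 2 := by positivity
  rw [abs_of_nonneg h0]
  apply div_le_one_of_le₀ _ h0
  rw [abs_mul]
  have h3 : |n 0 z * p + n 1 z * q| * |n 0 w * p + n 1 w * q| ≤
      ((n 0 z * p + n 1 z * q) ^ 2 + (n 0 w * p + n 1 w * q) ^ 2) / 2 := by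
    nlinarith [sq_nonneg (|n 0 z * p + n 1 z * q| - |n 0 w * p + n 1 w * q|),
      sq_abs (n 0 z * p + n 1 z * q), sq_abs (n 0 w * p + n 1 w * q)]
  nlinarith [sq_nonneg δ]

theorem tendsto_Qd {n : Fin 2 → Euc 2 → ℝ} (z w : Euc 2) :
    Tendsto (fun k => Qd (dn k) n z w) atTop (𝓝 (Qd 0 n z w)) := by
  unfold Qd
  by_cases h : s 0 (z - w) = 0
  · have h1 : z 0 - w 0 = 0 := by
      simp [s] at h
      nlinarith [sq_nonneg (z 0 - w 0), sq_nonneg (z 1 - w 1)]
    have h2 : z 1 - w 1 = 0 := by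
      simp [s] at h
      nlinarith [sq_nonneg (z 0 - w 0), sq_nonneg (z 1 - w 1)]
    simp only [h1, h2]
    simp
  · refine tendsto_const_nhds.div ?_ h
    unfold s
    exact (tendsto_dn.pow 2).const_add _

end Crest.Agent.R241.LPx
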