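import Crest.Agent.R241.LPc

/-!
R241, block L-P (helper861): equality case of the planar isoperimetric inequality.
Part d: the reflection identity and the equality case.
-/

set_option autoImplicit false

open MeasureTheory MeasureTheory.Measure Metric Filter Set Topology
open scoped NNReal ENNReal RealInnerProductSpace
open Crest.GeometryTopology.Submanifold (Euc)

noncomputable section

namespace Crest.Agent.R241.LPx

open G1

variable {A : Set (Euc 2)}

/-- the divergence theorem with normal `n` -/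
def IsNormal (A : Set (Euc 2)) (n : Fin 2 → Euc 2 → ℝ) : Prop :=
  (∀ i, Measurable (n i)) ∧ (∀ x, n 0 x ^ 2 + n 1 x ^ 2 ≤ 1) ∧
      ∀ V : Fin 2 → Euc 2 → ℝ, (∀ i, ContDiff ℝ 1 (V i)) →
        ∫ x in A, (fderiv ℝ (V 0) x (e 0) + fderiv ℝ (V 1) x (e 1)) =
          ∫ x, (V 0 x * n 0 x + V 1 x * n 1 x) ∂(tau A)

theorem abs_coord_wk {δ : ℝ} (hδ : 0 < δ) (q : Euc 2) (i : Fin 2) :
    |q i * wk δ q| ≤ 3 / (2 * δ) := by
  have hs := s_pos hδ.ne' q
  have hs1 : q i ^ 2 + δ ^ 2 ≤ s δ q := by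
    unfold s
    fin_cases i
    · simp; positivity
    · simp; positivity
  have h1 : 2 * δ * |q i| ≤ s δ q := by
    nlinarith [sq_nonneg (|q i| - δ), sq_abs (q i)]
  have h2 : wk δ q ≤ 3 / s δ q := by
    unfold wk
    rw [show 3 / s δ q = 1 / s δ q + 2 / s δ q by ring]
    gcongr 1 / s δ q + ?_
    rw [div_le_div_iff₀ (by positivity) hs]
    have : δ ^ 2 ≤ s δ q := by unfold s; nlinarith [sq_nonneg (q 0), sq_nonneg (q 1)]
    nlinarith
  have h3 : 0 ≤ wk δ q := by unfold wk; positivity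
  rw [abs_mul, abs_of_nonneg h3]
  calc |q i| * wk δ q ≤ |q i| * (3 / s δ q) := by gcongr
    _ ≤ (s δ q / (2 * δ)) * (3 / s δ q) := by
        gcongr
        rw [le_div_iff₀ (by positivity)]
        linarith
    _ = 3 / (2 * δ) := by field_simp

/-- Identity at parameter `δ`. -/
theorem ident_delta (hA : IsOpen A) (hb : Bornology.IsBounded A)
    (hfin : μHE[1] (frontier A) ≠ ∞) {n : Fin 2 → Euc 2 → ℝ} (hn : IsNormal A n)
    {δ : ℝ} (hδ : 0 < δ) :
    ∫ z, ∫ w, Qd δ n z w ∂(tau A) ∂(tau A) = - ∫ w in A, ∫ z in A, mk δ (z - w) := by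
  have hτ := isFinite_tau hfin
  obtain ⟨hm, hle, hdiv⟩ := hn
  have hvA : IsFiniteMeasure (volume.restrict A) :=
    ⟨by rw [Measure.restrict_apply_univ]; exact hb.measure_lt_top⟩
  -- step 1
  have h1 : ∀ z, ∫ w, Qd δ n z w ∂(tau A) =
      - ∫ w in A, (n 0 z * (z 0 - w 0) + n 1 z * (z 1 - w 1)) * wk δ (z - w) := by
    intro z
    have h2 := hdiv (V1 δ (n 0 z) (n 1 z) z) (contDiff_V1 hδ.ne' _ _ z)
    simp only [div_V1 hδ.ne'] at h2
    rw [integral_neg] at h2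
    rw [h2]
    refine integral_congr_ae (Eventually.of_forall fun w => ?_)
    simp only [Qd, V1]
    ring
  simp only [h1]
  rw [integral_neg]
  congr 1
  -- Fubini
  have hswap : ∫ z, (∫ w in A, (n 0 z * (z 0 - w 0) + n 1 z * (z 1 - w 1)) * wk δ (z - w)) ∂(tau A)
      = ∫ w in A, ∫ z, (n 0 z * (z 0 - w 0) + n 1 z * (z 1 - w 1)) * wk δ (z - w) ∂(tau A) := by
    apply integral_integral_swap
    have c : ∀ i : Fin 2, Measurable (fun p : Euc 2 × Euc 2 => p.1 i - p.2 i) := by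
      intro i; fun_prop
    have n1 : ∀ i, Measurable (fun p : Euc 2 × Euc 2 => n i p.1) := fun i =>
      (hm i).comp measurable_fst
    have hw : Measurable (fun p : Euc 2 × Euc 2 => wk δ (p.1 - p.2)) :=
      (contDiff_wk hδ.ne').continuous.measurable.comp (measurable_fst.sub measurable_snd)
    have hmeas : Measurable (fun p : Euc 2 × Euc 2 =>
        (n 0 p.1 * (p.1 0 - p.2 0) + n 1 p.1 * (p.1 1 - p.2 1)) * wk δ (p.1 - p.2)) :=
      (((n1 0).mul (c 0)).add ((n1 1).mul (c 1))).mul hw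
    refine Integrable.of_bound hmeas.aestronglyMeasurable (3 / (2 * δ) + 3 / (2 * δ))
      (Eventually.of_forall fun p => ?_)
    have b0 := abs_coord_wk hδ (p.1 - p.2) 0
    have b1 := abs_coord_wk hδ (p.1 - p.2) 1
    have hl := hle p.1
    have a0 : |n 0 p.1| ≤ 1 := by
      rw [← sq_le_one_iff_abs_le_one]; nlinarith [sq_nonneg (n 1 p.1)]
    have a1 : |n 1 p.1| ≤ 1 := by
      rw [← sq_le_one_iff_abs_le_one]; nlinarith [sq_nonneg (n 0 p.1)]
    have e1 : (n 0 p.1 * (p.1 0 - p.2 0) + n 1 p.1 * (p.1 1 - p.2 1)) * wk δ (p.1 - p.2) =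
        n 0 p.1 * ((p.1 - p.2) 0 * wk δ (p.1 - p.2)) +
        n 1 p.1 * ((p.1 - p.2) 1 * wk δ (p.1 - p.2)) := by
      simp only [PiLp.sub_apply]; ring
    rw [Real.norm_eq_abs]
    change |(n 0 p.1 * (p.1 0 - p.2 0) + n 1 p.1 * (p.1 1 - p.2 1)) * wk δ (p.1 - p.2)| ≤ _
    rw [e1]
    refine (abs_add_le _ _).trans ?_
    rw [abs_mul (n 0 p.1), abs_mul (n 1 p.1)]
    have : 0 ≤ 3 / (2 * δ) := by positivity
    refine add_le_add ?_ ?_
    · calc _ ≤ 1 * (3 / (2 * δ)) := by gcongr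
        _ = _ := one_mul _
    · calc _ ≤ 1 * (3 / (2 * δ)) := by gcongr
        _ = _ := one_mul _
  rw [hswap]
  refine integral_congr_ae (Eventually.of_forall fun w => ?_)
  simp only
  have h3 := hdiv (V2 δ w) (contDiff_V2 hδ.ne' w)
  simp only [div_V2 hδ.ne'] at h3
  rw [h3]
  refine integral_congr_ae (Eventually.of_forall fun z => ?_)
  simp only [V2]
  ring

/-- the limit identity -/
theorem ident (hA : IsOpen A) (hb : Bornology.IsBounded A)
    (hfin : μHE[1] (frontier A) ≠ ∞) {n : Fin 2 → Euc 2 → ℝ} (hn : IsNormal A n) :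
    ∫ z, ∫ w, Qd 0 n z w ∂(tau A) ∂(tau A) = - (2 * Real.pi * (volume A).toReal) := by
  have hτ := isFinite_tau hfin
  have h1 := (tendsto_double hA hb.measure_lt_top.ne).neg
  have h2 : Tendsto (fun k => ∫ z, ∫ w, Qd (dn k) n z w ∂(tau A) ∂(tau A)) atTop
      (𝓝 (∫ z, ∫ w, Qd 0 n z w ∂(tau A) ∂(tau A))) := by
    have hint : ∀ δ, Integrable (fun p : Euc 2 × Euc 2 => Qd δ n p.1 p.2)
        ((tau A).prod (tau A)) := fun δ =>
      Integrable.of_bound (measurable_Qd δ hn.1).aestronglyMeasurable 1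
        (Eventually.of_forall fun p => abs_Qd_le δ hn.2.1 p.1 p.2)
    have e1 : ∀ δ, ∫ z, ∫ w, Qd δ n z w ∂(tau A) ∂(tau A) =
        ∫ p, Qd δ n p.1 p.2 ∂((tau A).prod (tau A)) := fun δ =>
      (integral_prod _ (hint δ)).symm
    simp only [e1]
    exact tendsto_integral_of_dominated_convergence (fun _ => 1)
      (fun k => (measurable_Qd _ hn.1).aestronglyMeasurable) (integrable_const _)
      (fun k => Eventually.of_forall fun p => abs_Qd_le _ hn.2.1 p.1 p.2)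
      (Eventually.of_forall fun p => tendsto_Qd p.1 p.2)
  refine tendsto_nhds_unique h2 (h1.congr fun k => ?_)
  rw [ident_delta hA hb hfin hn (dn_pos k)]

/-- the mean of the normal is zero -/
theorem mean_zero {n : Fin 2 → Euc 2 → ℝ} (hn : IsNormal A n) (i : Fin 2) :
    ∫ x, n i x ∂(tau A) = 0 := by
  have h := hn.2.2 (fun j _ => if j = i then 1 else 0) (fun j => contDiff_const)
  simp only [fderiv_fun_const] at h
  fin_cases i
  · simpa using h.symm
  · simpa using h.symm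

/-- reflection kernel -/
def Rk (n : Fin 2 → Euc 2 → ℝ) (z w : Euc 2) : ℝ :=
  n 0 z * n 0 w + n 1 z * n 1 w - 2 * Qd 0 n z w

/-- algebra: the reflection. -/
theorem refl_alg {a0 a1 b0 b1 p q : ℝ} (ha : a0 ^ 2 + a1 ^ 2 ≤ 1) (hb : b0 ^ 2 + b1 ^ 2 ≤ 1) :
    a0 * b0 + a1 * b1 - 2 * ((a0 * p + a1 * q) * (b0 * p + b1 * q) / (p ^ 2 + q ^ 2 + 0 ^ 2)) ≤ 1 ∧
    (a0 * b0 + a1 * b1 - 2 * ((a0 * p + a1 * q) * (b0 * p + b1 * q) / (p ^ 2 + q ^ 2 + 0 ^ 2)) = 1 →
      a0 = b0 - 2 * (b0 * p + b1 * q) * p / (p ^ 2 + q ^ 2) ∧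
      a1 = b1 - 2 * (b0 * p + b1 * q) * q / (p ^ 2 + q ^ 2) ∧ a0 ^ 2 + a1 ^ 2 = 1 ∧
      b0 ^ 2 + b1 ^ 2 = 1) := by
  have e0 : p ^ 2 + q ^ 2 + 0 ^ 2 = p ^ 2 + q ^ 2 := by ring
  rw [e0]
  set c0 := b0 - 2 * (b0 * p + b1 * q) * p / (p ^ 2 + q ^ 2) with hc0
  set c1 := b1 - 2 * (b0 * p + b1 * q) * q / (p ^ 2 + q ^ 2) with hc1
  have e1 : a0 * b0 + a1 * b1 - 2 * ((a0 * p + a1 * q) * (b0 * p + b1 * q) / (p ^ 2 + q ^ 2)) =
      a0 * c0 + a1 * c1 := by
    rw [hc0, hc1]; ring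
  have e2 : c0 ^ 2 + c1 ^ 2 = b0 ^ 2 + b1 ^ 2 := by
    by_cases h : p ^ 2 + q ^ 2 = 0
    · rw [hc0, hc1, h]; simp
    · rw [hc0, hc1]; field_simp; ring
  rw [e1]
  have h3 : a0 * c0 + a1 * c1 ≤ ((a0 ^ 2 + a1 ^ 2) + (c0 ^ 2 + c1 ^ 2)) / 2 := by
    nlinarith [sq_nonneg (a0 - c0), sq_nonneg (a1 - c1)]
  rw [e2] at h3
  refine ⟨by linarith, fun h => ?_⟩
  have h4 : (a0 - c0) ^ 2 + (a1 - c1) ^ 2 ≤ 0 := by nlinarith
  have h5 : a0 - c0 = 0 := by nlinarith [sq_nonneg (a0 - c0), sq_nonneg (a1 - c1)]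
  have h6 : a1 - c1 = 0 := by nlinarith [sq_nonneg (a0 - c0), sq_nonneg (a1 - c1)]
  have h7 : a0 = c0 := by linarith
  have h8 : a1 = c1 := by linarith
  refine ⟨h7, h8, ?_, ?_⟩
  · rw [← h7, ← h8] at h; nlinarith
  · rw [← h7, ← h8] at h e2; nlinarith

theorem Rk_le_one {n : Fin 2 → Euc 2 → ℝ} (hn : ∀ x, n 0 x ^ 2 + n 1 x ^ 2 ≤ 1) (z w : Euc 2) :
    Rk n z w ≤ 1 := by
  have := (refl_alg (p := z 0 - w 0) (q := z 1 - w 1) (hn z) (hn w)).1
  simpa [Rk, Qd, s] using this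

/-- the reflection relation -/
def Refl (n : Fin 2 → Euc 2 → ℝ) (z w : Euc 2) : Prop :=
  n 0 z = n 0 w - 2 * (n 0 w * (z 0 - w 0) + n 1 w * (z 1 - w 1)) * (z 0 - w 0) /
      ((z 0 - w 0) ^ 2 + (z 1 - w 1) ^ 2) ∧
  n 1 z = n 1 w - 2 * (n 0 w * (z 0 - w 0) + n 1 w * (z 1 - w 1)) * (z 1 - w 1) /
      ((z 0 - w 0) ^ 2 + (z 1 - w 1) ^ 2) ∧
  n 0 z ^ 2 + n 1 z ^ 2 = 1 ∧ n 0 w ^ 2 + n 1 w ^ 2 = 1

theorem refl_of_Rk {n : Fin 2 → Euc 2 → ℝ} (hn : ∀ x, n 0 x ^ 2 + n 1 x ^ 2 ≤ 1) {z w : Euc 2}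
    (h : Rk n z w = 1) : Refl n z w := by
  refine (refl_alg (p := z 0 - w 0) (q := z 1 - w 1) (hn z) (hn w)).2 ?_
  simpa [Rk, Qd, s] using h

/-- **equality case**: if the length is at most `2πr` and the area is `πr²`, the reflection
relation holds almost everywhere and the length is `2πr`. -/
theorem equality (hA : IsOpen A) (hb : Bornology.IsBounded A) {r : ℝ} (hr : 0 < r)
    (hvol : volume A = ENNReal.ofReal (Real.pi * r ^ 2))
    (hlen : μHE[1] (frontier A) ≤ ENNReal.ofReal (2 * Real.pi * r))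
    {n : Fin 2 → Euc 2 → ℝ} (hn : IsNormal A n) :
    (tau A).real univ = 2 * Real.pi * r ∧
      ∀ᵐ w ∂(tau A), ∀ᵐ z ∂(tau A), Refl n z w := by
  have hfin : μHE[1] (frontier A) ≠ ∞ := ne_top_of_le_ne_top ENNReal.ofReal_ne_top hlen
  have hτ := isFinite_tau hfin
  have hpi := Real.pi_pos
  have hu : (tau A).real univ ≤ 2 * Real.pi * r := by
    rw [Measure.real, tau, Measure.restrict_apply_univ]
    exact ENNReal.toReal_le_of_le_ofReal (by positivity) hlen
  have hid := ident hA hb hfin hn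
  rw [hvol, ENNReal.toReal_ofReal (by positivity)] at hid
  have hintQ : Integrable (fun p : Euc 2 × Euc 2 => Qd 0 n p.1 p.2) ((tau A).prod (tau A)) :=
    Integrable.of_bound (measurable_Qd 0 hn.1).aestronglyMeasurable 1
      (Eventually.of_forall fun p => abs_Qd_le 0 hn.2.1 p.1 p.2)
  have hbm : ∀ i, ∀ x, |n i x| ≤ 1 := by
    intro i x
    have := hn.2.1 x
    rw [← sq_le_one_iff_abs_le_one]
    fin_cases i
    · simp only [Fin.zero_eta]; nlinarith [sq_nonneg (n 1 x)]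
    · simp only [Fin.mk_one]; nlinarith [sq_nonneg (n 0 x)]
  have hintn : ∀ i, Integrable (n i) (tau A) := fun i =>
    Integrable.of_bound (hn.1 i).aestronglyMeasurable 1 (Eventually.of_forall fun x => hbm i x)
  have hprod : ∀ i, Integrable (fun p : Euc 2 × Euc 2 => n i p.1 * n i p.2)
      ((tau A).prod (tau A)) := fun i => (hintn i).mul_prod (hintn i)
  have hprod0 : ∀ i, ∫ p : Euc 2 × Euc 2, n i p.1 * n i p.2 ∂((tau A).prod (tau A)) = 0 := by
    intro i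
    rw [integral_prod_mul, mean_zero hn i, zero_mul]
  have hR : ∫ p, (1 - Rk n p.1 p.2) ∂((tau A).prod (tau A)) =
      (tau A).real univ ^ 2 - 4 * Real.pi * (Real.pi * r ^ 2) := by
    have e1 : (fun p : Euc 2 × Euc 2 => 1 - Rk n p.1 p.2) = fun p =>
        1 - ((n 0 p.1 * n 0 p.2 + n 1 p.1 * n 1 p.2) - 2 * Qd 0 n p.1 p.2) := rfl
    have i3 : Integrable (fun p : Euc 2 × Euc 2 => n 0 p.1 * n 0 p.2 + n 1 p.1 * n 1 p.2)
      ((tau A).prod (tau A)) := (hprod 0).add (hprod 1)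
    have i4 : Integrable (fun p : Euc 2 × Euc 2 => 2 * Qd 0 n p.1 p.2)
      ((tau A).prod (tau A)) := hintQ.const_mul 2
    have i5 : Integrable (fun p : Euc 2 × Euc 2 =>
      (n 0 p.1 * n 0 p.2 + n 1 p.1 * n 1 p.2) - 2 * Qd 0 n p.1 p.2)
      ((tau A).prod (tau A)) := i3.sub i4
    rw [e1, integral_sub (integrable_const _) i5, integral_sub i3 i4,
      integral_add (hprod 0) (hprod 1), hprod0, hprod0, integral_const_mul, integral_prod _ hintQ,
      hid, integral_const]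
    have e2 : ((tau A).prod (tau A)).real univ = (tau A).real univ ^ 2 := by
      rw [Measure.real, ← univ_prod_univ, Measure.prod_prod, ENNReal.toReal_mul, sq]; rfl
    rw [e2]
    simp only [smul_eq_mul]
    ring
  have hnn : 0 ≤ ∫ p, (1 - Rk n p.1 p.2) ∂((tau A).prod (tau A)) :=
    integral_nonneg fun p => by
      have := Rk_le_one hn.2.1 p.1 p.2
      simp only [Pi.zero_apply]; linarith
  have h0 : (tau A).real univ = 2 * Real.pi * r := by
    apply le_antisymm hu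
    rw [hR] at hnn
    have h1 : (2 * Real.pi * r) ^ 2 ≤ (tau A).real univ ^ 2 := by nlinarith
    exact abs_le_of_sq_le_sq' h1 measureReal_nonneg |>.2
  refine ⟨h0, ?_⟩
  have hzero : ∫ p, (1 - Rk n p.1 p.2) ∂((tau A).prod (tau A)) = 0 := by
    rw [hR, h0]; ring
  have hintR : Integrable (fun p : Euc 2 × Euc 2 => 1 - Rk n p.1 p.2)
      ((tau A).prod (tau A)) :=
    (integrable_const _).sub (((hprod 0).add (hprod 1)).sub (hintQ.const_mul 2))
  have hae : ∀ᵐ p ∂((tau A).prod (tau A)), Rk n p.1 p.2 = 1 := by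
    have := (integral_eq_zero_iff_of_nonneg (fun p => by
      have := Rk_le_one hn.2.1 p.1 p.2
      simp only [Pi.zero_apply]; linarith) hintR).1 hzero
    filter_upwards [this] with p hp
    simp only [Pi.zero_apply] at hp
    linarith
  have hae' : ∀ᵐ p ∂((tau A).prod (tau A)), Rk n p.2 p.1 = 1 := by
    have := (Measure.measurePreserving_swap (μ := tau A) (ν := tau A)).quasiMeasurePreserving.ae hae
    exact this
  filter_upwards [Measure.ae_ae_of_ae_prod hae'] with w hw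
  filter_upwards [hw] with z hz
  exact refl_of_Rk hn.2.1 hz

end Crest.Agent.R241.LPx
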