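import Crest.Agent.R241.LPd

/-!
R241, block L-P (helper861): equality case of the planar isoperimetric inequality.
Part e: plane geometry and `PlanarEq`.
-/

set_option autoImplicit false

open MeasureTheory MeasureTheory.Measure Metric Filter Set Topology
open scoped NNReal ENNReal RealInnerProductSpace ComplexConjugate
open Crest.GeometryTopology.Submanifold (Euc)

noncomputable section

namespace Crest.Agent.R241.LPx

open G1

variable {A : Set (Euc 2)}

def toC (x : Euc 2) : ℂ := ⟨x 0, x 1⟩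

def NC (n : Fin 2 → Euc 2 → ℝ) (x : Euc 2) : ℂ := ⟨n 0 x, n 1 x⟩

theorem toC_inj {x y : Euc 2} (h : toC x = toC y) : x = y := by
  have h0 := congrArg Complex.re h
  have h1 := congrArg Complex.im h
  ext i
  fin_cases i
  · exact h0
  · exact h1

theorem refl_C {n : Fin 2 → Euc 2 → ℝ} {z w : Euc 2} (h : Refl n z w) (hne : z ≠ w) :
    NC n z * conj (toC z - toC w) = -(conj (NC n w) * (toC z - toC w)) ∧
      NC n z * conj (NC n z) = 1 ∧ NC n w * conj (NC n w) = 1 := by
  obtain ⟨h1, h2, h3, h4⟩ := h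
  have hS : (z 0 - w 0) ^ 2 + (z 1 - w 1) ^ 2 ≠ 0 := by
    intro hS
    apply hne
    have a0 : z 0 - w 0 = 0 := by nlinarith [sq_nonneg (z 0 - w 0), sq_nonneg (z 1 - w 1)]
    have a1 : z 1 - w 1 = 0 := by nlinarith [sq_nonneg (z 0 - w 0), sq_nonneg (z 1 - w 1)]
    ext i
    fin_cases i
    · simp only [Fin.zero_eta]; linarith
    · simp only [Fin.mk_one]; linarith
  refine ⟨?_, ?_, ?_⟩
  · apply Complex.ext
    · simp only [NC, toC, Complex.mul_re, Complex.sub_re, Complex.sub_im, Complex.conj_re,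
        Complex.conj_im, Complex.neg_re]
      rw [h1, h2]
      field_simp
      ring
    · simp only [NC, toC, Complex.mul_im, Complex.sub_re, Complex.sub_im, Complex.conj_re,
        Complex.conj_im, Complex.neg_im]
      rw [h1, h2]
      field_simp
      ring
  · apply Complex.ext
    · simp only [NC, Complex.mul_re, Complex.conj_re, Complex.conj_im, Complex.one_re]
      nlinarith
    · simp only [NC, Complex.mul_im, Complex.conj_re, Complex.conj_im, Complex.one_im]
      ring
  · apply Complex.ext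
    · simp only [NC, Complex.mul_re, Complex.conj_re, Complex.conj_im, Complex.one_re]
      nlinarith
    · simp only [NC, Complex.mul_im, Complex.conj_re, Complex.conj_im, Complex.one_im]
      ring

/-- key relation between two base points. -/
theorem key_rel {NZ N0 N1 Q0 Q1 : ℂ} (hz : NZ * conj NZ = 1)
    (h0 : NZ * conj Q0 = -(conj N0 * Q0)) (h1 : NZ * conj Q1 = -(conj N1 * Q1)) :
    conj Q0 * Q1 = conj N0 * N1 * (Q0 * conj Q1) := by
  have h1' : conj NZ * Q1 = -(N1 * conj Q1) := by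
    have := congrArg conj h1
    simpa using this
  have : NZ * conj NZ * (conj Q0 * Q1) = conj N0 * N1 * (Q0 * conj Q1) := by
    calc NZ * conj NZ * (conj Q0 * Q1) = (NZ * conj Q0) * (conj NZ * Q1) := by ring
      _ = _ := by rw [h0, h1']; ring
  rwa [hz, one_mul] at this

/-- line case -/
theorem line_case {NZ N0 N1 Q0 U : ℂ} (hμ : conj N0 * N1 = 1) (hQ : Q0 ≠ 0)
    (hU : U ≠ 0) (h0 : NZ * conj Q0 = -(conj N0 * Q0))
    (hk : conj Q0 * (Q0 - U) = conj N0 * N1 * (Q0 * conj (Q0 - U))) :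
    NZ = -(conj N0 * U) / conj U := by
  have hU' : conj U ≠ 0 := by simpa using hU
  rw [hμ, one_mul, map_sub] at hk
  have h2 : conj Q0 * U = Q0 * conj U := by linear_combination -hk
  rw [eq_div_iff hU']
  have h3 : NZ * (Q0 * conj U) = -(conj N0 * Q0 * U) := by
    rw [← h2]
    calc NZ * (conj Q0 * U) = (NZ * conj Q0) * U := by ring
      _ = _ := by rw [h0]; ring
  have h4 : Q0 * (NZ * conj U + conj N0 * U) = 0 := by linear_combination h3
  rcases mul_eq_zero.1 h4 with h | h
  · exact absurd h hQ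
  · linear_combination h

/-- circle case -/
theorem circle_case {NZ N0 μ Q0 u0 : ℂ} (hμ : μ * conj μ = 1) (hμ1 : μ ≠ 1) (hQ : Q0 ≠ 0)
    (hu : u0 ≠ 0) (h0 : NZ * conj Q0 = -(conj N0 * Q0))
    (hk : conj Q0 * (Q0 + (1 - μ) * u0) = μ * (Q0 * conj (Q0 + (1 - μ) * u0))) :
    (Q0 + u0) * conj (Q0 + u0) = u0 * conj u0 ∧ NZ = conj N0 / conj u0 * (Q0 + u0) := by
  have hu' : conj u0 ≠ 0 := by simpa using hu
  have hQ' : conj Q0 ≠ 0 := by simpa using hQ
  have h1 : (1 - μ) ≠ 0 := sub_ne_zero.2 (Ne.symm hμ1)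
  simp only [map_add, map_mul, map_sub, map_one] at hk
  have h2 : (1 - μ) * (Q0 * conj Q0 + conj Q0 * u0 + Q0 * conj u0) = 0 := by
    linear_combination hk - Q0 * conj u0 * hμ
  have h3 : Q0 * conj Q0 + conj Q0 * u0 + Q0 * conj u0 = 0 := by
    rcases mul_eq_zero.1 h2 with h | h
    · exact absurd h h1
    · exact h
  refine ⟨?_, ?_⟩
  · simp only [map_add]
    linear_combination h3
  · have h4 : NZ * conj u0 = conj N0 * (Q0 + u0) := by
      have : conj Q0 * (NZ * conj u0 - conj N0 * (Q0 + u0)) = 0 := by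
        linear_combination conj u0 * h0 - conj N0 * h3
      rcases mul_eq_zero.1 this with h | h
      · exact absurd h hQ'
      · linear_combination h
    rw [div_mul_eq_mul_div, eq_div_iff hu', h4]

theorem tau_singleton (x : Euc 2) : tau A {x} = 0 := by
  have h1 : μHE[1] ({x} : Set (Euc 2)) = 0 := by
    rcases euclideanHausdorffMeasure_zero_or_top (d₁ := 0) (d₂ := 1) (by norm_num)
      ({x} : Set (Euc 2)) with h | h
    · exact h
    · rw [euclideanHausdorffMeasure_zero] at h
      simp at h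
  exact le_antisymm ((Measure.restrict_apply_le _ _).trans h1.le) bot_le

theorem fderiv_coord (c : ℝ) (i j : Fin 2) (x : Euc 2) :
    fderiv ℝ (fun y : Euc 2 => y i - c) x (e j) = if i = j then 1 else 0 := by
  have h1 : ContDiff ℝ 1 (fun y : Euc 2 => y i - c) := by fun_prop
  apply fderiv_line h1
  by_cases h : i = j
  · subst h
    simp only [if_true]
    have : (fun t : ℝ => (x + t • e i) i - c) = fun t => x i + t - c := by
      funext t; simp [e]
    rw [this]
    simpa using ((hasDerivAt_id (0 : ℝ)).const_add (x i)).sub_const c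
  · simp only [if_neg h]
    have : (fun t : ℝ => (x + t • e j) i - c) = fun t => x i - c := by
      funext t; simp [e, h]
    rw [this]
    exact hasDerivAt_const _ _

theorem NC_re (n : Fin 2 → Euc 2 → ℝ) (x : Euc 2) : (NC n x).re = n 0 x := rfl
theorem NC_im (n : Fin 2 → Euc 2 → ℝ) (x : Euc 2) : (NC n x).im = n 1 x := rfl

/-- the normal cannot be constant -/
theorem not_const (hvol0 : 0 < (volume A).toReal)
    {n : Fin 2 → Euc 2 → ℝ} (hn : IsNormal A n) {N' : ℂ} (hN' : N' * conj N' = 1)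
    (hc : ∀ᵐ z ∂(tau A), NC n z = N') : False := by
  have hN1 : N'.re ^ 2 + N'.im ^ 2 = 1 := by
    have := congrArg Complex.re hN'
    simp only [Complex.mul_re, Complex.conj_re, Complex.conj_im, Complex.one_re] at this
    nlinarith
  have h := hn.2.2 (fun i x => (if i = 0 then -N'.im else N'.re) * (-N'.im * x 0 + N'.re * x 1))
    (fun i => by fun_prop)
  have hL : ∀ c : ℝ, ∀ (x : Euc 2) (i : Fin 2),
      fderiv ℝ (fun x : Euc 2 => c * (-N'.im * x 0 + N'.re * x 1)) x (e i) =
        c * (if i = 0 then -N'.im else N'.re) := by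
    intro c x i
    have hcd : ContDiff ℝ 1 (fun x : Euc 2 => c * (-N'.im * x 0 + N'.re * x 1)) := by fun_prop
    apply fderiv_line hcd
    fin_cases i
    · have : (fun t : ℝ => c * (-N'.im * (x + t • e 0) 0 + N'.re * (x + t • e 0) 1)) =
          fun t => c * (-N'.im) * t + c * (-N'.im * x 0 + N'.re * x 1) := by
        funext t; simp [e]; ring
      simp only [Fin.zero_eta, if_true]
      rw [this]
      simpa using ((hasDerivAt_id (0 : ℝ)).const_mul (c * (-N'.im))).add_const
        (c * (-N'.im * x 0 + N'.re * x 1))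
    · have : (fun t : ℝ => c * (-N'.im * (x + t • e 1) 0 + N'.re * (x + t • e 1) 1)) =
          fun t => c * N'.re * t + c * (-N'.im * x 0 + N'.re * x 1) := by
        funext t; simp [e]; ring
      simp only [Fin.mk_one, one_ne_zero, if_false]
      rw [this]
      simpa using ((hasDerivAt_id (0 : ℝ)).const_mul (c * N'.re)).add_const
        (c * (-N'.im * x 0 + N'.re * x 1))
  simp only [hL, if_true, one_ne_zero, if_false] at h
  have h1 : ∫ _ in A, (-N'.im * -N'.im + N'.re * N'.re) = (volume A).toReal := by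
    have : (-N'.im * -N'.im + N'.re * N'.re) = 1 := by nlinarith
    rw [this]
    simp [Measure.real]
  rw [h1] at h
  have h2 : ∫ x, (-N'.im * (-N'.im * x 0 + N'.re * x 1) * n 0 x +
      N'.re * (-N'.im * x 0 + N'.re * x 1) * n 1 x) ∂(tau A) = 0 := by
    rw [← integral_zero (Euc 2) ℝ (μ := tau A)]
    refine integral_congr_ae ?_
    filter_upwards [hc] with z hz
    have e0 : n 0 z = N'.re := congrArg Complex.re hz
    have e1 : n 1 z = N'.im := congrArg Complex.im hz
    simp only [e0, e1]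
    ring
  rw [h2] at h
  linarith

/-- the normal of a circle -/
theorem circle_end (hA : IsOpen A) (hb : Bornology.IsBounded A) {r : ℝ} (hr : 0 < r)
    (hvol : volume A = ENNReal.ofReal (Real.pi * r ^ 2))
    (hτf : IsFiniteMeasure (tau A)) (hτ : (tau A).real univ = 2 * Real.pi * r)
    {n : Fin 2 → Euc 2 → ℝ} (hn : IsNormal A n) {θ : ℂ} {c : Euc 2} {ρ2 : ℝ}
    (hθ : (θ.re ^ 2 + θ.im ^ 2) * ρ2 = 1)
    (hc : ∀ᵐ z ∂(tau A), (z 0 - c 0) ^ 2 + (z 1 - c 1) ^ 2 = ρ2 ∧
      NC n z = θ * (toC z - toC c)) :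
    volume (symmDiff A (ball c r)) = 0 := by
  have hpi := Real.pi_pos
  have hnn : ∀ᵐ z ∂(tau A), (z 0 - c 0) ^ 2 + (z 1 - c 1) ^ 2 = ρ2 ∧
      n 0 z = θ.re * (z 0 - c 0) - θ.im * (z 1 - c 1) ∧
      n 1 z = θ.re * (z 1 - c 1) + θ.im * (z 0 - c 0) := by
    filter_upwards [hc] with z hz
    refine ⟨hz.1, ?_, ?_⟩
    · have := congrArg Complex.re hz.2
      rw [NC_re] at this
      rw [this]; simp [toC]
    · have := congrArg Complex.im hz.2
      rw [NC_im] at this
      rw [this]; simp [toC]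
  have hcst : ∀ K : ℝ, ∫ _ : Euc 2, K ∂(tau A) = K * (2 * Real.pi * r) := by
    intro K; rw [integral_const, hτ, smul_eq_mul, mul_comm]
  -- radial field
  have hrad := hn.2.2 (fun i x => x i - c i) (fun i => by fun_prop)
  simp only [fderiv_coord, if_true] at hrad
  have e1 : ∫ _ in A, ((1 : ℝ) + 1) = 2 * (Real.pi * r ^ 2) := by
    rw [integral_const, Measure.real, Measure.restrict_apply_univ, hvol,
      ENNReal.toReal_ofReal (by positivity), smul_eq_mul]; ring
  have e2 : ∫ x, ((x 0 - c 0) * n 0 x + (x 1 - c 1) * n 1 x) ∂(tau A) =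
      θ.re * ρ2 * (2 * Real.pi * r) := by
    rw [← hcst]
    refine integral_congr_ae ?_
    filter_upwards [hnn] with z hz
    rw [hz.2.1, hz.2.2, ← hz.1]
    ring
  rw [e1, e2] at hrad
  -- rotation field
  have hrot := hn.2.2 (fun i x => if i = 0 then -(x 1 - c 1) else x 0 - c 0)
    (fun i => by split_ifs <;> fun_prop)
  simp only [if_true, one_ne_zero, if_false] at hrot
  have e3 : ∀ x : Euc 2, fderiv ℝ (fun y : Euc 2 => -(y 1 - c 1)) x (e 0) = 0 := by
    intro x
    rw [fderiv_fun_neg, _root_.neg_apply, fderiv_coord]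
    simp
  have e4 : ∀ x : Euc 2, fderiv ℝ (fun y : Euc 2 => (y 0 - c 0)) x (e 1) = 0 := by
    intro x; rw [fderiv_coord]; simp
  simp only [e3, e4, add_zero, integral_zero] at hrot
  have e5 : ∫ x, (-(x 1 - c 1) * n 0 x + (x 0 - c 0) * n 1 x) ∂(tau A) =
      θ.im * ρ2 * (2 * Real.pi * r) := by
    rw [← hcst]
    refine integral_congr_ae ?_
    filter_upwards [hnn] with z hz
    rw [hz.2.1, hz.2.2, ← hz.1]
    ring
  rw [e5] at hrot
  have hρ0 : ρ2 ≠ 0 := by rintro rfl; simp at hθ
  have him : θ.im = 0 := by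
    have h1 : θ.im * ρ2 = 0 := by
      have : (2 * Real.pi * r) ≠ 0 := by positivity
      rcases mul_eq_zero.1 hrot.symm with h | h
      · exact h
      · exact absurd h this
    rcases mul_eq_zero.1 h1 with h | h
    · exact h
    · exact absurd h hρ0
  have hre : θ.re * ρ2 = r := by
    have : (2 * Real.pi * r) * (θ.re * ρ2 - r) = 0 := by nlinarith
    rcases mul_eq_zero.1 this with h | h
    · exact absurd h (by positivity)
    · linarith
  have hρ : ρ2 = r ^ 2 := by
    rw [him] at hθ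
    have : (θ.re * ρ2) ^ 2 = ρ2 := by
      calc (θ.re * ρ2) ^ 2 = (θ.re ^ 2 + 0 ^ 2) * ρ2 * ρ2 := by ring
        _ = ρ2 := by rw [hθ, one_mul]
    rw [hre] at this
    exact this.symm
  subst hρ
  -- outer field
  let g : ℝ → ℝ := expNegInvGlue
  have hg : ContDiff ℝ 1 g := expNegInvGlue.contDiff (n := 1)
  have hgd : ∀ y, HasDerivAt g (deriv g y) y := fun y =>
    (hg.differentiable (by simp) y).hasDerivAt
  have hg' : ∀ y, 0 ≤ deriv g y := fun y => by
    exact (expNegInvGlue.monotone).deriv_nonneg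
  let G : Euc 2 → ℝ := fun x => g ((x 0 - c 0) ^ 2 + (x 1 - c 1) ^ 2 - r ^ 2)
  have hGc : ContDiff ℝ 1 G := by
    refine hg.comp ?_
    fun_prop
  have hG0 : ∀ x, 0 ≤ G x := fun x => expNegInvGlue.nonneg _
  have hV := hn.2.2 (fun i x => G x * (x i - c i)) (fun i => by
    refine hGc.mul ?_
    fun_prop)
  have hdiv : ∀ x : Euc 2, fderiv ℝ (fun x => G x * (x 0 - c 0)) x (e 0) +
      fderiv ℝ (fun x => G x * (x 1 - c 1)) x (e 1) =
      2 * G x + 2 * deriv g ((x 0 - c 0) ^ 2 + (x 1 - c 1) ^ 2 - r ^ 2) *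
        ((x 0 - c 0) ^ 2 + (x 1 - c 1) ^ 2) := by
    intro x
    have key : ∀ p q : ℝ, HasDerivAt (fun t : ℝ => g ((p + t) ^ 2 + q ^ 2 - r ^ 2) * (p + t))
        (deriv g (p ^ 2 + q ^ 2 - r ^ 2) * (2 * p) * p + g (p ^ 2 + q ^ 2 - r ^ 2)) 0 := by
      intro p q
      have d1 : HasDerivAt (fun t : ℝ => p + t) 1 0 := by
        simpa using (hasDerivAt_id (0 : ℝ)).const_add p
      have d2 : HasDerivAt (fun t : ℝ => (p + t) ^ 2 + q ^ 2 - r ^ 2) (2 * p) 0 := by
        have := ((d1.pow 2).add_const (q ^ 2)).sub_const (r ^ 2)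
        simpa using this
      have d3 : HasDerivAt (fun t : ℝ => g ((p + t) ^ 2 + q ^ 2 - r ^ 2))
          (deriv g (p ^ 2 + q ^ 2 - r ^ 2) * (2 * p)) 0 := by
        have h0 : HasDerivAt g (deriv g (p ^ 2 + q ^ 2 - r ^ 2)) ((p + 0) ^ 2 + q ^ 2 - r ^ 2) := by
          rw [add_zero]; exact hgd _
        exact h0.comp (0 : ℝ) d2
      have d4 := d3.mul d1
      refine d4.congr_deriv ?_
      simp
    let D : ℝ → ℝ → ℝ := fun p q =>
      deriv g (p ^ 2 + q ^ 2 - r ^ 2) * (2 * p) * p + g (p ^ 2 + q ^ 2 - r ^ 2)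
    have f0 : fderiv ℝ (fun x => G x * (x 0 - c 0)) x (e 0) = D (x 0 - c 0) (x 1 - c 1) := by
      apply fderiv_line (hGc.mul (by fun_prop))
      have : (fun t : ℝ => G (x + t • e 0) * ((x + t • e 0) 0 - c 0)) =
          fun t => g (((x 0 - c 0) + t) ^ 2 + (x 1 - c 1) ^ 2 - r ^ 2) * ((x 0 - c 0) + t) := by
        funext t
        simp only [G, e, PiLp.add_apply, PiLp.smul_apply, smul_eq_mul]
        simp
        ring_nf
      rw [this]
      exact key _ _
    have f1 : fderiv ℝ (fun x => G x * (x 1 - c 1)) x (e 1) = D (x 1 - c 1) (x 0 - c 0) := by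
      apply fderiv_line (hGc.mul (by fun_prop))
      have : (fun t : ℝ => G (x + t • e 1) * ((x + t • e 1) 1 - c 1)) =
          fun t => g (((x 1 - c 1) + t) ^ 2 + (x 0 - c 0) ^ 2 - r ^ 2) * ((x 1 - c 1) + t) := by
        funext t
        simp only [G, e, PiLp.add_apply, PiLp.smul_apply, smul_eq_mul]
        simp
        ring_nf
      rw [this]
      exact key _ _
    rw [f0, f1]
    simp only [D]
    have : (x 1 - c 1) ^ 2 + (x 0 - c 0) ^ 2 - r ^ 2 = (x 0 - c 0) ^ 2 + (x 1 - c 1) ^ 2 - r ^ 2 := by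
      ring
    rw [this]
    simp only [G]
    ring
  simp only [hdiv] at hV
  have hR : ∫ x, (G x * (x 0 - c 0) * n 0 x + G x * (x 1 - c 1) * n 1 x) ∂(tau A) = 0 := by
    rw [← integral_zero (Euc 2) ℝ (μ := tau A)]
    refine integral_congr_ae ?_
    filter_upwards [hnn] with z hz
    have : G z = 0 := by
      simp only [G]
      rw [hz.1]
      exact expNegInvGlue.zero_of_nonpos (by simp)
    rw [this]; ring
  rw [hR] at hV
  have hdc : Continuous (deriv g) := hg.continuous_deriv (by simp)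
  have hFc : Continuous (fun x : Euc 2 => 2 * G x +
      2 * deriv g ((x 0 - c 0) ^ 2 + (x 1 - c 1) ^ 2 - r ^ 2) *
        ((x 0 - c 0) ^ 2 + (x 1 - c 1) ^ 2)) := by
    have := hGc.continuous
    have h2 : Continuous (fun x : Euc 2 => deriv g ((x 0 - c 0) ^ 2 + (x 1 - c 1) ^ 2 - r ^ 2)) :=
      hdc.comp (by fun_prop)
    fun_prop
  have hFi : IntegrableOn (fun x : Euc 2 => 2 * G x +
      2 * deriv g ((x 0 - c 0) ^ 2 + (x 1 - c 1) ^ 2 - r ^ 2) *
        ((x 0 - c 0) ^ 2 + (x 1 - c 1) ^ 2)) A := by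
    obtain ⟨R, hR⟩ := hb.subset_closedBall 0
    exact (hFc.continuousOn.integrableOn_compact (isCompact_closedBall _ _)).mono_set hR
  have hF0 : ∀ x : Euc 2, 0 ≤ 2 * G x +
      2 * deriv g ((x 0 - c 0) ^ 2 + (x 1 - c 1) ^ 2 - r ^ 2) *
        ((x 0 - c 0) ^ 2 + (x 1 - c 1) ^ 2) := by
    intro x
    have h1 := hG0 x
    have h2 := hg' ((x 0 - c 0) ^ 2 + (x 1 - c 1) ^ 2 - r ^ 2)
    positivity
  have hae := (setIntegral_eq_zero_iff_of_nonneg_ae (Eventually.of_forall hF0) hFi).1 hV
  have hdist : ∀ x : Euc 2, dist x c ^ 2 = (x 0 - c 0) ^ 2 + (x 1 - c 1) ^ 2 := by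
    intro x
    rw [EuclideanSpace.dist_eq, Real.sq_sqrt (by positivity)]
    simp [Fin.sum_univ_two, Real.dist_eq, sq_abs]
  have hout : volume (A \ closedBall c r) = 0 := by
    rw [EventuallyEq, ae_restrict_iff' hA.measurableSet, ae_iff] at hae
    refine measure_mono_null ?_ hae
    rintro x ⟨hxA, hxB⟩
    simp only [mem_ofPred_eq, Classical.not_imp, Pi.zero_apply]
    refine ⟨hxA, ?_⟩
    have h1 : r < dist x c := by simpa [mem_closedBall] using hxB
    have h2 : r ^ 2 < (x 0 - c 0) ^ 2 + (x 1 - c 1) ^ 2 := by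
      rw [← hdist]; exact pow_lt_pow_left₀ h1 hr.le (by norm_num)
    have h3 : 0 < G x := expNegInvGlue.pos_of_pos (by linarith)
    have h4 := hg' ((x 0 - c 0) ^ 2 + (x 1 - c 1) ^ 2 - r ^ 2)
    have h5 : 0 < 2 * G x + 2 * deriv g ((x 0 - c 0) ^ 2 + (x 1 - c 1) ^ 2 - r ^ 2) *
        ((x 0 - c 0) ^ 2 + (x 1 - c 1) ^ 2) := by positivity
    exact h5.ne'
  have hball : volume (ball c r) = ENNReal.ofReal (Real.pi * r ^ 2) := by
    rw [EuclideanSpace.volume_ball_fin_two, ← ENNReal.ofReal_pow hr.le,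
      ← ENNReal.ofReal_mul (by positivity), mul_comm]
  have h1 : volume (A \ ball c r) = 0 := by
    have : A \ ball c r ⊆ (A \ closedBall c r) ∪ sphere c r := by
      rintro x ⟨hx, hx'⟩
      by_cases h : x ∈ closedBall c r
      · right
        rw [mem_sphere]
        rw [mem_closedBall] at h
        rw [mem_ball, not_lt] at hx'
        exact le_antisymm h hx'
      · exact Or.inl ⟨hx, h⟩
    refine measure_mono_null this (measure_union_null hout ?_)
    exact Measure.addHaar_sphere_of_ne_zero _ _ hr.ne'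
  have h2 : volume (ball c r \ A) = 0 := by
    have e6 : volume (A ∩ ball c r) = volume A := by
      have := measure_inter_add_sdiff (μ := volume) A (measurableSet_ball (x := c) (ε := r))
      rw [h1, add_zero] at this
      exact this
    have e7 := measure_inter_add_sdiff (μ := volume) (ball c r) hA.measurableSet
    rw [inter_comm, e6, hvol, hball] at e7
    have hne : ENNReal.ofReal (Real.pi * r ^ 2) ≠ ∞ := ENNReal.ofReal_ne_top
    exact (ENNReal.add_right_inj hne).1 (by rw [e7, add_zero])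
  rw [Set.symmDiff_def]
  exact measure_union_null h1 h2

/-- **Equality case of the planar isoperimetric inequality.** -/
theorem planarEq : LTargets.PlanarEq := by
  intro A r hA hb hr hvol hlen
  have hpi := Real.pi_pos
  have hfin : μHE[1] (frontier A) ≠ ∞ := ne_top_of_le_ne_top ENNReal.ofReal_ne_top hlen
  have hτf := isFinite_tau hfin
  obtain ⟨n, hn⟩ : ∃ n, IsNormal A n := exists_normal hA hb hfin
  obtain ⟨hτ, hrefl⟩ := equality hA hb hr hvol hlen hn
  have hτpos : 0 < (tau A).real univ := by rw [hτ]; positivity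
  have hτne : tau A ≠ 0 := by
    rintro h; rw [h] at hτpos; simp at hτpos
  have hne : (ae (tau A)).NeBot := ae_neBot.2 hτne
  have hat : ∀ x, ∀ᵐ z ∂(tau A), z ≠ x := by
    intro x
    rw [ae_iff]
    simpa using tau_singleton (A := A) x
  obtain ⟨w0, hw0⟩ := hrefl.exists
  obtain ⟨w1, hw1, hw10⟩ := (hrefl.and (hat w0)).exists
  -- everything needed at a generic point
  have hgen : ∀ᵐ z ∂(tau A), Refl n z w0 ∧ Refl n z w1 ∧ z ≠ w0 ∧ z ≠ w1 := by
    filter_upwards [hw0, hw1, hat w0, hat w1] with z h1 h2 h3 h4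
    exact ⟨h1, h2, h3, h4⟩
  obtain ⟨z0, hz0⟩ := hgen.exists
  have hN0 : NC n w0 * conj (NC n w0) = 1 := (refl_C hz0.1 hz0.2.2.1).2.2
  have hN1 : NC n w1 * conj (NC n w1) = 1 := (refl_C hz0.2.1 hz0.2.2.2).2.2
  have hN0' : NC n w0 ≠ 0 := by intro h; rw [h] at hN0; simp at hN0
  have hvol0 : 0 < (volume A).toReal := by
    rw [hvol, ENNReal.toReal_ofReal (by positivity)]; positivity
  have hU : toC w1 - toC w0 ≠ 0 := by
    intro h
    exact hw10 (toC_inj (sub_eq_zero.1 h))
  by_cases hμ1 : conj (NC n w0) * NC n w1 = 1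
  · -- line
    exfalso
    refine not_const hvol0 hn
      (N' := -(conj (NC n w0) * (toC w1 - toC w0)) / conj (toC w1 - toC w0)) ?_ ?_
    · have hU' : conj (toC w1 - toC w0) ≠ 0 := (map_ne_zero _).2 hU
      rw [map_div₀, map_neg, map_mul, Complex.conj_conj, Complex.conj_conj]
      field_simp
      linear_combination hN0
    · filter_upwards [hgen] with z hz
      obtain ⟨r0, r1, ne0, ne1⟩ := hz
      obtain ⟨c0, cz, -⟩ := refl_C r0 ne0
      obtain ⟨c1, -, -⟩ := refl_C r1 ne1
      have hQ : toC z - toC w0 ≠ 0 := fun h => ne0 (toC_inj (sub_eq_zero.1 h))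
      have hk := key_rel cz c0 c1
      have e1 : toC z - toC w1 = (toC z - toC w0) - (toC w1 - toC w0) := by ring
      rw [e1] at hk
      exact line_case hμ1 hQ hU c0 hk
  · -- circle
    set μ := conj (NC n w0) * NC n w1 with hμ
    have hμμ : μ * conj μ = 1 := by
      rw [hμ, map_mul, Complex.conj_conj]
      calc conj (NC n w0) * NC n w1 * (NC n w0 * conj (NC n w1))
          = (NC n w0 * conj (NC n w0)) * (NC n w1 * conj (NC n w1)) := by ring
        _ = 1 := by rw [hN0, hN1, one_mul]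
    have h1μ : 1 - μ ≠ 0 := sub_ne_zero.2 (Ne.symm hμ1)
    set u0 : ℂ := (toC w0 - toC w1) / (1 - μ) with hu0
    have hu : u0 ≠ 0 := by
      rw [hu0]
      apply div_ne_zero _ h1μ
      rw [← neg_ne_zero, neg_sub]; exact hU
    have hu1 : (1 - μ) * u0 = toC w0 - toC w1 := by rw [hu0]; field_simp
    let cC : ℂ := toC w0 - u0
    let c : Euc 2 := !₂[cC.re, cC.im]
    have hcC : toC c = cC := by
      apply Complex.ext <;> simp [toC, c]
    have hu' : conj u0 ≠ 0 := by simpa using hu
    refine ⟨c, circle_end hA hb hr hvol hτf hτ hn (θ := conj (NC n w0) / conj u0) (c := c)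
      (ρ2 := Complex.normSq u0) ?_ ?_⟩
    · have h1 : (conj (NC n w0) / conj u0).re ^ 2 + (conj (NC n w0) / conj u0).im ^ 2 =
          Complex.normSq (conj (NC n w0) / conj u0) := by
        rw [Complex.normSq_apply]; ring
      have h2 : Complex.normSq (NC n w0) = 1 := by
        have := hN0
        rw [Complex.mul_conj] at this
        exact_mod_cast this
      have h3 : Complex.normSq u0 ≠ 0 := by simpa using hu
      rw [h1, Complex.normSq_div, Complex.normSq_conj, Complex.normSq_conj, h2]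
      field_simp
    · filter_upwards [hgen] with z hz
      obtain ⟨r0, r1, ne0, ne1⟩ := hz
      obtain ⟨c0, cz, -⟩ := refl_C r0 ne0
      obtain ⟨c1, -, -⟩ := refl_C r1 ne1
      have hQ : toC z - toC w0 ≠ 0 := fun h => ne0 (toC_inj (sub_eq_zero.1 h))
      have hk := key_rel cz c0 c1
      have e1 : toC z - toC w1 = (toC z - toC w0) + (1 - μ) * u0 := by rw [hu1]; ring
      rw [e1] at hk
      obtain ⟨k1, k2⟩ := circle_case hμμ hμ1 hQ hu c0 hk
      have e2 : toC z - toC w0 + u0 = toC z - toC c := by rw [hcC]; simp only [cC]; ring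
      rw [e2] at k1 k2
      refine ⟨?_, k2⟩
      rw [Complex.mul_conj, Complex.mul_conj] at k1
      have k3 : Complex.normSq (toC z - toC c) = Complex.normSq u0 := by exact_mod_cast k1
      rw [← k3, Complex.normSq_apply]
      simp only [toC, Complex.sub_re, Complex.sub_im]
      ring

end Crest.Agent.R241.LPx

/-- Stable name for the consumers. -/
theorem Crest.Agent.R241.LP.planarEq : Crest.Agent.R241.LTargets.PlanarEq :=
  Crest.Agent.R241.LPx.planarEq
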