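import Crest.Agent.R241.LC
import Crest.Agent.R241.LSob882
import Crest.Agent.R241.E5
import Crest.Agent.R241.LPe

/-!
# R241, block L-D (helper734): the surface case `n = 2` of S0373, part a.

The Fatou step, and the equality `W = 0` a.e. on `A × A` from the sharp Sobolev inequality.
-/

set_option autoImplicit false

open MeasureTheory MeasureTheory.Measure Filter Topology Set
open scoped ENNReal NNReal ContDiff

namespace Crest.Agent.R241.Surf373

open Crest.GeometryTopology.Submanifold
open Crest.Agent.R241.LSob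

lemma ae_ne_prod : ∀ᵐ q : Euc 2 × Euc 2 ∂((volume : Measure (Euc 2)).prod volume), q.1 ≠ q.2 := by
  have h : ((volume : Measure (Euc 2)).prod volume) {q | q.1 = q.2} = 0 := by
    have hm : MeasurableSet {q : Euc 2 × Euc 2 | q.1 = q.2} := measurableSet_diagonal
    rw [Measure.measure_prod_null hm]
    refine Eventually.of_forall fun x => ?_
    have : Prod.mk x ⁻¹' {q : Euc 2 × Euc 2 | q.1 = q.2} = {x} := by
      ext y; simp [eq_comm]
    simp only [Pi.zero_apply, this, measure_singleton]
  rw [ae_iff]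
  simpa using h

/-- The Fatou step. -/
theorem null_of_bounds {W : Euc 2 → Euc 2 → ℝ} {J : Euc 2 → ℝ}
    (hW : Measurable fun q : Euc 2 × Euc 2 => W q.1 q.2)
    (hW0 : ∀ z w, z ≠ w → 0 ≤ W z w) (hJm : Measurable J) (hJ : ∀ z, 0 < J z)
    {A : Set (Euc 2)} (hA : MeasurableSet A)
    {u : ℕ → Euc 2 → ℝ} (hum : ∀ n, Measurable (u n))
    (he : ∀ n, ∫⁻ z, ENNReal.ofReal (|u n z - A.indicator (fun _ => (1 : ℝ)) z| * J z) ≤
      ENNReal.ofReal ((1 / 2) ^ n))
    (hD : Tendsto (fun n => ∫⁻ q : Euc 2 × Euc 2,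
      ENNReal.ofReal (W q.1 q.2 * (u n q.1 * J q.1) * (u n q.2 * J q.2))
        ∂((volume : Measure (Euc 2)).prod volume)) atTop (𝓝 0)) :
    ∀ᵐ z ∂(volume.restrict A), ∀ᵐ w ∂(volume.restrict A), W z w = 0 := by
  -- almost everywhere convergence
  have hconv : ∀ᵐ z ∂(volume : Measure (Euc 2)),
      Tendsto (fun n => u n z) atTop (𝓝 (A.indicator (fun _ => (1 : ℝ)) z)) := by
    have hmeas : ∀ n, Measurable fun z : Euc 2 =>
        ENNReal.ofReal (|u n z - A.indicator (fun _ => (1 : ℝ)) z| * J z) := fun n =>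
      ((((hum n).sub (measurable_const.indicator hA)).abs).mul hJm).ennreal_ofReal
    have h1 : ∫⁻ z : Euc 2, ∑' n, ENNReal.ofReal (|u n z - A.indicator (fun _ => (1 : ℝ)) z| * J z)
        ≠ ⊤ := by
      rw [lintegral_tsum fun n => (hmeas n).aemeasurable]
      refine ne_top_of_le_ne_top ?_ (ENNReal.tsum_le_tsum he)
      rw [← ENNReal.ofReal_tsum_of_nonneg (fun n => by positivity) summable_geometric_two]
      exact ENNReal.ofReal_ne_top
    have h2 := ae_lt_top (Measurable.tsum hmeas) h1
    filter_upwards [h2] with z hz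
    have h3 := ENNReal.tendsto_atTop_zero_of_tsum_ne_top hz.ne
    have h4 : Tendsto (fun n => |u n z - A.indicator (fun _ => (1 : ℝ)) z| * J z) atTop
        (𝓝 0) := by
      have h5 := (ENNReal.tendsto_toReal ENNReal.zero_ne_top).comp h3
      simp only [ENNReal.toReal_zero] at h5
      refine h5.congr fun n => ?_
      simp only [Function.comp]
      rw [ENNReal.toReal_ofReal (mul_nonneg (abs_nonneg _) (hJ z).le)]
    have h6 := h4.div_const (J z)
    simp only [mul_div_assoc, div_self (hJ z).ne', mul_one, zero_div] at h6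
    rw [tendsto_iff_dist_tendsto_zero]
    simpa [Real.dist_eq] using h6
  -- Fatou
  set F : ℕ → Euc 2 × Euc 2 → ℝ≥0∞ := fun n q =>
    ENNReal.ofReal (W q.1 q.2 * (u n q.1 * J q.1) * (u n q.2 * J q.2)) with hF
  set G : Euc 2 × Euc 2 → ℝ := fun q => W q.1 q.2 *
    (A.indicator (fun _ => (1 : ℝ)) q.1 * J q.1) * (A.indicator (fun _ => (1 : ℝ)) q.2 * J q.2)
    with hG
  have hFm : ∀ n, Measurable (F n) := by
    intro n
    refine Measurable.ennreal_ofReal ?_
    exact (hW.mul (((hum n).comp measurable_fst).mul (hJm.comp measurable_fst))).mul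
      (((hum n).comp measurable_snd).mul (hJm.comp measurable_snd))
  have hlim : ∀ᵐ q ∂((volume : Measure (Euc 2)).prod volume),
      Tendsto (fun n => F n q) atTop (𝓝 (ENNReal.ofReal (G q))) := by
    have e1 := (quasiMeasurePreserving_fst (μ := (volume : Measure (Euc 2)))
      (ν := (volume : Measure (Euc 2)))).ae hconv
    have e2 := (quasiMeasurePreserving_snd (μ := (volume : Measure (Euc 2)))
      (ν := (volume : Measure (Euc 2)))).ae hconv
    filter_upwards [e1, e2] with q h1 h2
    refine ENNReal.tendsto_ofReal ?_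
    exact (tendsto_const_nhds.mul (h1.mul_const _)).mul (h2.mul_const _)
  have hfat : ∫⁻ q, ENNReal.ofReal (G q) ∂((volume : Measure (Euc 2)).prod volume) = 0 := by
    have h1 : ∫⁻ q, ENNReal.ofReal (G q) ∂((volume : Measure (Euc 2)).prod volume) =
        ∫⁻ q, liminf (fun n => F n q) atTop ∂((volume : Measure (Euc 2)).prod volume) := by
      refine lintegral_congr_ae ?_
      filter_upwards [hlim] with q hq
      exact hq.liminf_eq.symm
    rw [h1]
    refine le_antisymm ?_ zero_le
    refine (lintegral_liminf_le hFm).trans ?_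
    rw [hD.liminf_eq]
  have hGm : Measurable fun q => ENNReal.ofReal (G q) := by
    refine Measurable.ennreal_ofReal ?_
    have hi : Measurable (A.indicator (fun _ => (1 : ℝ))) := measurable_const.indicator hA
    exact (hW.mul ((hi.comp measurable_fst).mul (hJm.comp measurable_fst))).mul
      ((hi.comp measurable_snd).mul (hJm.comp measurable_snd))
  have hzero := (lintegral_eq_zero_iff hGm).1 hfat
  have hfin : ∀ᵐ q ∂((volume : Measure (Euc 2)).prod volume), q.1 ∈ A → q.2 ∈ A →
      W q.1 q.2 = 0 := by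
    filter_upwards [hzero, ae_ne_prod] with q hq hne h1 h2
    have h3 : G q = W q.1 q.2 * J q.1 * J q.2 := by
      simp [hG, h1, h2]
    have h4 : ENNReal.ofReal (G q) = 0 := hq
    rw [h3, ENNReal.ofReal_eq_zero] at h4
    have h5 : 0 ≤ W q.1 q.2 := hW0 _ _ hne
    have h6 := hJ q.1
    have h7 := hJ q.2
    have h8 : W q.1 q.2 * (J q.1 * J q.2) ≤ 0 := by rw [← mul_assoc]; exact h4
    have h9 : 0 < J q.1 * J q.2 := mul_pos h6 h7
    nlinarith
  have h10 := ae_ae_of_ae_prod hfin
  rw [ae_restrict_iff' hA]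
  filter_upwards [h10] with z hz hzA
  rw [ae_restrict_iff' hA]
  filter_upwards [hz] with w hw hwA
  exact hw hzA hwA

section model

variable {N : ℕ} {k : ℝ} {S : Set (Euc N)} {X : Type} [MetricSpace X]

lemma contDiff_psi (M : CHModel 2 N k S X) (p : X) : ContDiff ℝ ∞ (psi M p) := M.smooth p

lemma continuous_e (M : CHModel 2 N k S X) (p : X) : Continuous (M.e p) := by
  rw [M.ι_emb.isInducing.continuous_iff]
  exact (contDiff_psi M p).continuous

/-- `e p` as a homeomorphism. -/
noncomputable def homeo (M : CHModel 2 N k S X) (p : X) : Euc 2 ≃ₜ X where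
  toEquiv := Equiv.ofBijective (M.e p) (M.e_bij p)
  continuous_toFun := continuous_e M p
  continuous_invFun := by
    have h : LipschitzWith 1 (Equiv.ofBijective (M.e p) (M.e_bij p)).symm := by
      refine LipschitzWith.of_dist_le_mul fun x y => ?_
      obtain ⟨v, rfl⟩ := (Equiv.ofBijective (M.e p) (M.e_bij p)).surjective x
      obtain ⟨w, rfl⟩ := (Equiv.ofBijective (M.e p) (M.e_bij p)).surjective y
      rw [Equiv.symm_apply_apply, Equiv.symm_apply_apply, NNReal.coe_one, one_mul, dist_eq_norm]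
      exact M.e_expand p v w
    exact h.continuous

lemma closedEmb (M : CHModel 2 N k S X) (p : X) (hclosed : IsClosed S) :
    IsClosedEmbedding (psi M p) := by
  have h1 : IsClosedEmbedding M.ι := ⟨M.ι_emb, by rw [M.ι_range]; exact hclosed⟩
  exact h1.comp (homeo M p).isClosedEmbedding

lemma range_psi (M : CHModel 2 N k S X) (p : X) : range (psi M p) = S :=
  ((M.e_bij p).2.range_comp M.ι).trans M.ι_range

lemma inj_psi (M : CHModel 2 N k S X) (p : X) : Function.Injective (psi M p) :=
  M.ι_inj.comp (M.e_bij p).1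

lemma image_preimage_psi (M : CHModel 2 N k S X) (p : X) {E : Set (Euc N)} (hES : E ⊆ S) :
    psi M p '' (psi M p ⁻¹' E) = E := by
  rw [image_preimage_eq_inter_range, range_psi, inter_eq_left.2 hES]

lemma dn_eq (M : CHModel 2 N k S X) (p : X) (z : Euc 2) :
    dn M p z = AF.jac (fderiv ℝ (psi M p) z) := (AF.jac_eq_sqrt _ _).symm

lemma dn_pos (M : CHModel 2 N k S X) (p : X) (z : Euc 2) : 0 < dn M p z := by
  have h := E5b.one_le_det (f := psi M p) (x := z) (fun w => M.fderiv_ge p z w)
  unfold dn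
  exact Real.sqrt_pos.2 (by linarith)

lemma continuous_dn (M : CHModel 2 N k S X) (p : X) : Continuous (dn M p) := by
  have h : dn M p = fun z => AF.jac (fderiv ℝ (psi M p) z) := funext (dn_eq M p)
  rw [h]
  exact LC.continuous_jac' ((contDiff_psi M p).of_le (by exact_mod_cast le_top))

lemma isOpen_preimage (M : CHModel 2 N k S X) (p : X) {E : Set (Euc N)}
    (hopen : ∃ U : Set (Euc N), IsOpen U ∧ E = S ∩ U) : IsOpen (psi M p ⁻¹' E) := by
  obtain ⟨U, hU, rfl⟩ := hopen
  have h : psi M p ⁻¹' (S ∩ U) = psi M p ⁻¹' U := by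
    ext v
    simp only [mem_preimage, mem_inter_iff, and_iff_right_iff_imp]
    intro _
    exact (range_psi M p).subset (mem_range_self v)
  rw [h]
  exact hU.preimage (contDiff_psi M p).continuous

/-- the volume in the chart -/
lemma muHE_eq (M : CHModel 2 N k S X) (p : X) {E : Set (Euc N)} (hES : E ⊆ S)
    (hopen : ∃ U : Set (Euc N), IsOpen U ∧ E = S ∩ U) :
    μHE[2] E = ∫⁻ z in psi M p ⁻¹' E, ENNReal.ofReal (dn M p z) := by
  have h := AF.muHE_image_Euc (f := psi M p) (s := psi M p ⁻¹' E) isOpen_univ (subset_univ _)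
    (isOpen_preimage M p hopen).measurableSet
    ((contDiff_psi M p).differentiable (by simp)).differentiableOn (inj_psi M p).injOn
  rw [image_preimage_psi M p hES] at h
  rw [h]
  simp only [dn_eq]

/-- `W = 0` almost everywhere on `A × A`. -/
theorem kernel_null (M : CHModel 2 N 0 S X) (p : X) {W : Euc 2 → Euc 2 → ℝ}
    (hK : Kernel M p W) (hclosed : IsClosed S) {E : Set (Euc N)} (hES : E ⊆ S)
    (hopen : ∃ U : Set (Euc N), IsOpen U ∧ E = S ∩ U) {r : ℝ} (hr : 0 < r)
    (hvol : μHE[2] E = ENNReal.ofReal (Real.pi * r ^ 2))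
    (harea : μHE[1] (relBoundary S E) ≤ ENNReal.ofReal (2 * Real.pi * r)) :
    ∀ᵐ z ∂(volume.restrict (psi M p ⁻¹' E)), ∀ᵐ w ∂(volume.restrict (psi M p ⁻¹' E)),
      W z w = 0 := by
  set A := psi M p ⁻¹' E with hA
  set J := dn M p with hJ
  have hAo : IsOpen A := isOpen_preimage M p hopen
  have hJc : Continuous J := continuous_dn M p
  have hJ0 : ∀ z, 0 < J z := dn_pos M p
  have hPi := Real.pi_pos
  have hP : μHE[1] (relBoundary S E) ≠ ⊤ := ne_top_of_le_ne_top ENNReal.ofReal_ne_top harea
  have hP' : (μHE[1] (relBoundary S E)).toReal ≤ 2 * Real.pi * r :=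
    ENNReal.toReal_le_of_le_ofReal (by positivity) harea
  have hV : μHE[1 + 1] E ≠ ⊤ := by
    change μHE[2] E ≠ ⊤
    rw [hvol]; exact ENNReal.ofReal_ne_top
  have happ : ∀ n : ℕ, ∃ u c : Euc 2 → ℝ, ContDiff ℝ ∞ u ∧ HasCompactSupport u ∧
      (∀ x, 0 ≤ u x ∧ u x ≤ 1) ∧
      Continuous c ∧ HasCompactSupport c ∧ (∀ x, 0 ≤ c x) ∧
      (∀ x w, |fderiv ℝ u x w| ≤ c x * ‖fderiv ℝ (psi M p) x w‖) ∧
      ∫ x, c x * J x ≤ 2 * Real.pi * r + (1 / 2) ^ n ∧
      Integrable (fun x => |u x - A.indicator (fun _ => (1 : ℝ)) x| * J x) ∧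
      ∫ x, |u x - A.indicator (fun _ => (1 : ℝ)) x| * J x ≤ (1 / 2) ^ n := by
    intro n
    obtain ⟨u, c, h1, h2, h3, h4, h5, h6, h7, h8, h9, h10⟩ :=
      LC.approx_set (n := 1) (contDiff_psi M p) (closedEmb M p hclosed)
        (fun x w => M.fderiv_ge p x w) (range_psi M p) hES hopen hP hV
        (ε := (1 / 2) ^ n) (by positivity)
    have hJe : ∀ x, AF.jac (fderiv ℝ (psi M p) x) = J x := fun x => (dn_eq M p x).symm
    simp only [hJe] at h8 h9 h10
    have h8' : ∫ x, c x * J x ≤ 2 * Real.pi * r + (1 / 2) ^ n := h8.trans (by linarith)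
    exact ⟨u, c, h1, h2, h3, h4, h5, h6, h7, h8', h9, h10⟩
  choose u c hu1 hu2 hu3 hc1 hc2 hc3 hc4 hc5 hi he using happ
  -- the volume
  have hAJ : IntegrableOn J A := by
    refine ⟨hJc.aestronglyMeasurable, ?_⟩
    rw [hasFiniteIntegral_iff_ofReal (Eventually.of_forall fun x => (hJ0 x).le)]
    rw [← muHE_eq M p hES hopen, hvol]
    exact ENNReal.ofReal_lt_top
  have hvol' : ∫ z in A, J z = Real.pi * r ^ 2 := by
    rw [integral_eq_lintegral_of_nonneg_ae (Eventually.of_forall fun x => (hJ0 x).le)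
      hJc.aestronglyMeasurable, ← muHE_eq M p hES hopen, hvol,
      ENNReal.toReal_ofReal (by positivity)]
  refine null_of_bounds hK.meas (fun z w h => by simpa using hK.ge z w h) hJc.measurable hJ0
    hAo.measurableSet (u := u) (fun n => (hu1 n).continuous.measurable) (fun n => ?_) ?_
  · rw [← ofReal_integral_eq_lintegral_ofReal (hi n)
      (Eventually.of_forall fun x => mul_nonneg (abs_nonneg _) (hJ0 x).le)]
    exact ENNReal.ofReal_le_ofReal (he n)
  · -- the remainder tends to zero
    have hsob := fun n => hK.sob (u n) (c n) (hu1 n) (hu2 n) (fun z => (hu3 n z).1)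
      (hc1 n).measurable (hc4 n)
      (((hc1 n).mul hJc).integrable_of_hasCompactSupport (hc2 n).mul_right)
    set D : ℕ → ℝ := fun n => ∫ q : Euc 2 × Euc 2,
      W q.1 q.2 * (u n q.1 * J q.1) * (u n q.2 * J q.2) ∂(volume.prod volume) with hD
    have hnn : ∀ n, ∀ᵐ q ∂((volume : Measure (Euc 2)).prod volume),
        0 ≤ W q.1 q.2 * (u n q.1 * J q.1) * (u n q.2 * J q.2) := by
      intro n
      filter_upwards [ae_ne_prod] with q hq
      have h1 : 0 ≤ W q.1 q.2 := by simpa using hK.ge _ _ hq
      have h2 := (hu3 n q.1).1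
      have h3 := (hu3 n q.2).1
      have h4 := (hJ0 q.1).le
      have h5 := (hJ0 q.2).le
      positivity
    have hD0 : ∀ n, 0 ≤ D n := fun n => integral_nonneg_of_ae (hnn n)
    have hDle : ∀ n, D n ≤ (2 * Real.pi * r + (1 / 2) ^ n) ^ 2 -
        4 * Real.pi * (Real.pi * r ^ 2 - 2 * (1 / 2) ^ n) := by
      intro n
      have h1 := (hsob n).2
      have h2 : (∫ z, c n z * dn M p z) ^ 2 ≤ (2 * Real.pi * r + (1 / 2) ^ n) ^ 2 := by
        have h3 : 0 ≤ ∫ z, c n z * dn M p z :=
          integral_nonneg fun z => mul_nonneg (hc3 n z) (hJ0 z).le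
        exact pow_le_pow_left₀ h3 (hc5 n) 2
      have h4 : Real.pi * r ^ 2 - 2 * (1 / 2) ^ n ≤ ∫ z, u n z ^ 2 * dn M p z := by
        have i1 : Integrable (fun z => A.indicator J z) :=
          (integrable_indicator_iff hAo.measurableSet).2 hAJ
        have i2 : Integrable (fun z => u n z ^ 2 * J z) := by
          refine (((hu1 n).continuous.pow 2).mul hJc).integrable_of_hasCompactSupport ?_
          have h6 : (fun z => u n z ^ 2) = u n * u n := by
            funext z
            simp [sq]
          have h7 : HasCompactSupport fun z => u n z ^ 2 := by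
            rw [h6]
            exact (hu2 n).mul_left
          exact h7.mul_right
        have h5 : ∫ z, (A.indicator J z - 2 * (|u n z - A.indicator (fun _ => (1 : ℝ)) z| * J z))
            ≤ ∫ z, u n z ^ 2 * J z := by
          refine integral_mono (i1.sub ((hi n).const_mul 2)) i2 fun z => ?_
          have h6 := hu3 n z
          have h7 := (hJ0 z).le
          by_cases hz : z ∈ A
          · simp only [indicator_of_mem hz]
            rw [abs_of_nonpos (by linarith [h6.2])]
            nlinarith [sq_nonneg (1 - u n z)]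
          · simp only [indicator_of_notMem hz, sub_zero, zero_sub]
            rw [abs_of_nonneg h6.1]
            nlinarith [sq_nonneg (u n z), mul_nonneg h6.1 h7]
        rw [integral_sub i1 ((hi n).const_mul 2), integral_indicator hAo.measurableSet, hvol',
          integral_const_mul] at h5
        have h8 := he n
        linarith
      have h9 : 4 * Real.pi * (Real.pi * r ^ 2 - 2 * (1 / 2) ^ n) ≤
          4 * Real.pi * ∫ z, u n z ^ 2 * dn M p z :=
        mul_le_mul_of_nonneg_left h4 (by positivity)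
      simp only [hD]
      linarith
    have hgeo : Tendsto (fun n : ℕ => ((1 : ℝ) / 2) ^ n) atTop (𝓝 0) :=
      tendsto_pow_atTop_nhds_zero_of_lt_one (by norm_num) (by norm_num)
    have hlim : Tendsto (fun n : ℕ => (2 * Real.pi * r + (1 / 2) ^ n) ^ 2 -
        4 * Real.pi * (Real.pi * r ^ 2 - 2 * (1 / 2) ^ n)) atTop (𝓝 0) := by
      have h1 := ((tendsto_const_nhds (x := 2 * Real.pi * r)).add hgeo).pow 2
      have h2 := ((tendsto_const_nhds (x := Real.pi * r ^ 2)).sub
        (hgeo.const_mul 2)).const_mul (4 * Real.pi)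
      have h3 := h1.sub h2
      have h4 : (2 * Real.pi * r + 0) ^ 2 - 4 * Real.pi * (Real.pi * r ^ 2 - 2 * 0) = 0 := by
        ring
      rw [h4] at h3
      exact h3
    have hDt : Tendsto D atTop (𝓝 0) := squeeze_zero hD0 hDle hlim
    have h5 := ENNReal.tendsto_ofReal hDt
    rw [ENNReal.ofReal_zero] at h5
    refine h5.congr fun n => ?_
    simp only [hD]
    rw [ofReal_integral_eq_lintegral_ofReal (hsob n).1 (hnn n)]

end model

end Crest.Agent.R241.Surf373
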